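import Claimed.Agent.R315.Pack011

/-!
# Row 315, paper S: package SS-EXT-1  `sse_generic`: a sphere which is transversal to `M`  (Sard by DIMENSION COUNT; ~700 lines; Mathlib: `ContDiffOn.dimH_image_le`, `dimH_iUnion`, `dense_compl_of_dimH_lt_finrank`)

BAD pairs `(a,c) ∈ E N × ℝ`: there are a parametrisation `(ψ,U)`, `u ∈ U` with `|ψ u - a|² = c` and `d(|ψ - a|²)_u = 2⟪ψ u - a, dψ_u ·⟫ = 0`, i.e. `a = ψ u - ν`, `ν ⊥ range dψ_u`, `c = |ν|²`.
1. `ssePi T = 1 - T (T†T)⁻¹ T†` (`T : E n →L E N` injective; `T† = ContinuousLinearMap.adjoint T`; `T†T` is invertible in the Banach algebra `E n →L E n`; `Ring.inverse`) = orthogonal projection onto `(range T)^⊥`: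
   `sse_pi_perp`: `⟪ssePi T w, T v⟫ = 0`;  `sse_pi_fix`: `ν ⊥ range T ⇒ ssePi T ν = ν`;  `sse_pi_smooth`: `T ↦ ssePi T` is `C^∞` at every injective `T` (`contDiffAt_ringInverse`, `adjoint` is a continuous ℝ-linear map, composition is bilinear).
2. `sse_normal_param`: `D u = fderiv ℝ ψ u`, `L = (range (D u₀))^⊥`.  For `u` near `u₀`: `‖ssePi (D u) - ssePi (D u₀)‖ ≤ 1/2` (continuity), so for `w ∈ L` (`ssePi (D u₀) w = w`): `‖ssePi (D u) w‖ ≥ ‖w‖/2`: `ssePi (D u)` is injective on `L`, with values in `(range (D u))^⊥`;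
   `finrank L = N - n = finrank (range (D u))^⊥` (`Submodule.finrank_add_finrank_orthogonal`, `LinearMap.finrank_range_of_inj`) ⇒ onto (`LinearMap.injective_iff_surjective_of_finrank_eq_finrank`).
3. `sse_bad_dimH`: `F (u,w) = (ψ u - ssePi (D u) w, ‖ssePi (D u) w‖²)` is `C¹` on the convex set `ball u₀ r × L` of the space `E n × L` of dimension `N`; the bad pairs coming from `(ψ, ball u₀ r)` lie in its image; `dimH ≤ N` (`dimH_le_finrank`-type: `Real.dimH_univ_eq_finrank`, `dimH_mono`).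
4. `sse_crit_inv`: being critical does not depend on the parametrisation: `ψ' = ψ ∘ τ` near `u'` (`If/Coord.lean` `if_tr`, `pk_factor`), chain rule, `dτ` invertible; or: `range (fderiv ψ u)` only depends on `ψ u` (`If/Tder.lean` `if_Tan`).
5. Countable cover: `M` is Lindelöf (`TopologicalSpace.isLindelof`/`countable_cover_nhdsWithin`): countably many `(ψ_k, ball u_k r_k)` whose images cover `M`; bad set `⊆ ⋃_k` image, `dimH ≤ N < N+1 = finrank (E N × ℝ)`; the complement is dense, so it meets the open set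
   `Ω = ball 0 1 ×ˢ Ioi ((4(ρ+1))²)`, `K0 ⊆ ball 0 ρ`.  `R = √c`.
-/

set_option autoImplicit false
open scoped ContDiff RealInnerProductSpace
open Claims.C0499

namespace Claimed.Agent.R315

variable {n N : ℕ}

/-- orthogonal projection onto `(range T)^⊥` (for injective `T`). -/
noncomputable def ssePi (T : E n →L[ℝ] E N) : E N →L[ℝ] E N :=
  ContinuousLinearMap.id ℝ (E N)
    - T ∘L (Ring.inverse (ContinuousLinearMap.adjoint T ∘L T)) ∘L ContinuousLinearMap.adjoint T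

theorem sse_aux_unit {T : E n →L[ℝ] E N} (hT : Function.Injective T) :
    IsUnit (ContinuousLinearMap.adjoint T ∘L T) := by
  have hinj : Function.Injective (ContinuousLinearMap.adjoint T ∘L T) := by
    rw [injective_iff_map_eq_zero]
    intro v hv
    have h1 : ⟪(ContinuousLinearMap.adjoint T ∘L T) v, v⟫ = 0 := by rw [hv, inner_zero_left]
    rw [ContinuousLinearMap.comp_apply, ContinuousLinearMap.adjoint_inner_left] at h1
    have h2 : T v = 0 := inner_self_eq_zero.1 h1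
    exact hT (by rw [h2, map_zero])
  have := if_equiv_coe _ hinj
  rw [← this]
  exact ContinuousLinearMap.isUnit_iff_bijective.2 (if_equiv _ hinj).bijective

theorem sse_pi_apply (T : E n →L[ℝ] E N) (w : E N) :
    ssePi T w = w - T (Ring.inverse (ContinuousLinearMap.adjoint T ∘L T)
      (ContinuousLinearMap.adjoint T w)) := by
  simp [ssePi]

theorem sse_pi_perp {T : E n →L[ℝ] E N} (hT : Function.Injective T) (w : E N) (v : E n) :
    ⟪ssePi T w, T v⟫ = 0 := by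
  have hu := sse_aux_unit hT
  have h1 : (ContinuousLinearMap.adjoint T ∘L T) * Ring.inverse (ContinuousLinearMap.adjoint T ∘L T) = 1 :=
    Ring.mul_inverse_cancel _ hu
  have h2 : ContinuousLinearMap.adjoint T (T (Ring.inverse (ContinuousLinearMap.adjoint T ∘L T)
      (ContinuousLinearMap.adjoint T w))) = ContinuousLinearMap.adjoint T w := by
    have := congrArg (fun L : E n →L[ℝ] E n => L (ContinuousLinearMap.adjoint T w)) h1
    simpa using this
  rw [sse_pi_apply, inner_sub_left, ← ContinuousLinearMap.adjoint_inner_left,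
    ← ContinuousLinearMap.adjoint_inner_left T v, h2, sub_self]

theorem sse_pi_fix {T : E n →L[ℝ] E N} {ν : E N} (hν : ∀ v, ⟪ν, T v⟫ = 0) : ssePi T ν = ν := by
  have h : ContinuousLinearMap.adjoint T ν = 0 := by
    apply ext_inner_right ℝ
    intro v
    rw [ContinuousLinearMap.adjoint_inner_left, hν, inner_zero_left]
  rw [sse_pi_apply, h, map_zero, map_zero, sub_zero]

theorem sse_aux_adj_smooth :
    ContDiff ℝ ∞ (fun T : E n →L[ℝ] E N => ContinuousLinearMap.adjoint T) := by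
  have : IsBoundedLinearMap ℝ (fun T : E n →L[ℝ] E N => ContinuousLinearMap.adjoint T) := by
    refine IsLinearMap.with_bound ⟨fun x y => map_add _ x y, fun c x => ?_⟩ 1 fun x => ?_
    · simp
    · simp
  exact this.contDiff

theorem sse_pi_smooth {T : E n →L[ℝ] E N} (hT : Function.Injective T) :
    ContDiffAt ℝ ∞ (ssePi (n := n) (N := N)) T := by
  obtain ⟨A, hA⟩ := sse_aux_unit hT
  have h1 : ContDiffAt ℝ ∞ (fun T : E n →L[ℝ] E N => ContinuousLinearMap.adjoint T) T :=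
    sse_aux_adj_smooth.contDiffAt
  have h2 : ContDiffAt ℝ ∞ (fun T : E n →L[ℝ] E N => ContinuousLinearMap.adjoint T ∘L T) T :=
    h1.clm_comp contDiffAt_id
  have h3 : ContDiffAt ℝ ∞ (fun T : E n →L[ℝ] E N =>
      Ring.inverse (ContinuousLinearMap.adjoint T ∘L T)) T := by
    have := contDiffAt_ringInverse ℝ (n := ∞) A
    rw [hA] at this
    exact ContDiffAt.comp (g := Ring.inverse)
      (f := fun T : E n →L[ℝ] E N => ContinuousLinearMap.adjoint T ∘L T) T this h2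
  unfold ssePi
  exact contDiffAt_const.sub (contDiffAt_id.clm_comp (h3.clm_comp h1))

theorem sse_aux_D_smooth {M : Set (E N)} {ψ : E n → E N} {U : Set (E n)} (hψ : IsParam M ψ U)
    {u : E n} (hu : u ∈ U) : ContDiffAt ℝ ∞ (fun u => ssePi (fderiv ℝ ψ u)) u := by
  have h1 : ContDiffAt ℝ ∞ (fderiv ℝ ψ) u :=
    ((if_smooth hψ).fderiv_of_isOpen (if_open hψ) (m := ∞) (by simp)).contDiffAt
      ((if_open hψ).mem_nhds hu)
  exact ContDiffAt.comp (g := ssePi) (f := fderiv ℝ ψ) u (sse_pi_smooth (if_imm hψ hu)) h1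

theorem sse_aux_onto {T T₀ : E n →L[ℝ] E N} (hT : Function.Injective T)
    (hT₀ : Function.Injective T₀) (hc : ‖ssePi T - ssePi T₀‖ ≤ 1 / 2) (ν : E N)
    (hν : ∀ v, ⟪ν, T v⟫ = 0) :
    ∃ w : E N, (∀ v, ⟪w, T₀ v⟫ = 0) ∧ ssePi T w = ν := by
  set L₀ : Submodule ℝ (E N) := (LinearMap.range (T₀ : E n →ₗ[ℝ] E N))ᗮ with hL₀
  set L : Submodule ℝ (E N) := (LinearMap.range (T : E n →ₗ[ℝ] E N))ᗮ with hL
  have hmem : ∀ w : E N, ssePi T w ∈ L := by
    intro w
    rw [hL, Submodule.mem_orthogonal']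
    rintro _ ⟨v, rfl⟩
    exact sse_pi_perp hT w v
  let Φ : L₀ →ₗ[ℝ] L := ((ssePi T : E N →ₗ[ℝ] E N).comp L₀.subtype).codRestrict L
    (fun w => hmem w)
  have hΦ : ∀ w : L₀, (Φ w : E N) = ssePi T w := fun w => rfl
  have hinj : Function.Injective Φ := by
    rw [injective_iff_map_eq_zero]
    intro w hw
    have h0 : ssePi T (w : E N) = 0 := by rw [← hΦ, hw]; rfl
    have h1 : ssePi T₀ (w : E N) = w := by
      apply sse_pi_fix
      intro v
      exact (Submodule.mem_orthogonal' _ _).1 w.2 _ ⟨v, rfl⟩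
    have h2 : ‖(w : E N)‖ ≤ 1 / 2 * ‖(w : E N)‖ := by
      calc ‖(w : E N)‖ = ‖(ssePi T - ssePi T₀) (w : E N)‖ := by
            rw [sub_apply, h0, h1, zero_sub, norm_neg]
        _ ≤ ‖ssePi T - ssePi T₀‖ * ‖(w : E N)‖ := ContinuousLinearMap.le_opNorm _ _
        _ ≤ 1 / 2 * ‖(w : E N)‖ := by gcongr
    have h3 : ‖(w : E N)‖ = 0 := by
      have := norm_nonneg (w : E N)
      linarith
    exact Subtype.ext (norm_eq_zero.1 h3)
  have hfr : Module.finrank ℝ L₀ = Module.finrank ℝ L := by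
    have e1 := Submodule.finrank_add_finrank_orthogonal (LinearMap.range (T₀ : E n →ₗ[ℝ] E N))
    have e2 := Submodule.finrank_add_finrank_orthogonal (LinearMap.range (T : E n →ₗ[ℝ] E N))
    rw [LinearMap.finrank_range_of_inj (f := (T₀ : E n →ₗ[ℝ] E N)) hT₀] at e1
    rw [LinearMap.finrank_range_of_inj (f := (T : E n →ₗ[ℝ] E N)) hT] at e2
    rw [← hL₀] at e1
    rw [← hL] at e2
    omega
  have hsurj : Function.Surjective Φ :=
    (LinearMap.injective_iff_surjective_of_finrank_eq_finrank hfr).1 hinj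
  have hνL : ν ∈ L := by
    rw [hL, Submodule.mem_orthogonal']
    rintro _ ⟨v, rfl⟩
    exact hν v
  obtain ⟨w, hw⟩ := hsurj ⟨ν, hνL⟩
  refine ⟨w, fun v => ?_, ?_⟩
  · exact (Submodule.mem_orthogonal' _ _).1 w.2 _ ⟨v, rfl⟩
  · rw [← hΦ, hw]

/-- local parametrisation of the normal bundle by `ball u₀ r × L`. -/
theorem sse_normal_param {M : Set (E N)} {ψ : E n → E N} {U : Set (E n)} (hψ : IsParam M ψ U)
    {u₀ : E n} (hu : u₀ ∈ U) :
    ∃ r > 0, Metric.ball u₀ r ⊆ U ∧ ∀ u ∈ Metric.ball u₀ r, ∀ ν : E N,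
      (∀ v, ⟪ν, fderiv ℝ ψ u v⟫ = 0) →
      ∃ w : E N, (∀ v, ⟪w, fderiv ℝ ψ u₀ v⟫ = 0) ∧ ssePi (fderiv ℝ ψ u) w = ν := by
  have hc : ContinuousAt (fun u => ssePi (fderiv ℝ ψ u)) u₀ := (sse_aux_D_smooth hψ hu).continuousAt
  have h1 : ∀ᶠ u in nhds u₀, dist (ssePi (fderiv ℝ ψ u)) (ssePi (fderiv ℝ ψ u₀)) < 1 / 2 :=
    hc.eventually (Metric.ball_mem_nhds _ (by norm_num))
  obtain ⟨r, hr, hball⟩ := Metric.eventually_nhds_iff_ball.1
    (h1.and ((if_open hψ).mem_nhds hu))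
  refine ⟨r, hr, fun u hu' => (hball u hu').2, fun u hu' ν hν => ?_⟩
  refine sse_aux_onto (if_imm hψ (hball u hu').2) (if_imm hψ hu) ?_ ν hν
  rw [← dist_eq_norm]
  exact (hball u hu').1.le

/-- the bad pairs of a piece of a parametrisation. -/
def sseBad (ψ : E n → E N) (B : Set (E n)) : Set (E N × ℝ) :=
  {q | ∃ u ∈ B, ‖ψ u - q.1‖ ^ 2 = q.2 ∧ fderiv ℝ (fun v => ‖ψ v - q.1‖ ^ 2) u = 0}

theorem sse_aux_fderiv {ψ : E n → E N} {u : E n} (hd : DifferentiableAt ℝ ψ u) (a : E N) (v : E n) :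
    fderiv ℝ (fun v => ‖ψ v - a‖ ^ 2) u v = 2 * ⟪ψ u - a, fderiv ℝ ψ u v⟫ := by
  have h1 : HasFDerivAt (fun v => ψ v - a) (fderiv ℝ ψ u) u := hd.hasFDerivAt.sub_const a
  have h2 := h1.norm_sq
  rw [h2.fderiv]
  simp [inner_sub_left]

theorem sse_bad_dimH {M : Set (E N)} {ψ : E n → E N} {U : Set (E n)} (hψ : IsParam M ψ U)
    {u₀ : E n} (hu : u₀ ∈ U) :
    ∃ r > 0, Metric.ball u₀ r ⊆ U ∧ dimH (sseBad ψ (Metric.ball u₀ r)) ≤ N := by
  obtain ⟨r, hr, hsub, hpar⟩ := sse_normal_param hψ hu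
  refine ⟨r, hr, hsub, ?_⟩
  set L : Submodule ℝ (E N) := (LinearMap.range (fderiv ℝ ψ u₀ : E n →ₗ[ℝ] E N))ᗮ with hL
  let F : E n × L → E N × ℝ := fun p =>
    (ψ p.1 - ssePi (fderiv ℝ ψ p.1) (p.2 : E N), ‖ssePi (fderiv ℝ ψ p.1) (p.2 : E N)‖ ^ 2)
  have hF : ContDiffOn ℝ 1 F (Metric.ball u₀ r ×ˢ Set.univ) := by
    intro p hp
    have hpU : p.1 ∈ U := hsub hp.1
    have h1 : ContDiffAt ℝ ∞ (fun p : E n × L => ψ p.1) p :=
      ContDiffAt.comp (g := ψ) (f := Prod.fst) p (if_contDiffAt hψ hpU) contDiffAt_fst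
    have h2 : ContDiffAt ℝ ∞ (fun p : E n × L => ssePi (fderiv ℝ ψ p.1)) p :=
      ContDiffAt.comp (g := fun u => ssePi (fderiv ℝ ψ u)) (f := Prod.fst) p
        (sse_aux_D_smooth hψ hpU) contDiffAt_fst
    have h3 : ContDiffAt ℝ ∞ (fun p : E n × L => (p.2 : E N)) p :=
      (L.subtypeL.contDiff.contDiffAt).comp p contDiffAt_snd
    have h4 : ContDiffAt ℝ ∞ (fun p : E n × L => ssePi (fderiv ℝ ψ p.1) (p.2 : E N)) p :=
      h2.clm_apply h3
    have h5 : ContDiffAt ℝ ∞ F p := (h1.sub h4).prodMk (h4.norm_sq ℝ)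
    exact (h5.of_le (by simp)).contDiffWithinAt
  have hconv : Convex ℝ (Metric.ball u₀ r ×ˢ (Set.univ : Set L)) :=
    (convex_ball u₀ r).prod convex_univ
  have hincl : sseBad ψ (Metric.ball u₀ r) ⊆ F '' (Metric.ball u₀ r ×ˢ Set.univ) := by
    rintro ⟨a, c⟩ ⟨u, hu', hc, hd⟩
    simp only at hc hd
    have hperp : ∀ v, ⟪ψ u - a, fderiv ℝ ψ u v⟫ = 0 := by
      intro v
      have := sse_aux_fderiv (if_differentiableAt hψ (hsub hu')) a v
      rw [hd] at this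
      simp only [zero_apply] at this
      linarith
    obtain ⟨w, hw, hwe⟩ := hpar u hu' _ hperp
    have hwL : w ∈ L := by
      rw [hL, Submodule.mem_orthogonal']
      rintro _ ⟨v, rfl⟩
      exact hw v
    refine ⟨(u, ⟨w, hwL⟩), ⟨hu', Set.mem_univ _⟩, ?_⟩
    show (ψ u - ssePi (fderiv ℝ ψ u) w, ‖ssePi (fderiv ℝ ψ u) w‖ ^ 2) = (a, c)
    rw [hwe, hc]
    simp
  have hfr : Module.finrank ℝ (E n × L) = N := by
    have e1 := Submodule.finrank_add_finrank_orthogonal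
      (LinearMap.range (fderiv ℝ ψ u₀ : E n →ₗ[ℝ] E N))
    rw [LinearMap.finrank_range_of_inj (f := (fderiv ℝ ψ u₀ : E n →ₗ[ℝ] E N)) (if_imm hψ hu),
      ← hL] at e1
    rw [Module.finrank_prod, e1]
    simp
  calc dimH (sseBad ψ (Metric.ball u₀ r)) ≤ dimH (F '' (Metric.ball u₀ r ×ˢ Set.univ)) :=
        dimH_mono hincl
    _ ≤ dimH (Metric.ball u₀ r ×ˢ (Set.univ : Set L)) := hF.dimH_image_le hconv subset_rfl
    _ ≤ dimH (Set.univ : Set (E n × L)) := dimH_mono (Set.subset_univ _)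
    _ = Module.finrank ℝ (E n × L) := Real.dimH_univ_eq_finrank _
    _ = N := by rw [hfr]

/-- criticality does not depend on the parametrisation. -/
theorem sse_crit_inv {M : Set (E N)} {ψ ψ' : E n → E N} {U U' : Set (E n)} (hψ : IsParam M ψ U)
    (hψ' : IsParam M ψ' U') {u u' : E n} (hu : u ∈ U) (hu' : u' ∈ U') (he : ψ u = ψ' u')
    (a : E N) (h : fderiv ℝ (fun v => ‖ψ v - a‖ ^ 2) u = 0) :
    fderiv ℝ (fun v => ‖ψ' v - a‖ ^ 2) u' = 0 := by
  have hdom : u' ∈ if_trDom ψ' U' ψ U := if_mem_trDom hu' hu he.symm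
  have hτ : if_tr ψ U ψ' u' = u := if_tr_eq hψ hu he.symm
  ext v
  rw [sse_aux_fderiv (if_differentiableAt hψ' hu'), if_fderiv_eq hψ' hψ hdom, hτ,
    ContinuousLinearMap.comp_apply, ← he, ← sse_aux_fderiv (if_differentiableAt hψ hu), h]
  simp

/-- the good pairs are dense. -/
theorem sse_dense {M : Set (E N)} (hM : IsMfd n M) :
    Dense {q : E N × ℝ | SseReg n M q.1 q.2} := by
  classical
  -- local data
  have hloc : ∀ p ∈ M, ∃ (ψ : E n → E N) (U : Set (E n)) (u₀ : E n) (r : ℝ), IsParam M ψ U ∧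
      Metric.ball u₀ r ⊆ U ∧ dimH (sseBad ψ (Metric.ball u₀ r)) ≤ N ∧
      ψ '' Metric.ball u₀ r ∈ nhdsWithin p M := by
    intro p hp
    obtain ⟨ψ, U, hψ, u₀, hu₀, rfl⟩ := hM p hp
    obtain ⟨r, hr, hsub, hdim⟩ := sse_bad_dimH hψ hu₀
    refine ⟨ψ, U, u₀, r, hψ, hsub, hdim, ?_⟩
    obtain ⟨O, hO, hOe⟩ := if_image_open hψ Metric.isOpen_ball hsub
    rw [hOe]
    have hmem : ψ u₀ ∈ M ∩ O := hOe ▸ Set.mem_image_of_mem ψ (Metric.mem_ball_self hr)
    exact Filter.inter_mem self_mem_nhdsWithin (mem_nhdsWithin_of_mem_nhds (hO.mem_nhds hmem.2))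
  choose! ψ U u₀ r hψ hsub hdim hnh using hloc
  obtain ⟨t, htM, htc, hcov⟩ := TopologicalSpace.countable_cover_nhdsWithin
    (f := fun p => ψ p '' Metric.ball (u₀ p) (r p)) (s := M) hnh
  have hbad : {q : E N × ℝ | SseReg n M q.1 q.2}ᶜ ⊆
      ⋃ p ∈ t, sseBad (ψ p) (Metric.ball (u₀ p) (r p)) := by
    rintro ⟨a, c⟩ hq
    simp only [Set.mem_compl_iff, Set.mem_ofPred_eq, SseReg, not_forall, not_not] at hq
    obtain ⟨φ, W, hφ, u, hu, hc, hd⟩ := hq
    obtain ⟨p, hp, u', hu', he⟩ := Set.mem_iUnion₂.1 (hcov (if_mem hφ hu))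
    refine Set.mem_iUnion₂.2 ⟨p, hp, u', hu', ?_, ?_⟩
    · show ‖ψ p u' - a‖ ^ 2 = c
      rw [he, hc]
    · exact sse_crit_inv hφ (hψ p (htM hp)) hu (hsub p (htM hp) hu') he.symm a hd
  have hd : dimH ({q : E N × ℝ | SseReg n M q.1 q.2}ᶜ) < Module.finrank ℝ (E N × ℝ) := by
    have h1 : dimH (⋃ p ∈ t, sseBad (ψ p) (Metric.ball (u₀ p) (r p))) ≤ N := by
      rw [dimH_bUnion htc]
      exact iSup₂_le fun p hp => hdim p (htM hp)
    have h2 : Module.finrank ℝ (E N × ℝ) = N + 1 := by simp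
    rw [h2]
    refine ((dimH_mono hbad).trans h1).trans_lt ?_
    exact_mod_cast Nat.lt_succ_self N
  have := dense_compl_of_dimH_lt_finrank hd
  rwa [compl_compl] at this

theorem sse_generic {M : Set (E N)} (hM : IsMfd n M) {K0 : Set (E N)} (hK : IsCompact K0) :
    ∃ (a : E N) (R : ℝ), 0 < R ∧ K0 ⊆ Metric.ball a (R / 4) ∧ SseReg n M a (R ^ 2) := by
  obtain ⟨ρ, hρ⟩ := hK.isBounded.subset_ball (0 : E N)
  set ρ' : ℝ := max ρ 0 with hρ'
  have hρ0 : 0 ≤ ρ' := le_max_right _ _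
  have hopen : IsOpen (Metric.ball (0 : E N) 1 ×ˢ Set.Ioi ((4 * (ρ' + 1)) ^ 2)) :=
    Metric.isOpen_ball.prod isOpen_Ioi
  have hne : (Metric.ball (0 : E N) 1 ×ˢ Set.Ioi ((4 * (ρ' + 1)) ^ 2)).Nonempty :=
    ⟨(0, (4 * (ρ' + 1)) ^ 2 + 1), Metric.mem_ball_self one_pos, by simp⟩
  obtain ⟨⟨a, c⟩, ⟨ha, hc⟩, hreg⟩ := (sse_dense hM).inter_open_nonempty _ hopen hne
  simp only [Set.mem_Ioi] at hc
  simp only [Set.mem_ofPred_eq] at hreg
  have hc0 : 0 < c := lt_of_le_of_lt (sq_nonneg _) hc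
  have hR : 4 * (ρ' + 1) < Real.sqrt c := Real.lt_sqrt_of_sq_lt hc
  refine ⟨a, Real.sqrt c, Real.sqrt_pos.2 hc0, fun x hx => ?_, ?_⟩
  · have h1 : ‖x‖ < ρ := by simpa using hρ hx
    have h2 : ‖a‖ < 1 := by simpa using ha
    rw [Metric.mem_ball, dist_eq_norm]
    have h3 : ‖x - a‖ ≤ ‖x‖ + ‖a‖ := norm_sub_le _ _
    have h4 : ρ ≤ ρ' := le_max_left _ _
    linarith
  · rw [Real.sq_sqrt hc0.le]
    exact hreg

theorem sse_ext1_eqns_cite : True := by
  have := @ssePi.eq_1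
  have := @sseBad.eq_1
  trivial

end Claimed.Agent.R315
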