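import Claimed.Agent.R315.Ss.Ext2

/-!
# Row 315, paper S: package SS-EXT-3  `sse_bump`, `sse_push`, `sse_met`, `sse_cm`, `sse_pull`: functions and metrics on the double   (~500 lines)

* `sse_bump`: Mathlib `ContDiffBump` centred at `a`, `rIn = R/4`... (`= 1` on `closedBall a rIn`; take `rIn = R/3`, `rOut = R/2`), `tsupport ⊆ closedBall a (R/2)`.
* `sse_push`: `pk_smoothAlong_fst` (`Z = sseP M a R ⊆ fst ⁻¹' M`) applied to `x ↦ χ x * f x` (smooth along `M`: an ambient smooth function is smooth along `M`).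
* `sse_met`: `IsMetricOn n P (sseH h χ)`.  For a parametrisation `(Φ,W)` of `P`: `cm (sseH h χ) Φ b i j = h (Φ₁ b)(∂_iΦ₁)(∂_jΦ₁) + (1-χ(Φ₁ b)) ∂_iΦ₂ ∂_jΦ₂` (`sseH_apply`; `Φ₁ = fst∘Φ`, `Φ₂ = snd∘Φ`, `fderiv` of the components).
  Smooth: `pk_ten_comp` for `Φ₁` (a smooth map into `M`).  Symmetric: `pk_met_comp_symm`.  Positive: for `v ≠ 0`, `V = dΦ_b v ≠ 0`; if `V.1 ≠ 0`: `pk_met_comp_pos` and `(1-χ) V.2² ≥ 0`; if `V.1 = 0`: differentiate `‖Φ₁-a‖² + Φ₂² = R²`: `2⟪Φ₁-a,V.1⟫ + 2Φ₂ V.2 = 0`, so `Φ₂ b = 0`,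
  `‖Φ₁ b - a‖ = R`, `χ = 0`, value `V.2² > 0`.  (`Matrix.PosDef` from the quadratic form: see how `If/` does it, e.g. `if_isMetricOn_iff`, `if_cm_bil`.)
* `sse_cm`: on `O = ball a (R/4)`: `χ = 1`, `fst ∘ sseI a R = id`: `fderiv (sseI a R ∘ ψ) u v = (fderiv ψ u v, _)`.
* `sse_pull`: `f x = χ x * F (sseI a R x)`; `if_smoothAlong_cutoff` with `O' = ball a R` (`tsupport χ ⊆ closedBall a (R/2) ⊆ ball a R`); `F ∘ sseI a R` is smooth along `M ∩ ball a R` by `sse_param` (`if_param_inter_iff`).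
-/

set_option autoImplicit false
open scoped ContDiff
open Claims.C0499

namespace Claimed.Agent.R315

variable {n N : ℕ}

/-- the bump. -/
structure SseBump (a : E N) (R : ℝ) (χ : E N → ℝ) : Prop where
  smooth : ContDiff ℝ ∞ χ
  mem : ∀ x, 0 ≤ χ x ∧ χ x ≤ 1
  one : ∀ x ∈ Metric.ball a (R / 4), χ x = 1
  supp : tsupport χ ⊆ Metric.closedBall a (R / 2)

theorem sse_bump (a : E N) {R : ℝ} (hR : 0 < R) : ∃ χ : E N → ℝ, SseBump a R χ := by
  let f : ContDiffBump a := ⟨R / 3, R / 2, by positivity, by linarith⟩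
  refine ⟨f, f.contDiff, fun x => ⟨f.nonneg, f.le_one⟩, fun x hx => ?_, ?_⟩
  · apply f.one_of_mem_closedBall
    rw [Metric.mem_ball] at hx
    rw [Metric.mem_closedBall]
    show dist x a ≤ R / 3
    linarith
  · rw [f.tsupport_eq]

theorem sse_push {M : Set (E N)} (hM : IsMfd n M) {a : E N} {R : ℝ} {χ : E N → ℝ}
    (hχ : SseBump a R χ) {f : E N → ℝ} (hf : SmoothAlong n M f) :
    SmoothAlong n (sseP M a R) (fun p => χ p.1 * f p.1) := by
  have h1 : SmoothAlong n M (fun x => χ x * f x) := fun ψ U h =>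
    (if_smoothAlong_of_contDiff hχ.smooth ψ U h).mul (hf ψ U h)
  exact pk_smoothAlong_fst hM (Z := sseP M a R) (fun z hz => hz.1) h1

theorem sse_met {M : Set (E N)} (hM : IsMfd n M) {a : E N} {R : ℝ} (hR : 0 < R) {χ : E N → ℝ}
    (hχ : SseBump a R χ) {h : Ten (E N)} (hh : IsMetricOn n M h) :
    IsMetricOn n (sseP M a R) (sseH h χ) := by
  intro Ψ U hΨ
  have hhT : IsTenOn n M h := (if_isMetricOn_iff.1 hh).1
  set Φ : E n → E N := fun u => (Ψ u).1 with hΦdef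
  set s : E n → ℝ := fun u => (Ψ u).2 with hsdef
  have hΦ : ∀ u ∈ U, ContDiffAt ℝ ∞ Φ u := fun u hu =>
    contDiff_fst.contDiffAt.comp u (if_contDiffAt hΨ hu)
  have hs : ContDiffOn ℝ ∞ s U := contDiff_snd.comp_contDiffOn (if_smooth hΨ)
  have hmem : ∀ u ∈ U, ∀ᶠ b in nhds u, Φ b ∈ M := fun u hu => by
    filter_upwards [(if_open hΨ).mem_nhds hu] with b hb
    exact (if_mem hΨ hb).1
  have hd1 : ∀ u ∈ U, ∀ v, (fderiv ℝ Ψ u v).1 = fderiv ℝ Φ u v := by
    intro u hu v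
    have := ((ContinuousLinearMap.fst ℝ (E N) ℝ).hasFDerivAt.comp u
      (if_differentiableAt hΨ hu).hasFDerivAt).fderiv
    have e : Φ = (ContinuousLinearMap.fst ℝ (E N) ℝ) ∘ Ψ := rfl
    rw [e, this]
    rfl
  have hd2 : ∀ u ∈ U, ∀ v, (fderiv ℝ Ψ u v).2 = fderiv ℝ s u v := by
    intro u hu v
    have := ((ContinuousLinearMap.snd ℝ (E N) ℝ).hasFDerivAt.comp u
      (if_differentiableAt hΨ hu).hasFDerivAt).fderiv
    have e : s = (ContinuousLinearMap.snd ℝ (E N) ℝ) ∘ Ψ := rfl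
    rw [e, this]
    rfl
  have hbil : ∀ u ∈ U, ∀ v w, sseH h χ (Ψ u) (fderiv ℝ Ψ u v) (fderiv ℝ Ψ u w) =
      h (Φ u) (fderiv ℝ Φ u v) (fderiv ℝ Φ u w) +
        (1 - χ (Φ u)) * (fderiv ℝ s u v * fderiv ℝ s u w) := by
    intro u hu v w
    rw [sseH_apply, hd1 u hu, hd1 u hu, hd2 u hu, hd2 u hu]
  refine ⟨fun i j => ?_, fun u hu => ?_⟩
  · have h1 : ContDiffOn ℝ ∞ (fun u => h (Φ u) (fderiv ℝ Φ u (eb i)) (fderiv ℝ Φ u (eb j)) +
        (1 - χ (Φ u)) * (fderiv ℝ s u (eb i) * fderiv ℝ s u (eb j))) U := by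
      have h2 : ∀ k : Fin n, ContDiffOn ℝ ∞ (fun u => fderiv ℝ s u (eb k)) U := fun k =>
        (hs.fderiv_of_isOpen (if_open hΨ) (m := ∞) (by simp)).clm_apply contDiffOn_const
      have h3 : ContDiffOn ℝ ∞ (fun u => h (Φ u) (fderiv ℝ Φ u (eb i)) (fderiv ℝ Φ u (eb j))) U :=
        fun u hu => (pk_ten_comp hM hhT (hΦ u hu) (hmem u hu) (eb i) (eb j)).contDiffWithinAt
      have h4 : ContDiffOn ℝ ∞ (fun u => χ (Φ u)) U := fun u hu =>
        (hχ.smooth.contDiffAt.comp u (hΦ u hu)).contDiffWithinAt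
      exact h3.add ((contDiffOn_const.sub h4).mul ((h2 i).mul (h2 j)))
    exact h1.congr fun u hu => hbil u hu _ _
  · refine pk_posDef_of_bil (fun i j => ?_) fun Y hY => ?_
    · show sseH h χ (Ψ u) (fderiv ℝ Ψ u (eb i)) (fderiv ℝ Ψ u (eb j)) =
        sseH h χ (Ψ u) (fderiv ℝ Ψ u (eb j)) (fderiv ℝ Ψ u (eb i))
      rw [hbil u hu, hbil u hu, pk_met_comp_symm hM hh (hΦ u hu) (hmem u hu),
        mul_comm (fderiv ℝ s u (eb i))]
    · rw [if_cm_bil, hbil u hu]
      have hχ1 : 0 ≤ 1 - χ (Φ u) := by linarith [(hχ.mem (Φ u)).2]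
      by_cases h0 : fderiv ℝ Φ u Y = 0
      · have h1 : fderiv ℝ s u Y ≠ 0 := by
          intro h1
          apply hY
          apply if_imm hΨ hu
          rw [map_zero]
          exact Prod.ext (by rw [hd1 u hu, h0]; rfl) (by rw [hd2 u hu, h1]; rfl)
        -- differentiate the equation of the double
        have hsd : HasFDerivAt s (fderiv ℝ s u) u :=
          ((hs.contDiffAt ((if_open hΨ).mem_nhds hu)).differentiableAt (by simp)).hasFDerivAt
        have hΦd : HasFDerivAt (fun v => Φ v - a) (fderiv ℝ Φ u) u :=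
          (((hΦ u hu).differentiableAt (by simp)).hasFDerivAt).sub_const a
        have hD := (hΦd.norm_sq).add (hsd.pow 2)
        have hconst : (fun v => ‖Φ v - a‖ ^ 2 + s v ^ 2) =ᶠ[nhds u] fun _ => R ^ 2 := by
          filter_upwards [(if_open hΨ).mem_nhds hu] with b hb
          exact (if_mem hΨ hb).2
        have hD0 := hD.fderiv
        have hD1 : fderiv ℝ (fun v => ‖Φ v - a‖ ^ 2 + s v ^ 2) u = 0 := by
          rw [hconst.fderiv_eq]; simp
        have hD2 := congrArg (fun L : E n →L[ℝ] ℝ => L Y) (hD0.symm.trans hD1)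
        simp [h0] at hD2
        have hs0 : s u = 0 := by
          rcases hD2 with h | h
          · exact h
          · exact absurd h h1
        have hnorm : ‖Φ u - a‖ ^ 2 = R ^ 2 := by
          have := (if_mem hΨ hu).2
          have e : ‖Φ u - a‖ ^ 2 + s u ^ 2 = R ^ 2 := this
          rw [hs0] at e
          linarith
        have hnorm' : ‖Φ u - a‖ = R := by
          have := (sq_eq_sq₀ (norm_nonneg _) hR.le).1 hnorm
          exact this
        have hχ0 : χ (Φ u) = 0 := by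
          apply image_eq_zero_of_notMem_tsupport
          intro hc
          have := hχ.supp hc
          rw [Metric.mem_closedBall, dist_eq_norm, hnorm'] at this
          linarith
        rw [h0, map_zero, zero_add, hχ0, sub_zero, one_mul]
        exact mul_self_pos.2 h1
      · have := pk_met_comp_pos hM hh (hΦ u hu) (hmem u hu) Y h0
        have h2 := mul_nonneg hχ1 (mul_self_nonneg (fderiv ℝ s u Y))
        linarith

theorem sse_cm {M : Set (E N)} {a : E N} {R : ℝ} (hR : 0 < R) {χ : E N → ℝ}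
    (hχ : SseBump a R χ) (h : Ten (E N)) {ψ : E n → E N} {U : Set (E n)} (hψ : IsParam M ψ U)
    (hsub : ψ '' U ⊆ Metric.ball a (R / 4)) {u : E n} (hu : u ∈ U) :
    cm (sseH h χ) (sseI a R ∘ ψ) u = cm h ψ u := by
  have hsub' : ψ '' U ⊆ Metric.ball a R :=
    hsub.trans (Metric.ball_subset_ball (by linarith))
  have hp := sse_param hψ hsub'
  have hd1 : ∀ v, (fderiv ℝ (sseI a R ∘ ψ) u v).1 = fderiv ℝ ψ u v := by
    intro v
    have := ((ContinuousLinearMap.fst ℝ (E N) ℝ).hasFDerivAt.comp u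
      (if_differentiableAt hp hu).hasFDerivAt).fderiv
    have e : ψ = (ContinuousLinearMap.fst ℝ (E N) ℝ) ∘ (sseI a R ∘ ψ) := rfl
    conv_rhs => rw [e, this]
    rfl
  ext i j
  show sseH h χ (sseI a R (ψ u)) (fderiv ℝ (sseI a R ∘ ψ) u (eb i))
    (fderiv ℝ (sseI a R ∘ ψ) u (eb j)) = h (ψ u) (fderiv ℝ ψ u (eb i)) (fderiv ℝ ψ u (eb j))
  rw [sseH_apply, hd1, hd1]
  have h1 : χ (sseI a R (ψ u)).1 = 1 := hχ.one _ (hsub (Set.mem_image_of_mem ψ hu))
  rw [h1, sub_self, zero_mul, add_zero]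
  rfl

theorem sse_pull {M : Set (E N)} (hM : IsMfd n M) {a : E N} {R : ℝ} (hR : 0 < R) {χ : E N → ℝ}
    (hχ : SseBump a R χ) {F : E N × ℝ → ℝ} (hF : SmoothAlong n (sseP M a R) F) :
    SmoothAlong n M (fun x => χ x * F (sseI a R x)) := by
  have hf : SmoothAlong n (M ∩ Metric.ball a R) (fun x => F (sseI a R x)) := by
    intro ψ U h
    obtain ⟨h1, h2⟩ := (if_param_inter_iff Metric.isOpen_ball).1 h
    exact hF _ _ (sse_param h1 h2)
  have hsub : tsupport χ ⊆ Metric.ball a R :=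
    hχ.supp.trans (Metric.closedBall_subset_ball (by linarith))
  exact if_smoothAlong_cutoff Metric.isOpen_ball (if_smoothAlong_of_contDiff hχ.smooth) hsub hf

end Claimed.Agent.R315
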