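import Claimed.Agent.R315.Ss.BernA
import Claimed.Agent.R315.Pack011
import Claimed.Agent.R315.Pack008

/-!
# Row 315, paper S, package SS-BERN, part B: the Bernstein inequality on `M` (prefix `ssbn_`)
Owner: helper39.
-/

set_option autoImplicit false
set_option linter.unusedSectionVars false
open scoped ContDiff Topology
open Claims.C0499

namespace Claimed.Agent.R315

section chart

variable {d : ℕ} {G : rm_MF d} {U : Set (E d)} {t u u' : E d → ℝ} {fl : ℝ → ℝ} {w : E d}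

theorem ssbn_divC_smooth (hG : rm_Met G U) (ht : ContDiffOn ℝ ∞ t U) (hu : ContDiffOn ℝ ∞ u U)
    (hfl : IsFlux fl) : ContDiffOn ℝ ∞ (ssDivC G t fl u) U := by
  have hσs := sscm_sq_smooth hG hu
  have hσI : ∀ w ∈ U, gradSqC G u w ∈ Set.Ioi (-1 : ℝ) := fun w hw => by
    have := rm_sq_nonneg hG hw u
    show (-1 : ℝ) < _
    linarith
  have hfs : ContDiffOn ℝ ∞ (fun w => fl (gradSqC G u w)) U := hfl.smooth.comp hσs hσI
  have hf's : ContDiffOn ℝ ∞ (fun w => deriv fl (gradSqC G u w)) U :=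
    (hfl.smooth.deriv_of_isOpen isOpen_Ioi (by simp)).comp hσs hσI
  exact ((hfs.mul (rm_lapC_smooth hG hu)).add (hf's.mul (rm_gradIpC_smooth hG hσs hu))).sub
    (hfs.mul (rm_gradIpC_smooth hG ht hu))

theorem ssbn_divC_congr (h : u =ᶠ[𝓝 w] u') : ssDivC G t fl u w = ssDivC G t fl u' w := by
  have h1 : gradSqC G u =ᶠ[𝓝 w] gradSqC G u' :=
    h.eventuallyEq_nhds.mono fun z hz => rm_ip_congr hz hz
  unfold ssDivC
  rw [h1.self_of_nhds, rm_lap_congr h, rm_ip_congr h1 h,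
    rm_ip_congr (Filter.EventuallyEq.refl _ t) h]

end chart

variable {V : Type} [NormedAddCommGroup V] [NormedSpace ℝ V] [FiniteDimensional ℝ V]

theorem ssbn_div_smooth {d : ℕ} {M : Set V} {h : Ten V} {t u : V → ℝ} {fl : ℝ → ℝ}
    (hh : IsMetricOn d M h) (ht : SmoothAlong d M t) (hu : SmoothAlong d M u) (hfl : IsFlux fl) :
    SmoothAlong d M (ssDiv d M h t fl u) := fun ψ U hp =>
  (ssbn_divC_smooth (ssb_met hh hp) (ht ψ U hp) (hu ψ U hp) hfl).congr
    fun _ hw => ssb_div hh ht hu fl hp hw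

/-- = `ss_bern`. -/
theorem ssbn_bern {d : ℕ} (M : Set V) (h : Ten V) (t : V → ℝ)
    (hM : IsMfd d M) (hh : IsMetricOn d M h) (ht : SmoothAlong d M t) (K : Set V)
    (hK : IsCompact K) (hKM : K ⊆ M) :
    ∃ C : ℝ, 0 ≤ C ∧ ∀ (fl : ℝ → ℝ) (u : V → ℝ), IsFlux fl → SmoothAlong d M u → ∀ x ∈ K,
      (∃ O ∈ nhds x, ∀ y ∈ M ∩ O, gradSq d M h u y ≤ gradSq d M h u x) →
      gradIp d M h (ssDiv d M h t fl u) u x
        ≤ C * fl (gradSq d M h u x) * gradSq d M h u x := by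
  obtain ⟨C, hC, H⟩ := rm_bd_ric_hess hM hh ht hK hKM
  refine ⟨C, hC, fun fl u hfl hu x hx hmax => ?_⟩
  obtain ⟨O, hO, hmax⟩ := hmax
  have hxM := hKM hx
  have hFs := ssbn_div_smooth hh ht hu hfl
  have hσ0 : 0 ≤ gradSq d M h u x := by
    obtain ⟨ψ, U, hp, w, hw, rfl⟩ := hM x hxM
    rw [if_gradSq_eq hh hu hp hw]
    exact rm_sq_nonneg (ssb_met hh hp) hw _
  rcases hσ0.eq_or_lt with h0 | hpos
  · rw [← h0, mul_zero]
    obtain ⟨ψ, U, hp, w, hw, rfl⟩ := hM x hxM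
    rw [if_gradSq_eq hh hu hp hw] at h0
    have h1 := (rm_sq_eq_zero (ssb_met hh hp) hw _).1 h0.symm
    rw [if_gradIp_eq hh hFs hu hp hw]
    unfold gradIpC
    exact (Finset.sum_eq_zero fun i _ => Finset.sum_eq_zero fun j _ => by rw [h1 j, mul_zero]).le
  · cases d with
    | zero =>
      exfalso
      obtain ⟨ψ, U, hp, w, hw, rfl⟩ := hM x hxM
      rw [if_gradSq_eq hh hu hp hw] at hpos
      simp [gradSqC] at hpos
    | succ n =>
      obtain ⟨ψ, r, hL⟩ := rm_orth_param hM hh hu hxM hpos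
      have hp := hL.par
      have hG := hL.met hh
      have hTo : IsOpen (rm_box n (u x) r) := rm_box_open _ _
      have hw0 : rm_J (u x) (0 : E n) ∈ rm_box n (u x) r := by
        refine ⟨?_, ?_⟩
        · rw [rm_J_zero, sub_self, abs_zero]; exact hL.pos
        · rw [rm_tl_J, norm_zero]; exact hL.pos
      have hq : ∀ w ∈ rm_box n (u x) r, u ∘ ψ =ᶠ[𝓝 w] rm_q0 n := fun w hw =>
        Filter.eventuallyEq_of_mem (hTo.mem_nhds hw) fun z hz => hL.lvl z hz
      have hσ : ∀ w ∈ rm_box n (u x) r,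
          gradSq (n + 1) M h u (ψ w) = gradSqC (cm h ψ) (rm_q0 n) w := fun w hw => by
        rw [if_gradSq_eq hh hu hp hw]
        exact rm_ip_congr (hq w hw) (hq w hw)
      have hloc : IsLocalMax (gradSqC (cm h ψ) (rm_q0 n)) (rm_J (u x) 0) := by
        have hc : ContinuousAt ψ (rm_J (u x) 0) :=
          (if_continuousOn hp).continuousAt (hTo.mem_nhds hw0)
        have hO' : O ∈ 𝓝 (ψ (rm_J (u x) 0)) := by rw [hL.base]; exact hO
        filter_upwards [hc.eventually hO', hTo.mem_nhds hw0] with w hwO hwT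
        rw [← hσ w hwT, ← hσ _ hw0, hL.base]
        exact hmax _ ⟨if_mem hp hwT, hwO⟩
      have main := ssbn_lapse hG hL.orth (ht ψ _ hp) hfl hw0 hloc
      have hbd := H ψ _ hp _ hw0 (by rw [hL.base]; exact hx) 0
      have hF : ssDiv (n + 1) M h t fl u ∘ ψ =ᶠ[𝓝 (rm_J (u x) 0)]
          ssDivC (cm h ψ) (t ∘ ψ) fl (rm_q0 n) := by
        filter_upwards [hTo.mem_nhds hw0] with w hw
        show ssDiv (n + 1) M h t fl u (ψ w) = _
        rw [ssb_div hh ht hu fl hp hw]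
        exact ssbn_divC_congr (hq w hw)
      have e1 : gradIp (n + 1) M h (ssDiv (n + 1) M h t fl u) u x =
          gradIpC (cm h ψ) (ssDivC (cm h ψ) (t ∘ ψ) fl (rm_q0 n)) (rm_q0 n) (rm_J (u x) 0) := by
        conv_lhs => rw [← hL.base]
        rw [if_gradIp_eq hh hFs hu hp hw0]
        exact rm_ip_congr hF (hq _ hw0)
      have e2 : gradSq (n + 1) M h u x = gradSqC (cm h ψ) (rm_q0 n) (rm_J (u x) 0) := by
        conv_lhs => rw [← hL.base]
        exact hσ _ hw0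
      rw [e1, e2]
      rw [e2] at hpos
      have hf0 := hfl.pos _ hpos.le
      have hG0 := rm_G00_pos hG hw0
      refine main.trans ?_
      generalize ricciCoord (cm h ψ) (rm_J (u x) 0) 0 0 +
        hessC (cm h ψ) (t ∘ ψ) (rm_J (u x) 0) 0 0 = R at hbd ⊢
      generalize cm h ψ (rm_J (u x) 0) 0 0 = g at hbd hG0 ⊢
      generalize fl (gradSqC (cm h ψ) (rm_q0 n) (rm_J (u x) 0)) = f0 at hf0 ⊢
      generalize gradSqC (cm h ψ) (rm_q0 n) (rm_J (u x) 0) = σ at hpos ⊢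
      have h3 : - (R / g) ≤ C := by
        rw [← neg_div, div_le_iff₀ hG0]; exact hbd
      have h4 : f0 * σ * (- (R / g)) ≤ f0 * σ * C :=
        mul_le_mul_of_nonneg_left h3 (by positivity)
      linarith

end Claimed.Agent.R315
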