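import Claimed.Agent.R315.Ss.CmpC

/-!
# Row 315, paper S, package SS-CMP, part D: invariance under changes of coordinates, `ss_cmp`
(prefix `sscm_`).  Owner: helper39.
-/

set_option autoImplicit false
open scoped ContDiff Topology
open Claims.C0499

namespace Claimed.Agent.R315

section smooth

variable {d : ℕ} {G : rm_MF d} {U : Set (E d)} {t u f : E d → ℝ} {th : ℝ → ℝ}

theorem sscm_sl_smooth (hG : rm_Met G U) (hu : ContDiffOn ℝ ∞ u U)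
    (hσ : ∀ z ∈ U, 0 < gradSqC G u z) : ContDiffOn ℝ ∞ (ssSl G u) U :=
  (sscm_sq_smooth hG hu).sqrt fun z hz => (hσ z hz).ne'

theorem sscm_sl_pos (hσ : ∀ z ∈ U, 0 < gradSqC G u z) : ∀ z ∈ U, 0 < ssSl G u z :=
  fun z hz => Real.sqrt_pos.2 (hσ z hz)

theorem sscm_E_smooth (hG : rm_Met G U) (hu : ContDiffOn ℝ ∞ u U)
    (hσ : ∀ z ∈ U, 0 < gradSqC G u z) (hf : ContDiffOn ℝ ∞ f U) :
    ContDiffOn ℝ ∞ (ssE G u f) U :=
  (rm_gradIpC_smooth hG hu hf).div (sscm_sl_smooth hG hu hσ) fun z hz => (sscm_sl_pos hσ z hz).ne'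

theorem sscm_H_smooth (hG : rm_Met G U) (hu : ContDiffOn ℝ ∞ u U)
    (hσ : ∀ z ∈ U, 0 < gradSqC G u z) : ContDiffOn ℝ ∞ (ssH G u) U :=
  ((rm_lapC_smooth hG hu).sub (sscm_E_smooth hG hu hσ (sscm_sl_smooth hG hu hσ))).div
    (sscm_sl_smooth hG hu hσ) fun z hz => (sscm_sl_pos hσ z hz).ne'

theorem sscm_logth_smooth (hG : rm_Met G U) (hu : ContDiffOn ℝ ∞ u U)
    (hσ : ∀ z ∈ U, 0 < gradSqC G u z) (hsm : ContDiffOn ℝ ∞ th (Set.Ioi 0))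
    (hpos : ∀ σ, 0 < σ → 0 < th σ) :
    ContDiffOn ℝ ∞ (fun w => Real.log (th (gradSqC G u w)) / 2) U :=
  ((hsm.comp (sscm_sq_smooth hG hu) hσ).log fun z hz => (hpos _ (hσ z hz)).ne').div_const 2

theorem sscm_K_smooth (hG : rm_Met G U) (hu : ContDiffOn ℝ ∞ u U)
    (hσ : ∀ z ∈ U, 0 < gradSqC G u z) (hsm : ContDiffOn ℝ ∞ th (Set.Ioi 0))
    (hpos : ∀ σ, 0 < σ → 0 < th σ) : ContDiffOn ℝ ∞ (ssK G u th) U :=
  (sscm_E_smooth hG hu hσ (sscm_logth_smooth hG hu hσ hsm hpos)).neg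

theorem sscm_M1_smooth (hG : rm_Met G U) (hu : ContDiffOn ℝ ∞ u U) (ht : ContDiffOn ℝ ∞ t U)
    (hσ : ∀ z ∈ U, 0 < gradSqC G u z) (hsm : ContDiffOn ℝ ∞ th (Set.Ioi 0))
    (hpos : ∀ σ, 0 < σ → 0 < th σ) : ContDiffOn ℝ ∞ (ssM1 G t u th) U :=
  ((sscm_H_smooth hG hu hσ).sub (sscm_E_smooth hG hu hσ ht)).sub (sscm_K_smooth hG hu hσ hsm hpos)

end smooth

section inv

variable {d : ℕ} {G G' : rm_MF d} {T U : Set (E d)} {τ : E d → E d} {t u f k t' u' f' k' : E d → ℝ}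
  {th kap bet : ℝ → ℝ}

/-- `f'` is the pull-back of `f` on `T`. -/
def sscm_Rel (T : Set (E d)) (τ : E d → E d) (f' f : E d → ℝ) : Prop := ∀ w ∈ T, f' w = f (τ w)

theorem sscm_Rel.germ (h : sscm_Rel T τ f' f) (hT : IsOpen T) {w : E d} (hw : w ∈ T) :
    f' =ᶠ[𝓝 w] f ∘ τ :=
  Filter.eventuallyEq_of_mem (hT.mem_nhds hw) h

theorem sscm_rel_ip (P : if_PullC T U τ G' G) (hf : sscm_Rel T τ f' f) (hk : sscm_Rel T τ k' k)
    (df : ContDiffOn ℝ ∞ f U) (dk : ContDiffOn ℝ ∞ k U) :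
    sscm_Rel T τ (gradIpC G' f' k') (gradIpC G f k) := by
  intro w hw
  rw [rm_ip_congr (hf.germ P.metT.isOpen hw) (hk.germ P.metT.isOpen hw),
    P.gradIp hw (rm_da P.metU.isOpen df (P.mapsTo hw)) (rm_da P.metU.isOpen dk (P.mapsTo hw))]

theorem sscm_rel_sq (P : if_PullC T U τ G' G) (hf : sscm_Rel T τ f' f)
    (df : ContDiffOn ℝ ∞ f U) : sscm_Rel T τ (gradSqC G' f') (gradSqC G f) :=
  sscm_rel_ip P hf hf df df

theorem sscm_rel_lap (P : if_PullC T U τ G' G) (hf : sscm_Rel T τ f' f)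
    (df : ContDiffOn ℝ ∞ f U) : sscm_Rel T τ (lapC G' f') (lapC G f) := by
  intro w hw
  rw [rm_lap_congr (hf.germ P.metT.isOpen hw), rm_pull_lap P hw df]

theorem sscm_rel_sl (P : if_PullC T U τ G' G) (hu : sscm_Rel T τ u' u)
    (du : ContDiffOn ℝ ∞ u U) : sscm_Rel T τ (ssSl G' u') (ssSl G u) := by
  intro w hw
  unfold ssSl
  rw [sscm_rel_sq P hu du w hw]

theorem sscm_rel_E (P : if_PullC T U τ G' G) (hu : sscm_Rel T τ u' u)
    (du : ContDiffOn ℝ ∞ u U) (hf : sscm_Rel T τ f' f) (df : ContDiffOn ℝ ∞ f U) :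
    sscm_Rel T τ (ssE G' u' f') (ssE G u f) := by
  intro w hw
  unfold ssE
  rw [sscm_rel_ip P hu hf du df w hw, sscm_rel_sl P hu du w hw]

theorem sscm_rel_H (P : if_PullC T U τ G' G) (hu : sscm_Rel T τ u' u)
    (du : ContDiffOn ℝ ∞ u U) (hσ : ∀ z ∈ U, 0 < gradSqC G u z) :
    sscm_Rel T τ (ssH G' u') (ssH G u) := by
  intro w hw
  unfold ssH
  rw [sscm_rel_lap P hu du w hw, sscm_rel_sl P hu du w hw,
    sscm_rel_E P hu du (sscm_rel_sl P hu du) (sscm_sl_smooth P.metU.toRm du hσ) w hw]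

theorem sscm_rel_K (P : if_PullC T U τ G' G) (hu : sscm_Rel T τ u' u)
    (du : ContDiffOn ℝ ∞ u U) (hσ : ∀ z ∈ U, 0 < gradSqC G u z)
    (hsm : ContDiffOn ℝ ∞ th (Set.Ioi 0)) (hpos : ∀ σ, 0 < σ → 0 < th σ) :
    sscm_Rel T τ (ssK G' u' th) (ssK G u th) := by
  intro w hw
  unfold ssK
  rw [sscm_rel_E P hu du (f' := fun w => Real.log (th (gradSqC G' u' w)) / 2)
    (f := fun w => Real.log (th (gradSqC G u w)) / 2)
    (fun z hz => by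
      show Real.log (th (gradSqC G' u' z)) / 2 = Real.log (th (gradSqC G u (τ z))) / 2
      rw [sscm_rel_sq P hu du z hz])
    (sscm_logth_smooth P.metU.toRm du hσ hsm hpos) w hw]

theorem sscm_rel_M1 (P : if_PullC T U τ G' G) (hu : sscm_Rel T τ u' u)
    (du : ContDiffOn ℝ ∞ u U) (ht : sscm_Rel T τ t' t) (dt : ContDiffOn ℝ ∞ t U)
    (hσ : ∀ z ∈ U, 0 < gradSqC G u z)
    (hsm : ContDiffOn ℝ ∞ th (Set.Ioi 0)) (hpos : ∀ σ, 0 < σ → 0 < th σ) :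
    sscm_Rel T τ (ssM1 G' t' u' th) (ssM1 G t u th) := by
  intro w hw
  unfold ssM1
  rw [sscm_rel_H P hu du hσ w hw, sscm_rel_E P hu du ht dt w hw,
    sscm_rel_K P hu du hσ hsm hpos w hw]

theorem sscm_rel_Tu (P : if_PullC T U τ G' G) (hu : sscm_Rel T τ u' u)
    (du : ContDiffOn ℝ ∞ u U) (ht : sscm_Rel T τ t' t) :
    sscm_Rel T τ (ssTuC G' t' bet u') (ssTuC G t bet u) := by
  intro w hw
  unfold ssTuC
  rw [ht w hw, sscm_rel_sq P hu du w hw]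

/-- the pull-back of `G_u`. -/
theorem sscm_pull_Hu (P : if_PullC T U τ (rm_pull τ G) G) (hu : sscm_Rel T τ u' u)
    (du : ContDiffOn ℝ ∞ u U) {w : E d} (hw : w ∈ T) :
    rm_pull τ (ssHuC G kap u) w = ssHuC (rm_pull τ G) kap u' w := by
  have hp : ∀ i, pdiff u' i w = ∑ a, fderiv ℝ τ w (eb i) a * pdiff u a (τ w) := by
    intro i
    rw [rm_pdiff_congr (hu.germ P.metT.isOpen hw),
      P.pdiff_comp hw (rm_da P.metU.isOpen du (P.mapsTo hw)), if_clm_expand]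
    rfl
  ext i j
  simp only [rm_pull, ssHuC, ssDuDu, Matrix.of_apply, Matrix.add_apply, Matrix.smul_apply,
    smul_eq_mul, if_bil_apply]
  rw [sscm_rel_sq P hu du w hw, hp, hp, Finset.sum_mul_sum, Finset.mul_sum,
    ← Finset.sum_add_distrib]
  refine Finset.sum_congr rfl fun a _ => ?_
  rw [Finset.mul_sum, ← Finset.sum_add_distrib]
  exact Finset.sum_congr rfl fun b _ => by ring

end inv

section final

variable {th kap bet : ℝ → ℝ}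

theorem sscm_kap_smooth (hsm : ContDiffOn ℝ ∞ th (Set.Ioi 0)) (hlt : ∀ σ, 0 < σ → th σ < 1)
    (hkap : ∀ σ, 0 < σ → kap σ = th σ / ((1 - th σ) * σ)) : ContDiffOn ℝ ∞ kap (Set.Ioi 0) := by
  have : ContDiffOn ℝ ∞ (fun σ => th σ / ((1 - th σ) * σ)) (Set.Ioi 0) :=
    hsm.div ((contDiffOn_const.sub hsm).mul contDiffOn_id) fun σ (hσ : 0 < σ) =>
      (mul_pos (by linarith [hlt σ hσ]) hσ).ne'
  exact this.congr hkap

theorem sscm_kap_nonneg (hpos : ∀ σ, 0 < σ → 0 < th σ) (hlt : ∀ σ, 0 < σ → th σ < 1)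
    (hkap : ∀ σ, 0 < σ → kap σ = th σ / ((1 - th σ) * σ)) : ∀ σ ∈ Set.Ioi (0 : ℝ), 0 ≤ kap σ := by
  intro σ (hσ : 0 < σ)
  rw [hkap σ hσ]
  exact (div_pos (hpos σ hσ) (mul_pos (by linarith [hlt σ hσ]) hσ)).le

theorem sscm_bet_smooth (hsm : ContDiffOn ℝ ∞ th (Set.Ioi 0)) (hlt : ∀ σ, 0 < σ → th σ < 1)
    (hbet : ∀ σ, 0 < σ → bet σ = Real.log (1 - th σ) / 2) : ContDiffOn ℝ ∞ bet (Set.Ioi 0) := by
  have : ContDiffOn ℝ ∞ (fun σ => Real.log (1 - th σ) / 2) (Set.Ioi 0) :=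
    ((contDiffOn_const.sub hsm).log fun σ (hσ : 0 < σ) => by
      have := hlt σ hσ
      exact (by linarith : (0 : ℝ) < 1 - th σ).ne').div_const 2
  exact this.congr hbet

/-- S Lemma 3.5 when `du ≠ 0` on the whole of `U`. -/
theorem sscm_cmp_pos {d : ℕ} {G : rm_MF (d + 1)} {U : Set (E (d + 1))} (hd : 1 ≤ d)
    (hG : rm_Met G U) {t u : E (d + 1) → ℝ} (ht : ContDiffOn ℝ ∞ t U) (hu : ContDiffOn ℝ ∞ u U)
    (hσ : ∀ z ∈ U, 0 < gradSqC G u z) (hsm : ContDiffOn ℝ ∞ th (Set.Ioi 0))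
    (hpos : ∀ σ, 0 < σ → 0 < th σ) (hlt : ∀ σ, 0 < σ → th σ < 1)
    (hf0 : ∀ σ, 0 < σ → 0 ≤ σ * deriv th σ) (hf2 : ∀ σ, 0 < σ → σ * deriv th σ ≤ 2 * (1 - th σ))
    (hkap : ∀ σ, 0 < σ → kap σ = th σ / ((1 - th σ) * σ))
    (hbet : ∀ σ, 0 < σ → bet σ = Real.log (1 - th σ) / 2) {y : E (d + 1)} (hy : y ∈ U) :
    th (gradSqC G u y) * (ssH G u y ^ 2 / (d : ℝ) + ssM1 G t u th y ^ 2
        + ssK G u th y ^ 2 / (1 - th (gradSqC G u y)) - 2 * ssM1 G t u th y * ssK G u th y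
        + 2 * ssE G u (ssM1 G t u th) y)
      ≤ rm_DscC (ssHuC G kap u) (ssTuC G t bet u) y - rm_DscC G t y := by
  obtain ⟨τ, r, hL⟩ := rm_orth_chart hG hu hy (hσ y hy)
  have P := hL.pull
  have hTo : IsOpen (rm_box d (u y) r) := rm_box_open _ _
  have hw0 : rm_J (u y) (0 : E d) ∈ rm_box d (u y) r := by
    refine ⟨?_, ?_⟩
    · rw [rm_J_zero, sub_self, abs_zero]; exact hL.pos
    · rw [rm_tl_J, norm_zero]; exact hL.pos
  have hq : sscm_Rel (rm_box d (u y) r) τ (rm_q0 d) u := fun w hw => (hL.lvl w hw).symm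
  have htt : sscm_Rel (rm_box d (u y) r) τ (t ∘ τ) t := fun _ _ => rfl
  have main := sscm_cmp_lapse (kap := kap) (bet := bet) hd P.metT.toRm hL.orth
    (ht.comp P.smooth P.mapsTo) hsm hpos hlt hf0 hf2 hkap hbet hw0
  have hGu : rm_Met (ssHuC G kap u) U :=
    sscm_hu_met hG hu hG.opn subset_rfl (sscm_kap_smooth hsm hlt hkap) hσ
      (sscm_kap_nonneg hpos hlt hkap)
  have hTu : ContDiffOn ℝ ∞ (ssTuC G t bet u) U :=
    ht.sub ((sscm_bet_smooth hsm hlt hbet).comp (sscm_sq_smooth hG hu) hσ)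
  have P' := rm_pullC hGu hTo P.smooth P.mapsTo P.inj
  have e1 : rm_DscC (ssHuC (rm_pull τ G) kap (rm_q0 d)) (ssTuC (rm_pull τ G) (t ∘ τ) bet (rm_q0 d))
      (rm_J (u y) 0) = rm_DscC (ssHuC G kap u) (ssTuC G t bet u) (τ (rm_J (u y) 0)) := by
    rw [← rm_pull_Dsc P' hw0 hTu]
    rw [rm_Dsc_congr ((sscm_rel_Tu (bet := bet) P hq hu htt).germ hTo hw0)]
    exact rm_Dsc_congr_met (Filter.eventuallyEq_of_mem (hTo.mem_nhds hw0)
      fun w hw => (sscm_pull_Hu P hq hu hw).symm) _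
  rw [e1, rm_pull_Dsc P hw0 ht, sscm_rel_sq P hq hu _ hw0, sscm_rel_H P hq hu hσ _ hw0,
    sscm_rel_M1 P hq hu htt ht hσ hsm hpos _ hw0, sscm_rel_K P hq hu hσ hsm hpos _ hw0,
    sscm_rel_E P hq hu (sscm_rel_M1 P hq hu htt ht hσ hsm hpos)
      (sscm_M1_smooth hG hu ht hσ hsm hpos) _ hw0, hL.base] at main
  exact main

/-- **S Lemma 3.5** (= `ss_cmp`). -/
theorem sscm_cmp {d : ℕ} {G : rm_MF d} {U : Set (E d)} (hd : 2 ≤ d) (hG : rm_Met G U)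
    {t u : E d → ℝ} (ht : ContDiffOn ℝ ∞ t U) (hu : ContDiffOn ℝ ∞ u U)
    (hsm : ContDiffOn ℝ ∞ th (Set.Ioi 0))
    (hpos : ∀ σ, 0 < σ → 0 < th σ) (hlt : ∀ σ, 0 < σ → th σ < 1)
    (hf0 : ∀ σ, 0 < σ → 0 ≤ σ * deriv th σ) (hf2 : ∀ σ, 0 < σ → σ * deriv th σ ≤ 2 * (1 - th σ))
    (hkap : ∀ σ, 0 < σ → kap σ = th σ / ((1 - th σ) * σ))
    (hbet : ∀ σ, 0 < σ → bet σ = Real.log (1 - th σ) / 2)
    {y : E d} (hy : y ∈ U) (hs : 0 < gradSqC G u y) :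
    th (gradSqC G u y) * (ssH G u y ^ 2 / ((d : ℝ) - 1) + ssM1 G t u th y ^ 2
        + ssK G u th y ^ 2 / (1 - th (gradSqC G u y)) - 2 * ssM1 G t u th y * ssK G u th y
        + 2 * ssE G u (ssM1 G t u th) y)
      ≤ rm_DscC (ssHuC G kap u) (ssTuC G t bet u) y - rm_DscC G t y := by
  obtain ⟨n, rfl⟩ : ∃ n, d = n + 1 := ⟨d - 1, by omega⟩
  have hsub : rm_reg G u U ⊆ U := fun z hz => hz.1
  have hG' : rm_Met G (rm_reg G u U) :=
    ⟨rm_reg_open hG hu, fun i j => (hG.smooth i j).mono hsub, fun z hz => hG.pos z hz.1⟩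
  have := sscm_cmp_pos (kap := kap) (bet := bet) (by omega) hG' (ht.mono hsub) (hu.mono hsub)
    (fun z hz => hz.2) hsm hpos hlt hf0 hf2 hkap hbet (y := y) ⟨hy, hs⟩
  have e : (((n + 1 : ℕ) : ℝ) - 1) = (n : ℝ) := by push_cast; ring
  rw [e]
  exact this

end final

end Claimed.Agent.R315
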