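import Claimed.Agent.R315.Ss.AngleB
import Claimed.Agent.R315.Ss.CmpD
import Claimed.Agent.R315.Ss.BernB

/-!
# Row 315, paper S, package SS-ANGLE, part C: invariance under changes of coordinates, `ss_angle`
(prefix `ssan_`).  Owner: helper39.
-/

set_option autoImplicit false
open scoped ContDiff Topology
open Claims.C0499

namespace Claimed.Agent.R315

/-- the mean curvature flux is a flux. -/
theorem ssan_G0_flux : IsFlux ssG0 := by
  refine ⟨ssan_G0_smooth, fun σ hσ => ssan_G0_pos (by positivity), fun σ hσ => ?_⟩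
  have h0 : 0 < 1 + σ := by positivity
  rw [(ssan_G0_deriv' h0).deriv]
  have hl := ssan_G0_pos h0
  have h2 := ssan_G0_sq h0
  have h3 : ssG0 σ ^ 3 = ssG0 σ * (1 / (1 + σ)) := by rw [← h2]; ring
  rw [h3]
  have : ssG0 σ + 2 * σ * -(ssG0 σ * (1 / (1 + σ)) / 2) = ssG0 σ / (1 + σ) := by
    field_simp; ring
  rw [this]; positivity

section inv

variable {d : ℕ} {G G' : rm_MF d} {T U : Set (E d)} {τ : E d → E d} {t u f t' u' f' : E d → ℝ}
  {fl : ℝ → ℝ} {y : E d}

/-- the gradient vector. -/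
noncomputable def ssanGr (G : rm_MF d) (u : E d → ℝ) (y : E d) : E d :=
  ∑ i, ssUp G u y i • (eb i : E d)

theorem ssan_gr_apply (G : rm_MF d) (u : E d → ℝ) (y : E d) (i : Fin d) :
    ssanGr G u y i = ssUp G u y i := by
  unfold ssanGr
  simp [Finset.sum_apply, Pi.single_apply, Finset.sum_ite_eq]

/-- `G(∇u, X) = du(X)`. -/
theorem ssan_gr_bil (h : rm_Met G U) (hy : y ∈ U) (u : E d → ℝ) (X : E d) :
    if_bil (G y) (ssanGr G u y) X = fderiv ℝ u y X := by
  rw [if_bil_apply, if_clm_expand (fderiv ℝ u y) X]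
  simp only [ssan_gr_apply]
  rw [Finset.sum_comm]
  refine Finset.sum_congr rfl fun l _ => ?_
  have key : ∑ k : Fin d, G y k l * ssUp G u y k = pdiff u l y := by
    unfold ssUp
    simp only [Finset.mul_sum]
    rw [Finset.sum_comm]
    have : ∀ j, ∑ k : Fin d, G y k l * ((G y)⁻¹ k j * pdiff u j y) =
        (if l = j then 1 else 0) * pdiff u j y := by
      intro j
      rw [← rm_mul_inv h hy l j, Finset.sum_mul]
      exact Finset.sum_congr rfl fun k _ => by rw [rm_symm h hy k l]; ring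
    simp only [this]; simp
  calc ∑ k : Fin d, G y k l * (ssUp G u y k * X l)
      = (∑ k : Fin d, G y k l * ssUp G u y k) * X l := by
        rw [Finset.sum_mul]
        exact Finset.sum_congr rfl fun k _ => by ring
    _ = X l * fderiv ℝ u y (eb l) := by
        rw [key]; unfold pdiff; ring

/-- the gradient is natural. -/
theorem ssan_gr_push (P : if_PullC T U τ G' G) (hu : sscm_Rel T τ u' u)
    (du : ContDiffOn ℝ ∞ u U) {w : E d} (hw : w ∈ T) :
    fderiv ℝ τ w (ssanGr G' u' w) = ssanGr G u (τ w) := by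
  rw [← sub_eq_zero]
  refine if_bil_nondeg (P.metU.isUnit (P.mapsTo hw)) (P.metU.isSymm (P.mapsTo hw)) _ fun Z => ?_
  obtain ⟨Y, rfl⟩ := P.surj hw Z
  rw [map_sub, sub_apply, ← P.rel_bil hw, ssan_gr_bil P.metT.toRm hw,
    ssan_gr_bil P.metU.toRm (P.mapsTo hw), (hu.germ P.metT.isOpen hw).fderiv_eq,
    fderiv_comp w (rm_da P.metU.isOpen du (P.mapsTo hw))
      ((P.contDiffAt hw).differentiableAt (by simp))]
  simp

theorem ssan_UU_bil (B : Fin d → Fin d → ℝ) (G : rm_MF d) (u : E d → ℝ) (y : E d) :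
    ∑ i, ∑ j, B i j * ssUp G u y i * ssUp G u y j =
      if_bil (Matrix.of B) (ssanGr G u y) (ssanGr G u y) := by
  rw [if_bil_apply]
  simp only [ssan_gr_apply, mul_assoc, Matrix.of_apply]

theorem ssan_rel_ricUU (P : if_PullC T U τ G' G) (hu : sscm_Rel T τ u' u)
    (du : ContDiffOn ℝ ∞ u U) : sscm_Rel T τ (ssRicUU G' u') (ssRicUU G u) := by
  intro w hw
  unfold ssRicUU
  rw [ssan_UU_bil, ssan_UU_bil, ← ssan_gr_push P hu du hw]
  exact if_bil_of_basis (fun i j => rm_pull_ric P hw i j) _ _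

theorem ssan_rel_hessUU (P : if_PullC T U τ G' G) (hu : sscm_Rel T τ u' u)
    (du : ContDiffOn ℝ ∞ u U) (hf : sscm_Rel T τ f' f) (df : ContDiffOn ℝ ∞ f U) :
    sscm_Rel T τ (ssHessUU G' f' u') (ssHessUU G f u) := by
  intro w hw
  unfold ssHessUU
  rw [ssan_UU_bil, ssan_UU_bil, ← ssan_gr_push P hu du hw]
  refine if_bil_of_basis (fun i j => ?_) _ _
  rw [Matrix.of_apply, if_hessC_congr _ (hf.germ P.metT.isOpen hw)]
  exact P.hess hw ((df.contDiffAt (P.metU.isOpen.mem_nhds (P.mapsTo hw))).of_le (by decide)) i j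

theorem ssan_rel_div (P : if_PullC T U τ G' G) (hu : sscm_Rel T τ u' u)
    (du : ContDiffOn ℝ ∞ u U) (ht : sscm_Rel T τ t' t) (dt : ContDiffOn ℝ ∞ t U) :
    sscm_Rel T τ (ssDivC G' t' fl u') (ssDivC G t fl u) := by
  intro w hw
  unfold ssDivC
  rw [sscm_rel_sq P hu du w hw, sscm_rel_lap P hu du w hw,
    sscm_rel_ip P (sscm_rel_sq P hu du) hu (sscm_sq_smooth P.metU.toRm du) du w hw,
    sscm_rel_ip P ht hu dt du w hw]

end inv

theorem ssan_om_smooth {d : ℕ} {G : rm_MF d} {U : Set (E d)} (hG : rm_Met G U) {u : E d → ℝ}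
    (hu : ContDiffOn ℝ ∞ u U) : ContDiffOn ℝ ∞ (fun z => ssG0 (gradSqC G u z)) U :=
  ssan_G0_smooth.comp (sscm_sq_smooth hG hu) fun w hw => by
    have := rm_sq_nonneg hG hw u
    show (-1 : ℝ) < _
    linarith

/-- the angle inequality, `G`-only form. -/
theorem ssan_angle_G {d : ℕ} {G : rm_MF (d + 1)} {U : Set (E (d + 1))} (hG : rm_Met G U)
    {t u : E (d + 1) → ℝ} (ht : ContDiffOn ℝ ∞ t U) (hu : ContDiffOn ℝ ∞ u U) {y : E (d + 1)}
    (hy : y ∈ U) (hs : 0 < gradSqC G u y) :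
    lapC G (fun z => ssG0 (gradSqC G u z)) y
        - gradIpC G t (fun z => ssG0 (gradSqC G u z)) y
        - ssHessUU G (fun z => ssG0 (gradSqC G u z)) u y / (1 + gradSqC G u y)
        - ssDivC G t ssG0 u y * gradIpC G u (fun z => ssG0 (gradSqC G u z)) y *
          ssG0 (gradSqC G u y)
      ≤ -(ssG0 (gradSqC G u y)) ^ 3 * (ssRicUU G u y + ssHessUU G t u y)
        - gradIpC G (ssDivC G t ssG0 u) u y / (1 + gradSqC G u y) := by
  obtain ⟨τ, r, hL⟩ := rm_orth_chart hG hu hy hs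
  have P := hL.pull
  have hw0 : rm_J (u y) (0 : E d) ∈ rm_box d (u y) r := by
    refine ⟨?_, ?_⟩
    · rw [rm_J_zero, sub_self, abs_zero]; exact hL.pos
    · rw [rm_tl_J, norm_zero]; exact hL.pos
  have hq : sscm_Rel (rm_box d (u y) r) τ (rm_q0 d) u := fun w hw => (hL.lvl w hw).symm
  have htt : sscm_Rel (rm_box d (u y) r) τ (t ∘ τ) t := fun _ _ => rfl
  have main := ssan_lapse P.metT.toRm hL.orth (ht.comp P.smooth P.mapsTo) hw0
  have hω : sscm_Rel (rm_box d (u y) r) τ (fun z => ssG0 (gradSqC (rm_pull τ G) (rm_q0 d) z))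
      (fun z => ssG0 (gradSqC G u z)) := fun w hw => by
    show ssG0 (gradSqC (rm_pull τ G) (rm_q0 d) w) = ssG0 (gradSqC G u (τ w))
    rw [sscm_rel_sq P hq hu w hw]
  have dω := ssan_om_smooth hG hu
  have hp := ssan_rel_div (fl := ssG0) P hq hu htt ht
  have dp := ssbn_divC_smooth hG ht hu ssan_G0_flux
  rw [sscm_rel_lap P hω dω _ hw0, sscm_rel_ip P htt hω ht dω _ hw0,
    ssan_rel_hessUU P hq hu hω dω _ hw0, sscm_rel_sq P hq hu _ hw0, hp _ hw0,
    sscm_rel_ip P hq hω hu dω _ hw0, ssan_rel_ricUU P hq hu _ hw0,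
    ssan_rel_hessUU P hq hu htt ht _ hw0, sscm_rel_ip P hp hq dp hu _ hw0, hL.base] at main
  exact main

/-- = `ss_angle`. -/
theorem ssan_angle {d : ℕ} {G : rm_MF d} {U : Set (E d)} (hG : rm_Met G U) {t u : E d → ℝ}
    (ht : ContDiffOn ℝ ∞ t U) (hu : ContDiffOn ℝ ∞ u U) {y : E d} (hy : y ∈ U)
    (hs : 0 < gradSqC G u y) :
    lapC (ssHuC G (fun _ => 1) u) (fun z => ssG0 (gradSqC G u z)) y
        - gradIpC (ssHuC G (fun _ => 1) u) t (fun z => ssG0 (gradSqC G u z)) y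
      ≤ -(ssG0 (gradSqC G u y)) ^ 3 * (ssRicUU G u y + ssHessUU G t u y)
        - gradIpC G (ssDivC G t ssG0 u) u y / (1 + gradSqC G u y) := by
  rw [ssan_graph_lap2 hG hu (ssan_om_smooth hG hu) hy]
  cases d with
  | zero =>
    exfalso
    simp [gradSqC] at hs
  | succ n => exact ssan_angle_G hG ht hu hy hs

end Claimed.Agent.R315
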