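import Claimed.Agent.R315.Pack006
import Claimed.Agent.R315.Ss.CmpD

/-!
# Row 315, paper S, Lemma 3.5 (scalar graph comparison) and its companions, chart level  (packages SS-CMP-*)

Consumers: `Ss/Bal.lean` (S 5.3), `Ss/ResPt.lean` (S 3.4).  Producer: RIEM (helper39) or any prover, on top of `Rm/*`.

## `ss_cmp` = S Lemma 3.5 with `|J|²` replaced by its lower bound `H²/(n-1)`.
PROOF (paper, `sections/preprocessing.tex`, Lemma `pre:graph-comparison`).  All quantities in the statement are invariant under changes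
of coordinates (`If/Pull.lean`), so pass to LAPSE COORDINATES adapted to `u` near `y` (`Rm/Orth.lean`): `u = q`, `G = v² dq² + γ_q`,
`v = 1/s`, `e = rm_e G`, `ssH = rm_H G`.  Then `G_u = (v/l)² dq² + γ_q`, `l² = 1-θ`, is again in lapse form with the same slices, with
`J' = l J`, `H' = l H`, `e' = l e`.  Apply `rm_adm_Dsc` to `(G,t)` and to `(G_u, t-β)`:
 * tangential terms `T(v,t) = D(γ,t) - 2Δ_γ v/v + 2⟨dv,dt⟩_γ/v`:  `T(v/l,t-β) - T(v,t) = 2⟨dlog v,dβ⟩_γ - |dβ|²_γ = f(2-f)|d_γ log s|² ≥ 0`,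
   `f = -s β_s = σ th'(σ)/(1-th σ) ∈ [0,2]`  (`β = bet(σ)`, `d_γ β = 2σ bet'(σ) d_γ log s`, `log v = - log s`);
 * normal terms: new `S' = l(S + e β) = l M₁ + K/l` (`K = (l²/θ) e β = - e log k₁`, `e l = θK/l`), and
   `-l²|J|² - (lM₁+K/l)² - 2 l e(lM₁+K/l) + |J|² + (M₁+K)² + 2 e(M₁+K) = θ(|J|² + M₁² + K²/l² - 2M₁K + 2 e M₁)`;
 * `|J|² ≥ H²/(n-1)` (`rm_H_sq_le`).
-/

set_option autoImplicit false
open scoped ContDiff
open Claims.C0499

namespace Claimed.Agent.R315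

variable {d : ℕ}

/-- admissible slope profile `θ = th(σ)` on `σ > 0`. -/
structure IsTheta (th : ℝ → ℝ) : Prop where
  smooth : ContDiffOn ℝ ∞ th (Set.Ioi 0)
  pos : ∀ σ, 0 < σ → 0 < th σ
  lt : ∀ σ, 0 < σ → th σ < 1
  f_nonneg : ∀ σ, 0 < σ → 0 ≤ σ * deriv th σ
  f_le : ∀ σ, 0 < σ → σ * deriv th σ ≤ 2 * (1 - th σ)

/-- S Lemma 3.5. -/
theorem ss_cmp {G : rm_MF d} {U : Set (E d)} (hd : 2 ≤ d) (hG : rm_Met G U) {t u : E d → ℝ}
    (ht : ContDiffOn ℝ ∞ t U) (hu : ContDiffOn ℝ ∞ u U) {th kap bet : ℝ → ℝ} (hth : IsTheta th)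
    (hkap : ∀ σ, 0 < σ → kap σ = th σ / ((1 - th σ) * σ))
    (hbet : ∀ σ, 0 < σ → bet σ = Real.log (1 - th σ) / 2)
    {y : E d} (hy : y ∈ U) (hs : 0 < gradSqC G u y) :
    th (gradSqC G u y) * (ssH G u y ^ 2 / ((d : ℝ) - 1) + ssM1 G t u th y ^ 2
        + ssK G u th y ^ 2 / (1 - th (gradSqC G u y)) - 2 * ssM1 G t u th y * ssK G u th y
        + 2 * ssE G u (ssM1 G t u th) y)
      ≤ rm_DscC (ssHuC G kap u) (ssTuC G t bet u) y - rm_DscC G t y :=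
  sscm_cmp hd hG ht hu hth.smooth hth.pos hth.lt hth.f_nonneg hth.f_le hkap hbet hy hs

/-- `G_u` is a metric if `κ ≥ 0` is smooth near the range of `σ`. -/
theorem ss_huC_met {G : rm_MF d} {U : Set (E d)} (hG : rm_Met G U) {u : E d → ℝ}
    (hu : ContDiffOn ℝ ∞ u U) {kap : ℝ → ℝ} (hk : ContDiffOn ℝ ∞ kap (Set.Ioi (-1)))
    (hk0 : ∀ σ, 0 ≤ σ → 0 ≤ kap σ) : rm_Met (ssHuC G kap u) U :=
  sscm_huC_met hG hu hk hk0

/-- S (3.10): `div_{G,t}(k₁ e) = k₁ M₁`; here `fl = k₁/s`. -/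
theorem ss_div_eq {G : rm_MF d} {U : Set (E d)} (hG : rm_Met G U) {t u : E d → ℝ}
    (ht : ContDiffOn ℝ ∞ t U) (hu : ContDiffOn ℝ ∞ u U) {th fl : ℝ → ℝ} (hth : IsTheta th)
    (hfl : ∀ σ, 0 < σ → fl σ = Real.sqrt (th σ) / Real.sqrt σ)
    {y : E d} (hy : y ∈ U) (hs : 0 < gradSqC G u y) :
    ssDivC G t fl u y = Real.sqrt (th (gradSqC G u y)) * ssM1 G t u th y :=
  sscm_div_eq hG hu hfl hy hs
    ((hth.smooth.contDiffAt (isOpen_Ioi.mem_nhds hs)).differentiableAt (by simp)) (hth.pos _ hs)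

/-- rank one update of the inverse: S (5.12) `tr_G G0 - tr_{G_u} G0 = θ G0(e,e)`. -/
theorem ss_trace {G G0 : rm_MF d} {U : Set (E d)} (hG : rm_Met G U) {u : E d → ℝ}
    {th kap : ℝ → ℝ} (hkap : ∀ σ, 0 < σ → kap σ = th σ / ((1 - th σ) * σ))
    (hlt : ∀ σ, 0 < σ → th σ < 1) (hsym : ∀ y ∈ U, (G0 y).IsSymm)
    {y : E d} (hy : y ∈ U) (hs : 0 < gradSqC G u y) :
    trC G G0 y - trC (ssHuC G kap u) G0 y = th (gradSqC G u y) * ssBsq G G0 u y :=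
  sscm_trace hG hkap hlt hy hs

/-- S (3.15), first part, for the ordinary graph metric `G_u = G + du²`, `t_u = t + (1/2) log(1+σ)`:
`Δ_{G_u} u - ⟨dt_u,du⟩_{G_u} = div_{G,t}(∇u/(1+σ))`. -/
theorem ss_graph_lap {G : rm_MF d} {U : Set (E d)} (hG : rm_Met G U) {t u : E d → ℝ}
    (ht : ContDiffOn ℝ ∞ t U) (hu : ContDiffOn ℝ ∞ u U) {y : E d} (hy : y ∈ U) :
    lapC (ssHuC G (fun _ => 1) u) u y
        - gradIpC (ssHuC G (fun _ => 1) u) (ssTuC G t (fun σ => -(Real.log (1 + σ) / 2)) u) u y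
      = ssDivC G t (fun σ => 1 / (1 + σ)) u y :=
  sscm_graph_lap hG ht hu hy

/-- S (3.15), second part: `|du|²_{G_u} = σ/(1+σ)`. -/
theorem ss_graph_sq {G : rm_MF d} {U : Set (E d)} (hG : rm_Met G U) {u : E d → ℝ}
    {y : E d} (hy : y ∈ U) :
    gradSqC (ssHuC G (fun _ => 1) u) u y = gradSqC G u y / (1 + gradSqC G u y) :=
  sscm_graph_sq hG hy

end Claimed.Agent.R315
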