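import Claimed.Agent.R315.Pack011
import Claimed.Agent.R315.Ss.Cmp
import Claimed.Agent.R315.Ss.AngleC

/-!
# Row 315, paper S: package SS-ANGLE (#8737) `ss_angle`, `ss_graph_lap2`

Equation (S (3.7)):  `div_{h,w}(∇u/√(1+σ)) = 10 (u - w)`,  flux `ssG0 σ = 1/√(1+σ)`, `ω = ssG0 σ`, `Ĝ = G + du² = ssHuC G (fun _ => 1) u`.

## SS-ANGLE `ss_angle`, `ss_graph_lap2` (S Lemma 3.3 in the base; ~1000 lines; RIEM style; BOTH IDENTITIES WERE CHECKED NUMERICALLY by helper59 with the sign conventions of `Def_0499`)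
 exact identity: `Δ_Ĝ ω - ⟨dt,dω⟩_Ĝ = -ω³ (Ric + Hess t)(∇u,∇u) - ⟨dp,du⟩_G/(1+σ) - ω |II|²`, `p := ssDivC G t ssG0 u`, `|II|² = ω² |Hess_G u|²_Ĝ ≥ 0`.
 PROOF in lapse coordinates `q = u` (`Rm/Orth.lean`, all terms are invariant): `G = v² dq² + γ`, `v = 1/s`, `v̂ = √(1+v²)`, `Ĝ = v̂² dq² + γ`, `ω = v/v̂`, `k₁ = 1/v̂`, `ê = ω e`, `Ĥ = ω H`, `S = H - e t`, `p = k₁ S + e k₁`.
  `dω = v̂⁻³ dv`;  slice part of `rm_adm_lap` for `Ĝ`: `Δ_γ ω + ⟨dlog v̂,dω⟩_γ = v̂⁻³ Δ_γ v - 2 v v̂⁻⁵ |∇v|²`;  Riccati `rm_adm_ric00`: `Δ_γ v = -v (e H + Ric(e,e) + |J|²)`;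
  normal part: `ê ω = -k₁ e k₁·(..)`: from `e k₁ = -v v̂⁻³ e v`: `ê ω = ω v̂⁻³ e v = -k₁ (p - k₁ S)`;  `ê ê ω = ω e(-k₁ p + k₁² S)`;  the `e H` terms cancel (`v v̂⁻³ = ω k₁²`).  Result:
  `Δ_Ĝ ω - ⟨dt,dω⟩_Ĝ = -ω {k₁²(Ric(e,e) + |J|²) + 2k₁⁴|∇v|² + (e k₁)² + k₁ e p + k₁² e e t} - v̂⁻³⟨∇t,∇v⟩_γ`, and `Hess t(e,e) = e e t + ⟨∇log v,∇t⟩_γ`.
 `ss_graph_lap2`: `Δ_Ĝ f = Δ_γ f + ω²⟨dlog v,df⟩_γ + ω² e e f + ω e(ω) e f + ω² H e f = Δ_G f - k₁² Hess f(e,e) - (k₁² H - ω e ω) e f`, `k₁²H - ω eω = k₁ p + k₁² e t`; `⟨dt,df⟩_Ĝ = ⟨dt,df⟩_G - k₁² e t e f`.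
 (alternative without lapse coordinates: Sherman-Morrison `Ĝ⁻¹ = G⁻¹ - ∇u⊗∇u/(1+σ)` and `Γ̂ - Γ = ∇u ⊗ Hess u/(1+σ)`.)
-/

set_option autoImplicit false
open scoped ContDiff Topology
open Claims.C0499

namespace Claimed.Agent.R315

variable {V : Type} [NormedAddCommGroup V] [NormedSpace ℝ V]
variable {d : ℕ}

/-- S Lemma 3.3 (graph angle equation), as an inequality in the base, for an arbitrary `u`. -/
theorem ss_angle {G : rm_MF d} {U : Set (E d)} (hG : rm_Met G U) {t u : E d → ℝ}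
    (ht : ContDiffOn ℝ ∞ t U) (hu : ContDiffOn ℝ ∞ u U) {y : E d} (hy : y ∈ U)
    (hs : 0 < gradSqC G u y) :
    lapC (ssHuC G (fun _ => 1) u) (fun z => ssG0 (gradSqC G u z)) y
        - gradIpC (ssHuC G (fun _ => 1) u) t (fun z => ssG0 (gradSqC G u z)) y
      ≤ -(ssG0 (gradSqC G u y)) ^ 3 * (ssRicUU G u y + ssHessUU G t u y)
        - gradIpC G (ssDivC G t ssG0 u) u y / (1 + gradSqC G u y) :=
  ssan_angle hG ht hu hy hs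

/-- drift Laplacian of the graph metric. -/
theorem ss_graph_lap2 {G : rm_MF d} {U : Set (E d)} (hG : rm_Met G U) {t u f : E d → ℝ}
    (ht : ContDiffOn ℝ ∞ t U) (hu : ContDiffOn ℝ ∞ u U) (hf : ContDiffOn ℝ ∞ f U) {y : E d}
    (hy : y ∈ U) (hs : 0 < gradSqC G u y) :
    lapC (ssHuC G (fun _ => 1) u) f y - gradIpC (ssHuC G (fun _ => 1) u) t f y
      = lapC G f y - gradIpC G t f y - ssHessUU G f u y / (1 + gradSqC G u y)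
        - ssDivC G t ssG0 u y * gradIpC G u f y * ssG0 (gradSqC G u y) :=
  ssan_graph_lap2 hG hu hf hy

end Claimed.Agent.R315
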