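import Claimed.Agent.R315.Pack011
import Claimed.Agent.R315.Pack006
import Claimed.Agent.R315.Pack008

/-!
# Row 315, paper S, package SS-ANGLE, part A: the drift Laplacian of the graph metric `G + du²`
(prefix `ssan_`)

Direct proof (divergence form + Sherman-Morrison + metric compatibility), no lapse coordinates:
`Δ_Ĝ f = Δf - Hess f(∇u,∇u)/(1+σ) - ⟨du,df⟩/(1+σ) (Δu - ⟨dσ,du⟩/(2(1+σ)))`.  Owner: helper39.
-/

set_option autoImplicit false
open scoped ContDiff Topology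
open Claims.C0499

namespace Claimed.Agent.R315

variable {d : ℕ} {G : rm_MF d} {U : Set (E d)} {t u f g ρ : E d → ℝ} {y : E d}

/-- `div(ρ ∇g) = ⟨dρ,dg⟩ + ρ Δg`. -/
theorem ssan_div_mul (hG : rm_Met G U) (hy : y ∈ U) (hρ : DifferentiableAt ℝ ρ y)
    (hg : ContDiffOn ℝ ∞ g U) :
    (Real.sqrt (G y).det)⁻¹ * ∑ i, pdiff (fun w => ρ w *
        (Real.sqrt (G w).det * ∑ j, (G w)⁻¹ i j * pdiff g j w)) i y =
      gradIpC G ρ g y + ρ y * lapC G g y := by
  have hs : 0 < Real.sqrt (G y).det := Real.sqrt_pos.2 (rm_det_pos hG hy)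
  have hX : ∀ i, ContDiffOn ℝ ∞
      (fun w => Real.sqrt (G w).det * ∑ j : Fin d, (G w)⁻¹ i j * pdiff g j w) U := fun i =>
    (rm_sqrtdet_smooth hG).mul (ContDiffOn.sum fun j _ =>
      (rm_inv_smooth hG i j).mul (rm_pdiff_smooth hG.opn hg j))
  simp only [fun i => rm_pdiff_mul (i := i) hρ (rm_da hG.opn (hX i) hy), Finset.sum_add_distrib,
    ← Finset.mul_sum]
  unfold lapC gradIpC
  have e2 : ∑ i, pdiff ρ i y * (Real.sqrt (G y).det * ∑ j, (G y)⁻¹ i j * pdiff g j y) =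
      Real.sqrt (G y).det * ∑ i, ∑ j, (G y)⁻¹ i j * pdiff ρ i y * pdiff g j y := by
    simp only [Finset.mul_sum]
    exact Finset.sum_congr rfl fun i _ => Finset.sum_congr rfl fun j _ => by ring
  rw [e2]
  field_simp

theorem ssan_one_add_pos (hG : rm_Met G U) (hy : y ∈ U) (u : E d → ℝ) :
    0 < 1 + gradSqC G u y := by
  have := rm_sq_nonneg hG hy u
  positivity

/-- `Ĝ⁻¹ df = ∇f - ⟨du,df⟩/(1+σ) ∇u`. -/
theorem ssan_hat_up (hG : rm_Met G U) (hy : y ∈ U) (u f : E d → ℝ) (i : Fin d) :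
    ∑ j, (ssHuC G (fun _ => 1) u y)⁻¹ i j * pdiff f j y =
      (∑ j, (G y)⁻¹ i j * pdiff f j y) -
        gradIpC G u f y / (1 + gradSqC G u y) * ∑ j, (G y)⁻¹ i j * pdiff u j y := by
  have h0 := ssan_one_add_pos hG hy u
  rw [sscm_hu_eq, sscm_r1_inv (hG.pos y hy) _ (by rw [sscm_sg_grad, one_mul]; exact h0.ne'),
    sscm_sg_grad, one_mul]
  simp only [Matrix.sub_apply, Matrix.smul_apply, sscm_pp, Matrix.of_apply, smul_eq_mul, sub_mul,
    Finset.sum_sub_distrib]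
  congr 1
  have e1 : gradIpC G u f y = ∑ j, sscm_up (G y) (fun i => pdiff u i y) j * pdiff f j y := by
    unfold gradIpC sscm_up
    rw [Finset.sum_comm]
    refine Finset.sum_congr rfl fun j _ => ?_
    rw [Finset.sum_mul]
    exact Finset.sum_congr rfl fun k _ => by rw [rm_inv_symm hG hy j k]
  have e2 : ∑ j, (G y)⁻¹ i j * pdiff u j y = sscm_up (G y) (fun i => pdiff u i y) i := rfl
  rw [e1, e2, Finset.sum_div, Finset.sum_mul]
  exact Finset.sum_congr rfl fun j _ => by ring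

/-- `⟨dk,df⟩_Ĝ = ⟨dk,df⟩ - ⟨dk,du⟩⟨du,df⟩/(1+σ)`. -/
theorem ssan_hat_ip (hG : rm_Met G U) (hy : y ∈ U) (u k f : E d → ℝ) :
    gradIpC (ssHuC G (fun _ => 1) u) k f y =
      gradIpC G k f y - gradIpC G k u y * gradIpC G u f y / (1 + gradSqC G u y) := by
  have e : ∀ (B : rm_MF d) (l : E d → ℝ), gradIpC B k l y =
      ∑ i, pdiff k i y * ∑ j, (B y)⁻¹ i j * pdiff l j y := by
    intro B l
    unfold gradIpC
    refine Finset.sum_congr rfl fun i _ => ?_
    rw [Finset.mul_sum]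
    exact Finset.sum_congr rfl fun j _ => by ring
  rw [e, e G f, e G u]
  simp only [ssan_hat_up hG hy, mul_sub, Finset.sum_sub_distrib]
  congr 1
  rw [Finset.sum_mul, Finset.sum_div]
  exact Finset.sum_congr rfl fun i _ => by ring

theorem ssan_hessUU_eq (G : rm_MF d) (f u : E d → ℝ) (y : E d) :
    ssHessUU G f u y = rm_hs G f y (rm_up G u y) (rm_up G u y) := rfl

/-- the Laplacian of the graph metric. -/
theorem ssan_hat_lap (hG : rm_Met G U) (hu : ContDiffOn ℝ ∞ u U) (hf : ContDiffOn ℝ ∞ f U)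
    (hy : y ∈ U) :
    lapC (ssHuC G (fun _ => 1) u) f y =
      lapC G f y - ssHessUU G f u y / (1 + gradSqC G u y) -
        gradIpC G u f y / (1 + gradSqC G u y) *
          (lapC G u y - gradIpC G (gradSqC G u) u y / (2 * (1 + gradSqC G u y))) := by
  have hσs := sscm_sq_smooth hG hu
  have hσ0 : ∀ w ∈ U, 0 < 1 + gradSqC G u w := fun w hw => ssan_one_add_pos hG hw u
  have hrs : ContDiffOn ℝ ∞ (fun w => Real.sqrt (1 + gradSqC G u w)) U :=
    (contDiffOn_const.add hσs).sqrt fun w hw => (hσ0 w hw).ne'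
  have hr0 : ∀ w ∈ U, 0 < Real.sqrt (1 + gradSqC G u w) := fun w hw => Real.sqrt_pos.2 (hσ0 w hw)
  have hIs : ContDiffOn ℝ ∞ (gradIpC G u f) U := rm_gradIpC_smooth hG hu hf
  have hms : ContDiffOn ℝ ∞ (fun w => (Real.sqrt (1 + gradSqC G u w))⁻¹) U :=
    hrs.inv fun w hw => (hr0 w hw).ne'
  have hdet : ∀ w ∈ U, Real.sqrt (ssHuC G (fun _ => 1) u w).det =
      Real.sqrt (G w).det * Real.sqrt (1 + gradSqC G u w) := by
    intro w hw
    rw [sscm_hu_eq, sscm_r1_det (hG.pos w hw), sscm_sg_grad, one_mul,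
      Real.sqrt_mul (rm_det_pos hG hw).le]
  have hfun : ∀ i, ∀ w ∈ U, Real.sqrt (ssHuC G (fun _ => 1) u w).det *
      ∑ j, (ssHuC G (fun _ => 1) u w)⁻¹ i j * pdiff f j w =
      Real.sqrt (1 + gradSqC G u w) * (Real.sqrt (G w).det * ∑ j, (G w)⁻¹ i j * pdiff f j w) -
        gradIpC G u f w * (Real.sqrt (1 + gradSqC G u w))⁻¹ *
          (Real.sqrt (G w).det * ∑ j, (G w)⁻¹ i j * pdiff u j w) := by
    intro i w hw
    rw [ssan_hat_up hG hw, hdet w hw]
    have h2 := hr0 w hw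
    have h3 : 1 + gradSqC G u w = Real.sqrt (1 + gradSqC G u w) ^ 2 :=
      (Real.sq_sqrt (hσ0 w hw).le).symm
    generalize (∑ j, (G w)⁻¹ i j * pdiff f j w) = a
    generalize (∑ j, (G w)⁻¹ i j * pdiff u j w) = b
    generalize Real.sqrt (1 + gradSqC G u w) = r at h2 h3 ⊢
    rw [h3]
    field_simp
  have hX : ∀ (g : E d → ℝ), ContDiffOn ℝ ∞ g U → ∀ i, ContDiffOn ℝ ∞
      (fun w => Real.sqrt (G w).det * ∑ j : Fin d, (G w)⁻¹ i j * pdiff g j w) U := fun g hg i =>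
    (rm_sqrtdet_smooth hG).mul (ContDiffOn.sum fun j _ =>
      (rm_inv_smooth hG i j).mul (rm_pdiff_smooth hG.opn hg j))
  have hsd : 0 < Real.sqrt (G y).det := Real.sqrt_pos.2 (rm_det_pos hG hy)
  have d1 := ssan_div_mul hG hy (rm_da hG.opn hrs hy) hf
  have d2 := ssan_div_mul hG hy (rm_da hG.opn (hIs.mul hms) hy) hu
  have hlap : lapC (ssHuC G (fun _ => 1) u) f y = (Real.sqrt (1 + gradSqC G u y))⁻¹ *
      ((gradIpC G (fun w => Real.sqrt (1 + gradSqC G u w)) f y +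
          Real.sqrt (1 + gradSqC G u y) * lapC G f y) -
        (gradIpC G (fun w => gradIpC G u f w * (Real.sqrt (1 + gradSqC G u w))⁻¹) u y +
          gradIpC G u f y * (Real.sqrt (1 + gradSqC G u y))⁻¹ * lapC G u y)) := by
    rw [← d1, ← d2]
    unfold lapC
    simp only [fun i => rm_pdiff_congr_on (i := i) hG.opn hy (hfun i)]
    simp only [fun i => rm_pdiff_sub (i := i)
      (rm_da hG.opn (hrs.mul (hX f hf i)) hy) (rm_da hG.opn ((hIs.mul hms).mul (hX u hu i)) hy),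
      Finset.sum_sub_distrib]
    rw [hdet y hy, mul_inv]
    ring
  have dσ := rm_da hG.opn hσs hy
  have h0 := hσ0 y hy
  have hφ1 : HasDerivAt (fun x : ℝ => Real.sqrt (1 + x))
      (1 / (2 * Real.sqrt (1 + gradSqC G u y))) (gradSqC G u y) :=
    ((hasDerivAt_id (gradSqC G u y)).const_add 1).sqrt h0.ne'
  have hφ2 : HasDerivAt (fun x : ℝ => (Real.sqrt (1 + x))⁻¹)
      (-(1 / (2 * Real.sqrt (1 + gradSqC G u y))) / Real.sqrt (1 + gradSqC G u y) ^ 2)
      (gradSqC G u y) := hφ1.fun_inv (hr0 y hy).ne'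
  have i1 : gradIpC G (fun w => Real.sqrt (1 + gradSqC G u w)) f y =
      1 / (2 * Real.sqrt (1 + gradSqC G u y)) * gradIpC G (gradSqC G u) f y := by
    rw [rm_ip_comp_left (φ := fun x : ℝ => Real.sqrt (1 + x)) hφ1.differentiableAt dσ, hφ1.deriv]
  have i2 : gradIpC G (fun w => gradIpC G u f w * (Real.sqrt (1 + gradSqC G u w))⁻¹) u y =
      gradIpC G u f y * (-(1 / (2 * Real.sqrt (1 + gradSqC G u y))) /
          Real.sqrt (1 + gradSqC G u y) ^ 2 * gradIpC G (gradSqC G u) u y) +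
        (Real.sqrt (1 + gradSqC G u y))⁻¹ * gradIpC G (gradIpC G u f) u y := by
    rw [rm_ip_mul_left (rm_da hG.opn hIs hy) (rm_da hG.opn hms hy),
      rm_ip_comp_left (φ := fun x : ℝ => (Real.sqrt (1 + x))⁻¹) hφ2.differentiableAt dσ,
      hφ2.deriv]
  have du2 : ∀ j, DifferentiableAt ℝ (fun w => pdiff u j w) y := fun j =>
    rm_da hG.opn (rm_pdiff_smooth hG.opn hu j) hy
  have df2 : ∀ j, DifferentiableAt ℝ (fun w => pdiff f j w) y := fun j =>
    rm_da hG.opn (rm_pdiff_smooth hG.opn hf j) hy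
  rw [hlap, i1, i2, rm_ip_sq hG hy du2 f, rm_ip_ip hG hy du2 df2 u,
    rm_hs_comm hG hy (hu.of_le rm_two_le) (rm_up G f y) (rm_up G u y), ssan_hessUU_eq]
  have h2 := hr0 y hy
  have h3 : 1 + gradSqC G u y = Real.sqrt (1 + gradSqC G u y) ^ 2 := (Real.sq_sqrt h0.le).symm
  generalize rm_hs G u y (rm_up G u y) (rm_up G f y) = a
  generalize rm_hs G f y (rm_up G u y) (rm_up G u y) = b
  generalize gradIpC G (gradSqC G u) u y = c
  generalize gradIpC G u f y = I
  generalize lapC G u y = L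
  generalize lapC G f y = L'
  generalize Real.sqrt (1 + gradSqC G u y) = r at h2 h3 ⊢
  rw [h3]
  field_simp
  ring

theorem ssan_G0_deriv {σ : ℝ} (h0 : 0 < 1 + σ) :
    HasDerivAt ssG0 (-(1 / (2 * Real.sqrt (1 + σ))) / Real.sqrt (1 + σ) ^ 2) σ := by
  have hφ1 : HasDerivAt (fun x : ℝ => Real.sqrt (1 + x)) (1 / (2 * Real.sqrt (1 + σ))) σ :=
    ((hasDerivAt_id σ).const_add 1).sqrt h0.ne'
  have := hφ1.fun_inv (Real.sqrt_pos.2 h0).ne'
  have e : ssG0 = fun x : ℝ => (Real.sqrt (1 + x))⁻¹ := by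
    funext x; unfold ssG0; rw [one_div]
  rw [e]; exact this

/-- = `ss_graph_lap2` (no hypothesis on `du`). -/
theorem ssan_graph_lap2 (hG : rm_Met G U) (hu : ContDiffOn ℝ ∞ u U) (hf : ContDiffOn ℝ ∞ f U)
    (hy : y ∈ U) :
    lapC (ssHuC G (fun _ => 1) u) f y - gradIpC (ssHuC G (fun _ => 1) u) t f y
      = lapC G f y - gradIpC G t f y - ssHessUU G f u y / (1 + gradSqC G u y)
        - ssDivC G t ssG0 u y * gradIpC G u f y * ssG0 (gradSqC G u y) := by
  have h0 := ssan_one_add_pos hG hy u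
  rw [ssan_hat_lap hG hu hf hy, ssan_hat_ip hG hy]
  unfold ssDivC
  rw [(ssan_G0_deriv h0).deriv]
  unfold ssG0
  have h2 := Real.sqrt_pos.2 h0
  have h3 : 1 + gradSqC G u y = Real.sqrt (1 + gradSqC G u y) ^ 2 := (Real.sq_sqrt h0.le).symm
  generalize ssHessUU G f u y = b
  generalize gradIpC G (gradSqC G u) u y = c
  generalize gradIpC G u f y = I
  generalize gradIpC G t u y = I2
  generalize gradIpC G t f y = I3
  generalize lapC G u y = L
  generalize lapC G f y = L'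
  generalize Real.sqrt (1 + gradSqC G u y) = r at h2 h3 ⊢
  rw [h3]
  field_simp
  ring

end Claimed.Agent.R315
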