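import Claimed.Agent.R315.Ss.CmpC
import Claimed.Agent.R315.Pack011
import Claimed.Agent.R315.Pack008

/-!
# Row 315, paper S, package SS-BERN, part A: the Bernstein inequality in lapse coordinates
(prefix `ssbn_`)

`u = q = w 0`, `G = v² dq² + γ_q`, `σ = |dq|² = v⁻²`.  On the whole chart
`div_{G,t}(fl(σ)∇q) = fl(σ) S/v - (fl + 2σ fl')(σ) e(v)/v²`, `S = H - e t`.
At a local maximum of `σ` (= local minimum of `v`): `dv = 0`, `∂²v ≥ 0`, hence
`⟨d div, dq⟩ = fl e(S)/v² - (fl+2σfl') e(e v)/v³`, `e(e v) ≥ 0`, and by the Riccati equation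
`e(H) = -Ric(e,e) - |J|² - Δ_γ v/v ≤ -Ric(e,e)`, `e(e t) = Hess t(e,e)`.
NO Bochner formula is needed.  Owner: helper39.
-/

set_option autoImplicit false
open scoped ContDiff Topology
open Claims.C0499

namespace Claimed.Agent.R315

variable {d : ℕ} {G : rm_MF (d + 1)} {U : Set (E (d + 1))} {t : E (d + 1) → ℝ} {fl : ℝ → ℝ}
  {y w : E (d + 1)}

/-- a local maximum of `σ = v⁻²` is a local minimum of the lapse. -/
theorem ssbn_lps_min (hG : rm_Met G U) (ho : rm_Orth G U) (hy : y ∈ U)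
    (hmax : IsLocalMax (gradSqC G (rm_q0 d)) y) : IsLocalMin (rm_lps G) y := by
  filter_upwards [hmax, hG.opn.mem_nhds hy] with w hw hwU
  rw [rm_dict_sq hG ho hwU, rm_dict_sq hG ho hy] at hw
  have h1 := rm_lps_pos hG hwU
  have h2 := rm_lps_pos hG hy
  have h3 : rm_lps G y ^ 2 ≤ rm_lps G w ^ 2 := by
    rwa [inv_le_inv₀ (by positivity) (by positivity)] at hw
  exact (pow_le_pow_iff_left₀ h2.le h1.le (by norm_num)).1 h3

/-- `e σ = -2 e(v)/v³`. -/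
theorem ssbn_e_sq (hG : rm_Met G U) (ho : rm_Orth G U) (hw : w ∈ U) :
    rm_e G (gradSqC G (rm_q0 d)) w = - 2 * rm_e G (rm_lps G) w / rm_lps G w ^ 3 := by
  have hv := rm_lps_pos hG hw
  have dv := rm_da hG.opn (rm_lps_smooth hG) hw
  have d2 : DifferentiableAt ℝ (fun w => rm_lps G w ^ 2) w := dv.pow 2
  have e5 : pdiff (fun w => rm_lps G w ^ 2) 0 w = 2 * rm_lps G w * pdiff (rm_lps G) 0 w := by
    have : (fun w => rm_lps G w ^ 2) = fun w => rm_lps G w * rm_lps G w := by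
      funext w; ring
    rw [this, rm_pdiff_mul dv dv]; ring
  unfold rm_e
  rw [rm_pdiff_congr_on hG.opn hw (fun w hw => rm_dict_sq hG ho hw),
    rm_pdiff_inv d2 (by positivity), e5]
  field_simp

/-- the flux divergence of `q` in lapse coordinates. -/
theorem ssbn_div (hG : rm_Met G U) (ho : rm_Orth G U) (hw : w ∈ U) :
    ssDivC G t fl (rm_q0 d) w =
      fl (gradSqC G (rm_q0 d) w) / rm_lps G w * rm_S G t w -
        (fl (gradSqC G (rm_q0 d) w) + 2 * gradSqC G (rm_q0 d) w *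
          deriv fl (gradSqC G (rm_q0 d) w)) / rm_lps G w ^ 2 * rm_e G (rm_lps G) w := by
  have hv := rm_lps_pos hG hw
  unfold ssDivC
  rw [rm_dict_lap hG ho hw, rm_ip_comm hG hw (gradSqC G (rm_q0 d)) (rm_q0 d),
    rm_ip_comm hG hw t (rm_q0 d), rm_dict_ip hG ho hw, rm_dict_ip hG ho hw, ssbn_e_sq hG ho hw]
  have e2 := rm_dict_sq hG ho hw
  generalize fl (gradSqC G (rm_q0 d) w) = a
  generalize deriv fl (gradSqC G (rm_q0 d) w) = b
  rw [e2]
  unfold rm_S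
  field_simp
  ring

theorem ssbn_e_mul {f g : E (d + 1) → ℝ} (hf : DifferentiableAt ℝ f w)
    (hg : DifferentiableAt ℝ g w) :
    rm_e G (fun x => f x * g x) w = rm_e G f w * g w + f w * rm_e G g w := by
  unfold rm_e
  rw [rm_pdiff_mul hf hg]; ring

theorem ssbn_e_sub {f g : E (d + 1) → ℝ} (hf : DifferentiableAt ℝ f w)
    (hg : DifferentiableAt ℝ g w) :
    rm_e G (fun x => f x - g x) w = rm_e G f w - rm_e G g w := by
  unfold rm_e
  rw [rm_pdiff_sub hf hg]; ring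

/-- `e(e f) = v⁻² ∂₀∂₀ f` where `∂₀ v = 0`. -/
theorem ssbn_ee (hG : rm_Met G U) (hy : y ∈ U) (hdv : pdiff (rm_lps G) 0 y = 0)
    {f : E (d + 1) → ℝ} (hf : ContDiffOn ℝ ∞ f U) :
    rm_e G (rm_e G f) y = (rm_lps G y ^ 2)⁻¹ * rm_p2 f 0 0 y := by
  have hv := rm_lps_pos hG hy
  have hv1 := rm_da hG.opn (rm_lps_smooth hG) hy
  have hinv : DifferentiableAt ℝ (fun w => (rm_lps G w)⁻¹) y := hv1.inv hv.ne'
  have hp : DifferentiableAt ℝ (fun w => pdiff f 0 w) y :=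
    rm_da hG.opn (rm_pdiff_smooth hG.opn hf 0) hy
  have : pdiff (rm_e G f) 0 y = pdiff (fun w => (rm_lps G w)⁻¹) 0 y * pdiff f 0 y +
      (rm_lps G y)⁻¹ * rm_p2 f 0 0 y := rm_pdiff_mul hinv hp
  show (rm_lps G y)⁻¹ * pdiff (rm_e G f) 0 y = _
  rw [this, rm_pdiff_inv hv1 hv.ne', hdv]
  field_simp
  ring

/-- `Hess f(∂₀,∂₀) = ∂₀∂₀ f` where `dv = 0`. -/
theorem ssbn_hess00 (hG : rm_Met G U) (ho : rm_Orth G U) (hy : y ∈ U)
    (hdv : ∀ i, pdiff (rm_lps G) i y = 0) (f : E (d + 1) → ℝ) :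
    hessC G f y 0 0 = rm_p2 f 0 0 y := by
  unfold hessC
  rw [rm_blk_Gam_df hG ho hy, rm_blk_c1_000 hG ho hy]
  simp only [rm_blk_c1_00s hG ho hy, hdv]
  simp [rm_p2]

/-- **Bernstein inequality in lapse coordinates.** -/
theorem ssbn_lapse (hG : rm_Met G U) (ho : rm_Orth G U) (ht : ContDiffOn ℝ ∞ t U)
    (hfl : IsFlux fl) (hy : y ∈ U) (hmax : IsLocalMax (gradSqC G (rm_q0 d)) y) :
    gradIpC G (ssDivC G t fl (rm_q0 d)) (rm_q0 d) y ≤
      - (fl (gradSqC G (rm_q0 d) y) * gradSqC G (rm_q0 d) y *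
        ((ricciCoord G y 0 0 + hessC G t y 0 0) / G y 0 0)) := by
  have hmin := ssbn_lps_min hG ho hy hmax
  have hdv : ∀ i, pdiff (rm_lps G) i y = 0 := rm_min_pdiff hmin
  have hv := rm_lps_pos hG hy
  have hvs := rm_lps_smooth hG
  have hσs : ContDiffOn ℝ ∞ (gradSqC G (rm_q0 d)) U := sscm_sq_smooth hG rm_q0_smooth.contDiffOn
  have hσ0 : ∀ w ∈ U, 0 < gradSqC G (rm_q0 d) w := fun w hw => sscm_sq_q0_pos hG ho hw
  have hσI : ∀ w ∈ U, gradSqC G (rm_q0 d) w ∈ Set.Ioi (-1 : ℝ) := fun w hw => by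
    have := hσ0 w hw
    show (-1 : ℝ) < _
    linarith
  have hfs : ContDiffOn ℝ ∞ (fun w => fl (gradSqC G (rm_q0 d) w)) U := hfl.smooth.comp hσs hσI
  have hf's : ContDiffOn ℝ ∞ (fun w => deriv fl (gradSqC G (rm_q0 d) w)) U :=
    (hfl.smooth.deriv_of_isOpen isOpen_Ioi (by simp)).comp hσs hσI
  have hev0 : rm_e G (rm_lps G) y = 0 := by
    unfold rm_e; rw [hdv]; ring
  have has : ContDiffOn ℝ ∞ (fun w => fl (gradSqC G (rm_q0 d) w) / rm_lps G w) U :=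
    hfs.div hvs fun w hw => (rm_lps_pos hG hw).ne'
  have hbs : ContDiffOn ℝ ∞ (fun w => (fl (gradSqC G (rm_q0 d) w) + 2 * gradSqC G (rm_q0 d) w *
      deriv fl (gradSqC G (rm_q0 d) w)) / rm_lps G w ^ 2) U :=
    (hfs.add ((contDiffOn_const.mul hσs).mul hf's)).div (hvs.pow 2) fun w hw =>
      (pow_pos (rm_lps_pos hG hw) 2).ne'
  have hSs : ContDiffOn ℝ ∞ (rm_S G t) U := (rm_H_smooth hG).sub (rm_e_smooth hG ht)
  have hevs : ContDiffOn ℝ ∞ (rm_e G (rm_lps G)) U := rm_e_smooth hG hvs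
  have hea : rm_e G (fun w => fl (gradSqC G (rm_q0 d) w) / rm_lps G w) y = 0 := by
    rw [sscm_e_div (f := fun w => fl (gradSqC G (rm_q0 d) w)) (g := rm_lps G)
      (rm_da hG.opn hfs hy) (rm_da hG.opn hvs hy) hv.ne', hev0]
    have : rm_e G (fun w => fl (gradSqC G (rm_q0 d) w)) y = 0 := by
      unfold rm_e
      rw [rm_pdiff_comp ((hfl.smooth.contDiffAt (isOpen_Ioi.mem_nhds (hσI y hy))).differentiableAt
        (by simp)) (rm_da hG.opn hσs hy), rm_max_pdiff hmax]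
      ring
    rw [this]; ring
  have heF : rm_e G (ssDivC G t fl (rm_q0 d)) y =
      fl (gradSqC G (rm_q0 d) y) / rm_lps G y * rm_e G (rm_S G t) y -
        (fl (gradSqC G (rm_q0 d) y) + 2 * gradSqC G (rm_q0 d) y *
          deriv fl (gradSqC G (rm_q0 d) y)) / rm_lps G y ^ 2 * rm_e G (rm_e G (rm_lps G)) y := by
    rw [sscm_e_congr_on hG.opn hy (fun w hw => ssbn_div (t := t) (fl := fl) hG ho hw),
      ssbn_e_sub (f := fun w => fl (gradSqC G (rm_q0 d) w) / rm_lps G w * rm_S G t w)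
        (g := fun w => (fl (gradSqC G (rm_q0 d) w) + 2 * gradSqC G (rm_q0 d) w *
          deriv fl (gradSqC G (rm_q0 d) w)) / rm_lps G w ^ 2 * rm_e G (rm_lps G) w)
        (rm_da hG.opn (has.mul hSs) hy) (rm_da hG.opn (hbs.mul hevs) hy),
      ssbn_e_mul (f := fun w => fl (gradSqC G (rm_q0 d) w) / rm_lps G w) (g := rm_S G t)
        (rm_da hG.opn has hy) (rm_da hG.opn hSs hy),
      ssbn_e_mul (f := fun w => (fl (gradSqC G (rm_q0 d) w) + 2 * gradSqC G (rm_q0 d) w *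
          deriv fl (gradSqC G (rm_q0 d) w)) / rm_lps G w ^ 2) (g := rm_e G (rm_lps G))
        (rm_da hG.opn hbs hy) (rm_da hG.opn hevs hy), hea, hev0]
    ring
  have heS : rm_e G (rm_S G t) y = rm_e G (rm_H G) y - rm_e G (rm_e G t) y :=
    ssbn_e_sub (rm_da hG.opn (rm_H_smooth hG) hy) (rm_da hG.opn (rm_e_smooth hG ht) hy)
  have hr := rm_adm_ric00 hG ho hy
  have hJ := rm_Jsq_nonneg hG hy
  have hL : 0 ≤ rm_lapS G (rm_lps G) y := by
    refine rm_min_lap (rm_sl_met hG (y 0)) (rm_mem_Us hy) (rm_fs_smooth hvs (y 0)) ?_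
    have hc : ContinuousAt (rm_J (d := d) (y 0)) (rm_tl d y) :=
      (rm_J_contDiff (y 0)).continuous.continuousAt
    have h1 : ∀ᶠ w in 𝓝 (rm_J (y 0) (rm_tl d y)), rm_lps G y ≤ rm_lps G w := by
      rw [rm_J_tl]; exact hmin
    filter_upwards [hc.eventually h1] with z hz
    show rm_lps G (rm_J (y 0) (rm_tl d y)) ≤ rm_lps G (rm_J (y 0) z)
    rw [rm_J_tl]; exact hz
  have hp2 : 0 ≤ rm_p2 (rm_lps G) 0 0 y := by
    have := rm_min_p2 hG.opn hy hvs hmin (Pi.single 0 1)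
    simpa [Pi.single_apply, Finset.sum_ite_eq] using this
  have hf0 := hfl.pos _ (hσ0 y hy).le
  have hB0 := hfl.ell _ (hσ0 y hy).le
  rw [rm_ip_comm hG hy _ (rm_q0 d), rm_dict_ip hG ho hy, heF, heS, ssbn_ee hG hy (hdv 0) ht,
    ssbn_ee hG hy (hdv 0) hvs, ssbn_hess00 hG ho hy hdv, ← rm_lps_sq hG hy]
  have e2 := rm_dict_sq hG ho hy
  have heH : rm_e G (rm_H G) y = - (ricciCoord G y 0 0 / rm_lps G y ^ 2) - rm_Jsq G y -
      rm_lapS G (rm_lps G) y / rm_lps G y := by rw [hr]; ring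
  rw [heH]
  generalize deriv fl (gradSqC G (rm_q0 d) y) = f' at hB0 ⊢
  generalize fl (gradSqC G (rm_q0 d) y) = f0 at hf0 hB0 ⊢
  rw [e2] at hB0 ⊢
  generalize rm_lapS G (rm_lps G) y = L at hL ⊢
  generalize rm_Jsq G y = J at hJ ⊢
  generalize rm_p2 (rm_lps G) 0 0 y = P at hp2 ⊢
  generalize rm_p2 t 0 0 y = T
  generalize ricciCoord G y 0 0 = R
  generalize rm_lps G y = v at hv hB0 ⊢
  have key : (f0 / v * (-(R / v ^ 2) - J - L / v - (v ^ 2)⁻¹ * T) -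
      (f0 + 2 * (v ^ 2)⁻¹ * f') / v ^ 2 * ((v ^ 2)⁻¹ * P)) / v =
      -(f0 * (v ^ 2)⁻¹ * ((R + T) / v ^ 2)) - (f0 * (J + L / v) / v ^ 2 +
        (f0 + 2 * (v ^ 2)⁻¹ * f') * P / v ^ 5) := by
    field_simp
    ring
  rw [key]
  have : 0 ≤ f0 * (J + L / v) / v ^ 2 + (f0 + 2 * (v ^ 2)⁻¹ * f') * P / v ^ 5 := by positivity
  linarith

end Claimed.Agent.R315
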