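import Claimed.Agent.R315.Ss.AngleA
import Claimed.Agent.R315.Ss.BernA
import Claimed.Agent.R315.Pack004

/-!
# Row 315, paper S, package SS-ANGLE, part B: the angle inequality in lapse coordinates
(prefix `ssan_`)

`u = q = w 0`, `G = v² dq² + γ_q`, `σ = v⁻²`, `ω = ssG0 σ = Φ(v)`, `Φ(x) = x/√(1+x²)`,
`Φ' = Φ/(x(1+x²))`, `Φ'' = -3Φ/(1+x²)²`, `D = 1+v²`, `p = div_{G,t}(ω∇q) = ω (S/v - e(v)/D)`.
`[Δω - ⟨dt,dω⟩ - Hess ω(∇q,∇q)/(1+σ) - p⟨dq,dω⟩ω] - [-ω³(Ric+Hess t)(∇q,∇q) - ⟨dp,dq⟩/(1+σ)]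
   = -ω (|J|²/D + 2|d_γ v|²/D² + v² (e v)²/D³)`.
Owner: helper39.
-/

set_option autoImplicit false
open scoped ContDiff Topology
open Claims.C0499

namespace Claimed.Agent.R315

section real

/-- `Φ(x) = ssG0 (x⁻²) = x/√(1+x²)`. -/
noncomputable def ssanPhi (x : ℝ) : ℝ := ssG0 ((x ^ 2)⁻¹)

theorem ssan_G0_pos {σ : ℝ} (h0 : 0 < 1 + σ) : 0 < ssG0 σ := by
  unfold ssG0
  have := Real.sqrt_pos.2 h0
  positivity

theorem ssan_G0_sq {σ : ℝ} (h0 : 0 < 1 + σ) : ssG0 σ ^ 2 = 1 / (1 + σ) := by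
  unfold ssG0
  rw [div_pow, Real.sq_sqrt h0.le, one_pow]

theorem ssan_G0_smooth : ContDiffOn ℝ ∞ ssG0 (Set.Ioi (-1)) := by
  unfold ssG0
  have h1 : ∀ x ∈ Set.Ioi (-1 : ℝ), 0 < 1 + x := fun x (hx : -1 < x) => by linarith
  exact contDiffOn_const.div ((contDiffOn_const.add contDiffOn_id).sqrt
    fun x hx => (h1 x hx).ne') fun x hx => (Real.sqrt_pos.2 (h1 x hx)).ne'

/-- `ssG0' = -ssG0³/2`. -/
theorem ssan_G0_deriv' {σ : ℝ} (h0 : 0 < 1 + σ) : HasDerivAt ssG0 (-(ssG0 σ ^ 3 / 2)) σ := by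
  have h := ssan_G0_deriv h0
  have h2 := Real.sqrt_pos.2 h0
  have e : -(1 / (2 * Real.sqrt (1 + σ))) / Real.sqrt (1 + σ) ^ 2 = -(ssG0 σ ^ 3 / 2) := by
    unfold ssG0
    field_simp
  rwa [e] at h

variable {x : ℝ}

theorem ssan_Phi_pos (hx : 0 < x) : 0 < ssanPhi x := ssan_G0_pos (by positivity)

theorem ssan_Phi_sq (hx : 0 < x) : ssanPhi x ^ 2 = x ^ 2 / (1 + x ^ 2) := by
  unfold ssanPhi
  rw [ssan_G0_sq (by positivity)]
  field_simp
  ring

theorem ssan_Phi_smooth : ContDiffOn ℝ ∞ ssanPhi (Set.Ioi 0) := by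
  unfold ssanPhi
  refine ssan_G0_smooth.comp ((contDiffOn_id.pow 2).inv fun x (hx : 0 < x) => by positivity) ?_
  intro x (hx : 0 < x)
  show (-1 : ℝ) < (x ^ 2)⁻¹
  have : 0 < (x ^ 2)⁻¹ := by positivity
  linarith

theorem ssan_Phi_d1 (hx : 0 < x) :
    HasDerivAt ssanPhi (ssanPhi x / (x * (1 + x ^ 2))) x := by
  have h1 : HasDerivAt (fun x : ℝ => (x ^ 2)⁻¹) (-(2 * x) / (x ^ 2) ^ 2) x := by
    have := (hasDerivAt_pow 2 x).fun_inv (by positivity)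
    simpa using this
  have h2 := (ssan_G0_deriv' (σ := (x ^ 2)⁻¹) (by positivity)).comp x h1
  have e : -(ssG0 (x ^ 2)⁻¹ ^ 3 / 2) * (-(2 * x) / (x ^ 2) ^ 2) =
      ssanPhi x / (x * (1 + x ^ 2)) := by
    have h3 := ssan_Phi_sq hx
    have : ssG0 (x ^ 2)⁻¹ = ssanPhi x := rfl
    rw [this]
    have h4 : ssanPhi x ^ 3 = ssanPhi x * (x ^ 2 / (1 + x ^ 2)) := by rw [← h3]; ring
    rw [h4]
    field_simp
  rw [e] at h2
  exact h2

theorem ssan_Phi_d2 (hx : 0 < x) :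
    HasDerivAt (deriv ssanPhi) (-(3 * ssanPhi x) / (1 + x ^ 2) ^ 2) x := by
  have h1 : HasDerivAt (fun x : ℝ => x * (1 + x ^ 2)) (1 * (1 + x ^ 2) + x * (2 * x)) x := by
    have h2 : HasDerivAt (fun x : ℝ => 1 + x ^ 2) (2 * x) x := by
      have := (hasDerivAt_pow 2 x).const_add 1
      simpa using this
    exact (hasDerivAt_id x).mul h2
  have h3 := (ssan_Phi_d1 hx).div h1 (by positivity)
  have e : (ssanPhi x / (x * (1 + x ^ 2)) * (x * (1 + x ^ 2)) -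
      ssanPhi x * (1 * (1 + x ^ 2) + x * (2 * x))) / (x * (1 + x ^ 2)) ^ 2 =
      -(3 * ssanPhi x) / (1 + x ^ 2) ^ 2 := by
    field_simp
    ring
  rw [e] at h3
  refine h3.congr_of_eventuallyEq ?_
  filter_upwards [isOpen_Ioi.mem_nhds hx] with z hz
  exact (ssan_Phi_d1 hz).deriv

end real

variable {d : ℕ} {G : rm_MF (d + 1)} {U : Set (E (d + 1))} {t : E (d + 1) → ℝ}
  {y w : E (d + 1)}

/-- `Hess f(∂₀,∂₀) = v² e(e f) + v ⟨dv,df⟩_γ`. -/
theorem ssan_hess00 (h : rm_Met G U) (ho : rm_Orth G U) (hu : y ∈ U) {f : E (d + 1) → ℝ}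
    (hf : ContDiffOn ℝ ∞ f U) :
    hessC G f y 0 0 = rm_lps G y ^ 2 * rm_e G (rm_e G f) y +
      rm_lps G y * rm_ipS G (rm_lps G) f y := by
  have hv := rm_lps_pos h hu
  have hfd := rm_da h.opn hf hu
  have hv1 := rm_da h.opn (rm_lps_smooth h) hu
  have h00 : hessC G f y 0 0 = rm_p2 f 0 0 y - (rm_lps G y)⁻¹ * pdiff (rm_lps G) 0 y * pdiff f 0 y +
      rm_lps G y * rm_ipS G (rm_lps G) f y := by
    unfold hessC
    rw [rm_blk_Gam_df h ho hu, rm_blk_c1_000 h ho hu, rm_ipS_eq hv1 hfd]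
    simp only [rm_blk_c1_00s h ho hu]
    have : ∑ a : Fin d, ∑ b : Fin d, (rm_tan G y)⁻¹ a b *
        (-(rm_lps G y * pdiff (rm_lps G) b.succ y) * pdiff f a.succ y) =
        - (rm_lps G y * ∑ a : Fin d, ∑ b : Fin d, (rm_tan G y)⁻¹ a b *
          (pdiff (rm_lps G) a.succ y * pdiff f b.succ y)) := by
      rw [Finset.sum_comm]
      simp only [Finset.mul_sum, ← Finset.sum_neg_distrib]
      refine Finset.sum_congr rfl fun a _ => Finset.sum_congr rfl fun b _ => ?_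
      rw [rm_tanInv_symm h hu b a]; ring
    rw [this]
    unfold rm_p2
    field_simp
    ring
  have hee : rm_e G (rm_e G f) y = (rm_lps G y ^ 2)⁻¹ * rm_p2 f 0 0 y -
      (rm_lps G y ^ 3)⁻¹ * pdiff (rm_lps G) 0 y * pdiff f 0 y := by
    have hinv : DifferentiableAt ℝ (fun w => (rm_lps G w)⁻¹) y := hv1.inv hv.ne'
    have hp : DifferentiableAt ℝ (fun w => pdiff f 0 w) y :=
      rm_da h.opn (rm_pdiff_smooth h.opn hf 0) hu
    have : pdiff (rm_e G f) 0 y = pdiff (fun w => (rm_lps G w)⁻¹) 0 y * pdiff f 0 y +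
        (rm_lps G y)⁻¹ * rm_p2 f 0 0 y := rm_pdiff_mul hinv hp
    show (rm_lps G y)⁻¹ * pdiff (rm_e G f) 0 y = _
    rw [this, rm_pdiff_inv hv1 hv.ne']
    field_simp
    ring
  rw [h00, hee]
  field_simp

theorem ssan_up_q0 (h : rm_Met G U) (ho : rm_Orth G U) (hu : y ∈ U) (i : Fin (d + 1)) :
    ssUp G (rm_q0 d) y i = if i = 0 then (rm_lps G y ^ 2)⁻¹ else 0 := by
  unfold ssUp
  simp only [rm_pdiff_q0, mul_ite, mul_one, mul_zero, Finset.sum_ite_eq', Finset.mem_univ, if_true]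
  refine Fin.cases ?_ (fun a => ?_) i
  · rw [rm_blk_inv00 h ho hu, rm_lps_sq h hu]; simp
  · rw [rm_blk_invs0 h ho hu]; simp [Fin.succ_ne_zero]

theorem ssan_UU_q0 (h : rm_Met G U) (ho : rm_Orth G U) (hu : y ∈ U)
    (B : Fin (d + 1) → Fin (d + 1) → ℝ) :
    ∑ i, ∑ j, B i j * ssUp G (rm_q0 d) y i * ssUp G (rm_q0 d) y j = B 0 0 / rm_lps G y ^ 4 := by
  have hv := rm_lps_pos h hu
  rw [Finset.sum_eq_single 0, Finset.sum_eq_single 0]
  · rw [ssan_up_q0 h ho hu, if_pos rfl]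
    field_simp
  · intro j _ hj
    rw [ssan_up_q0 h ho hu j, if_neg hj, mul_zero]
  · simp
  · intro i _ hi
    refine Finset.sum_eq_zero fun j _ => ?_
    rw [ssan_up_q0 h ho hu i, if_neg hi, mul_zero, zero_mul]
  · simp

/-- the flux divergence of `q` for the mean curvature flux: `p = ω (S/v - e(v)/(1+v²))`. -/
theorem ssan_div (hG : rm_Met G U) (ho : rm_Orth G U) (hw : w ∈ U) :
    ssDivC G t ssG0 (rm_q0 d) w = ssanPhi (rm_lps G w) *
      (rm_S G t w / rm_lps G w - rm_e G (rm_lps G) w / (1 + rm_lps G w ^ 2)) := by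
  have hv := rm_lps_pos hG hw
  rw [ssbn_div hG ho hw, rm_dict_sq hG ho hw,
    (ssan_G0_deriv' (σ := (rm_lps G w ^ 2)⁻¹) (by positivity)).deriv]
  have e : ssG0 (rm_lps G w ^ 2)⁻¹ = ssanPhi (rm_lps G w) := rfl
  rw [e]
  have h3 : ssanPhi (rm_lps G w) ^ 3 =
      ssanPhi (rm_lps G w) * (rm_lps G w ^ 2 / (1 + rm_lps G w ^ 2)) := by
    rw [← ssan_Phi_sq hv]; ring
  rw [h3]
  generalize ssanPhi (rm_lps G w) = l
  generalize rm_S G t w = S
  generalize rm_e G (rm_lps G) w = a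
  generalize rm_lps G w = v at hv
  field_simp
  ring

/-- **The angle inequality in lapse coordinates** (in the `G`-only form). -/
theorem ssan_lapse (hG : rm_Met G U) (ho : rm_Orth G U) (ht : ContDiffOn ℝ ∞ t U) (hy : y ∈ U) :
    lapC G (fun z => ssG0 (gradSqC G (rm_q0 d) z)) y
        - gradIpC G t (fun z => ssG0 (gradSqC G (rm_q0 d) z)) y
        - ssHessUU G (fun z => ssG0 (gradSqC G (rm_q0 d) z)) (rm_q0 d) y /
          (1 + gradSqC G (rm_q0 d) y)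
        - ssDivC G t ssG0 (rm_q0 d) y *
          gradIpC G (rm_q0 d) (fun z => ssG0 (gradSqC G (rm_q0 d) z)) y *
          ssG0 (gradSqC G (rm_q0 d) y)
      ≤ -(ssG0 (gradSqC G (rm_q0 d) y)) ^ 3 * (ssRicUU G (rm_q0 d) y + ssHessUU G t (rm_q0 d) y)
        - gradIpC G (ssDivC G t ssG0 (rm_q0 d)) (rm_q0 d) y / (1 + gradSqC G (rm_q0 d) y) := by
  have hv := rm_lps_pos hG hy
  have hvs := rm_lps_smooth hG
  have hvI : ∀ w ∈ U, rm_lps G w ∈ Set.Ioi (0 : ℝ) := fun w hw => rm_lps_pos hG hw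
  have hW : ∀ w ∈ U, ssG0 (gradSqC G (rm_q0 d) w) = ssanPhi (rm_lps G w) := fun w hw => by
    rw [rm_dict_sq hG ho hw]; rfl
  have hWe : (fun z => ssG0 (gradSqC G (rm_q0 d) z)) =ᶠ[𝓝 y] fun z => ssanPhi (rm_lps G z) :=
    Filter.eventuallyEq_of_mem (hG.opn.mem_nhds hy) hW
  have hWs : ContDiffOn ℝ ∞ (fun z => ssanPhi (rm_lps G z)) U := ssan_Phi_smooth.comp hvs hvI
  have hΦd : DifferentiableAt ℝ ssanPhi (rm_lps G y) := (ssan_Phi_d1 hv).differentiableAt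
  have d1 := (ssan_Phi_d1 hv).deriv
  have d2 := (ssan_Phi_d2 hv).deriv
  have dv := rm_da hG.opn hvs hy
  have hevs : ContDiffOn ℝ ∞ (rm_e G (rm_lps G)) U := rm_e_smooth hG hvs
  have hSs : ContDiffOn ℝ ∞ (rm_S G t) U := (rm_H_smooth hG).sub (rm_e_smooth hG ht)
  have hDs : ContDiffOn ℝ ∞ (fun w => 1 + rm_lps G w ^ 2) U := contDiffOn_const.add (hvs.pow 2)
  have hD0 : ∀ w ∈ U, (1 + rm_lps G w ^ 2) ≠ 0 := fun w _ => by positivity
  -- the terms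
  have t1 : lapC G (fun z => ssG0 (gradSqC G (rm_q0 d) z)) y =
      deriv ssanPhi (rm_lps G y) * lapC G (rm_lps G) y +
        deriv (deriv ssanPhi) (rm_lps G y) * gradSqC G (rm_lps G) y := by
    rw [rm_lap_congr hWe]
    exact rm_lap_comp hG hy hvs isOpen_Ioi ssan_Phi_smooth hvI
  have t2 : gradIpC G t (fun z => ssG0 (gradSqC G (rm_q0 d) z)) y =
      deriv ssanPhi (rm_lps G y) * gradIpC G t (rm_lps G) y := by
    rw [rm_ip_congr (Filter.EventuallyEq.refl _ t) hWe]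
    exact rm_ip_comp_right hΦd dv
  have t3 : gradIpC G (rm_q0 d) (fun z => ssG0 (gradSqC G (rm_q0 d) z)) y =
      deriv ssanPhi (rm_lps G y) * gradIpC G (rm_q0 d) (rm_lps G) y := by
    rw [rm_ip_congr (Filter.EventuallyEq.refl _ (rm_q0 d)) hWe]
    exact rm_ip_comp_right hΦd dv
  have t4 : ssHessUU G (fun z => ssG0 (gradSqC G (rm_q0 d) z)) (rm_q0 d) y =
      (deriv ssanPhi (rm_lps G y) * hessC G (rm_lps G) y 0 0 +
        deriv (deriv ssanPhi) (rm_lps G y) * (pdiff (rm_lps G) 0 y * pdiff (rm_lps G) 0 y)) /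
        rm_lps G y ^ 4 := by
    unfold ssHessUU
    rw [ssan_UU_q0 hG ho hy, if_hessC_congr _ hWe,
      rm_hess_comp hG.opn hy hvs isOpen_Ioi ssan_Phi_smooth hvI]
  have t5 : ssHessUU G t (rm_q0 d) y = hessC G t y 0 0 / rm_lps G y ^ 4 := by
    unfold ssHessUU
    rw [ssan_UU_q0 hG ho hy]
  have t6 : ssRicUU G (rm_q0 d) y = ricciCoord G y 0 0 / rm_lps G y ^ 4 := by
    unfold ssRicUU
    rw [ssan_UU_q0 hG ho hy]
  have hPs : ContDiffOn ℝ ∞ (fun w => rm_S G t w / rm_lps G w -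
      rm_e G (rm_lps G) w / (1 + rm_lps G w ^ 2)) U :=
    (hSs.div hvs fun w hw => (rm_lps_pos hG hw).ne').sub (hevs.div hDs hD0)
  have heW : rm_e G (fun z => ssanPhi (rm_lps G z)) y =
      deriv ssanPhi (rm_lps G y) * rm_e G (rm_lps G) y := by
    unfold rm_e
    rw [rm_pdiff_comp hΦd dv]; ring
  have heD : rm_e G (fun w => 1 + rm_lps G w ^ 2) y = 2 * rm_lps G y * rm_e G (rm_lps G) y := by
    have : (fun w => 1 + rm_lps G w ^ 2) = fun w => 1 + rm_lps G w * rm_lps G w := by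
      funext w; ring
    unfold rm_e
    rw [this, rm_pdiff_add (f := fun _ => (1 : ℝ)) (g := fun w => rm_lps G w * rm_lps G w)
      (differentiableAt_const 1) (dv.mul dv), rm_pdiff_const, rm_pdiff_mul dv dv]
    ring
  have heS : rm_e G (rm_S G t) y = rm_e G (rm_H G) y - rm_e G (rm_e G t) y :=
    ssbn_e_sub (rm_da hG.opn (rm_H_smooth hG) hy) (rm_da hG.opn (rm_e_smooth hG ht) hy)
  have heP : rm_e G (fun w => rm_S G t w / rm_lps G w -
      rm_e G (rm_lps G) w / (1 + rm_lps G w ^ 2)) y =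
      (rm_e G (rm_S G t) y * rm_lps G y - rm_S G t y * rm_e G (rm_lps G) y) / rm_lps G y ^ 2 -
      (rm_e G (rm_e G (rm_lps G)) y * (1 + rm_lps G y ^ 2) -
        rm_e G (rm_lps G) y * (2 * rm_lps G y * rm_e G (rm_lps G) y)) /
        (1 + rm_lps G y ^ 2) ^ 2 := by
    rw [ssbn_e_sub (f := fun w => rm_S G t w / rm_lps G w)
        (g := fun w => rm_e G (rm_lps G) w / (1 + rm_lps G w ^ 2))
        (rm_da hG.opn (hSs.div hvs fun w hw => (rm_lps_pos hG hw).ne') hy)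
        (rm_da hG.opn (hevs.div hDs hD0) hy),
      sscm_e_div (f := rm_S G t) (g := rm_lps G) (rm_da hG.opn hSs hy) dv hv.ne',
      sscm_e_div (f := rm_e G (rm_lps G)) (g := fun w => 1 + rm_lps G w ^ 2)
        (rm_da hG.opn hevs hy) (rm_da hG.opn hDs hy) (hD0 y hy), heD]
  have t7 : gradIpC G (ssDivC G t ssG0 (rm_q0 d)) (rm_q0 d) y =
      (deriv ssanPhi (rm_lps G y) * rm_e G (rm_lps G) y *
        (rm_S G t y / rm_lps G y - rm_e G (rm_lps G) y / (1 + rm_lps G y ^ 2)) +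
      ssanPhi (rm_lps G y) * rm_e G (fun w => rm_S G t w / rm_lps G w -
        rm_e G (rm_lps G) w / (1 + rm_lps G w ^ 2)) y) / rm_lps G y := by
    rw [rm_ip_comm hG hy _ (rm_q0 d), rm_dict_ip hG ho hy,
      sscm_e_congr_on hG.opn hy (fun w hw => ssan_div (t := t) hG ho hw),
      ssbn_e_mul (f := fun z => ssanPhi (rm_lps G z)) (g := fun w => rm_S G t w / rm_lps G w -
        rm_e G (rm_lps G) w / (1 + rm_lps G w ^ 2)) (rm_da hG.opn hWs hy) (rm_da hG.opn hPs hy),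
      heW]
  have hr := rm_adm_ric00 hG ho hy
  have hJ := rm_Jsq_nonneg hG hy
  have hQ : 0 ≤ rm_ipS G (rm_lps G) (rm_lps G) y :=
    rm_sq_nonneg (rm_sl_met hG (y 0)) (rm_mem_Us hy) _
  have hTv : rm_ipS G (rm_lps G) t y = rm_ipS G t (rm_lps G) y :=
    rm_ip_comm (rm_sl_met hG (y 0)) (rm_mem_Us hy) _ _
  have hp0 : pdiff (rm_lps G) 0 y = rm_lps G y * rm_e G (rm_lps G) y := by
    unfold rm_e; field_simp
  have hric : ricciCoord G y 0 0 = rm_lps G y ^ 2 * (- rm_e G (rm_H G) y - rm_Jsq G y -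
      rm_lapS G (rm_lps G) y / rm_lps G y) := by
    rw [← hr]; field_simp
  have hl := ssan_Phi_pos hv
  have hl2 := ssan_Phi_sq hv
  rw [t1, t2, t3, t4, t5, t6, t7, heP, heS, ssan_div hG ho hy, hW y hy, rm_dict_sq hG ho hy,
    rm_dict_ip hG ho hy, rm_adm_lap hG ho hy hvs, rm_adm_sq hG ho hy hvs, rm_adm_ip hG ho hy ht hvs,
    ssan_hess00 hG ho hy hvs, ssan_hess00 hG ho hy ht, hp0, hric, hTv, d1, d2]
  unfold rm_S
  generalize rm_ipS G t (rm_lps G) y = Tv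
  generalize rm_ipS G (rm_lps G) (rm_lps G) y = Q at hQ ⊢
  generalize rm_Jsq G y = J at hJ ⊢
  generalize rm_lapS G (rm_lps G) y = L
  generalize rm_e G (rm_e G (rm_lps G)) y = A
  generalize rm_e G (rm_lps G) y = a
  generalize rm_e G (rm_e G t) y = eet
  generalize rm_e G t y = et
  generalize rm_e G (rm_H G) y = eH
  generalize rm_H G y = H
  generalize ssanPhi (rm_lps G y) = l at hl hl2 ⊢
  generalize rm_lps G y = v at hv hl2 ⊢
  have h3 : l ^ 3 = l * (v ^ 2 / (1 + v ^ 2)) := by rw [← hl2]; ring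
  have e1 : l * ((H - et) / v - a / (1 + v ^ 2)) * (l / (v * (1 + v ^ 2)) * (a / v)) * l =
      l ^ 3 * (((H - et) / v - a / (1 + v ^ 2)) * (1 / (v * (1 + v ^ 2)) * (a / v))) := by ring
  rw [e1, h3, ← sub_nonpos]
  have hpos : 0 ≤ l * (J / (1 + v ^ 2) + 2 * Q / (1 + v ^ 2) ^ 2 +
      v ^ 2 * a ^ 2 / (1 + v ^ 2) ^ 3) := by positivity
  refine le_of_eq_of_le ?_ (neg_nonpos.2 hpos)
  have e2 : 1 + (v ^ 2)⁻¹ = (1 + v ^ 2) / v ^ 2 := by field_simp; ring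
  rw [e2]
  field_simp
  ring

end Claimed.Agent.R315
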