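import Claimed.Agent.R315.Pack010

/-!
# Row 315, paper S, Section 6.2 (initialisation, successive rounds, limit)   (package SS-ASM)

BOOKKEEPING, no analysis: only `SsRound`, `Stretched`, `Drift` and the facts of `Ss/Need.lean` (black boxes), plus `ss_reserve` as a HYPOTHESIS.
Paper: `sections/assembly.tex`, "Proof of Theorem 1.1" (without the last paragraph on log warps: ruling 4).  Theorem to prove: `ss_asm_pf`.

NOTATION `D = W R0`, `R_j = 1.004^j R0`, centres `x i` = an `(D-1)`-net (`ssn_net` with `r = D-1 > 0`),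
 `A i = {y ∈ M | rdist M g (x i) y ≤ D}` (compact: `IsProperOn`), `B i = {y ∈ M | 2D ≤ rdist M g (x i) y}`, `K i = {y ∈ M | rdist M g (x i) y ≤ 2D}` (compact, locally finite).
 If some `B i` is empty: `rdist M g y z ≤ 4D` for all `y z` (triangle inequality): first alternative.  Otherwise `far` holds.
 Budgets (`ss_budget`): `pst0 = 1/40`, `pst i = 2^{-(e i)}/80` for an injective `e : ι → ℕ`;  `L i = 10 + 2π √(2/pst i)`.
STATE in ORIGINAL units at scale `R` (`SsState`): `H ≥ g` metric, `z` smooth, `1/2 + ssV T (z x)/R² ≤ Dsc n M H z x`, and every ACTIVE label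
 (`∃ y ∈ A i, ∃ z ∈ B i, rdist M H y z ≤ L i`) satisfies `W R ≤ rdist M H y z` for all `y ∈ A i`, `z ∈ B i`.
`ss_init`: `Dsc (R0⁻² • g) w = R0² Dsc g w ≥ (3/4) R0²` (`ssn_dsc_smul`); reserve for `(R0⁻² • g, w)`: `h⁺ ≥ R0⁻² • g`, `Dsc h⁺ t⁺ ≥ (3/4)R0² + t⁺² - C(n) ≥ R0²/2 + ssV T t⁺`;
 `H_0 = R0² • h⁺ ≥ g`; distances: `rdist M H_0 ≥ rdist M g ≥ 2D - D = D = W R0` between `A i` and `B i` (triangle inequality).
`ss_macro` (one round): apply `SsRound` with `h0 := R⁻² • H`, `c := R²/2`, index type `{i // active i}`; hypotheses: `Dsc (R⁻²•H) z = R² Dsc H z ≥ R²/2 + ssV`;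
 `rdist M (R⁻²•H) = R⁻¹ rdist M H ≥ W`; if `rdist M (R⁻²•H) a y < W` with `a ∈ A i` then `y ∉ B i`, so `y ∈ K i`; properness: `ssn_proper_of_le`, `ssn_proper_smul`.
 Output `h1, t1`; `H' := R² • h1`.  `Dsc H' t1 = R⁻² Dsc h1 t1 ≥ 1/2 + (1-(n+1)δ) ssV/R² ≥ 1/2 + ssV/(1.004 R)²`.
 A label which is active for `H'` was active for `H` (`ssn_rdist_mono`), so it was treated: `rdist M H' = R rdist M h1 ≥ 1.004 W R`.
LIMIT: a label active at stage `j` has `W R_j ≤ L i`, so it is inactive for `j ≥ j_i`; near `x ∈ M` only finitely many `K i` are met; `ssn_limit` etc. as in `Ss/Round.lean`.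
 `wide`: at a stage `j ≥ j_i` the label is inactive: `L i < rdist M H_j y z ≤ rdist M h y z`.   `curv`: `1/2 ≤ Dsc`, so `2/5 ≤ Dsc`.
-/

set_option autoImplicit false
open scoped ContDiff
open MeasureTheory Claims.C0499

namespace Claimed.Agent.R315

/-- budgets. -/
theorem ss_budget (ι : Type) [Countable ι] :
    ∃ (p0 : ℝ) (p : ι → ℝ), 0 < p0 ∧ (∀ i, 0 < p i) ∧ Summable p ∧ p0 + ∑' i, p i ≤ 1 / 20 := by
  obtain ⟨e, he⟩ := Countable.exists_injective_nat ι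
  have hs : Summable (fun i => ((1 : ℝ) / 2) ^ (e i)) := summable_geometric_two.comp_injective he
  have hle : ∑' i, ((1 : ℝ) / 2) ^ (e i) ≤ 2 := by
    have := tsum_comp_le_tsum_of_inj summable_geometric_two (fun k => by positivity) he
    rw [tsum_geometric_two] at this
    exact this
  refine ⟨1 / 40, fun i => (1 / 2) ^ (e i) * (1 / 80), by norm_num, fun i => by positivity,
    hs.mul_right _, ?_⟩
  rw [tsum_mul_right]
  linarith

/-- limits of increasing, locally eventually constant sequences of pairs. -/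
theorem ss_chain_limit {n N : ℕ} {M : Set (E N)} (f : ℕ → Ten (E N) × (E N → ℝ))
    (hmet : ∀ k, IsMetricOn n M (f k).1) (hsm : ∀ k, SmoothAlong n M (f k).2)
    (hle : ∀ k, MetLE n M (f k).1 (f (k + 1)).1)
    (hstab : ∀ x ∈ M, ∃ O ∈ nhds x, ∃ k0 : ℕ, ∀ k ≥ k0, ∀ y ∈ M ∩ O,
      (f (k + 1)).1 y = (f k).1 y ∧ (f (k + 1)).2 y = (f k).2 y) :
    ∃ (h : Ten (E N)) (t : E N → ℝ), IsMetricOn n M h ∧ SmoothAlong n M t ∧
      (∀ k, MetLE n M (f k).1 h) ∧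
      ∀ x ∈ M, ∃ O ∈ nhds x, ∃ k0 : ℕ, ∀ k ≥ k0, ∀ y ∈ M ∩ O,
        h y = (f k).1 y ∧ t y = (f k).2 y := by
  have hmono : ∀ k m, k ≤ m → MetLE n M (f k).1 (f m).1 := by
    intro k m hkm
    induction m, hkm using Nat.le_induction with
    | base => exact ssn_metLE_refl _
    | succ m _ ih => exact ssn_metLE_trans ih (hle m)
  have hstab' : ∀ x ∈ M, ∃ O ∈ nhds x, ∃ k0 : ℕ, ∀ k ≥ k0, ∀ y ∈ M ∩ O,
      (fun k y => ((f k).1 y, (f k).2 y)) k y = (fun k y => ((f k).1 y, (f k).2 y)) k0 y := by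
    intro x hx
    obtain ⟨O, hO, k0, h⟩ := hstab x hx
    refine ⟨O, hO, k0, fun k hk y hy => ?_⟩
    induction k, hk using Nat.le_induction with
    | base => rfl
    | succ k hk ih =>
      obtain ⟨b1, b2⟩ := h k hk y hy
      rw [← ih]
      exact Prod.ext b1 b2
  obtain ⟨G, hG⟩ := ssn_limit (fun k y => ((f k).1 y, (f k).2 y)) hstab'
  have hG1 : ∀ x ∈ M, ∃ O ∈ nhds x, ∃ k0 : ℕ, ∀ k ≥ k0, ∀ y ∈ M ∩ O,
      (G y).1 = (f k).1 y ∧ (G y).2 = (f k).2 y := by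
    intro x hx
    obtain ⟨O, hO, k0, h⟩ := hG x hx
    exact ⟨O, hO, k0, fun k hk y hy => by rw [h k hk y hy]; exact ⟨rfl, rfl⟩⟩
  refine ⟨fun y => (G y).1, fun y => (G y).2, ?_, ?_, fun k => ?_, hG1⟩
  · exact ssn_metric_local fun x hx => by
      obtain ⟨O, hO, k0, h⟩ := hG1 x hx
      exact ⟨O, hO, (f k0).1, hmet k0, fun y hy => (h k0 le_rfl y hy).1⟩
  · exact ssn_smooth_local fun x hx => by
      obtain ⟨O, hO, k0, h⟩ := hG1 x hx
      exact ⟨O, hO, (f k0).2, hsm k0, fun y hy => (h k0 le_rfl y hy).2⟩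
  · exact ssn_metLE_pointwise fun x hx => by
      obtain ⟨O, hO, k0, h⟩ := hG1 x hx
      exact ⟨(f (max k0 k)).1, hmono k _ (le_max_right _ _),
        (h (max k0 k) (le_max_left _ _) x ⟨hx, mem_of_mem_nhds hO⟩).1⟩

/-- the state of the construction at scale `R`, in original units. -/
structure SsState (n : ℕ) {N : ℕ} (M : Set (E N)) (g : Ten (E N)) (T W : ℝ) {ι : Type}
    (A B : ι → Set (E N)) (L : ι → ℝ) (R : ℝ) (H : Ten (E N)) (z : E N → ℝ) : Prop where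
  met : IsMetricOn n M H
  le : MetLE n M g H
  smooth : SmoothAlong n M z
  curv : ∀ x ∈ M, 1 / 2 + ssV T (z x) / R ^ 2 ≤ Dsc n M H z x
  act : ∀ i, (∃ y ∈ A i, ∃ y' ∈ B i, rdist M H y y' ≤ L i) →
    ∀ y ∈ A i, ∀ y' ∈ B i, W * R ≤ rdist M H y y'

/-- the statement of S Proposition 3.2 as a hypothesis. -/
def SsReserve (n : ℕ) : Prop :=
  ∀ (N : ℕ) (M : Set (E N)) (h : Ten (E N)) (w : E N → ℝ), Carrier n M → IsMetricOn n M h →
    IsProperOn M h → SmoothAlong n M w →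
    ∃ (h' : Ten (E N)) (t' : E N → ℝ), IsMetricOn n M h' ∧ MetLE n M h h' ∧ SmoothAlong n M t' ∧
      ∀ x ∈ M, Dsc n M h w x + t' x ^ 2 - (100 * n + 203) ≤ Dsc n M h' t' x

/-- initialisation. -/
theorem ss_init (n : ℕ) (T W R0 : ℝ) (hRes : SsReserve n) (hR0 : 1 < R0)
    (hR1 : 100 * n + 203 + T ^ 2 ≤ R0 ^ 2 / 4) {N : ℕ} (M : Set (E N)) (g : Ten (E N))
    (w : E N → ℝ) (hD : Drift n M g w (3 / 4)) {ι : Type} (A B : ι → Set (E N)) (L : ι → ℝ)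
    (hAB : ∀ i, ∀ y ∈ A i, ∀ y' ∈ B i, W * R0 ≤ rdist M g y y') :
    ∃ (H : Ten (E N)) (z : E N → ℝ), SsState n M g T W A B L R0 H z := by
  have hM : Carrier n M := ⟨hD.mfd, hD.closed, hD.conn⟩
  have hR2 : 0 < R0 ^ 2 := by positivity
  have hc : 0 < (R0 ^ 2)⁻¹ := by positivity
  have hg' : IsMetricOn n M ((R0 ^ 2)⁻¹ • g) := ssn_metric_smul hc hD.met
  obtain ⟨hp, tp, q1, q2, q3, q4⟩ := hRes N M ((R0 ^ 2)⁻¹ • g) w hM hg'
    (ssn_proper_smul hc hD.proper) hD.smooth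
  have hH : IsMetricOn n M (R0 ^ 2 • hp) := ssn_metric_smul hR2 q1
  have hle : MetLE n M g (R0 ^ 2 • hp) := by
    have := ssn_metLE_smul hR2.le q2
    rwa [smul_smul, mul_inv_cancel₀ hR2.ne', one_smul] at this
  refine ⟨R0 ^ 2 • hp, tp, hH, hle, q3, fun x hx => ?_, fun i _ y hy y' hy' =>
    (hAB i y hy y' hy').trans (ssn_rdist_mono hD.mfd hD.met hH hle y y')⟩
  rw [ssn_dsc_smul hR2 hD.mfd q1 q3 hx]
  have h1 := q4 x hx
  rw [ssn_dsc_smul hc hD.mfd hD.met hD.smooth hx, inv_inv] at h1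
  have h2 := hD.bound x hx
  have h3 : R0 ^ 2 * (3 / 4) ≤ R0 ^ 2 * Dsc n M g w x := mul_le_mul_of_nonneg_left h2 hR2.le
  have h4 : R0 ^ 2 / 2 + ssV T (tp x) ≤ Dsc n M hp tp x := by
    unfold ssV
    linarith
  calc 1 / 2 + ssV T (tp x) / R0 ^ 2 = (R0 ^ 2)⁻¹ * (R0 ^ 2 / 2 + ssV T (tp x)) := by
        field_simp
    _ ≤ (R0 ^ 2)⁻¹ * Dsc n M hp tp x := mul_le_mul_of_nonneg_left h4 hc.le

/-- one round, in original units. -/
theorem ss_macro (n : ℕ) (δ W T : ℝ) (h0 : 0 < δ) (h1 : 2 * (n + 1) * δ < 1 - 1 / 1.004 ^ 2)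
    (hW : 1 ≤ W) (hR : SsRound n δ W T) {N : ℕ} (M : Set (E N)) (g : Ten (E N))
    (hM : Carrier n M) (hg : IsMetricOn n M g) (hp : IsProperOn M g) {ι : Type} [Countable ι]
    (A B K : ι → Set (E N)) (L : ι → ℝ)
    (hA : ∀ i, A i ⊆ M ∧ (A i).Nonempty ∧ IsCompact (A i) ∧ B i ⊆ M ∧ IsClosed (K i))
    (hK : ∀ i, ∀ x ∈ M, x ∈ K i ∨ x ∈ B i)
    (hlf : ∀ x ∈ M, ∃ O ∈ nhds x, {i | (K i ∩ O).Nonempty}.Finite)
    (R : ℝ) (hR0 : 1 ≤ R) (H : Ten (E N)) (z : E N → ℝ) (hS : SsState n M g T W A B L R H z) :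
    ∃ (H' : Ten (E N)) (z' : E N → ℝ), SsState n M g T W A B L (1.004 * R) H' z' ∧
      MetLE n M H H' ∧
      ∀ x ∈ M, (∀ i, (∃ y ∈ A i, ∃ y' ∈ B i, rdist M H y y' ≤ L i) → x ∉ K i) →
        H' x = H x ∧ z' x = z x := by
  have hRp : 0 < R := by linarith
  have hR2 : 0 < R ^ 2 := by positivity
  have hc : 0 < (R ^ 2)⁻¹ := by positivity
  have hsq : Real.sqrt ((R ^ 2)⁻¹) = R⁻¹ := by
    rw [← inv_pow, Real.sqrt_sq (by positivity)]
  have hsq' : Real.sqrt (R ^ 2) = R := Real.sqrt_sq hRp.le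
  have hV0 : ∀ r, 0 ≤ ssV T r := fun r => by unfold ssV; positivity
  have hh0 : IsMetricOn n M ((R ^ 2)⁻¹ • H) := ssn_metric_smul hc hS.met
  have hback : R ^ 2 • ((R ^ 2)⁻¹ • H) = H := by
    rw [smul_smul, mul_inv_cancel₀ hR2.ne', one_smul]
  have hd0 : ∀ i : {i // ∃ y ∈ A i, ∃ y' ∈ B i, rdist M H y y' ≤ L i}, ∀ x ∈ A i.1, ∀ y ∈ B i.1,
      W ≤ rdist M ((R ^ 2)⁻¹ • H) x y := by
    intro i x hx y hy
    rw [ssn_rdist_smul hc.le, hsq]
    have := hS.act i.1 i.2 x hx y hy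
    rw [inv_mul_eq_div, le_div_iff₀ hRp]
    exact this
  obtain ⟨h1', t1, q1, q2, q3, q4, q5, q6⟩ := hR N M ((R ^ 2)⁻¹ • H) z (R ^ 2 / 2)
    {i // ∃ y ∈ A i, ∃ y' ∈ B i, rdist M H y y' ≤ L i} inferInstance
    (fun i => A i.1) (fun i => B i.1) (fun i => K i.1) hM hh0
    (ssn_proper_smul hc (ssn_proper_of_le hM hg hS.met hS.le hp)) hS.smooth
    (fun x hx => by
      rw [ssn_dsc_smul hc hM.mfd hS.met hS.smooth hx, inv_inv]
      have := mul_le_mul_of_nonneg_left (hS.curv x hx) hR2.le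
      calc R ^ 2 / 2 + ssV T (z x) = R ^ 2 * (1 / 2 + ssV T (z x) / R ^ 2) := by field_simp
        _ ≤ _ := this)
    (fun i => hA i.1) hd0
    (fun i x hx hex => by
      obtain ⟨a, ha, hlt⟩ := hex
      rcases hK i.1 x hx with h | h
      · exact h
      · exact absurd (hd0 i a ha x h) (not_le.2 hlt))
    (fun x hx => by
      obtain ⟨O, hO, hfin⟩ := hlf x hx
      have := Set.Finite.preimage (f := (Subtype.val :
        {i // ∃ y ∈ A i, ∃ y' ∈ B i, rdist M H y y' ≤ L i} → ι)) (Subtype.val_injective.injOn) hfin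
      exact ⟨O, hO, this⟩)
  have hH' : IsMetricOn n M (R ^ 2 • h1') := ssn_metric_smul hR2 q1
  have hle : MetLE n M H (R ^ 2 • h1') := by
    have := ssn_metLE_smul hR2.le q2
    rwa [hback] at this
  refine ⟨R ^ 2 • h1', t1, ⟨hH', ssn_metLE_trans hS.le hle, q3, fun x hx => ?_,
    fun i hi y hy y' hy' => ?_⟩, hle, fun x hx hxK => ?_⟩
  · rw [ssn_dsc_smul hR2 hM.mfd q1 q3 hx]
    have h2 := mul_le_mul_of_nonneg_left (q5 x hx) hc.le
    refine le_trans ?_ h2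
    have hn0 : (0 : ℝ) < ((n : ℝ) + 1) * δ := by positivity
    have h3 : 1 / 1.004 ^ 2 ≤ 1 - ((n : ℝ) + 1) * δ := by linarith
    have h4 := mul_le_mul_of_nonneg_right h3 (hV0 (t1 x))
    have h5 : (R ^ 2)⁻¹ * (R ^ 2 / 2 + (1 - ((n : ℝ) + 1) * δ) * ssV T (t1 x))
        = 1 / 2 + (R ^ 2)⁻¹ * ((1 - ((n : ℝ) + 1) * δ) * ssV T (t1 x)) := by
      field_simp
    rw [h5]
    have h6 : ssV T (t1 x) / (1.004 * R) ^ 2 = (R ^ 2)⁻¹ * (1 / 1.004 ^ 2 * ssV T (t1 x)) := by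
      field_simp
    rw [h6]
    have := mul_le_mul_of_nonneg_left h4 hc.le
    linarith
  · obtain ⟨a, ha, a', ha', hle'⟩ := hi
    have hact : ∃ y ∈ A i, ∃ y' ∈ B i, rdist M H y y' ≤ L i :=
      ⟨a, ha, a', ha', (ssn_rdist_mono hM.mfd hS.met hH' hle a a').trans hle'⟩
    have := q6 ⟨i, hact⟩ y hy y' hy'
    rw [ssn_rdist_smul hR2.le, hsq']
    nlinarith
  · obtain ⟨b1, b2⟩ := q4 x hx fun i => hxK i.1 i.2
    refine ⟨?_, b2⟩
    show R ^ 2 • h1' x = H x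
    rw [b1]
    exact congrFun hback x

/-- S Section 6.2. -/
theorem ss_asm_pf (n : ℕ) (hn : 4 ≤ n) (δ W T R0 : ℝ) (h0 : 0 < δ)
    (h1 : 2 * (n + 1) * δ < 1 - 1 / 1.004 ^ 2) (hW : 1 ≤ W) (hT : 10 ≤ T)
    (hR : SsRound n δ W T) (hRes : SsReserve n) (hR0 : 1 < R0)
    (hR1 : 100 * n + 203 + T ^ 2 ≤ R0 ^ 2 / 4)
    (N : ℕ) (M : Set (E N)) (g : Ten (E N)) (w : E N → ℝ) (hD : Drift n M g w (3 / 4)) :
    (∀ y ∈ M, ∀ z ∈ M, rdist M g y z ≤ 4 * (W * R0)) ∨ Nonempty (Stretched n M g (W * R0)) := by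
  classical
  have hM : Carrier n M := ⟨hD.mfd, hD.closed, hD.conn⟩
  set D : ℝ := W * R0 with hDdef
  have hD1 : 1 < D := by rw [hDdef]; nlinarith
  obtain ⟨ι, hcnt, x, hxM, hsep, hcov, hlf⟩ := ssn_net hM hD.met hD.proper (r := D - 1)
    (by linarith)
  by_cases hfar : ∀ i, ∃ y ∈ M, 2 * D ≤ rdist M g (x i) y
  swap
  · left
    push Not at hfar
    obtain ⟨i, hi⟩ := hfar
    intro y hy z hz
    have h1 := ssn_rdist_triangle hM hD.met hy (hxM i) hz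
    rw [ssn_rdist_comm y (x i)] at h1
    linarith [hi y hy, hi z hz]
  right
  obtain ⟨p0, p, hp0, hp, hps, hple⟩ := ss_budget ι
  set L : ι → ℝ := fun i => 10 + 2 * Real.pi * Real.sqrt (2 / p i) with hL
  set A : ι → Set (E N) := fun i => {y | y ∈ M ∧ rdist M g (x i) y ≤ D} with hAdef
  set B : ι → Set (E N) := fun i => {y | y ∈ M ∧ 2 * D ≤ rdist M g (x i) y} with hBdef
  set K : ι → Set (E N) := fun i => {y | y ∈ M ∧ rdist M g (x i) y ≤ 2 * D} with hKdef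
  have hAB : ∀ i, ∀ y ∈ A i, ∀ y' ∈ B i, W * R0 ≤ rdist M g y y' := by
    intro i y hy y' hy'
    have h1 := ssn_rdist_triangle hM hD.met (hxM i) hy.1 hy'.1
    have h2 := hy.2
    have h3 := hy'.2
    linarith
  have hA : ∀ i, A i ⊆ M ∧ (A i).Nonempty ∧ IsCompact (A i) ∧ B i ⊆ M ∧ IsClosed (K i) := fun i =>
    ⟨fun y hy => hy.1, ⟨x i, hxM i, by rw [ssn_rdist_self (hxM i)]; linarith⟩,
      hD.proper (x i) (hxM i) D, fun y hy => hy.1, (hD.proper (x i) (hxM i) (2 * D)).isClosed⟩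
  have hK : ∀ i, ∀ y ∈ M, y ∈ K i ∨ y ∈ B i := fun i y hy =>
    (le_total (rdist M g (x i) y) (2 * D)).imp (fun h => ⟨hy, h⟩) fun h => ⟨hy, h⟩
  obtain ⟨H0, z0, hS0⟩ := ss_init n T W R0 hRes hR0 hR1 M g w hD A B L hAB
  set Rj : ℕ → ℝ := fun j => 1.004 ^ j * R0 with hRj
  have hRj1 : ∀ j, 1 ≤ Rj j := fun j => by
    have : (1 : ℝ) ≤ 1.004 ^ j := one_le_pow₀ (by norm_num)
    simp only [hRj]; nlinarith
  have hRjs : ∀ j, 1.004 * Rj j = Rj (j + 1) := fun j => by simp only [hRj]; ring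
  let Inv : ℕ → Ten (E N) × (E N → ℝ) → Prop := fun j q => SsState n M g T W A B L (Rj j) q.1 q.2
  let Rel : ℕ → Ten (E N) × (E N → ℝ) → Ten (E N) × (E N → ℝ) → Prop := fun _ q q' =>
    MetLE n M q.1 q'.1 ∧
      ∀ y ∈ M, (∀ i, (∃ a ∈ A i, ∃ a' ∈ B i, rdist M q.1 a a' ≤ L i) → y ∉ K i) →
        q'.1 y = q.1 y ∧ q'.2 y = q.2 y
  have hstart : Inv 0 (H0, z0) := by
    show SsState n M g T W A B L (Rj 0) H0 z0
    have : Rj 0 = R0 := by simp [hRj]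
    rw [this]; exact hS0
  have hstep : ∀ j q, Inv j q → ∃ q', Inv (j + 1) q' ∧ Rel j q q' := by
    rintro j ⟨H, z⟩ hI
    obtain ⟨H', z', r1, r2, r3⟩ := ss_macro n δ W T h0 h1 hW hR M g hM hD.met hD.proper A B K L hA
      hK (hlf (2 * D)) (Rj j) (hRj1 j) H z hI
    exact ⟨(H', z'), by rw [hRjs] at r1; exact r1, r2, r3⟩
  obtain ⟨f, hfI, hfR⟩ : ∃ f : ℕ → Ten (E N) × (E N → ℝ), (∀ k, Inv k (f k)) ∧
      ∀ k, Rel k (f k) (f (k + 1)) := by
    choose! nx hnx using hstep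
    let g' : (k : ℕ) → {q // Inv k q} := fun k =>
      Nat.rec ⟨(H0, z0), hstart⟩ (fun k q => ⟨nx k q.1, (hnx k q.1 q.2).1⟩) k
    exact ⟨fun k => (g' k).1, fun k => (g' k).2, fun k => (hnx k (g' k).1 (g' k).2).2⟩
  -- every label becomes inactive
  have hinact : ∀ i, ∃ j0, ∀ j ≥ j0, ¬ ∃ a ∈ A i, ∃ a' ∈ B i, rdist M (f j).1 a a' ≤ L i := by
    intro i
    obtain ⟨j0, hj0⟩ := pow_unbounded_of_one_lt (L i) (by norm_num : (1 : ℝ) < 1.004)
    refine ⟨j0, fun j hj hex => ?_⟩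
    have hex' := hex
    obtain ⟨a, ha, a', ha', hle⟩ := hex
    have h2 := (hfI j).act i hex' a ha a' ha'
    have h3 : (1.004 : ℝ) ^ j0 ≤ 1.004 ^ j := pow_le_pow_right₀ (by norm_num) hj
    have h4 : (1.004 : ℝ) ^ j ≤ W * Rj j := by
      have h5 : (0 : ℝ) < 1.004 ^ j := by positivity
      simp only [hRj]
      have h6 : 1 ≤ W * R0 := by nlinarith
      nlinarith
    linarith
  choose j0 hj0 using hinact
  obtain ⟨h, t, hmet, hsm, hle, hloc⟩ := ss_chain_limit (n := n) (M := M) f (fun k => (hfI k).met)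
    (fun k => (hfI k).smooth) (fun k => (hfR k).1) (fun y hy => by
      obtain ⟨O, hO, hfin⟩ := hlf (2 * D) y hy
      refine ⟨O, hO, hfin.toFinset.sup j0, fun k hk y' hy' => (hfR k).2 y' hy'.1 ?_⟩
      intro i hact hyK
      have hmem : i ∈ hfin.toFinset := hfin.mem_toFinset.2 ⟨y', hyK, hy'.2⟩
      exact hj0 i k ((Finset.le_sup (f := j0) hmem).trans hk) hact)
  exact ⟨{
    ι := ι
    cnt := hcnt
    x := x
    pst0 := p0
    pst := p
    h := h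
    t := t
    x_mem := hxM
    sep := hsep
    cov := hcov
    far := hfar
    pst0_pos := hp0
    pst_pos := hp
    pst_sum := hps
    pst_le := hple
    h_met := hmet
    h_ge := ssn_metLE_trans (hfI 0).le (hle 0)
    t_smooth := hsm
    wide := fun i y hy z hz h1 h2 => by
      have h3 := hj0 i (j0 i) le_rfl
      push Not at h3
      exact (h3 y ⟨hy, h1⟩ z ⟨hz, h2⟩).trans_le
        (ssn_rdist_mono hD.mfd (hfI (j0 i)).met hmet (hle _) y z)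
    curv := fun y hy => by
      obtain ⟨O, hO, k0, hk⟩ := hloc y hy
      rw [ssn_dsc_congr hO (hk k0 le_rfl)]
      have h1 := (hfI k0).curv y hy
      have h2 : 0 ≤ ssV T ((f k0).2 y) / Rj k0 ^ 2 := by unfold ssV; positivity
      linarith }⟩

end Claimed.Agent.R315
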