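import Claimed.Agent.R315.Pack006

/-!
# Row 315, paper S, Section 5.3: the curvature balance, ALGEBRAIC PART   (package SS-BALALG)

PURE REAL INEQUALITY, no dependencies.  Paper: `sections/stretching.tex`, subsection "Curvature balance"
((5.13)-(5.26)).  All steps were re-derived by helper59; the complete argument:

Notation `s0 = 1/100`, `Cs = 100`, `b0 = ssB0 δ = δ s0²/2000`, `ε = ssEps n = min (s0/100) (1/(8n))` (`≤ 1/(8 Cs)`), `N = √(V t)`, `V = ssV T`,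
`l² = 1-θ`, `χ² = 1 + a² s0²/θ`, `1 + m1 = θ/(θ+a² s0²) = 1/χ² ∈ (0,1]`, `bs = -β = -(1/2) log(1-θ) ≥ 0`, `tu = t + bs`.

STEP 1 (squares).  `E = J2 + χ²F² + K²/l² - 2(1+m1)χFK + 2χ Ft H - 2χ² F Ft - 2χ Ft K + 2χ Fx exi`;
  `J2 + 2χ Ft H ≥ H²/(n-1) + 2χ Ft H ≥ -(n-1) χ² Ft²`;  `K²/l² - 2χK((1+m1)F+Ft) ≥ -l² χ² ((1+m1)F+Ft)²`.  So
  `E ≥ χ² C + 2χ Fx exi`,  `C = [1-l²(1+m1)²]F² - 2[1+l²(1+m1)] F Ft - n Ft²`.
STEP 2 (reserve increment) `max (V tu - V t) 0 ≤ 2 N bs + bs²`.  If `θ ≤ 1/2`: `bs ≤ θ`.  If `θ > 1/2`: `s > 1`, `bs ≤ (1/2) log(1+s²) ≤ log(1+s) ≤ √s`.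
  In both cases `max (V tu - V t) 0 ≤ θ * 4(1+s)N` (second case: `2N√s + s ≤ N + N s + s ≤ 2(1+s)N ≤ θ 4(1+s)N`).
STEP 3 (`V t ≤ 2 V tu` if `0 ≤ bs < 3`): `2V(t+c) - V t = (t+2c)² + T² - 2c² > 0`.
STEP 4 (`s ≥ s0`).  `1 ≤ χ`, `χ² ≤ 4` (`θ ≥ a² s²/(1+s²) ≥ a² s0²/(1+s0²)`).  `Ft² ≤ ε |F Ft|`, `n ε ≤ 1/8`:
  `C ≥ -5 ε Fx`, and `20 Fx ≤ -(F Ft) → C ≥ 20 Fx`.
  (a) second alternative of `hx`: `exi ≥ (s - s0/4)/η ≥ 3s/4`, `E ≥ (3s/2 - 20ε)Fx ≥ s Fx`.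
  (b) `exi ≥ s - b`, `s > 8b`: `E ≥ (7s/4 - 20 ε) Fx ≥ s Fx`.
  (c) `exi ≥ s - b`, `s ≤ 8b`: `2χ(s-b) - s ≥ -4`, so `E ≥ χ² C + s Fx - 4 Fx`.  If `20 Fx ≤ -(F Ft)`: `E ≥ s Fx`.  Otherwise `Fx ≤ b0 V t`,
      `E ≥ s Fx - 10 b0 V t`; `s ≤ 8` gives `bs ≤ (1/2) log 65 < 3`, `V t ≤ 2 V tu`, `b ≥ s0/8`: `10 b0 V t ≤ (δ s0²/100) V tu ≤ δ b² V tu`.
  In all cases `E ≥ s Fx - δ b² V tu ≥ 4(1+s)N - δ b² V tu` (`Fx ≥ 1000 N`, `s ≥ 1/100`).  Multiply by `θ`, use STEP 2.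
STEP 5 (`s ≤ s0`, so `μ = a²`).  `1+m1 ≤ 1/2`, `C ≥ (3/4 - 3ε - nε²)F² ≥ F²/2`.  `exi ≥ -Cs χ`:
  first alternative: `exi ≥ -1 ≥ -χ`;  second: if `exi < 0` then `s < dη`, `|exi| ≤ dη/η`, `χ ≥ s0/s`, `|exi|/χ ≤ dη s/(η s0) ≤ dη²/(η s0) ≤ Cs`.
  `E ≥ χ²[F²/2 - 2 Cs Fx] ≥ χ²[(1/2 - 2 Cs ε)F² - 2 Cs b0 V t] ≥ -200 b0 χ² V t`;  `θ χ² = θ + a² s0² ≤ 2 a² s0²`;
  `bs ≤ θ ≤ a² s0²`, `max (V tu - V t) 0 ≤ 3 a² V t`, `V t ≤ 2 V tu`;  total loss `≤ (2*200 b0 + 3) a² * 2 V tu ≤ (dd/2) V tu`.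
-/

set_option autoImplicit false

namespace Claimed.Agent.R315

/-- `b0 = δ s0²/2000`. -/
noncomputable def ssB0 (δ : ℝ) : ℝ := δ / 20000000

/-- `ε = min {s0/100, 1/(8n), 1/(8 C_*)}`. -/
noncomputable def ssEps (n : ℕ) : ℝ := min (1 / 10000) (1 / (8 * (n : ℝ)))

theorem ssba_sq (n' χ l2 q H K J2 F Ft Fx exi : ℝ) (hn : 1 < n') (hl0 : 0 < l2) (hl1 : l2 ≤ 1)
    (hJ : H ^ 2 / (n' - 1) ≤ J2) :
    χ ^ 2 * ((1 - l2 * q ^ 2) * F ^ 2 - 2 * (1 + l2 * q) * (F * Ft) - n' * Ft ^ 2)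
        + 2 * χ * (Fx * exi)
      ≤ J2 + (χ * F) ^ 2 + K ^ 2 / l2 - 2 * (χ * F) * K
        + 2 * (-(q - 1) * K * (χ * F) + χ * (Ft * (H - χ * F - K) + Fx * exi)) := by
  have hn1 : 0 < n' - 1 := by linarith
  have h1 : 0 ≤ (H + (n' - 1) * χ * Ft) ^ 2 / (n' - 1) := by positivity
  have h2 : 0 ≤ (K - l2 * χ * (q * F + Ft)) ^ 2 / l2 := by positivity
  have h3 : 0 ≤ (1 - l2) * (χ * Ft) ^ 2 := mul_nonneg (by linarith) (sq_nonneg _)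
  have e1 : (H + (n' - 1) * χ * Ft) ^ 2 / (n' - 1)
      = H ^ 2 / (n' - 1) + 2 * χ * Ft * H + (n' - 1) * χ ^ 2 * Ft ^ 2 := by
    field_simp
    ring
  have e2 : (K - l2 * χ * (q * F + Ft)) ^ 2 / l2
      = K ^ 2 / l2 - 2 * χ * K * (q * F + Ft) + l2 * χ ^ 2 * (q * F + Ft) ^ 2 := by
    field_simp
    ring
  rw [e1] at h1
  rw [e2] at h2
  nlinarith [h1, h2, h3, hJ]

theorem ssba_log (s θ : ℝ) (hs : 0 < s) (hθs : θ ≤ s ^ 2 / (1 + s ^ 2)) (hθ0 : 0 < θ) :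
    0 ≤ -(Real.log (1 - θ) / 2) ∧ -(Real.log (1 - θ) / 2) ≤ 2 * (Real.sqrt (1 + s) - 1) ∧
      (θ ≤ 1 / 2 → -(Real.log (1 - θ) / 2) ≤ θ) := by
  have hs2 : 0 < 1 + s ^ 2 := by positivity
  have h1 : 1 / (1 + s ^ 2) ≤ 1 - θ := by
    have : s ^ 2 / (1 + s ^ 2) = 1 - 1 / (1 + s ^ 2) := by
      field_simp
      ring
    linarith
  have hpos : 0 < 1 - θ := lt_of_lt_of_le (by positivity) h1
  refine ⟨?_, ?_, ?_⟩
  · have := Real.log_nonpos hpos.le (by linarith)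
    linarith
  · have hx0 : 0 < Real.sqrt (1 + s) := Real.sqrt_pos.2 (by linarith)
    have hx2 : Real.sqrt (1 + s) ^ 2 = 1 + s := Real.sq_sqrt (by linarith)
    have h2 : Real.log (1 / (1 + s ^ 2)) ≤ Real.log (1 - θ) := Real.log_le_log (by positivity) h1
    rw [one_div, Real.log_inv] at h2
    have h3 : Real.log (1 + s ^ 2) ≤ Real.log (Real.sqrt (1 + s) ^ 4) :=
      Real.log_le_log hs2 (by
        have : Real.sqrt (1 + s) ^ 4 = (1 + s) ^ 2 := by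
          calc Real.sqrt (1 + s) ^ 4 = (Real.sqrt (1 + s) ^ 2) ^ 2 := by ring
            _ = (1 + s) ^ 2 := by rw [hx2]
        rw [this]
        nlinarith)
    rw [Real.log_pow] at h3
    have h4 := Real.log_le_sub_one_of_pos hx0
    push_cast at h3
    linarith
  · intro hθ2
    have h5 := Real.log_le_sub_one_of_pos (inv_pos.2 hpos)
    rw [Real.log_inv] at h5
    have h6 : (1 - θ)⁻¹ ≤ 1 + 2 * θ := by
      rw [inv_le_iff_one_le_mul₀ hpos]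
      nlinarith
    linarith

theorem ssba_incr (T t c : ℝ) (hc : 0 ≤ c) :
    max (ssV T (t + c) - ssV T t) 0 ≤ 2 * Real.sqrt (ssV T t) * c + c ^ 2 := by
  have h1 : |t| ≤ Real.sqrt (ssV T t) := Real.abs_le_sqrt (by
    unfold ssV
    nlinarith [sq_nonneg T])
  have h2 : t ≤ Real.sqrt (ssV T t) := (le_abs_self t).trans h1
  have h3 : 0 ≤ Real.sqrt (ssV T t) := Real.sqrt_nonneg _
  apply max_le
  · have h4 := mul_le_mul_of_nonneg_right h2 hc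
    have h5 : ssV T (t + c) - ssV T t = 2 * (t * c) + c ^ 2 := by
      unfold ssV
      ring
    rw [h5]
    linarith
  · positivity

theorem ssba_two (T t c : ℝ) (hT : 10 ≤ T) (hc0 : 0 ≤ c) (hc : c ≤ 4) :
    ssV T t ≤ 2 * ssV T (t + c) := by
  have h1 : c ^ 2 ≤ 16 := by nlinarith
  have h2 : 100 ≤ T ^ 2 := by nlinarith
  unfold ssV
  nlinarith [sq_nonneg (t + 2 * c)]

theorem ssba_step2 (s θ c N : ℝ) (hN : 10 ≤ N) (hs : 0 < s) (hθ0 : 0 < θ) (hθ1 : θ ≤ 1)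
    (hc0 : 0 ≤ c) (hc1 : c ≤ 2 * (Real.sqrt (1 + s) - 1)) (hc2 : θ ≤ 1 / 2 → c ≤ θ) :
    2 * N * c + c ^ 2 ≤ θ * (4 * (1 + s) * N) := by
  rcases le_or_gt θ (1 / 2) with h | h
  · have hc := hc2 h
    have h1 : c ^ 2 ≤ θ := by nlinarith
    have h2 : 2 * N * c ≤ 2 * N * θ := by nlinarith
    have h3 : 0 ≤ θ * s * N := by positivity
    have h4 : θ * 10 ≤ θ * N := by nlinarith
    nlinarith
  · set y : ℝ := Real.sqrt (1 + s) - 1 with hy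
    have hy2 : (y + 1) ^ 2 = 1 + s := by
      rw [hy, sub_add_cancel]
      exact Real.sq_sqrt (by linarith)
    have hy0 : 0 ≤ y := by linarith
    have h1 : c ^ 2 ≤ 4 * y ^ 2 := by nlinarith
    have h2 : 2 * N * c ≤ 4 * N * y := by nlinarith
    have h3 : 4 * y ^ 2 ≤ 2 * N * y ^ 2 := by nlinarith [sq_nonneg y]
    have h4 : 2 * ((1 + s) * N) ≤ θ * (4 * (1 + s) * N) := by
      have : 0 ≤ (1 + s) * N := by positivity
      nlinarith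
    have h5 : 2 * ((1 + s) * N) = 2 * N * y ^ 2 + 4 * N * y + 2 * N := by
      rw [← hy2]
      ring
    linarith

theorem ssba_C (n' ε c1 c2 F Ft Fx : ℝ) (hn0 : 0 ≤ n') (hε0 : 0 ≤ ε) (hnε : n' * ε ≤ 1 / 8)
    (hc1 : 0 ≤ c1) (hc2 : 1 ≤ c2) (hc2' : c2 ≤ 2) (hFx : 0 ≤ Fx) (p2 : |Ft| ≤ ε * |F|)
    (p3 : F * Ft ≤ ε * Fx) :
    -5 * ε * Fx ≤ c1 * F ^ 2 - 2 * c2 * (F * Ft) - n' * Ft ^ 2 ∧
      (20 * Fx ≤ -(F * Ft) → 20 * Fx ≤ c1 * F ^ 2 - 2 * c2 * (F * Ft) - n' * Ft ^ 2) := by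
  have h1 : Ft ^ 2 ≤ ε * |F * Ft| := by
    rw [← sq_abs, abs_mul]
    nlinarith [abs_nonneg Ft, abs_nonneg F]
  have h2 : n' * Ft ^ 2 ≤ 1 / 8 * |F * Ft| := by
    have h3 : n' * Ft ^ 2 ≤ n' * (ε * |F * Ft|) := mul_le_mul_of_nonneg_left h1 hn0
    have h4 : n' * ε * |F * Ft| ≤ 1 / 8 * |F * Ft| :=
      mul_le_mul_of_nonneg_right hnε (abs_nonneg _)
    linarith
  have h5 : 0 ≤ c1 * F ^ 2 := by positivity
  have h6 : 0 ≤ ε * Fx := by positivity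
  rcases le_or_gt 0 (F * Ft) with h | h
  · rw [abs_of_nonneg h] at h2
    have h7 : c2 * (F * Ft) ≤ 2 * (F * Ft) := mul_le_mul_of_nonneg_right hc2' h
    constructor
    · linarith
    · intro h8
      linarith
  · rw [abs_of_neg h] at h2
    have h7 : c2 * (F * Ft) ≤ 1 * (F * Ft) := mul_le_mul_of_nonpos_right hc2 h.le
    constructor
    · linarith
    · intro h8
      linarith

theorem ssba_xe (ξ eη dη : ℝ) (hξ : |ξ| ≤ 1) (he : |eη| ≤ dη) : ξ * eη ≤ dη := by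
  calc ξ * eη ≤ |ξ * eη| := le_abs_self _
    _ = |ξ| * |eη| := abs_mul _ _
    _ ≤ 1 * dη := mul_le_mul hξ he (abs_nonneg _) zero_le_one
    _ = dη := one_mul _

theorem ssba_exi4 (s exi η ξ eη dη : ℝ) (hs : 1 / 100 ≤ s) (hη0 : 0 < η) (hη1 : η ≤ 1)
    (hξ : |ξ| ≤ 1) (he : |eη| ≤ dη) (hd : dη ≤ 1 / 400) (hexi : exi = (s - ξ * eη) / η) :
    3 * s / 4 ≤ exi := by
  have h1 := ssba_xe ξ eη dη hξ he
  rw [hexi, le_div_iff₀ hη0]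
  have h2 := mul_le_mul_of_nonneg_left hη1 (show 0 ≤ 3 * s / 4 by linarith)
  linarith

theorem ssba_step4 (s χ ε Fx C P exi b δ Vt Vtu : ℝ) (hs : 1 / 100 ≤ s) (hχ1 : 1 ≤ χ)
    (hχ2 : χ ≤ 2) (hε0 : 0 ≤ ε) (hε1 : ε ≤ 1 / 10000) (hFx : 0 ≤ Fx) (hC1 : -5 * ε * Fx ≤ C)
    (hC2 : 20 * Fx ≤ -P → 20 * Fx ≤ C) (p4 : Fx ≤ ssB0 δ * Vt ∨ 20 * Fx ≤ -P)
    (hb0 : 0 ≤ b) (hb1 : b ≤ 1) (hδ : 0 < δ) (hV : s ≤ 8 → Vt ≤ 2 * Vtu) (hVtu : 0 ≤ Vtu)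
    (hx : 3 * s / 4 ≤ exi ∨ s - b ≤ exi) :
    s * Fx - δ * b ^ 2 * Vtu ≤ χ ^ 2 * C + 2 * χ * (Fx * exi) := by
  have hχsq1 : 1 ≤ χ ^ 2 := by nlinarith
  have hχsq4 : χ ^ 2 ≤ 4 := by nlinarith
  have hεFx : 0 ≤ ε * Fx := by positivity
  have hloss : 0 ≤ δ * b ^ 2 * Vtu := by positivity
  have hC3 : -20 * (ε * Fx) ≤ χ ^ 2 * C := by
    have h1 : χ ^ 2 * (-5 * ε * Fx) ≤ χ ^ 2 * C := mul_le_mul_of_nonneg_left hC1 (by positivity)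
    have h2 : χ ^ 2 * (ε * Fx) ≤ 4 * (ε * Fx) := mul_le_mul_of_nonneg_right hχsq4 hεFx
    linarith
  have hεs : 20 * (ε * Fx) ≤ 1 / 500 * Fx := by
    have := mul_le_mul_of_nonneg_right hε1 hFx
    linarith
  have caseA : 3 * s / 4 ≤ exi → s * Fx - δ * b ^ 2 * Vtu ≤ χ ^ 2 * C + 2 * χ * (Fx * exi) := by
    intro h
    have h1 : Fx * (3 * s / 4) ≤ Fx * exi := mul_le_mul_of_nonneg_left h hFx
    have h2 : 0 ≤ Fx * (3 * s / 4) := mul_nonneg hFx (by linarith)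
    have h3 : 1 * (Fx * exi) ≤ χ * (Fx * exi) := mul_le_mul_of_nonneg_right hχ1 (by linarith)
    have h4 : 1 / 100 * Fx ≤ s * Fx := mul_le_mul_of_nonneg_right hs hFx
    linarith
  rcases hx with hx | hx
  · exact caseA hx
  · rcases lt_or_ge (8 * b) s with hsb | hsb
    · exact caseA (by linarith)
    · have h1 : Fx * (s - b) ≤ Fx * exi := mul_le_mul_of_nonneg_left hx hFx
      have h2 : χ * (Fx * (s - b)) ≤ χ * (Fx * exi) := mul_le_mul_of_nonneg_left h1 (by linarith)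
      have h3 : s - 4 ≤ 2 * χ * (s - b) := by
        rcases le_or_gt b s with h | h
        · have := mul_le_mul_of_nonneg_right hχ1 (show 0 ≤ s - b by linarith)
          linarith
        · have := mul_le_mul_of_nonpos_right hχ2 (show s - b ≤ 0 by linarith)
          linarith
      have h4 : (s - 4) * Fx ≤ 2 * χ * (s - b) * Fx := mul_le_mul_of_nonneg_right h3 hFx
      rcases p4 with p4 | p4
      · have h5 := hV (by linarith)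
        have h6 : 1 / 640000 ≤ b ^ 2 := by nlinarith
        have h7 : δ * (1 / 640000) * Vtu ≤ δ * b ^ 2 * Vtu := by
          have := mul_le_mul_of_nonneg_left h6 hδ.le
          exact mul_le_mul_of_nonneg_right this hVtu
        have h8 : ssB0 δ * Vt ≤ ssB0 δ * (2 * Vtu) :=
          mul_le_mul_of_nonneg_left h5 (by unfold ssB0; positivity)
        have h9 : 0 ≤ δ * Vtu := by positivity
        unfold ssB0 at h8 p4
        nlinarith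
      · have h5 := hC2 p4
        have h6 : 1 * C ≤ χ ^ 2 * C := mul_le_mul_of_nonneg_right hχsq1 (by linarith)
        nlinarith

theorem ssba_C5 (n' ε c1 c2 F Ft : ℝ) (hn0 : 0 ≤ n') (hε0 : 0 ≤ ε) (hε1 : ε ≤ 1 / 10000)
    (hnε : n' * ε ≤ 1 / 8) (hc1 : 3 / 4 ≤ c1) (hc2 : 0 ≤ c2) (hc2' : c2 ≤ 3 / 2)
    (p2 : |Ft| ≤ ε * |F|) :
    F ^ 2 / 2 ≤ c1 * F ^ 2 - 2 * c2 * (F * Ft) - n' * Ft ^ 2 := by
  have hF2 : 0 ≤ F ^ 2 := sq_nonneg F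
  have h1 : F * Ft ≤ ε * F ^ 2 := by
    calc F * Ft ≤ |F * Ft| := le_abs_self _
      _ = |F| * |Ft| := abs_mul _ _
      _ ≤ |F| * (ε * |F|) := mul_le_mul_of_nonneg_left p2 (abs_nonneg _)
      _ = ε * |F| ^ 2 := by ring
      _ = ε * F ^ 2 := by rw [sq_abs]
  have h1' : -(ε * F ^ 2) ≤ F * Ft := by
    have : -(F * Ft) ≤ ε * F ^ 2 := by
      calc -(F * Ft) ≤ |F * Ft| := neg_le_abs _
        _ = |F| * |Ft| := abs_mul _ _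
        _ ≤ |F| * (ε * |F|) := mul_le_mul_of_nonneg_left p2 (abs_nonneg _)
        _ = ε * |F| ^ 2 := by ring
        _ = ε * F ^ 2 := by rw [sq_abs]
    linarith
  have h2 : Ft ^ 2 ≤ ε * (ε * F ^ 2) := by
    have h3 : |Ft| ^ 2 ≤ (ε * |F|) ^ 2 := pow_le_pow_left₀ (abs_nonneg _) p2 2
    rw [sq_abs, mul_pow, sq_abs] at h3
    nlinarith
  have hεF : 0 ≤ ε * F ^ 2 := by positivity
  have h4 : n' * Ft ^ 2 ≤ 1 / 8 * (ε * F ^ 2) := by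
    have h5 : n' * Ft ^ 2 ≤ n' * (ε * (ε * F ^ 2)) := mul_le_mul_of_nonneg_left h2 hn0
    have h6 : n' * ε * (ε * F ^ 2) ≤ 1 / 8 * (ε * F ^ 2) := mul_le_mul_of_nonneg_right hnε hεF
    linarith
  have h7 : c2 * (F * Ft) ≤ 3 / 2 * (ε * F ^ 2) := by
    calc c2 * (F * Ft) ≤ c2 * (ε * F ^ 2) := mul_le_mul_of_nonneg_left h1 hc2
      _ ≤ 3 / 2 * (ε * F ^ 2) := mul_le_mul_of_nonneg_right hc2' hεF
  have h8 : 3 / 4 * F ^ 2 ≤ c1 * F ^ 2 := mul_le_mul_of_nonneg_right hc1 hF2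
  have h9 : ε * F ^ 2 ≤ 1 / 10000 * F ^ 2 := mul_le_mul_of_nonneg_right hε1 hF2
  linarith

theorem ssba_exi5 (s χ exi b : ℝ) (hs : 0 < s) (hχ1 : 1 ≤ χ) (hχs : 1 / 100 ≤ χ * s)
    (hb1 : b ≤ 1)
    (hx : s - b ≤ exi ∨ ∃ η ξ eη dη : ℝ, 0 < η ∧ η ≤ 1 ∧ |ξ| ≤ 1 ∧ |eη| ≤ dη ∧ dη ≤ 1 / 400 ∧
      dη ^ 2 ≤ η ∧ exi = (s - ξ * eη) / η) : -100 * χ ≤ exi := by
  rcases hx with hx | ⟨η, ξ, eη, dη, hη0, hη1, hξ, he, hd, hdη, hexi⟩
  · linarith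
  · have h1 := ssba_xe ξ eη dη hξ he
    have hd0 : 0 ≤ dη := (abs_nonneg _).trans he
    rw [hexi, le_div_iff₀ hη0]
    rcases le_or_gt dη s with h | h
    · have : 0 ≤ χ * η := by positivity
      linarith
    · have h2 : χ * dη ^ 2 ≤ χ * η := mul_le_mul_of_nonneg_left hdη (by linarith)
      have h3 : χ * (dη * s) ≤ χ * dη ^ 2 := by
        refine mul_le_mul_of_nonneg_left ?_ (by linarith)
        nlinarith
      have h4 : 1 / 100 * dη ≤ χ * s * dη := mul_le_mul_of_nonneg_right hχs hd0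
      nlinarith

theorem ssba_step5 (χ θ A a ε F Fx C exi Eq b0 Vt : ℝ) (hχ0 : 0 ≤ χ) (hθ0 : 0 < θ)
    (hθA : θ ≤ A) (hA : A ≤ a ^ 2) (hθχ : θ * χ ^ 2 = θ + A) (hε1 : ε ≤ 1 / 10000)
    (hFx : 0 ≤ Fx) (hC : F ^ 2 / 2 ≤ C) (hexi : -100 * χ ≤ exi)
    (p5 : Fx ≤ b0 * Vt + ε * F ^ 2) (hbV : 0 ≤ b0 * Vt)
    (hE : χ ^ 2 * C + 2 * χ * (Fx * exi) ≤ Eq) :
    -(2 * (200 * b0)) * a ^ 2 * Vt ≤ θ * Eq := by
  have hχ2 : 0 ≤ χ ^ 2 := sq_nonneg χ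
  have h1 : χ ^ 2 * (F ^ 2 / 2) ≤ χ ^ 2 * C := mul_le_mul_of_nonneg_left hC hχ2
  have h2 : Fx * (-100 * χ) ≤ Fx * exi := mul_le_mul_of_nonneg_left hexi hFx
  have h3 : χ * (Fx * (-100 * χ)) ≤ χ * (Fx * exi) := mul_le_mul_of_nonneg_left h2 hχ0
  have h4 : χ ^ 2 * Fx ≤ χ ^ 2 * (b0 * Vt + ε * F ^ 2) := mul_le_mul_of_nonneg_left p5 hχ2
  have h5 : ε * (χ ^ 2 * F ^ 2) ≤ 1 / 10000 * (χ ^ 2 * F ^ 2) :=
    mul_le_mul_of_nonneg_right hε1 (by positivity)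
  have h5' : 0 ≤ χ ^ 2 * F ^ 2 := by positivity
  have h6 : -200 * (χ ^ 2 * (b0 * Vt)) ≤ Eq := by nlinarith
  have h7 : θ * (-200 * (χ ^ 2 * (b0 * Vt))) ≤ θ * Eq := mul_le_mul_of_nonneg_left h6 hθ0.le
  have h8 : θ * (-200 * (χ ^ 2 * (b0 * Vt))) = -200 * ((θ + A) * (b0 * Vt)) := by
    rw [← hθχ]
    ring
  have h9 : (θ + A) * (b0 * Vt) ≤ (2 * a ^ 2) * (b0 * Vt) :=
    mul_le_mul_of_nonneg_right (by linarith) hbV
  nlinarith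

theorem ssba_N10 (T t : ℝ) (hT : 10 ≤ T) : 10 ≤ Real.sqrt (ssV T t) := by
  apply Real.le_sqrt_of_sq_le
  unfold ssV
  nlinarith [sq_nonneg t]

/-- S (5.26) at a point of positive slope, as an inequality between real numbers. -/
theorem ss_bal_alg (n : ℕ) (hn : 4 ≤ n) (δ dd a T : ℝ) (hδ0 : 0 < δ) (hδ1 : δ < 1 / 10)
    (hd : 0 < dd) (ha0 : 0 < a) (ha1 : a ≤ 1 / 2) (hT : 10 ≤ T)
    (hch : (2 * (200 * ssB0 δ) + 3) * a ^ 2 ≤ dd / 4)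
    (s μ θ χ m1 t H K J2 F Ft Fx exi b M1 eM1 Eq bs : ℝ) (hs : 0 < s)
    (hμ1 : a ^ 2 ≤ μ) (hμ2 : μ ≤ 1) (hμs : s ≤ 1 / 100 → μ = a ^ 2) (hμl : 5 / 100 ≤ s → μ = 1)
    (hθ : θ = μ * s ^ 2 / (1 + s ^ 2))
    (hχ : χ = Real.sqrt (1 + a ^ 2 * (1 / 100) ^ 2 / θ))
    (hm1 : m1 = -(a ^ 2 * (1 / 100) ^ 2) / (θ + a ^ 2 * (1 / 100) ^ 2))
    (hJ : H ^ 2 / ((n : ℝ) - 1) ≤ J2) (hb0 : 0 ≤ b) (hb1 : b ≤ 1)
    (p1 : 1000 * Real.sqrt (ssV T t) ≤ Fx) (p2 : |Ft| ≤ ssEps n * |F|)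
    (p3 : F * Ft ≤ ssEps n * Fx)
    (p4 : Fx ≤ ssB0 δ * ssV T t ∨ 20 * Fx ≤ -(F * Ft))
    (p5 : Fx ≤ ssB0 δ * ssV T t + ssEps n * F ^ 2)
    (hx : s - b ≤ exi ∨ ∃ η ξ eη dη : ℝ, 0 < η ∧ η ≤ 1 ∧ |ξ| ≤ 1 ∧ |eη| ≤ dη ∧ dη ≤ 1 / 400 ∧
      dη ^ 2 ≤ η ∧ exi = (s - ξ * eη) / η)
    (hM1 : M1 = χ * F)
    (heM1 : eM1 = -m1 * K * M1 + χ * (Ft * (H - M1 - K) + Fx * exi))
    (hE : Eq = J2 + M1 ^ 2 + K ^ 2 / (1 - θ) - 2 * M1 * K + 2 * eM1)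
    (hbs : bs = -(Real.log (1 - θ) / 2)) :
    max (ssV T (t + bs) - ssV T t) 0 - δ * (θ * b ^ 2) * ssV T (t + bs) - dd / 2 * ssV T (t + bs)
      ≤ θ * Eq := by
  have hn' : (4 : ℝ) ≤ n := by exact_mod_cast hn
  set A : ℝ := a ^ 2 * (1 / 100) ^ 2 with hA
  have hA0 : 0 < A := by positivity
  have hs2 : 0 < 1 + s ^ 2 := by positivity
  have hμ0 : 0 < μ := lt_of_lt_of_le (by positivity) hμ1
  have hθ0 : 0 < θ := by
    rw [hθ]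
    positivity
  have hθm : θ * (1 + s ^ 2) = μ * s ^ 2 := by
    rw [hθ]
    field_simp
  have hθs : θ ≤ s ^ 2 / (1 + s ^ 2) := by
    rw [hθ]
    exact div_le_div_of_nonneg_right (mul_le_of_le_one_left (sq_nonneg s) hμ2) hs2.le
  have hθ1 : θ < 1 := lt_of_le_of_lt hθs (by
    rw [div_lt_one hs2]
    linarith)
  have hAθ : 0 < A / θ := div_pos hA0 hθ0
  have hχsq : χ ^ 2 = 1 + A / θ := by
    rw [hχ, Real.sq_sqrt (by positivity)]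
  have hχ1 : 1 ≤ χ := by
    rw [hχ]
    exact Real.one_le_sqrt.2 (by linarith)
  have hθχ : θ * χ ^ 2 = θ + A := by
    rw [hχsq]
    field_simp
  set q : ℝ := θ / (θ + A) with hq
  have hm1q : m1 = q - 1 := by
    rw [hm1, hq]
    field_simp
    ring
  have hq0 : 0 ≤ q := by positivity
  have hq1 : q ≤ 1 := by
    rw [hq, div_le_one (by positivity)]
    linarith
  set ε : ℝ := ssEps n with hε
  have hε0 : 0 < ε := by
    rw [hε]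
    unfold ssEps
    positivity
  have hε1 : ε ≤ 1 / 10000 := min_le_left _ _
  have hnε : (n : ℝ) * ε ≤ 1 / 8 := by
    have h1 : ε ≤ 1 / (8 * (n : ℝ)) := min_le_right _ _
    calc (n : ℝ) * ε ≤ n * (1 / (8 * n)) := mul_le_mul_of_nonneg_left h1 (by positivity)
      _ = 1 / 8 := by field_simp
  set N : ℝ := Real.sqrt (ssV T t) with hN
  have hVt : ssV T t = N ^ 2 := (Real.sq_sqrt (by unfold ssV; positivity)).symm
  have hN10 : 10 ≤ N := ssba_N10 T t hT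
  have hFx : 0 ≤ Fx := by linarith
  obtain ⟨hbs0, hbs1, hbs2⟩ := ssba_log s θ hs hθs hθ0
  rw [← hbs] at hbs0 hbs1 hbs2
  have hincr := ssba_incr T t bs hbs0
  rw [← hN] at hincr
  have hVtu : 0 ≤ ssV T (t + bs) := by
    unfold ssV
    positivity
  set C : ℝ := (1 - (1 - θ) * q ^ 2) * F ^ 2 - 2 * (1 + (1 - θ) * q) * (F * Ft)
    - (n : ℝ) * Ft ^ 2 with hC
  have hE1 : χ ^ 2 * C + 2 * χ * (Fx * exi) ≤ Eq := by
    have h1 := ssba_sq n χ (1 - θ) q H K J2 F Ft Fx exi (by linarith) (by linarith)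
      (by linarith) hJ
    rw [hE, heM1, hM1, hm1q]
    exact h1
  have hlq0 : 0 ≤ (1 - θ) * q := mul_nonneg (by linarith) hq0
  have hlq1 : (1 - θ) * q ≤ q := mul_le_of_le_one_left hq0 (by linarith)
  have hlqq : (1 - θ) * q ^ 2 ≤ q * q := by
    rw [sq]
    exact mul_le_of_le_one_left (mul_nonneg hq0 hq0) (by linarith)
  have hloss : 0 ≤ δ * (θ * b ^ 2) * ssV T (t + bs) := by positivity
  have hdd : 0 ≤ dd / 2 * ssV T (t + bs) := by positivity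
  rcases le_total s (1 / 100) with hs0 | hs0
  · have hμa := hμs hs0
    have hs00 : s ^ 2 ≤ (1 / 100) ^ 2 := pow_le_pow_left₀ hs.le hs0 2
    have hθa : θ ≤ a ^ 2 * s ^ 2 := by
      have h1 : θ * 1 ≤ θ * (1 + s ^ 2) :=
        mul_le_mul_of_nonneg_left (by linarith [sq_nonneg s]) hθ0.le
      rw [hθm, hμa] at h1
      linarith
    have hθA : θ ≤ A := hθa.trans (mul_le_mul_of_nonneg_left hs00 (by positivity))
    have hAa : A = a ^ 2 / 10000 := by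
      rw [hA]
      ring
    have ha2 : a ^ 2 ≤ 1 / 4 := by
      calc a ^ 2 ≤ (1 / 2) ^ 2 := pow_le_pow_left₀ ha0.le ha1 2
        _ = 1 / 4 := by norm_num
    have ha20 : 0 ≤ a ^ 2 := sq_nonneg a
    have hq2 : q ≤ 1 / 2 := by
      rw [hq, div_le_iff₀ (by positivity)]
      linarith
    have hqq : q * q ≤ 1 / 2 * (1 / 2) := mul_le_mul hq2 hq2 hq0 (by norm_num)
    have hC5 : F ^ 2 / 2 ≤ C :=
      ssba_C5 n ε _ _ F Ft (by positivity) hε0.le hε1 hnε (by linarith) (by linarith)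
        (by linarith) p2
    have hχs : 1 / 100 ≤ χ * s := by
      by_contra hc
      push Not at hc
      have h1 : (χ * s) ^ 2 < (1 / 100) ^ 2 := pow_lt_pow_left₀ hc (by positivity) two_ne_zero
      have h2 : χ ^ 2 * θ ≤ χ ^ 2 * (a ^ 2 * s ^ 2) :=
        mul_le_mul_of_nonneg_left hθa (sq_nonneg χ)
      have h3 : a ^ 2 * (χ * s) ^ 2 < a ^ 2 * (1 / 100) ^ 2 :=
        mul_lt_mul_of_pos_left h1 (by positivity)
      linarith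
    have hexi := ssba_exi5 s χ exi b hs hχ1 hχs hb1 hx
    have h5 := ssba_step5 χ θ A a ε F Fx C exi Eq (ssB0 δ) (ssV T t) (by linarith) hθ0 hθA
      (by linarith) hθχ hε1 hFx hC5 hexi p5 (by unfold ssB0 ssV; positivity) hE1
    have hbsθ := hbs2 (by linarith)
    have hbsa : bs ≤ a ^ 2 := by linarith
    have h2V := ssba_two T t bs hT hbs0 (by linarith)
    have hNV : N ≤ ssV T t := by
      have h1 : N * 1 ≤ N * N := mul_le_mul_of_nonneg_left (by linarith) (by linarith)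
      rw [hVt, sq]
      linarith
    have h6 : 2 * N * bs ≤ 2 * (a ^ 2 * ssV T t) := by
      have h7 : N * bs ≤ ssV T t * a ^ 2 := mul_le_mul hNV hbsa hbs0 (by linarith)
      linarith
    have h8 : bs ^ 2 ≤ a ^ 2 * ssV T t := by
      have h9 : bs * bs ≤ a ^ 2 * 1 := mul_le_mul hbsa (by linarith) hbs0 ha20
      have h10 : a ^ 2 * 1 ≤ a ^ 2 * ssV T t :=
        mul_le_mul_of_nonneg_left (by linarith) ha20
      rw [sq]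
      linarith
    have h11 : (2 * (200 * ssB0 δ) + 3) * a ^ 2 * ssV T t ≤ dd / 4 * ssV T t :=
      mul_le_mul_of_nonneg_right hch (by linarith)
    have h12 : dd / 4 * ssV T t ≤ dd / 4 * (2 * ssV T (t + bs)) :=
      mul_le_mul_of_nonneg_left h2V (by positivity)
    linarith
  · have hs00 : (1 / 100 : ℝ) ^ 2 ≤ s ^ 2 := pow_le_pow_left₀ (by norm_num) hs0 2
    have hAθ2 : A ≤ 2 * θ := by
      refine le_of_mul_le_mul_right ?_ hs2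
      have h0 : 2 * θ * (1 + s ^ 2) = 2 * (μ * s ^ 2) := by rw [mul_assoc, hθm]
      rw [h0, hA]
      have h1 : a ^ 2 * s ^ 2 ≤ μ * s ^ 2 := mul_le_mul_of_nonneg_right hμ1 (sq_nonneg s)
      have h2 : a ^ 2 * ((1 / 100) ^ 2 * (1 + s ^ 2)) ≤ a ^ 2 * (2 * s ^ 2) :=
        mul_le_mul_of_nonneg_left (by linarith) (sq_nonneg a)
      linarith
    have hχ2 : χ ≤ 2 := by
      have h1 : A / θ ≤ 2 := by
        rw [div_le_iff₀ hθ0]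
        exact hAθ2
      by_contra hc
      push Not at hc
      have h2 := pow_lt_pow_left₀ hc (by norm_num) two_ne_zero
      linarith
    have hqq1 : q * q ≤ 1 * 1 := mul_le_mul hq1 hq1 hq0 zero_le_one
    obtain ⟨hC1, hC2⟩ := ssba_C n ε (1 - (1 - θ) * q ^ 2) (1 + (1 - θ) * q) F Ft Fx
      (by positivity) hε0.le hnε (by linarith) (by linarith) (by linarith) hFx p2 p3
    have hx' : 3 * s / 4 ≤ exi ∨ s - b ≤ exi := by
      rcases hx with hx | ⟨η, ξ, eη, dη, hη0, hη1, hξ, he, hd, -, hexi⟩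
      · exact Or.inr hx
      · exact Or.inl (ssba_exi4 s exi η ξ eη dη hs0 hη0 hη1 hξ he hd hexi)
    have hV : s ≤ 8 → ssV T t ≤ 2 * ssV T (t + bs) := by
      intro h8
      have h1 : Real.sqrt (1 + s) ≤ 3 := Real.sqrt_le_iff.2 ⟨by norm_num, by linarith⟩
      exact ssba_two T t bs hT hbs0 (by linarith)
    have h4 := ssba_step4 s χ ε Fx C (F * Ft) exi b δ (ssV T t) (ssV T (t + bs)) hs0 hχ1 hχ2
      hε0.le hε1 hFx hC1 hC2 p4 hb0 hb1 hδ0 hV hVtu hx'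
    have h2 := ssba_step2 s θ bs N hN10 hs hθ0 hθ1.le hbs0 hbs1 hbs2
    have h5 : 4 * (1 + s) * N ≤ s * Fx := by
      have h6 : s * (1000 * N) ≤ s * Fx := mul_le_mul_of_nonneg_left p1 hs.le
      have h7 : 1 / 100 * N ≤ s * N := mul_le_mul_of_nonneg_right hs0 (by linarith)
      linarith
    have h8 : θ * (4 * (1 + s) * N - δ * b ^ 2 * ssV T (t + bs)) ≤ θ * Eq :=
      mul_le_mul_of_nonneg_left (by linarith) hθ0.le
    linarith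

end Claimed.Agent.R315
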