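import Claimed.Agent.R315.Ss.Cmp
import Claimed.Agent.R315.Ss.Pde

/-!
# Row 315, paper S, Section 5.1: the slope functions   (package SS-SLOPE)

PURE ONE-VARIABLE CALCULUS.  `s0 = 1/100`, `0 < a ≤ 1/2`, `sg` a switch (`IsSwitch`), `σ = s²`:
`μ = ssMu = a² + (1-a²) sg(√σ)`, `θ = ssTh = μσ/(1+σ)`, `β = ssBeta = ½ log(1-θ)`, `κ = ssKap = μ/(1+(1-μ)σ)`, `fl = ssFl = √μ/√(1+σ)`, `j = ssJ = √(θ + a² s0²)`.
HINTS.  `σ ↦ sg(√σ)` is smooth on `ℝ`: it vanishes on `(-∞, s0²)` (`Real.sqrt` of a negative number is `0`), and `√` is smooth on `(0,∞)`; two open sets cover `ℝ`.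
 `a² ≤ μ ≤ 1`;  on `σ > -1`: `1+σ > 0`, `1 + (1-μ)σ ≥ μ > 0` for `σ ≤ 0` and `≥ 1` for `σ ≥ 0`;  `1-θ = (1+(1-μ)σ)/(1+σ) > 0`.
 NOTE on `ssJ`: for `σ ∈ (-1,0)` one has `θ = a²σ/(1+σ) < 0` and `θ + a² s0² > 0` only for `σ > -s0²/(1+s0²)`, so `ssJ` is NOT smooth on `(-1,∞)`, which `SmoothAlong3` asks for.
 Only `σ ≥ 0` matters; `ss_J_ext` provides a smooth positive `J'` on `(-1,∞)` with `J' = ssJ` on `σ ≥ -s0²/2`: `J' = χ ssJ + (1-χ)`, `χ` a smooth cutoff, `χ = 1` on `σ ≥ -s0²/2`, `χ = 0` on `σ ≤ -(3/4)s0²`.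
 `IsTheta`: `σ θ' = σ² μ'/(1+σ) + μσ/(1+σ)²`, `σ μ' = (1-a²) sg'(s) s/2 ∈ [0, 3/2]` and `≠ 0` only for `s ∈ [s0, 5s0]`; `2(1-θ) ≥ 2/(1+σ)`.
 Ellipticity: `fl + 2σ fl' = d(k₁)/ds` with `k₁ = s fl(s²) = √μ s/√(1+s²)`: `= (√μ)' s/√(1+s²) + √μ (1+s²)^{-3/2} > 0`; in `σ`: `fl + 2σfl' = fl (1 + σμ'/μ - σ/(1+σ)) = fl (σμ'/μ + 1/(1+σ))`.
 Switch: `sg s = (∫_{-∞}^s φ)/(∫ φ)` with `φ` a `ContDiffBump` centred at `3 s0`, `rIn = s0`, `rOut = 2 s0`: `∫ φ ≥ 2 s0`, so `sg' ≤ 1/(2 s0) = 50`.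
-/

set_option autoImplicit false
open scoped ContDiff

namespace Claimed.Agent.R315

/-- the bump under the switch: `1` on `[2 s0, 4 s0]`, `0` outside `(s0, 5 s0)` -/
noncomputable def ssBump (t : ℝ) : ℝ :=
  Real.smoothTransition (100 * t - 1) * Real.smoothTransition (5 - 100 * t)

theorem ss_bump_smooth : ContDiff ℝ ∞ ssBump := by
  unfold ssBump
  exact (Real.smoothTransition.contDiff.comp (by fun_prop)).mul (Real.smoothTransition.contDiff.comp (by fun_prop))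

theorem ss_bump_nonneg (t : ℝ) : 0 ≤ ssBump t :=
  mul_nonneg (Real.smoothTransition.nonneg _) (Real.smoothTransition.nonneg _)

theorem ss_bump_le_one (t : ℝ) : ssBump t ≤ 1 :=
  mul_le_one₀ (Real.smoothTransition.le_one _) (Real.smoothTransition.nonneg _) (Real.smoothTransition.le_one _)

theorem ss_bump_left {t : ℝ} (h : t ≤ 1 / 100) : ssBump t = 0 := by
  unfold ssBump
  rw [Real.smoothTransition.zero_of_nonpos (by linarith), zero_mul]

theorem ss_bump_right {t : ℝ} (h : 5 / 100 ≤ t) : ssBump t = 0 := by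
  unfold ssBump
  rw [Real.smoothTransition.zero_of_nonpos (x := 5 - 100 * t) (by linarith), mul_zero]

theorem ss_bump_mid {t : ℝ} (h1 : 2 / 100 ≤ t) (h2 : t ≤ 4 / 100) : ssBump t = 1 := by
  unfold ssBump
  rw [Real.smoothTransition.one_of_one_le (by linarith), Real.smoothTransition.one_of_one_le (by linarith), one_mul]

theorem ss_bump_int (a b : ℝ) : IntervalIntegrable ssBump MeasureTheory.volume a b :=
  ss_bump_smooth.continuous.intervalIntegrable a b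

theorem ss_bump_mass : 2 / 100 ≤ ∫ t in (0 : ℝ)..(5 / 100), ssBump t := by
  rw [← intervalIntegral.integral_add_adjacent_intervals (ss_bump_int 0 (2 / 100)) (ss_bump_int (2 / 100) (5 / 100)),
    ← intervalIntegral.integral_add_adjacent_intervals (ss_bump_int (2 / 100) (4 / 100)) (ss_bump_int (4 / 100) (5 / 100))]
  have h1 : 0 ≤ ∫ t in (0 : ℝ)..(2 / 100), ssBump t :=
    intervalIntegral.integral_nonneg (by norm_num) fun t _ => ss_bump_nonneg t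
  have h3 : 0 ≤ ∫ t in (4 / 100 : ℝ)..(5 / 100), ssBump t :=
    intervalIntegral.integral_nonneg (by norm_num) fun t _ => ss_bump_nonneg t
  have h2 : ∫ t in (2 / 100 : ℝ)..(4 / 100), ssBump t = 2 / 100 := by
    rw [intervalIntegral.integral_congr (g := fun _ => (1 : ℝ))]
    · simp; norm_num
    · intro t ht
      rw [Set.uIcc_of_le (by norm_num)] at ht
      exact ss_bump_mid ht.1 ht.2
  linarith

/-- the switch -/
noncomputable def ssSw (s : ℝ) : ℝ := (∫ t in (0 : ℝ)..s, ssBump t) / ∫ t in (0 : ℝ)..(5 / 100), ssBump t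

theorem ss_sw_hasDerivAt (s : ℝ) :
    HasDerivAt ssSw (ssBump s / ∫ t in (0 : ℝ)..(5 / 100), ssBump t) s := by
  unfold ssSw
  exact (intervalIntegral.integral_hasDerivAt_right (ss_bump_int 0 s)
    (ss_bump_smooth.continuous.stronglyMeasurableAtFilter _ _) ss_bump_smooth.continuous.continuousAt).div_const _

theorem ss_sw_deriv : deriv ssSw = fun s => ssBump s / ∫ t in (0 : ℝ)..(5 / 100), ssBump t :=
  funext fun s => (ss_sw_hasDerivAt s).deriv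

theorem ss_sw_all : ContDiff ℝ ∞ ssSw ∧ Monotone ssSw ∧ (∀ s, s ≤ 1 / 100 → ssSw s = 0) ∧
    (∀ s, 5 / 100 ≤ s → ssSw s = 1) ∧ ∀ s, deriv ssSw s ≤ 60 := by
  have hm := ss_bump_mass
  have hc : 0 < ∫ t in (0 : ℝ)..(5 / 100), ssBump t := by linarith
  refine ⟨?_, ?_, ?_, ?_, ?_⟩
  · rw [contDiff_infty_iff_deriv]
    refine ⟨fun s => (ss_sw_hasDerivAt s).differentiableAt, ?_⟩
    rw [ss_sw_deriv]
    exact ss_bump_smooth.div_const _
  · apply monotone_of_deriv_nonneg (fun s => (ss_sw_hasDerivAt s).differentiableAt)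
    intro s
    rw [ss_sw_deriv]
    exact div_nonneg (ss_bump_nonneg s) hc.le
  · intro s hs
    unfold ssSw
    rw [intervalIntegral.integral_congr (g := fun _ => (0 : ℝ)), intervalIntegral.integral_zero, zero_div]
    intro t ht
    apply ss_bump_left
    rcases Set.mem_uIcc.1 ht with h | h <;> linarith [h.1, h.2]
  · intro s hs
    unfold ssSw
    rw [← intervalIntegral.integral_add_adjacent_intervals (ss_bump_int 0 (5 / 100)) (ss_bump_int (5 / 100) s),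
      intervalIntegral.integral_congr (a := 5 / 100) (g := fun _ => (0 : ℝ)), intervalIntegral.integral_zero, add_zero,
      div_self hc.ne']
    intro t ht
    apply ss_bump_right
    rw [Set.uIcc_of_le hs] at ht
    exact ht.1
  · intro s
    rw [ss_sw_deriv]
    rw [div_le_iff₀ hc]
    have := ss_bump_le_one s
    nlinarith

theorem ss_switch_exists : ∃ sg : ℝ → ℝ, IsSwitch sg :=
  ⟨ssSw, ss_sw_all.1, ss_sw_all.2.1, ss_sw_all.2.2.1, ss_sw_all.2.2.2.1, ss_sw_all.2.2.2.2⟩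

variable {sg : ℝ → ℝ} {a : ℝ}

theorem ss_sg_nonneg (hs : IsSwitch sg) (s : ℝ) : 0 ≤ sg s := by
  rw [← hs.zero (min s (1 / 100)) (min_le_right _ _)]
  exact hs.mono (min_le_left _ _)

theorem ss_sg_le_one (hs : IsSwitch sg) (s : ℝ) : sg s ≤ 1 := by
  rw [← hs.one (max s (5 / 100)) (le_max_right _ _)]
  exact hs.mono (le_max_left _ _)

theorem ss_sg_sqrt_smooth (hs : IsSwitch sg) : ContDiff ℝ ∞ (fun σ => sg (Real.sqrt σ)) := by
  rw [contDiff_iff_contDiffAt]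
  intro σ
  by_cases h : σ < (1 / 100) ^ 2
  · have h1 : (fun σ => sg (Real.sqrt σ)) =ᶠ[nhds σ] fun _ => 0 := by
      filter_upwards [Iio_mem_nhds h] with x hx
      exact hs.zero _ (Real.sqrt_le_iff.2 ⟨by norm_num, le_of_lt hx⟩)
    exact contDiffAt_const.congr_of_eventuallyEq h1
  · have hpos : σ ≠ 0 := by
      intro h0
      apply h
      rw [h0]
      norm_num
    exact hs.smooth.contDiffAt.comp σ (Real.contDiffAt_sqrt hpos)

theorem ss_mu_smooth (hs : IsSwitch sg) : ContDiff ℝ ∞ (ssMu sg a) := by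
  unfold ssMu
  exact contDiff_const.add (contDiff_const.mul (ss_sg_sqrt_smooth hs))

theorem ss_mu_bounds (hs : IsSwitch sg) (ha0 : 0 < a) (ha1 : a ≤ 1 / 2) (σ : ℝ) :
    a ^ 2 ≤ ssMu sg a σ ∧ ssMu sg a σ ≤ 1 := by
  unfold ssMu
  have h1 := ss_sg_nonneg hs (Real.sqrt σ)
  have h2 := ss_sg_le_one hs (Real.sqrt σ)
  have h3 : 0 ≤ 1 - a ^ 2 := by nlinarith
  constructor <;> nlinarith

theorem ss_mu_small (hs : IsSwitch sg) {σ : ℝ} (h : σ ≤ (1 / 100) ^ 2) : ssMu sg a σ = a ^ 2 := by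
  unfold ssMu
  rw [hs.zero _ (Real.sqrt_le_iff.2 ⟨by norm_num, h⟩), mul_zero, add_zero]

theorem ss_mu_large (hs : IsSwitch sg) {σ : ℝ} (h : (5 / 100) ^ 2 ≤ σ) : ssMu sg a σ = 1 := by
  unfold ssMu
  rw [hs.one _ (Real.le_sqrt_of_sq_le h)]
  ring

theorem ss_mu_pos (hs : IsSwitch sg) (ha0 : 0 < a) (ha1 : a ≤ 1 / 2) (σ : ℝ) : 0 < ssMu sg a σ :=
  lt_of_lt_of_le (by positivity) (ss_mu_bounds hs ha0 ha1 σ).1

theorem ss_mu_mono (hs : IsSwitch sg) (ha0 : 0 < a) (ha1 : a ≤ 1 / 2) : Monotone (ssMu sg a) := by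
  intro x y hxy
  unfold ssMu
  have h3 : 0 ≤ 1 - a ^ 2 := by nlinarith
  have h4 := hs.mono (Real.sqrt_le_sqrt hxy)
  nlinarith

theorem ss_mu_hasDerivAt (hs : IsSwitch sg) (σ : ℝ) : HasDerivAt (ssMu sg a) (deriv (ssMu sg a) σ) σ :=
  ((ss_mu_smooth hs).differentiable (by simp) σ).hasDerivAt

theorem ss_mu_deriv_nonneg (hs : IsSwitch sg) (ha0 : 0 < a) (ha1 : a ≤ 1 / 2) (σ : ℝ) : 0 ≤ deriv (ssMu sg a) σ :=
  (ss_mu_mono hs ha0 ha1).deriv_nonneg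

/-- `σ² μ' ≤ 3/800`. -/
theorem ss_mu_deriv_le (hs : IsSwitch sg) (ha0 : 0 < a) (ha1 : a ≤ 1 / 2) {σ : ℝ} (h : 0 < σ) :
    σ ^ 2 * deriv (ssMu sg a) σ ≤ 3 / 800 := by
  by_cases hσ : σ ≤ (5 / 100) ^ 2
  · have hq : 0 < Real.sqrt σ := Real.sqrt_pos.2 h
    have hq2 : Real.sqrt σ ^ 2 = σ := Real.sq_sqrt h.le
    have hq5 : Real.sqrt σ ≤ 5 / 100 := Real.sqrt_le_iff.2 ⟨by norm_num, hσ⟩
    have h1 : HasDerivAt (ssMu sg a) (0 + (1 - a ^ 2) * (deriv sg (Real.sqrt σ) * (1 / (2 * Real.sqrt σ)))) σ := by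
      unfold ssMu
      exact (hasDerivAt_const σ (a ^ 2)).add (((hs.smooth.differentiable (by simp) _).hasDerivAt.comp σ
        (Real.hasDerivAt_sqrt h.ne')).const_mul _)
    rw [h1.deriv, zero_add]
    have h2 : σ ^ 2 * ((1 - a ^ 2) * (deriv sg (Real.sqrt σ) * (1 / (2 * Real.sqrt σ)))) =
        (1 - a ^ 2) * deriv sg (Real.sqrt σ) * Real.sqrt σ ^ 3 / 2 := by
      have h0 : σ ^ 2 = Real.sqrt σ ^ 4 := by
        calc σ ^ 2 = (Real.sqrt σ ^ 2) ^ 2 := by rw [hq2]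
          _ = Real.sqrt σ ^ 4 := by ring
      rw [h0]
      field_simp
    rw [h2]
    have h3 : 0 ≤ 1 - a ^ 2 := by nlinarith
    have h4 : 1 - a ^ 2 ≤ 1 := by nlinarith
    have h5 := hs.der (Real.sqrt σ)
    have h6 : 0 ≤ deriv sg (Real.sqrt σ) := hs.mono.deriv_nonneg
    have h7 : Real.sqrt σ ^ 3 ≤ (5 / 100) ^ 3 := pow_le_pow_left₀ hq.le hq5 3
    have h8 : (1 - a ^ 2) * deriv sg (Real.sqrt σ) ≤ 1 * 60 := mul_le_mul h4 h5 h6 (by norm_num)
    have h9 : (1 - a ^ 2) * deriv sg (Real.sqrt σ) * Real.sqrt σ ^ 3 ≤ 1 * 60 * (5 / 100) ^ 3 :=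
      mul_le_mul h8 h7 (by positivity) (by norm_num)
    linarith
  · push Not at hσ
    have h1 : ssMu sg a =ᶠ[nhds σ] fun _ => 1 := by
      filter_upwards [Ioi_mem_nhds hσ] with x hx
      exact ss_mu_large hs (le_of_lt hx)
    rw [h1.deriv_eq, deriv_const, mul_zero]
    norm_num

/-- `1 + (1-μ)σ > 0` on `σ > -1`. -/
theorem ss_den_pos (hs : IsSwitch sg) (ha0 : 0 < a) (ha1 : a ≤ 1 / 2) {σ : ℝ} (h : -1 < σ) :
    0 < 1 + (1 - ssMu sg a σ) * σ := by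
  have h1 := ss_mu_pos hs ha0 ha1 σ
  have h2 := (ss_mu_bounds hs ha0 ha1 σ).2
  nlinarith

theorem ss_one_sub_th (sg : ℝ → ℝ) (a : ℝ) {σ : ℝ} (h : -1 < σ) :
    1 - ssTh sg a σ = (1 + (1 - ssMu sg a σ) * σ) / (1 + σ) := by
  unfold ssTh
  have h1 : 1 + σ ≠ 0 := by linarith
  field_simp
  ring

theorem ss_one_sub_th_pos (hs : IsSwitch sg) (ha0 : 0 < a) (ha1 : a ≤ 1 / 2) {σ : ℝ} (h : -1 < σ) :
    0 < 1 - ssTh sg a σ := by
  rw [ss_one_sub_th sg a h]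
  exact div_pos (ss_den_pos hs ha0 ha1 h) (by linarith)

theorem ss_th_smooth (hs : IsSwitch sg) : ContDiffOn ℝ ∞ (ssTh sg a) (Set.Ioi (-1)) := by
  unfold ssTh
  refine ContDiffOn.div ((ss_mu_smooth hs).contDiffOn.mul contDiffOn_id) (contDiffOn_const.add contDiffOn_id) ?_
  intro x hx
  have : -1 < x := hx
  linarith

theorem ss_th_nonneg (hs : IsSwitch sg) (ha0 : 0 < a) (ha1 : a ≤ 1 / 2) {σ : ℝ} (h : 0 ≤ σ) : 0 ≤ ssTh sg a σ := by
  unfold ssTh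
  exact div_nonneg (mul_nonneg (ss_mu_pos hs ha0 ha1 σ).le h) (by linarith)

theorem ss_th_hasDerivAt (hs : IsSwitch sg) {σ : ℝ} (h : -1 < σ) :
    HasDerivAt (ssTh sg a)
      (((deriv (ssMu sg a) σ * σ + ssMu sg a σ * 1) * (1 + σ) - ssMu sg a σ * σ * (0 + 1)) / (1 + σ) ^ 2) σ := by
  unfold ssTh
  exact ((ss_mu_hasDerivAt hs σ).mul (hasDerivAt_id σ)).div ((hasDerivAt_const σ (1 : ℝ)).add (hasDerivAt_id σ))
    (by linarith)

theorem ss_theta (hs : IsSwitch sg) (ha0 : 0 < a) (ha1 : a ≤ 1 / 2) : IsTheta (ssTh sg a) := by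
  refine ⟨?_, ?_, ?_, ?_, ?_⟩
  · exact (ss_th_smooth hs).mono (fun x hx => lt_trans (by norm_num) (show (0 : ℝ) < x from hx))
  · intro σ h
    unfold ssTh
    exact div_pos (mul_pos (ss_mu_pos hs ha0 ha1 σ) h) (by linarith)
  · intro σ h
    have := ss_one_sub_th_pos hs ha0 ha1 (show -1 < σ by linarith)
    linarith
  · intro σ h
    rw [(ss_th_hasDerivAt hs (show -1 < σ by linarith)).deriv]
    have h1 := ss_mu_deriv_nonneg hs ha0 ha1 σ
    have h2 := ss_mu_pos hs ha0 ha1 σ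
    apply mul_nonneg h.le
    apply div_nonneg _ (by positivity)
    have h3 : 0 ≤ deriv (ssMu sg a) σ * σ * (1 + σ) := by positivity
    nlinarith
  · intro σ h
    rw [(ss_th_hasDerivAt hs (show -1 < σ by linarith)).deriv, ss_one_sub_th sg a (show -1 < σ by linarith)]
    have h1 := ss_mu_deriv_le hs ha0 ha1 h
    have h2 := ss_mu_pos hs ha0 ha1 σ
    have h3 := (ss_mu_bounds hs ha0 ha1 σ).2
    have h4 : 0 < 1 + σ := by linarith
    rw [← sub_nonneg]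
    have h5 : 2 * ((1 + (1 - ssMu sg a σ) * σ) / (1 + σ)) -
        σ * (((deriv (ssMu sg a) σ * σ + ssMu sg a σ * 1) * (1 + σ) - ssMu sg a σ * σ * (0 + 1)) / (1 + σ) ^ 2) =
        (2 * (1 + (1 - ssMu sg a σ) * σ) * (1 + σ) - σ ^ 2 * deriv (ssMu sg a) σ * (1 + σ) - ssMu sg a σ * σ) /
          (1 + σ) ^ 2 := by
      field_simp
      ring
    rw [h5]
    apply div_nonneg _ (by positivity)
    have h6 : σ ^ 2 * deriv (ssMu sg a) σ * (1 + σ) ≤ 3 / 800 * (1 + σ) := mul_le_mul_of_nonneg_right h1 h4.le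
    have h7 : 0 ≤ (1 - ssMu sg a σ) * σ := mul_nonneg (by linarith) h.le
    have h8 : 0 ≤ (1 - ssMu sg a σ) * σ * (1 + σ) := mul_nonneg h7 h4.le
    nlinarith

theorem ss_fl_alg (A B m : ℝ) (hA : 0 < A) (hB : 0 < B) :
    A / B + 2 * (B ^ 2 - 1) * ((m / (2 * A) * B - A * (1 / (2 * B))) / B ^ 2) =
      (A ^ 2 + (B ^ 2 - 1) * m * B ^ 2) / (A * B ^ 3) := by
  field_simp
  ring

theorem ss_flux (hs : IsSwitch sg) (ha0 : 0 < a) (ha1 : a ≤ 1 / 2) : IsFlux (ssFl sg a) := by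
  refine ⟨?_, ?_, ?_⟩
  · unfold ssFl
    refine ContDiffOn.div ((ss_mu_smooth hs).contDiffOn.sqrt fun x _ => (ss_mu_pos hs ha0 ha1 x).ne')
      ((contDiffOn_const.add contDiffOn_id).sqrt fun x hx => ?_) fun x hx => ?_
    · have : -1 < x := hx
      simp only [id]
      linarith
    · have : -1 < x := hx
      exact (Real.sqrt_pos.2 (by linarith)).ne'
  · intro σ h
    unfold ssFl
    exact div_pos (Real.sqrt_pos.2 (ss_mu_pos hs ha0 ha1 σ)) (Real.sqrt_pos.2 (by linarith))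
  · intro σ h
    have hμ := ss_mu_pos hs ha0 ha1 σ
    have h1σ : 0 < 1 + σ := by linarith
    have hA : 0 < Real.sqrt (ssMu sg a σ) := Real.sqrt_pos.2 hμ
    have hB : 0 < Real.sqrt (1 + σ) := Real.sqrt_pos.2 h1σ
    have hA2 : Real.sqrt (ssMu sg a σ) ^ 2 = ssMu sg a σ := Real.sq_sqrt hμ.le
    have hB2 : Real.sqrt (1 + σ) ^ 2 = 1 + σ := Real.sq_sqrt h1σ.le
    have hd : HasDerivAt (ssFl sg a)
        ((deriv (ssMu sg a) σ / (2 * Real.sqrt (ssMu sg a σ)) * Real.sqrt (1 + σ) -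
          Real.sqrt (ssMu sg a σ) * ((0 + 1) / (2 * Real.sqrt (1 + σ)))) / Real.sqrt (1 + σ) ^ 2) σ := by
      unfold ssFl
      exact ((ss_mu_hasDerivAt hs σ).sqrt hμ.ne').div
        (((hasDerivAt_const σ (1 : ℝ)).add (hasDerivAt_id σ)).sqrt h1σ.ne') hB.ne'
    rw [hd.deriv]
    have hσ : σ = Real.sqrt (1 + σ) ^ 2 - 1 := by rw [hB2]; ring
    have h2 : ssFl sg a σ + 2 * σ * ((deriv (ssMu sg a) σ / (2 * Real.sqrt (ssMu sg a σ)) * Real.sqrt (1 + σ) -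
          Real.sqrt (ssMu sg a σ) * ((0 + 1) / (2 * Real.sqrt (1 + σ)))) / Real.sqrt (1 + σ) ^ 2) =
        (ssMu sg a σ + σ * deriv (ssMu sg a) σ * (1 + σ)) / (Real.sqrt (ssMu sg a σ) * Real.sqrt (1 + σ) ^ 3) := by
      have h3 := ss_fl_alg (Real.sqrt (ssMu sg a σ)) (Real.sqrt (1 + σ)) (deriv (ssMu sg a) σ) hA hB
      rw [hA2, hB2, show 1 + σ - 1 = σ by ring] at h3
      rw [← h3, zero_add, hB2]
      rfl
    rw [h2]
    apply div_pos _ (by positivity)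
    have h4 := ss_mu_deriv_nonneg hs ha0 ha1 σ
    have h5 : 0 ≤ σ * deriv (ssMu sg a) σ * (1 + σ) := by positivity
    linarith

theorem ss_kap_smooth (hs : IsSwitch sg) (ha0 : 0 < a) (ha1 : a ≤ 1 / 2) :
    ContDiffOn ℝ ∞ (ssKap sg a) (Set.Ioi (-1)) := by
  unfold ssKap
  exact ContDiffOn.div (ss_mu_smooth hs).contDiffOn
    (contDiffOn_const.add ((contDiffOn_const.sub (ss_mu_smooth hs).contDiffOn).mul contDiffOn_id))
    fun x hx => (ss_den_pos hs ha0 ha1 hx).ne'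

theorem ss_beta_smooth (hs : IsSwitch sg) (ha0 : 0 < a) (ha1 : a ≤ 1 / 2) :
    ContDiffOn ℝ ∞ (ssBeta sg a) (Set.Ioi (-1)) := by
  unfold ssBeta
  exact ((contDiffOn_const.sub (ss_th_smooth hs)).log fun x hx => (ss_one_sub_th_pos hs ha0 ha1 hx).ne').div_const _

theorem ss_kap_eq (hs : IsSwitch sg) (ha0 : 0 < a) (ha1 : a ≤ 1 / 2) {σ : ℝ} (h : 0 < σ) :
    ssKap sg a σ = ssTh sg a σ / ((1 - ssTh sg a σ) * σ) := by
  have h1 : -1 < σ := by linarith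
  have h2 := ss_den_pos hs ha0 ha1 h1
  have h3 : 0 < 1 + σ := by linarith
  rw [ss_one_sub_th sg a h1]
  unfold ssKap ssTh
  field_simp

theorem ss_kap_nonneg (hs : IsSwitch sg) (ha0 : 0 < a) (ha1 : a ≤ 1 / 2) {σ : ℝ} (h : 0 ≤ σ) :
    0 ≤ ssKap sg a σ ∧ ssKap sg a σ ≤ 1 := by
  have h1 : -1 < σ := by linarith
  have h2 := ss_den_pos hs ha0 ha1 h1
  have h3 := ss_mu_pos hs ha0 ha1 σ
  have h4 := (ss_mu_bounds hs ha0 ha1 σ).2
  unfold ssKap
  refine ⟨div_nonneg h3.le h2.le, ?_⟩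
  rw [div_le_one h2]
  have h5 : 0 ≤ (1 - ssMu sg a σ) * σ := mul_nonneg (by linarith) h
  linarith

theorem ss_kap_large (hs : IsSwitch sg) {σ : ℝ} (h : (5 / 100) ^ 2 ≤ σ) : ssKap sg a σ = 1 := by
  unfold ssKap
  rw [ss_mu_large hs h]
  simp

theorem ss_fl_eq (hs : IsSwitch sg) (ha0 : 0 < a) (ha1 : a ≤ 1 / 2) {σ : ℝ} (h : 0 < σ) :
    ssFl sg a σ = Real.sqrt (ssTh sg a σ) / Real.sqrt σ := by
  have h3 := ss_mu_pos hs ha0 ha1 σ
  have hq : 0 < Real.sqrt σ := Real.sqrt_pos.2 h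
  unfold ssFl ssTh
  rw [Real.sqrt_div (mul_nonneg h3.le h.le), Real.sqrt_mul h3.le]
  field_simp

/-- `fl σ ≤ √σ`, i.e. `k₁ ≤ 1`. -/
theorem ss_fl_le (hs : IsSwitch sg) (ha0 : 0 < a) (ha1 : a ≤ 1 / 2) {σ : ℝ} (h : 0 ≤ σ) :
    ssFl sg a σ * σ ≤ Real.sqrt σ := by
  have h3 := ss_mu_pos hs ha0 ha1 σ
  have h4 := (ss_mu_bounds hs ha0 ha1 σ).2
  have hB : 0 < Real.sqrt (1 + σ) := Real.sqrt_pos.2 (by linarith)
  have hA : Real.sqrt (ssMu sg a σ) ≤ 1 := Real.sqrt_le_one.2 h4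
  have hq : Real.sqrt σ ≤ Real.sqrt (1 + σ) := Real.sqrt_le_sqrt (by linarith)
  have hq0 : 0 ≤ Real.sqrt σ := Real.sqrt_nonneg σ
  have hq2 : Real.sqrt σ * Real.sqrt σ = σ := Real.mul_self_sqrt h
  unfold ssFl
  rw [div_mul_eq_mul_div, div_le_iff₀ hB]
  calc Real.sqrt (ssMu sg a σ) * σ ≤ 1 * σ := mul_le_mul_of_nonneg_right hA h
    _ = Real.sqrt σ * Real.sqrt σ := by rw [one_mul, hq2]
    _ ≤ Real.sqrt σ * Real.sqrt (1 + σ) := mul_le_mul_of_nonneg_left hq hq0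

theorem ss_beta_zero : ssBeta sg a 0 = 0 := by
  simp [ssBeta, ssTh]

theorem ss_beta_nonpos (hs : IsSwitch sg) (ha0 : 0 < a) (ha1 : a ≤ 1 / 2) {σ : ℝ} (h : 0 ≤ σ) :
    ssBeta sg a σ ≤ 0 := by
  have h1 := ss_one_sub_th_pos hs ha0 ha1 (show -1 < σ by linarith)
  have h2 := ss_th_nonneg hs ha0 ha1 h
  unfold ssBeta
  have h3 : Real.log (1 - ssTh sg a σ) ≤ 0 := Real.log_nonpos h1.le (by linarith)
  linarith

theorem ss_J_bounds (hs : IsSwitch sg) (ha0 : 0 < a) (ha1 : a ≤ 1 / 2) {σ : ℝ} (h : 0 ≤ σ) :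
    a * (1 / 100) ≤ ssJ sg a σ ∧ ssJ sg a σ ≤ 2 := by
  have h1 := ss_one_sub_th_pos hs ha0 ha1 (show -1 < σ by linarith)
  have h2 := ss_th_nonneg hs ha0 ha1 h
  unfold ssJ
  constructor
  · apply Real.le_sqrt_of_sq_le
    nlinarith
  · rw [Real.sqrt_le_iff]
    refine ⟨by norm_num, ?_⟩
    nlinarith

theorem ss_J_rad_pos (hs : IsSwitch sg) (ha0 : 0 < a) (ha1 : a ≤ 1 / 2) {σ : ℝ} (h : -7 / 80000 < σ) :
    0 < ssTh sg a σ + a ^ 2 * (1 / 100) ^ 2 := by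
  by_cases h0 : 0 ≤ σ
  · have h2 := ss_th_nonneg hs ha0 ha1 h0
    have h3 : 0 < a ^ 2 * (1 / 100) ^ 2 := by positivity
    linarith
  · push Not at h0
    have h1 : 0 < 1 + σ := by linarith
    unfold ssTh
    rw [ss_mu_small hs (by linarith [show (0 : ℝ) ≤ (1 / 100) ^ 2 by norm_num])]
    have h2 : a ^ 2 * σ / (1 + σ) + a ^ 2 * (1 / 100) ^ 2 = a ^ 2 * (10001 * σ + 1) / (10000 * (1 + σ)) := by
      field_simp
      ring
    rw [h2]
    apply div_pos _ (by positivity)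
    apply mul_pos (by positivity)
    linarith

/-- a smooth positive function on `(-1,∞)` which agrees with `ssJ` on `σ ≥ 0`. -/
theorem ss_J_ext (hs : IsSwitch sg) (ha0 : 0 < a) (ha1 : a ≤ 1 / 2) :
    ∃ J' : ℝ → ℝ, ContDiffOn ℝ ∞ J' (Set.Ioi (-1)) ∧ (∀ σ, -1 < σ → 0 < J' σ) ∧
      ∀ σ, -(1 / 100) ^ 2 / 2 ≤ σ → J' σ = ssJ sg a σ := by
  refine ⟨fun σ => Real.smoothTransition (40000 * σ + 3) * ssJ sg a σ + (1 - Real.smoothTransition (40000 * σ + 3)),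
    ?_, ?_, ?_⟩
  · intro x hx
    apply ContDiffAt.contDiffWithinAt
    by_cases h : x < -3 / 40000
    · have h1 : (fun σ => Real.smoothTransition (40000 * σ + 3) * ssJ sg a σ +
          (1 - Real.smoothTransition (40000 * σ + 3))) =ᶠ[nhds x] fun _ => 1 := by
        filter_upwards [Iio_mem_nhds h] with y hy
        have hy' : y < -3 / 40000 := hy
        rw [Real.smoothTransition.zero_of_nonpos (by linarith)]
        ring
      exact contDiffAt_const.congr_of_eventuallyEq h1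
    · push Not at h
      have hχ : ContDiffAt ℝ ∞ (fun σ : ℝ => Real.smoothTransition (40000 * σ + 3)) x :=
        (Real.smoothTransition.contDiff.comp (by fun_prop)).contDiffAt
      have hθ : ContDiffAt ℝ ∞ (ssTh sg a) x := (ss_th_smooth hs).contDiffAt (Ioi_mem_nhds hx)
      have hJ : ContDiffAt ℝ ∞ (ssJ sg a) x := by
        unfold ssJ
        exact (hθ.add contDiffAt_const).sqrt (ss_J_rad_pos hs ha0 ha1 (by linarith)).ne'
      exact (hχ.mul hJ).add (contDiffAt_const.sub hχ)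
  · intro σ _
    beta_reduce
    by_cases h : σ ≤ -3 / 40000
    · rw [Real.smoothTransition.zero_of_nonpos (by linarith)]
      norm_num
    · push Not at h
      have hJ : 0 < ssJ sg a σ := Real.sqrt_pos.2 (ss_J_rad_pos hs ha0 ha1 (by linarith))
      have h0 := Real.smoothTransition.nonneg (40000 * σ + 3)
      rcases lt_or_eq_of_le (Real.smoothTransition.le_one (40000 * σ + 3)) with h1 | h1
      · have := mul_nonneg h0 hJ.le
        linarith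
      · rw [h1]
        linarith
  · intro σ h
    beta_reduce
    rw [Real.smoothTransition.one_of_one_le (by norm_num at h; linarith)]
    ring

end Claimed.Agent.R315
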