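import Claimed.Agent.R315.Ss.BalB
import Claimed.Agent.R315.Ss.Slope
import Claimed.Agent.R315.Ss.BalAlg

/-!
# Row 315, paper S, package SS-BAL, part C: the raw curvature estimate where `du ≠ 0`
(prefix `ssbl_`).  Owner: helper39.
-/

set_option autoImplicit false
open scoped ContDiff Topology
open Claims.C0499

namespace Claimed.Agent.R315

theorem ssbl_ip_zero {n : ℕ} {G : rm_MF n} {u : E n → ℝ} {y : E n}
    (hp : ∀ i, pdiff u i y = 0) (f : E n → ℝ) : gradIpC G f u y = 0 := by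
  unfold gradIpC
  simp [hp]

/-- S (5.26) when `du ≠ 0` on the whole of `U`. -/
theorem ssbl_pos (n : ℕ) (hn : 4 ≤ n) (δ dd a ρ S0 T : ℝ) (hδ0 : 0 < δ) (hδ1 : δ < 1 / 10)
    (hd : 0 < dd) (ha0 : 0 < a) (ha1 : a ≤ 1 / 2)
    (hch : (2 * (200 * ssB0 δ) + 3) * a ^ 2 ≤ dd / 4) (hρ0 : 0 < ρ) (hρ1 : ρ ≤ 1 / 2)
    {sg : ℝ → ℝ} (hsg : IsSwitch sg) {F : ℝ → ℝ → ℝ}
    (hF : IsPressure 1000 20 (ssEps n) (ssB0 δ) S0 T F)
    {G0 G : rm_MF n} {U : Set (E n)} (hG0 : rm_Met G0 U) (hG : rm_Met G U)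
    (hle : ∀ y ∈ U, (G y - G0 y).PosSemidef) {t u ψ η1 : E n → ℝ}
    (ht : ContDiffOn ℝ ∞ t U) (hu : ContDiffOn ℝ ∞ u U) (hψ : ContDiffOn ℝ ∞ ψ U)
    (hη : ContDiffOn ℝ ∞ η1 U) (hη01 : ∀ y ∈ U, 0 ≤ η1 y ∧ η1 y ≤ 1)
    (hψg : ∀ y ∈ U, gradSqC G0 ψ y ≤ 1) (hηg : ∀ y ∈ U, gradSqC G0 η1 y ≤ (1 / 800) ^ 2)
    (hdich : ∀ y ∈ U, η1 y = 1 ∨ ψ =ᶠ[𝓝 y] 0)
    (hht : ∀ y ∈ U, |u y - ψ y| < S0 * (ρ + (1 - ρ) * η1 y ^ 2))
    (hpde : ∀ y ∈ U, ssDivC G t (ssFl sg a) u y =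
      ssJ sg a (gradSqC G u y) * F ((u y - ψ y) / (ρ + (1 - ρ) * η1 y ^ 2)) (t y))
    (hσ : ∀ z ∈ U, 0 < gradSqC G u z) {y : E n} (hy : y ∈ U) :
    rm_DscC G t y
        + max (ssV T (ssTuC G t (ssBeta sg a) u y) - ssV T (t y)) 0
        - δ * (trC G G0 y - trC (ssHuC G (ssKap sg a) u) G0 y) * ssV T (ssTuC G t (ssBeta sg a) u y)
        - dd / 2 * ssV T (ssTuC G t (ssBeta sg a) u y)
      ≤ rm_DscC (ssHuC G (ssKap sg a) u) (ssTuC G t (ssBeta sg a) u) y := by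
  have hs := hσ y hy
  have hth := ss_theta hsg ha0 ha1
  have hcmp := ss_cmp (by omega) hG ht hu hth (kap := ssKap sg a)
    (fun σ h => ss_kap_eq hsg ha0 ha1 h) (bet := ssBeta sg a) (fun σ _ => rfl) hy hs
  have htr := ss_trace (G0 := G0) hG (u := u) (kap := ssKap sg a)
    (fun σ h => ss_kap_eq hsg ha0 ha1 h) hth.lt
    (fun z hz => if_isSymm_of_posSemidef (hG0.pos z hz).posSemidef) hy hs
  have hηs : ContDiffOn ℝ ∞ (fun z => ρ + (1 - ρ) * η1 z ^ 2) U :=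
    contDiffOn_const.add (contDiffOn_const.mul (hη.pow 2))
  have hη0 : ∀ z, 0 < ρ + (1 - ρ) * η1 z ^ 2 := fun z => ssbl_eta_pos hρ0 hρ1 _
  have hξs : ContDiffOn ℝ ∞ (fun z => (u z - ψ z) / (ρ + (1 - ρ) * η1 z ^ 2)) U :=
    (hu.sub hψ).div hηs fun z _ => (hη0 z).ne'
  have du := rm_da hG.opn hu hy
  have dt := rm_da hG.opn ht hy
  have dψ := rm_da hG.opn hψ hy
  have dη1 := rm_da hG.opn hη hy
  have dη := rm_da hG.opn hηs hy
  have dξ := rm_da hG.opn hξs hy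
  have hξ : (u y - ψ y) / (ρ + (1 - ρ) * η1 y ^ 2) ∈ Set.Ioo (-S0) S0 := by
    have h1 := hht y hy
    rw [abs_lt] at h1
    constructor
    · rw [lt_div_iff₀ (hη0 y)]; linarith [h1.1]
    · rw [div_lt_iff₀ (hη0 y)]; exact h1.2
  have hFd : DifferentiableAt ℝ (fun p : ℝ × ℝ => F p.1 p.2)
      ((u y - ψ y) / (ρ + (1 - ρ) * η1 y ^ 2), t y) :=
    (hF.smooth.contDiffAt ((isOpen_Ioo.prod isOpen_univ).mem_nhds ⟨hξ, trivial⟩)).differentiableAt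
      (by simp)
  have hΦ : DifferentiableAt ℝ
      (fun z => F ((u z - ψ z) / (ρ + (1 - ρ) * η1 z ^ 2)) (t z)) y :=
    DifferentiableAt.comp (g := fun p : ℝ × ℝ => F p.1 p.2)
      (f := fun z => ((u z - ψ z) / (ρ + (1 - ρ) * η1 z ^ 2), t z)) y hFd (dξ.prodMk dt)
  have heq : ∀ z ∈ U, Real.sqrt (ssTh sg a (gradSqC G u z)) * ssM1 G t u (ssTh sg a) z =
      Real.sqrt (ssTh sg a (gradSqC G u z) + a ^ 2 * (1 / 100) ^ 2) *
        F ((u z - ψ z) / (ρ + (1 - ρ) * η1 z ^ 2)) (t z) := fun z hz => by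
    rw [← ss_div_eq hG ht hu hth (fun σ h => ss_fl_eq hsg ha0 ha1 h) hz (hσ z hz), hpde z hz]
    rfl
  obtain ⟨hM1, heM1⟩ := ssbl_eM1 hG hu ht hth hσ (c0 := a ^ 2 * (1 / 100) ^ 2) (by positivity)
    hΦ heq hy
  have hsl : 0 < ssSl G u y := Real.sqrt_pos.2 hs
  have hsl2 : ssSl G u y ^ 2 = gradSqC G u y := Real.sq_sqrt hs.le
  have eΦ : ssE G u (fun z => F ((u z - ψ z) / (ρ + (1 - ρ) * η1 z ^ 2)) (t z)) y =
      deriv (fun r => F ((u y - ψ y) / (ρ + (1 - ρ) * η1 y ^ 2)) r) (t y) *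
        (ssH G u y - ssM1 G t u (ssTh sg a) y - ssK G u (ssTh sg a) y) +
      deriv (fun x => F x (t y)) ((u y - ψ y) / (ρ + (1 - ρ) * η1 y ^ 2)) *
        ssE G u (fun z => (u z - ψ z) / (ρ + (1 - ρ) * η1 z ^ 2)) y := by
    have : ssH G u y - ssM1 G t u (ssTh sg a) y - ssK G u (ssTh sg a) y = ssE G u t y := by
      unfold ssM1; ring
    rw [this]
    unfold ssE
    rw [ssbl_ip_comp2 (a := fun z => (u z - ψ z) / (ρ + (1 - ρ) * η1 z ^ 2)) (b := t) hFd dξ dt]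
    ring
  rw [eΦ] at heM1
  have hB0 := ssbl_Bsq_nonneg hG hG0 hy u
  have hB1 := ssbl_Bsq_le (G0 := G0) hG hy (hle y hy) hs
  have hxi := ssbl_E_xi (G := G) hs du dψ dη (hη0 y).ne'
  have hx : ssSl G u y - Real.sqrt (ssBsq G G0 u y) ≤
      ssE G u (fun z => (u z - ψ z) / (ρ + (1 - ρ) * η1 z ^ 2)) y ∨
      ∃ η ξ eη dη : ℝ, 0 < η ∧ η ≤ 1 ∧ |ξ| ≤ 1 ∧ |eη| ≤ dη ∧ dη ≤ 1 / 400 ∧ dη ^ 2 ≤ η ∧
        ssE G u (fun z => (u z - ψ z) / (ρ + (1 - ρ) * η1 z ^ 2)) y =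
          (ssSl G u y - ξ * eη) / η := by
    rcases hdich y hy with h1 | h0
    · left
      have hmax : IsLocalMax η1 y := by
        filter_upwards [hG.opn.mem_nhds hy] with z hz
        rw [h1]; exact (hη01 z hz).2
      have e1 : ssE G u (fun z => ρ + (1 - ρ) * η1 z ^ 2) y = 0 := by
        unfold ssE
        rw [ssbl_eta_ip dη1, ssbl_ip_zero (rm_max_pdiff hmax)]
        simp
      have e2 : ρ + (1 - ρ) * η1 y ^ 2 = 1 := by rw [h1]; ring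
      rw [hxi, e1, e2]
      have := ssbl_E_le hG hG0 hy hs (hψg y hy)
      simp only [mul_zero, sub_zero, div_one]
      linarith
    · right
      have e1 : ssE G u ψ y = 0 := by
        unfold ssE
        rw [ssbl_ip_zero (fun i => by
          rw [rm_pdiff_congr h0]; exact rm_pdiff_const 0), zero_div]
      obtain ⟨b1, b2⟩ := ssbl_eta_bd hG hG0 hy (hle y hy) hρ0 hρ1 dη1 (hη01 y hy).1 (hη01 y hy).2
        (hηg y hy)
      refine ⟨ρ + (1 - ρ) * η1 y ^ 2, (u y - ψ y) / (ρ + (1 - ρ) * η1 y ^ 2),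
        ssE G u (fun z => ρ + (1 - ρ) * η1 z ^ 2) y,
        Real.sqrt (gradSqC G (fun z => ρ + (1 - ρ) * η1 z ^ 2) y), hη0 y,
        ssbl_eta_le hρ1 (hη01 y hy).1 (hη01 y hy).2, ?_, ssbl_E_abs_le hG hy hs _, b1, b2, ?_⟩
      · rw [abs_le]
        exact ⟨by linarith [hξ.1, hF.S0_le], by linarith [hξ.2, hF.S0_le]⟩
      · rw [hxi, e1, sub_zero]
  have hμ := ss_mu_bounds (a := a) hsg ha0 ha1 (gradSqC G u y)
  have alg := ss_bal_alg n hn δ dd a T hδ0 hδ1 hd ha0 ha1 hF.T_ge hch (ssSl G u y)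
    (ssMu sg a (gradSqC G u y)) (ssTh sg a (gradSqC G u y)) _ _ (t y) (ssH G u y)
    (ssK G u (ssTh sg a) y) (ssH G u y ^ 2 / ((n : ℝ) - 1))
    (F ((u y - ψ y) / (ρ + (1 - ρ) * η1 y ^ 2)) (t y))
    (deriv (fun r => F ((u y - ψ y) / (ρ + (1 - ρ) * η1 y ^ 2)) r) (t y))
    (deriv (fun x => F x (t y)) ((u y - ψ y) / (ρ + (1 - ρ) * η1 y ^ 2)))
    (ssE G u (fun z => (u z - ψ z) / (ρ + (1 - ρ) * η1 z ^ 2)) y)
    (Real.sqrt (ssBsq G G0 u y)) (ssM1 G t u (ssTh sg a) y)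
    (ssE G u (ssM1 G t u (ssTh sg a)) y) _ (-ssBeta sg a (gradSqC G u y)) hsl hμ.1 hμ.2
    (fun h => ss_mu_small hsg (by rw [← hsl2]; exact pow_le_pow_left₀ hsl.le h 2))
    (fun h => ss_mu_large hsg (by rw [← hsl2]; exact pow_le_pow_left₀ (by norm_num) h 2))
    (by rw [hsl2]; rfl) rfl rfl le_rfl (Real.sqrt_nonneg _) (Real.sqrt_le_one.2 hB1)
    (hF.fx_ge _ hξ _) (hF.ft_le _ hξ _) (hF.fft_le _ hξ _) (hF.alt _ hξ _) (hF.fx_le _ hξ _)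
    hx hM1 heM1 rfl rfl
  rw [Real.sq_sqrt hB0, ← htr, ← sub_eq_add_neg] at alg
  have e : ssTuC G t (ssBeta sg a) u y = t y - ssBeta sg a (gradSqC G u y) := rfl
  rw [e]
  linarith

/-- = `ss_bal`. -/
theorem ssbl_bal (n : ℕ) (hn : 4 ≤ n) (δ dd a ρ S0 T : ℝ) (hδ0 : 0 < δ) (hδ1 : δ < 1 / 10)
    (hd : 0 < dd) (ha0 : 0 < a) (ha1 : a ≤ 1 / 2)
    (hch : (2 * (200 * ssB0 δ) + 3) * a ^ 2 ≤ dd / 4) (hρ0 : 0 < ρ) (hρ1 : ρ ≤ 1 / 2)
    {sg : ℝ → ℝ} (hsg : IsSwitch sg) {F : ℝ → ℝ → ℝ}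
    (hF : IsPressure 1000 20 (ssEps n) (ssB0 δ) S0 T F)
    {G0 G : rm_MF n} {U : Set (E n)} (hG0 : rm_Met G0 U) (hG : rm_Met G U)
    (hle : ∀ y ∈ U, (G y - G0 y).PosSemidef) {t u ψ η1 : E n → ℝ}
    (ht : ContDiffOn ℝ ∞ t U) (hu : ContDiffOn ℝ ∞ u U) (hψ : ContDiffOn ℝ ∞ ψ U)
    (hη : ContDiffOn ℝ ∞ η1 U) (hη01 : ∀ y ∈ U, 0 ≤ η1 y ∧ η1 y ≤ 1)
    (hψg : ∀ y ∈ U, gradSqC G0 ψ y ≤ 1) (hηg : ∀ y ∈ U, gradSqC G0 η1 y ≤ (1 / 800) ^ 2)
    (hdich : ∀ y ∈ U, η1 y = 1 ∨ ψ =ᶠ[𝓝 y] 0)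
    (hht : ∀ y ∈ U, |u y - ψ y| < S0 * (ρ + (1 - ρ) * η1 y ^ 2))
    (hpde : ∀ y ∈ U, ssDivC G t (ssFl sg a) u y =
      ssJ sg a (gradSqC G u y) * F ((u y - ψ y) / (ρ + (1 - ρ) * η1 y ^ 2)) (t y)) :
    ∀ y ∈ U, rm_DscC G t y
        + max (ssV T (ssTuC G t (ssBeta sg a) u y) - ssV T (t y)) 0
        - δ * (trC G G0 y - trC (ssHuC G (ssKap sg a) u) G0 y) * ssV T (ssTuC G t (ssBeta sg a) u y)
        - dd / 2 * ssV T (ssTuC G t (ssBeta sg a) u y)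
      ≤ rm_DscC (ssHuC G (ssKap sg a) u) (ssTuC G t (ssBeta sg a) u) y := by
  intro y hy
  have hσs := sscm_sq_smooth hG hu
  by_cases hfreq : ∃ᶠ z in 𝓝 y, 0 < gradSqC G u z
  · have hGu : rm_Met (ssHuC G (ssKap sg a) u) U :=
      ss_huC_met hG hu (ss_kap_smooth hsg ha0 ha1) fun σ h => (ss_kap_nonneg hsg ha0 ha1 h).1
    have hσI : ∀ z ∈ U, gradSqC G u z ∈ Set.Ioi (-1 : ℝ) := fun z hz => by
      have := rm_sq_nonneg hG hz u
      show (-1 : ℝ) < _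
      linarith
    have htu : ContDiffOn ℝ ∞ (ssTuC G t (ssBeta sg a) u) U :=
      ht.sub ((ss_beta_smooth hsg ha0 ha1).comp hσs hσI)
    have hVu : ContinuousOn (fun z => ssV T (ssTuC G t (ssBeta sg a) u z)) U :=
      (htu.continuousOn.pow 2).add continuousOn_const
    have hVt : ContinuousOn (fun z => ssV T (t z)) U :=
      (ht.continuousOn.pow 2).add continuousOn_const
    have htr1 : ContinuousOn (fun z => trC G G0 z) U :=
      (if_trC_contDiffOn hG.smooth (rm_det_ne hG) hG0.smooth).continuousOn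
    have htr2 : ContinuousOn (fun z => trC (ssHuC G (ssKap sg a) u) G0 z) U :=
      (if_trC_contDiffOn hGu.smooth (rm_det_ne hGu) hG0.smooth).continuousOn
    have hFc : ContinuousOn (fun z => rm_DscC (ssHuC G (ssKap sg a) u)
        (ssTuC G t (ssBeta sg a) u) z - (rm_DscC G t z
        + max (ssV T (ssTuC G t (ssBeta sg a) u z) - ssV T (t z)) 0
        - δ * (trC G G0 z - trC (ssHuC G (ssKap sg a) u) G0 z) *
          ssV T (ssTuC G t (ssBeta sg a) u z)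
        - dd / 2 * ssV T (ssTuC G t (ssBeta sg a) u z))) U :=
      (rm_Dsc_smooth hGu htu).continuousOn.sub
        ((((rm_Dsc_smooth hG ht).continuousOn.add (ContinuousOn.sup (hVu.sub hVt) continuousOn_const)).sub
          ((continuousOn_const.mul (htr1.sub htr2)).mul hVu)).sub (continuousOn_const.mul hVu))
    have hc := hFc.continuousAt (hG.opn.mem_nhds hy)
    rw [← sub_nonneg]
    by_contra hlt
    rw [not_le] at hlt
    have hev := hc.eventually (gt_mem_nhds hlt)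
    obtain ⟨z, hz1, hz2, hz3⟩ := (hfreq.and_eventually (hev.and (hG.opn.mem_nhds hy))).exists
    have hsub : rm_reg G u U ⊆ U := fun z hz => hz.1
    have hro := rm_reg_open hG hu
    have hG' : rm_Met G (rm_reg G u U) :=
      ⟨hro, fun i j => (hG.smooth i j).mono hsub, fun z hz => hG.pos z hz.1⟩
    have hG0' : rm_Met G0 (rm_reg G u U) :=
      ⟨hro, fun i j => (hG0.smooth i j).mono hsub, fun z hz => hG0.pos z hz.1⟩
    have := ssbl_pos n hn δ dd a ρ S0 T hδ0 hδ1 hd ha0 ha1 hch hρ0 hρ1 hsg hF hG0' hG'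
      (fun z hz => hle z hz.1) (ht.mono hsub) (hu.mono hsub) (hψ.mono hsub) (hη.mono hsub)
      (fun z hz => hη01 z hz.1) (fun z hz => hψg z hz.1) (fun z hz => hηg z hz.1)
      (fun z hz => hdich z hz.1) (fun z hz => hht z hz.1) (fun z hz => hpde z hz.1)
      (fun z hz => hz.2) (y := z) ⟨hz3, hz1⟩
    linarith
  · rw [Filter.not_frequently] at hfreq
    have h0 : ∀ᶠ z in 𝓝 y, gradSqC G u z = 0 := by
      filter_upwards [hfreq, hG.opn.mem_nhds hy] with z hz hzU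
      exact le_antisymm (not_lt.1 hz) (rm_sq_nonneg hG hzU u)
    have hp : ∀ᶠ z in 𝓝 y, ∀ i, pdiff u i z = 0 := by
      filter_upwards [h0, hG.opn.mem_nhds hy] with z hz hzU
      exact (rm_sq_eq_zero hG hzU u).1 hz
    have hGe : ssHuC G (ssKap sg a) u =ᶠ[𝓝 y] G := by
      filter_upwards [hp] with z hz
      ext i j
      simp [ssHuC, ssDuDu, hz]
    have hte : ssTuC G t (ssBeta sg a) u =ᶠ[𝓝 y] t := by
      filter_upwards [h0] with z hz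
      unfold ssTuC
      rw [hz, ss_beta_zero, sub_zero]
    have e1 : trC (ssHuC G (ssKap sg a) u) G0 y = trC G G0 y := by
      unfold trC; rw [hGe.self_of_nhds]
    rw [rm_Dsc_congr_met hGe, rm_Dsc_congr hte, e1, hte.self_of_nhds]
    have hV : 0 ≤ ssV T (t y) := by unfold ssV; positivity
    have : 0 ≤ dd / 2 * ssV T (t y) := by positivity
    simp
    linarith

end Claimed.Agent.R315
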