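import Claimed.Agent.R315.Ss.Slope
import Claimed.Agent.R315.Ss.BalAlg
import Claimed.Agent.R315.Ss.BalC

/-!
# Row 315, paper S, Section 5.3: the raw curvature estimate (5.26), chart level   (package SS-BAL)

Black boxes: `ss_cmp`, `ss_div_eq`, `ss_trace`, `ss_huC_met` (`Ss/Cmp.lean`), `ss_bal_alg` (`Ss/BalAlg.lean`), `Ss/Slope.lean`, calculus of `Rm/Ops.lean`, `Rm/Eng.lean`.

PLAN for `ss_bal` at `y ∈ U`; `σ = gradSqC G u`, `th = ssTh sg a`, `η = ρ + (1-ρ) η1²`, `ξ = (u-ψ)/η`.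
CASE 1 `σ y > 0`.  Work on the open set `U' = {σ > 0} ∩ U`.  There, by `ss_div_eq` (with `ss_fl_eq`) and the equation: `√θ M₁ = j F(ξ,t)`, i.e. `M₁ = χ F(ξ,t)`, `χ = j/√θ = √(1 + a² s0²/θ)`.
 Differentiate along `e` (`ssE` is a derivation: `rm_ip_mul_right`, `rm_ip_comp_right`; two-variable chain rule for `F(ξ,t)`):
   `e M₁ = e(χ) F + χ (F_x e ξ + F_t e t)`;  `log χ` is a function of `log k₁`: `e(log χ) = m₁ e(log k₁) = - m₁ K`, `m₁ = -a² s0²/(θ + a² s0²)`;  `e t = H - M₁ - K` (definition of `ssM1`).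
 `e u = s`.  `e ξ`: if `η1 y = 1`: `η1 ≤ 1` has a local maximum at `y`, so `dη1 = 0`, `dη = 0`, `η y = 1`, `e ξ = s - e ψ ≥ s - b`, where `b = √(ssBsq G G0 u y)`, because
   `e ψ = dψ(e) ≤ |dψ|_{G0} |e|_{G0} ≤ b` (Cauchy-Schwarz for the form `G0`);  `b ≤ 1` since `G0 ≤ G` and `|e|_G = 1`.
   Otherwise `ψ = 0` near `y`: `e ξ = (s - ξ e η)/η`, `|e η| ≤ |dη|_G =: dη`, `|dη|_G ≤ |dη|_{G0}` (`G0 ≤ G ⇒ G⁻¹ ≤ G0⁻¹`), `dη = 2(1-ρ) η1 dη1`: `|dη|_{G0} ≤ 2/800 = 1/400`, `|dη|² ≤ 4 (1-ρ)² η1² /800² ≤ η`.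
 `|ξ| < S0 ≤ 1`.  Pressure bounds: `IsPressure` at `(ξ y, t y)`.
 Apply `ss_cmp` (`d = n`), `ss_trace`, and `ss_bal_alg` with `s = √σ`, `μ = ssMu sg a σ`, `J2 := H²/(n-1)`, `bs = - ssBeta sg a σ` (so `t + bs = ssTuC .. y`).
CASE 2 `σ y = 0` and `y ∈ closure {σ > 0}`: both sides of the inequality are continuous on `U` (`ss_huC_met`, `rm_Dsc_smooth`, `if_trC_contDiffOn`, `ss_kap_smooth`, `ss_beta_smooth`); pass to the limit.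
CASE 3 `σ = 0` near `y`: `ssHuC G κ u = G` and `ssTuC G t β u = t` near `y` (`pdiff u = 0` by `rm_sq_eq_zero`, `ss_beta_zero`), so both `rm_DscC` agree (congruence for germs), the traces agree, `max 0 0 = 0`.
-/

set_option autoImplicit false
open scoped ContDiff Topology
open Claims.C0499

namespace Claimed.Agent.R315

/-- S (5.26). -/
theorem ss_bal (n : ℕ) (hn : 4 ≤ n) (δ dd a ρ S0 T : ℝ) (hδ0 : 0 < δ) (hδ1 : δ < 1 / 10)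
    (hd : 0 < dd) (ha0 : 0 < a) (ha1 : a ≤ 1 / 2)
    (hch : (2 * (200 * ssB0 δ) + 3) * a ^ 2 ≤ dd / 4) (hρ0 : 0 < ρ) (hρ1 : ρ ≤ 1 / 2)
    {sg : ℝ → ℝ} (hsg : IsSwitch sg) {F : ℝ → ℝ → ℝ}
    (hF : IsPressure 1000 20 (ssEps n) (ssB0 δ) S0 T F)
    {G0 G : rm_MF n} {U : Set (E n)} (hG0 : rm_Met G0 U) (hG : rm_Met G U)
    (hle : ∀ y ∈ U, (G y - G0 y).PosSemidef) {t u ψ η1 : E n → ℝ}
    (ht : ContDiffOn ℝ ∞ t U) (hu : ContDiffOn ℝ ∞ u U) (hψ : ContDiffOn ℝ ∞ ψ U)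
    (hη : ContDiffOn ℝ ∞ η1 U) (hη01 : ∀ y ∈ U, 0 ≤ η1 y ∧ η1 y ≤ 1)
    (hψg : ∀ y ∈ U, gradSqC G0 ψ y ≤ 1) (hηg : ∀ y ∈ U, gradSqC G0 η1 y ≤ (1 / 800) ^ 2)
    (hdich : ∀ y ∈ U, η1 y = 1 ∨ ψ =ᶠ[𝓝 y] 0)
    (hht : ∀ y ∈ U, |u y - ψ y| < S0 * (ρ + (1 - ρ) * η1 y ^ 2))
    (hpde : ∀ y ∈ U, ssDivC G t (ssFl sg a) u y =
      ssJ sg a (gradSqC G u y) * F ((u y - ψ y) / (ρ + (1 - ρ) * η1 y ^ 2)) (t y)) :
    ∀ y ∈ U, rm_DscC G t y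
        + max (ssV T (ssTuC G t (ssBeta sg a) u y) - ssV T (t y)) 0
        - δ * (trC G G0 y - trC (ssHuC G (ssKap sg a) u) G0 y) * ssV T (ssTuC G t (ssBeta sg a) u y)
        - dd / 2 * ssV T (ssTuC G t (ssBeta sg a) u y)
      ≤ rm_DscC (ssHuC G (ssKap sg a) u) (ssTuC G t (ssBeta sg a) u) y :=
  ssbl_bal n hn δ dd a ρ S0 T hδ0 hδ1 hd ha0 ha1 hch hρ0 hρ1 hsg hF hG0 hG hle ht hu hψ hη hη01
    hψg hηg hdich hht hpde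

end Claimed.Agent.R315
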