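import Claimed.Agent.R315.Ss.AngleC
import Claimed.Agent.R315.Pack002

/-!
# Row 315, paper S, package SS-BAL, part A: two metrics `G0 ≤ G`, chain rules (prefix `ssbl_`)
Owner: helper39.
-/

set_option autoImplicit false
open scoped ContDiff Topology
open Claims.C0499

namespace Claimed.Agent.R315

variable {n : ℕ} {G G0 : rm_MF n} {U : Set (E n)} {u f ψ : E n → ℝ} {y : E n}

/-- `⟨du,df⟩ = df(∇u)`. -/
theorem ssbl_ip_gr (hG : rm_Met G U) (hy : y ∈ U) (u f : E n → ℝ) :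
    gradIpC G u f y = fderiv ℝ f y (ssanGr G u y) := by
  rw [rm_ip_comm hG hy, rm_ip_up, if_clm_expand (fderiv ℝ f y)]
  refine Finset.sum_congr rfl fun i _ => ?_
  rw [ssan_gr_apply]
  unfold pdiff rm_up ssUp
  ring

/-- `G(∇u,∇u) = σ`. -/
theorem ssbl_gr_sq (hG : rm_Met G U) (hy : y ∈ U) (u : E n → ℝ) :
    if_bil (G y) (ssanGr G u y) (ssanGr G u y) = gradSqC G u y := by
  rw [ssan_gr_bil hG hy, ← ssbl_ip_gr hG hy, if_gradSqC_eq]

theorem ssbl_Bsq (G G0 : rm_MF n) (u : E n → ℝ) (y : E n) :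
    ssBsq G G0 u y = if_bil (G0 y) (ssanGr G u y) (ssanGr G u y) / gradSqC G u y := by
  unfold ssBsq
  rw [if_bil_apply]
  simp only [ssan_gr_apply, mul_assoc]
  rfl

theorem ssbl_Bsq_nonneg (hG : rm_Met G U) (hG0 : rm_Met G0 U) (hy : y ∈ U) (u : E n → ℝ) :
    0 ≤ ssBsq G G0 u y := by
  rw [ssbl_Bsq]
  exact div_nonneg (if_bil_nonneg (hG0.pos y hy).posSemidef _) (rm_sq_nonneg hG hy u)

theorem ssbl_bil_le (hle : (G y - G0 y).PosSemidef) (X : E n) :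
    if_bil (G0 y) X X ≤ if_bil (G y) X X := by
  have := if_bil_nonneg hle X
  rw [if_bil_sub] at this
  linarith

theorem ssbl_Bsq_le (hG : rm_Met G U) (hy : y ∈ U) (hle : (G y - G0 y).PosSemidef)
    (hs : 0 < gradSqC G u y) : ssBsq G G0 u y ≤ 1 := by
  rw [ssbl_Bsq, div_le_one hs, ← ssbl_gr_sq hG hy]
  exact ssbl_bil_le hle _

/-- `(e ψ)² ≤ |dψ|²_{G0} G0(e,e)`. -/
theorem ssbl_E_sq_le (hG : rm_Met G U) (hG0 : rm_Met G0 U) (hy : y ∈ U)
    (hs : 0 < gradSqC G u y) (ψ : E n → ℝ) :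
    ssE G u ψ y ^ 2 ≤ gradSqC G0 ψ y * ssBsq G G0 u y := by
  have h1 := if_cs_dual (hG0.pos y hy) (fderiv ℝ ψ y) (ssanGr G u y)
  have h2 : ssSl G u y ^ 2 = gradSqC G u y := Real.sq_sqrt hs.le
  unfold ssE
  rw [div_pow, h2, ssbl_Bsq, ssbl_ip_gr hG hy, div_le_iff₀ hs]
  have e : gradSqC G0 ψ y * (if_bil (G0 y) (ssanGr G u y) (ssanGr G u y) / gradSqC G u y) *
      gradSqC G u y = gradSqC G0 ψ y * if_bil (G0 y) (ssanGr G u y) (ssanGr G u y) := by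
    field_simp
  rw [e]
  exact h1

/-- `e ψ ≤ b` if `|dψ|_{G0} ≤ 1`. -/
theorem ssbl_E_le (hG : rm_Met G U) (hG0 : rm_Met G0 U) (hy : y ∈ U)
    (hs : 0 < gradSqC G u y) (hψ : gradSqC G0 ψ y ≤ 1) :
    ssE G u ψ y ≤ Real.sqrt (ssBsq G G0 u y) := by
  refine Real.le_sqrt_of_sq_le ((ssbl_E_sq_le hG hG0 hy hs ψ).trans ?_)
  have := ssbl_Bsq_nonneg hG hG0 hy u
  nlinarith

/-- `G0 ≤ G ⇒ |df|_G ≤ |df|_{G0}`. -/
theorem ssbl_sq_le (hG : rm_Met G U) (hG0 : rm_Met G0 U) (hy : y ∈ U)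
    (hle : (G y - G0 y).PosSemidef) (f : E n → ℝ) : gradSqC G f y ≤ gradSqC G0 f y := by
  have h1 := if_cs_dual (hG0.pos y hy) (fderiv ℝ f y) (ssanGr G f y)
  have h2 := ssbl_bil_le hle (ssanGr G f y)
  rw [ssbl_gr_sq hG hy] at h2
  rw [← ssbl_ip_gr hG hy, ← if_gradSqC_eq] at h1
  have h3 := rm_sq_nonneg hG hy f
  have h4 : 0 ≤ gradSqC G0 f y := rm_sq_nonneg hG0 hy f
  have h5 : gradSqC G f y ^ 2 ≤ gradSqC G0 f y * gradSqC G f y :=
    h1.trans (mul_le_mul_of_nonneg_left h2 h4)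
  rcases h3.eq_or_lt with h | h
  · rw [← h]; exact h4
  · nlinarith

/-- `|e f| ≤ |df|_G`. -/
theorem ssbl_E_abs_le (hG : rm_Met G U) (hy : y ∈ U) (hs : 0 < gradSqC G u y) (f : E n → ℝ) :
    |ssE G u f y| ≤ Real.sqrt (gradSqC G f y) := by
  refine Real.abs_le_sqrt ?_
  have h2 : ssSl G u y ^ 2 = gradSqC G u y := Real.sq_sqrt hs.le
  unfold ssE
  rw [div_pow, h2, div_le_iff₀ hs, mul_comm]
  exact rm_ip_cs hG hy u f

/-- two variable chain rule. -/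
theorem ssbl_pdiff_comp2 {F : ℝ → ℝ → ℝ} {a b : E n → ℝ}
    (hF : DifferentiableAt ℝ (fun p : ℝ × ℝ => F p.1 p.2) (a y, b y))
    (ha : DifferentiableAt ℝ a y) (hb : DifferentiableAt ℝ b y) (i : Fin n) :
    pdiff (fun z => F (a z) (b z)) i y =
      deriv (fun x => F x (b y)) (a y) * pdiff a i y +
        deriv (fun r => F (a y) r) (b y) * pdiff b i y := by
  have h1 : HasFDerivAt (fun z => (a z, b z)) ((fderiv ℝ a y).prod (fderiv ℝ b y)) y :=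
    ha.hasFDerivAt.prodMk hb.hasFDerivAt
  have h2 := hF.hasFDerivAt.comp y h1
  have hx : HasDerivAt (fun x => F x (b y))
      (fderiv ℝ (fun p : ℝ × ℝ => F p.1 p.2) (a y, b y) (1, 0)) (a y) := by
    have h3 : HasDerivAt (fun x : ℝ => (x, b y)) ((1 : ℝ), (0 : ℝ)) (a y) :=
      (hasDerivAt_id _).prodMk (hasDerivAt_const _ _)
    exact hF.hasFDerivAt.comp_hasDerivAt (a y) h3
  have hr : HasDerivAt (fun r => F (a y) r)
      (fderiv ℝ (fun p : ℝ × ℝ => F p.1 p.2) (a y, b y) (0, 1)) (b y) := by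
    have h3 : HasDerivAt (fun r : ℝ => (a y, r)) ((0 : ℝ), (1 : ℝ)) (b y) :=
      (hasDerivAt_const _ _).prodMk (hasDerivAt_id _)
    exact hF.hasFDerivAt.comp_hasDerivAt (b y) h3
  rw [hx.deriv, hr.deriv]
  unfold pdiff
  have e : (fun z => F (a z) (b z)) = (fun p : ℝ × ℝ => F p.1 p.2) ∘ fun z => (a z, b z) := rfl
  rw [e, h2.fderiv]
  simp only [ContinuousLinearMap.comp_apply, ContinuousLinearMap.prod_apply]
  set L := fderiv ℝ (fun p : ℝ × ℝ => F p.1 p.2) (a y, b y)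
  set α := fderiv ℝ a y (EuclideanSpace.single i 1)
  set β := fderiv ℝ b y (EuclideanSpace.single i 1)
  have : ((α, β) : ℝ × ℝ) = α • ((1 : ℝ), (0 : ℝ)) + β • ((0 : ℝ), (1 : ℝ)) := by
    ext <;> simp
  rw [this, map_add, map_smul, map_smul]
  simp only [smul_eq_mul]
  ring

theorem ssbl_ip_comp2 {F : ℝ → ℝ → ℝ} {a b : E n → ℝ}
    (hF : DifferentiableAt ℝ (fun p : ℝ × ℝ => F p.1 p.2) (a y, b y))
    (ha : DifferentiableAt ℝ a y) (hb : DifferentiableAt ℝ b y) :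
    gradIpC G u (fun z => F (a z) (b z)) y =
      deriv (fun x => F x (b y)) (a y) * gradIpC G u a y +
        deriv (fun r => F (a y) r) (b y) * gradIpC G u b y := by
  unfold gradIpC
  simp only [ssbl_pdiff_comp2 hF ha hb, Finset.mul_sum, ← Finset.sum_add_distrib]
  exact Finset.sum_congr rfl fun i _ => Finset.sum_congr rfl fun j _ => by ring

end Claimed.Agent.R315
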