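import Claimed.Agent.R315.Ss.BalA
import Claimed.Agent.R315.Ss.Cmp

/-!
# Row 315, paper S, package SS-BAL, part B: derivatives along `e` (prefix `ssbl_`)
Owner: helper39.
-/

set_option autoImplicit false
open scoped ContDiff Topology
open Claims.C0499

namespace Claimed.Agent.R315

variable {n : ℕ} {G G0 : rm_MF n} {U : Set (E n)} {t u ψ η η1 Φ : E n → ℝ} {y : E n} {th : ℝ → ℝ}

theorem ssbl_K (hG : rm_Met G U) (hu : ContDiffOn ℝ ∞ u U) (hth : IsTheta th) (hy : y ∈ U)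
    (hs : 0 < gradSqC G u y) :
    ssK G u th y = -(deriv th (gradSqC G u y) / th (gradSqC G u y) / 2 *
      gradIpC G u (gradSqC G u) y / ssSl G u y) := by
  have hd : HasDerivAt th (deriv th (gradSqC G u y)) (gradSqC G u y) :=
    ((hth.smooth.contDiffAt (isOpen_Ioi.mem_nhds hs)).differentiableAt (by simp)).hasDerivAt
  have h1 := (hd.log (hth.pos _ hs).ne').div_const 2
  unfold ssK ssE
  rw [rm_ip_comp_right (φ := fun x => Real.log (th x) / 2) h1.differentiableAt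
    (rm_da hG.opn (sscm_sq_smooth hG hu) hy), h1.deriv]

theorem ssbl_ip_sqrt (hG : rm_Met G U) (hu : ContDiffOn ℝ ∞ u U) (hth : IsTheta th) (hy : y ∈ U)
    (hs : 0 < gradSqC G u y) {c0 : ℝ} (hc : 0 ≤ c0) :
    gradIpC G u (fun z => Real.sqrt (th (gradSqC G u z) + c0)) y =
      deriv th (gradSqC G u y) / (2 * Real.sqrt (th (gradSqC G u y) + c0)) *
        gradIpC G u (gradSqC G u) y := by
  have hd : HasDerivAt th (deriv th (gradSqC G u y)) (gradSqC G u y) :=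
    ((hth.smooth.contDiffAt (isOpen_Ioi.mem_nhds hs)).differentiableAt (by simp)).hasDerivAt
  have hp := hth.pos _ hs
  have h1 := (hd.add_const c0).sqrt (by positivity)
  rw [rm_ip_comp_right (φ := fun x => Real.sqrt (th x + c0)) h1.differentiableAt
    (rm_da hG.opn (sscm_sq_smooth hG hu) hy), h1.deriv]

/-- differentiation of `√θ M₁ = √(θ+c0) Φ` along `e`. -/
theorem ssbl_eM1 (hG : rm_Met G U) (hu : ContDiffOn ℝ ∞ u U) (ht : ContDiffOn ℝ ∞ t U)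
    (hth : IsTheta th) (hσ : ∀ z ∈ U, 0 < gradSqC G u z) {c0 : ℝ} (hc : 0 ≤ c0)
    (hΦ : DifferentiableAt ℝ Φ y)
    (heq : ∀ z ∈ U, Real.sqrt (th (gradSqC G u z)) * ssM1 G t u th z =
      Real.sqrt (th (gradSqC G u z) + c0) * Φ z) (hy : y ∈ U) :
    ssM1 G t u th y = Real.sqrt (1 + c0 / th (gradSqC G u y)) * Φ y ∧
    ssE G u (ssM1 G t u th) y =
      -(-c0 / (th (gradSqC G u y) + c0)) * ssK G u th y * ssM1 G t u th y +
        Real.sqrt (1 + c0 / th (gradSqC G u y)) * ssE G u Φ y := by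
  have hs := hσ y hy
  have hσs := sscm_sq_smooth hG hu
  have hθ := hth.pos _ hs
  have hM1s := sscm_M1_smooth hG hu ht hσ hth.smooth hth.pos
  have hps : ContDiffOn ℝ ∞ (fun z => Real.sqrt (th (gradSqC G u z) + 0)) U :=
    ((hth.smooth.comp hσs hσ).add contDiffOn_const).sqrt fun z hz => by
      have := hth.pos _ (hσ z hz)
      positivity
  have hqs : ContDiffOn ℝ ∞ (fun z => Real.sqrt (th (gradSqC G u z) + c0)) U :=
    ((hth.smooth.comp hσs hσ).add contDiffOn_const).sqrt fun z hz => by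
      have := hth.pos _ (hσ z hz)
      positivity
  have e3 : gradIpC G u (fun z => Real.sqrt (th (gradSqC G u z) + 0) * ssM1 G t u th z) y =
      gradIpC G u (fun z => Real.sqrt (th (gradSqC G u z) + c0) * Φ z) y :=
    rm_ip_congr (Filter.EventuallyEq.refl _ u)
      (Filter.eventuallyEq_of_mem (hG.opn.mem_nhds hy) fun z hz => by
        show Real.sqrt (th (gradSqC G u z) + 0) * ssM1 G t u th z = _
        rw [add_zero]; exact heq z hz)
  rw [rm_ip_mul_right (rm_da hG.opn hps hy) (rm_da hG.opn hM1s hy),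
    rm_ip_mul_right (rm_da hG.opn hqs hy) hΦ, ssbl_ip_sqrt hG hu hth hy hs le_rfl,
    ssbl_ip_sqrt hG hu hth hy hs hc, add_zero] at e3
  have hK := ssbl_K hG hu hth hy hs
  have hsl : 0 < ssSl G u y := Real.sqrt_pos.2 hs
  obtain ⟨p, hp⟩ : ∃ p, p = Real.sqrt (th (gradSqC G u y)) := ⟨_, rfl⟩
  obtain ⟨q, hq⟩ : ∃ q, q = Real.sqrt (th (gradSqC G u y) + c0) := ⟨_, rfl⟩
  have hp0 : 0 < p := by rw [hp]; exact Real.sqrt_pos.2 hθ
  have hq0 : 0 < q := by rw [hq]; exact Real.sqrt_pos.2 (by positivity)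
  have hp2 : th (gradSqC G u y) = p ^ 2 := by rw [hp]; exact (Real.sq_sqrt hθ.le).symm
  have hq2 : th (gradSqC G u y) + c0 = q ^ 2 := by
    rw [hq]; exact (Real.sq_sqrt (by positivity)).symm
  have hχ : Real.sqrt (1 + c0 / th (gradSqC G u y)) = q / p := by
    have : 1 + c0 / th (gradSqC G u y) = (q / p) ^ 2 := by
      rw [div_pow, ← hq2, ← hp2]; field_simp
    rw [this, Real.sqrt_sq (by positivity)]
  have hM : ssM1 G t u th y = q / p * Φ y := by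
    have := heq y hy
    rw [← hp, ← hq] at this
    field_simp
    linarith
  have hc0 : c0 = q ^ 2 - p ^ 2 := by linarith
  refine ⟨by rw [hχ, hM], ?_⟩
  rw [hχ, hK, hq2]
  rw [← hp, ← hq] at e3
  unfold ssE
  rw [hp2, hc0]
  rw [hM] at e3 ⊢
  generalize gradIpC G u (ssM1 G t u th) y = A at e3 ⊢
  generalize gradIpC G u Φ y = B at e3 ⊢
  generalize deriv th (gradSqC G u y) = c at e3 ⊢
  generalize gradIpC G u (gradSqC G u) y = X at e3 ⊢
  generalize Φ y = F at e3 ⊢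
  generalize ssSl G u y = s at hsl ⊢
  field_simp at e3 ⊢
  linear_combination e3

/-- `e u = s`. -/
theorem ssbl_E_self (hs : 0 < gradSqC G u y) : ssE G u u y = ssSl G u y := by
  have hsl : 0 < ssSl G u y := Real.sqrt_pos.2 hs
  have hsl2 : ssSl G u y ^ 2 = gradSqC G u y := Real.sq_sqrt hs.le
  unfold ssE
  rw [← if_gradSqC_eq, ← hsl2]
  field_simp

/-- `e ξ = (s - e ψ - ξ e η)/η`, `ξ = (u-ψ)/η`. -/
theorem ssbl_E_xi (hs : 0 < gradSqC G u y) (du : DifferentiableAt ℝ u y)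
    (dψ : DifferentiableAt ℝ ψ y) (dη : DifferentiableAt ℝ η y) (hη : η y ≠ 0) :
    ssE G u (fun z => (u z - ψ z) / η z) y =
      (ssSl G u y - ssE G u ψ y - (u y - ψ y) / η y * ssE G u η y) / η y := by
  have hsl : 0 < ssSl G u y := Real.sqrt_pos.2 hs
  have e1 : (fun z => (u z - ψ z) / η z) = fun z => (u z + (-1) * ψ z) * (η z)⁻¹ := by
    funext z; rw [div_eq_mul_inv]; ring
  have h1 : HasDerivAt (fun x : ℝ => x⁻¹) (-(η y ^ 2)⁻¹) (η y) := hasDerivAt_inv hη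
  have e2 : gradIpC G u (fun z => (η z)⁻¹) y = -(η y ^ 2)⁻¹ * gradIpC G u η y := by
    rw [rm_ip_comp_right (φ := fun x : ℝ => x⁻¹) h1.differentiableAt dη, h1.deriv]
  have e3 : gradIpC G u (fun z => u z + (-1) * ψ z) y =
      gradIpC G u u y + (-1) * gradIpC G u ψ y := by
    rw [rm_ip_add_right (f := u) (k := fun z => (-1) * ψ z) du (dψ.const_mul (-1)),
      rm_ip_smul_right (-1) dψ]
  rw [← ssbl_E_self hs]
  unfold ssE
  rw [e1, rm_ip_mul_right (f := fun z => u z + (-1) * ψ z) (k := fun z => (η z)⁻¹)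
    (du.add (dψ.const_mul (-1))) (dη.inv hη), e2, e3]
  field_simp
  ring

section eta

variable {ρ : ℝ}

theorem ssbl_eta_deriv (ρ x : ℝ) :
    HasDerivAt (fun x : ℝ => ρ + (1 - ρ) * x ^ 2) (2 * (1 - ρ) * x) x := by
  have := ((hasDerivAt_pow 2 x).const_mul (1 - ρ)).const_add ρ
  have e : (1 - ρ) * (((2 : ℕ) : ℝ) * x ^ (2 - 1)) = 2 * (1 - ρ) * x := by
    norm_num; ring
  rw [e] at this
  exact this

theorem ssbl_eta_ip (dη : DifferentiableAt ℝ η1 y) (f : E n → ℝ) :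
    gradIpC G f (fun z => ρ + (1 - ρ) * η1 z ^ 2) y =
      2 * (1 - ρ) * η1 y * gradIpC G f η1 y := by
  rw [rm_ip_comp_right (φ := fun x : ℝ => ρ + (1 - ρ) * x ^ 2)
    (ssbl_eta_deriv ρ _).differentiableAt dη, (ssbl_eta_deriv ρ _).deriv]

theorem ssbl_eta_sq (dη : DifferentiableAt ℝ η1 y) :
    gradSqC G (fun z => ρ + (1 - ρ) * η1 z ^ 2) y =
      (2 * (1 - ρ) * η1 y) ^ 2 * gradSqC G η1 y := by
  rw [if_gradSqC_eq, ssbl_eta_ip dη, rm_ip_comp_left (φ := fun x : ℝ => ρ + (1 - ρ) * x ^ 2)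
    (ssbl_eta_deriv ρ _).differentiableAt dη, (ssbl_eta_deriv ρ _).deriv, ← if_gradSqC_eq]
  ring

theorem ssbl_eta_pos (hρ0 : 0 < ρ) (hρ1 : ρ ≤ 1 / 2) (x : ℝ) : 0 < ρ + (1 - ρ) * x ^ 2 := by
  have : 0 ≤ (1 - ρ) * x ^ 2 := mul_nonneg (by linarith) (sq_nonneg x)
  linarith

theorem ssbl_eta_le (hρ1 : ρ ≤ 1 / 2) {x : ℝ} (h0 : 0 ≤ x) (h1 : x ≤ 1) :
    ρ + (1 - ρ) * x ^ 2 ≤ 1 := by
  have : x ^ 2 ≤ 1 := by nlinarith
  nlinarith

/-- bounds for `dη`. -/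
theorem ssbl_eta_bd (hG : rm_Met G U) (hG0 : rm_Met G0 U) (hy : y ∈ U)
    (hle : (G y - G0 y).PosSemidef) (hρ0 : 0 < ρ) (hρ1 : ρ ≤ 1 / 2)
    (dη : DifferentiableAt ℝ η1 y) (h0 : 0 ≤ η1 y) (h1 : η1 y ≤ 1)
    (hg : gradSqC G0 η1 y ≤ (1 / 800) ^ 2) :
    Real.sqrt (gradSqC G (fun z => ρ + (1 - ρ) * η1 z ^ 2) y) ≤ 1 / 400 ∧
      Real.sqrt (gradSqC G (fun z => ρ + (1 - ρ) * η1 z ^ 2) y) ^ 2 ≤
        ρ + (1 - ρ) * η1 y ^ 2 := by
  have a1 := ssbl_sq_le hG hG0 hy hle (fun z => ρ + (1 - ρ) * η1 z ^ 2)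
  rw [ssbl_eta_sq (G := G0) dη] at a1
  have a0 := rm_sq_nonneg hG hy (fun z => ρ + (1 - ρ) * η1 z ^ 2)
  have a2 : 0 ≤ gradSqC G0 η1 y := rm_sq_nonneg hG0 hy η1
  generalize gradSqC G (fun z => ρ + (1 - ρ) * η1 z ^ 2) y = Q at a0 a1 ⊢
  generalize gradSqC G0 η1 y = g at a1 a2 hg
  generalize η1 y = x at h0 h1 a1 ⊢
  have b1 : (1 - ρ) * x ≤ 1 := by nlinarith
  have b0 : 0 ≤ (1 - ρ) * x := mul_nonneg (by linarith) h0
  have b2 : (2 * (1 - ρ) * x) ^ 2 * g ≤ (2 * (1 - ρ) * x) ^ 2 * (1 / 800) ^ 2 :=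
    mul_le_mul_of_nonneg_left hg (sq_nonneg _)
  have b3 : ((1 - ρ) * x) ^ 2 ≤ 1 := by nlinarith
  have b4 : ((1 - ρ) * x) ^ 2 ≤ (1 - ρ) * x ^ 2 := by
    have : (1 - ρ) ^ 2 ≤ 1 - ρ := by nlinarith
    have h5 : (1 - ρ) ^ 2 * x ^ 2 ≤ (1 - ρ) * x ^ 2 :=
      mul_le_mul_of_nonneg_right this (sq_nonneg x)
    nlinarith
  constructor
  · rw [Real.sqrt_le_left (by norm_num)]
    nlinarith
  · rw [Real.sq_sqrt a0]
    nlinarith

end eta

end Claimed.Agent.R315
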