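import Claimed.Agent.R315.Ss.Loc

/-!
# Row 315, paper S, Lemma 5.1: the glue (`ss_local_pf`), proved from the statements of `Ss/Loc.lean`
-/

set_option autoImplicit false
open scoped ContDiff
open Claims.C0499

namespace Claimed.Agent.R315

theorem ssHc_zero {n N : ℕ} {M : Set (E N)} {h : Ten (E N)} {ζ : E N → ℝ} {kap : ℝ → ℝ}
    {u : E N → ℝ} {x : E N} (hz : ζ x = 0) : ssHc n M h ζ kap u x = h x := by
  unfold ssHc
  rw [hz, zero_mul]
  ext v w
  simp

theorem ssHc_one {n N : ℕ} {M : Set (E N)} {h : Ten (E N)} {ζ : E N → ℝ} {kap : ℝ → ℝ}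
    {u : E N → ℝ} {x : E N} (hz : ζ x = 1) : ssHc n M h ζ kap u x = ssHu n M h kap u x := by
  unfold ssHc ssHu
  rw [hz, one_mul]

theorem ss_local_pf (n : ℕ) (hn : 4 ≤ n) (δ : ℝ) (h0 : 0 < δ) (h1 : δ < 1 / 10) :
    ∃ W T : ℝ, 1 ≤ W ∧ 10 ≤ T ∧ SsLocal n δ W T := by
  have hn0 : (0 : ℝ) < n := by exact_mod_cast (by omega : 0 < n)
  have hε : 0 < ssEps n := by
    unfold ssEps; exact lt_min (by norm_num) (by positivity)
  have hb : 0 < ssB0 δ := by unfold ssB0; positivity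
  obtain ⟨S0, T, F, hF⟩ := ss_pressure 1000 20 (ssEps n) (ssB0 δ) (by norm_num) (by norm_num) hε hb
  obtain ⟨sg, hsg⟩ := ss_switch_exists
  refine ⟨100000, T, by norm_num, hF.T_ge, ?_⟩
  intro N M g0 h t A B dd hM hg0 hp hh hle ht hA hA1 hA2 hB hAB hd0 hd1
  set W : ℝ := 100000 with hW
  have hWpos : (0 : ℝ) < W := by rw [hW]; norm_num
  -- the parameter `a`
  set a : ℝ := dd / 4 with ha
  have ha0 : 0 < a := by rw [ha]; positivity
  have ha1 : a ≤ 1 / 2 := by rw [ha]; linarith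
  have hch : (2 * (200 * ssB0 δ) + 3) * a ^ 2 ≤ dd / 4 := by
    have e1 : ssB0 δ ≤ 1 / 400 := by unfold ssB0; linarith
    have e2 : a ^ 2 ≤ dd / 16 := by rw [ha]; nlinarith
    nlinarith [sq_nonneg a]
  -- cutoffs
  obtain ⟨ψ, η1, ζ, hcut⟩ := ss_cutoffs M g0 hM hg0 hp A hA hA1 hA2 W (by rw [hW]; norm_num)
  -- the regions
  obtain ⟨Ω, hΩo, hΩ⟩ := ssn_nb_open hM hg0 hA (1.1 * W)
  obtain ⟨Ω1, hΩ1o, hΩ1⟩ := ssn_nb_open hM hg0 hA (0.81 * W)
  obtain ⟨Ω2, hΩ2o, hΩ2⟩ := ssn_nb_open hM hg0 hA (0.82 * W)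
  have hcpt : ∀ c, IsCompact (ssNc M g0 A c) := fun c => ssn_nc_compact hM hg0 hp hA hA2 c
  set Z : Set (E N) := (ssNc M g0 A (0.8 * W))ᶜ with hZ
  have hZo : IsOpen Z := (hcpt _).isClosed.isOpen_compl
  have hZmem : ∀ x ∈ M ∩ Z, ∀ a' ∈ A, 0.8 * W < rdist M g0 a' x := by
    intro x hx a' ha'
    by_contra hcon
    exact hx.2 ⟨hx.1, a', ha', not_lt.1 hcon⟩
  have hZ0 : ∀ x ∈ M ∩ Z, ψ x = 0 ∧ η1 x = 0 := by
    intro x hx
    refine ⟨hcut.ψ_zero x hx.1 fun a' ha' => ?_, hcut.η_zero x hx.1 fun a' ha' => ?_⟩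
    · have := hZmem x hx a' ha'; nlinarith
    · exact (hZmem x hx a' ha').le
  have hΩK : M ∩ Ω ⊆ ssNc M g0 A (1.1 * W) := by
    rw [hΩ]; rintro x ⟨hx, a', ha', h⟩; exact ⟨hx, a', ha', h.le⟩
  -- the graphs
  obtain ⟨S1, u, hS1, hS1', hu, hloc⟩ := ss_graph M h t ψ η1 (by omega) hM.mfd hM.closed hh ht hcut.ψ_s
    hcut.η_s hcut.η_mem Ω Z _ hΩo (hcpt _) hΩK hZo hZ0 hsg ha0 ha1 (by norm_num) hF
  have hkap := ss_kap_smooth hsg ha0 ha1
  have hbet := ss_beta_smooth hsg ha0 ha1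
  have hkap0 : ∀ σ, 0 ≤ σ → 0 ≤ ssKap sg a σ := fun σ hσ => (ss_kap_nonneg hsg ha0 ha1 hσ).1
  have hζ0 : ∀ x ∈ M, 0 ≤ ζ x := fun x hx => (hcut.ζ_mem x hx).1
  -- the annulus
  set Kc : Set (E N) := ssNc M g0 A (0.99 * W) \ Ω1 with hKc
  have hKcc : IsCompact Kc := (hcpt _).diff hΩ1o
  have hKcY : Kc ⊆ M ∩ (Ω ∩ Z) := by
    rintro x ⟨⟨hx, a', ha', h⟩, hx1⟩
    refine ⟨hx, ?_, ?_⟩
    · have : x ∈ M ∩ Ω := by rw [hΩ]; exact ⟨hx, a', ha', by nlinarith⟩
      exact this.2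
    · rintro ⟨_, b', hb', hb''⟩
      apply hx1
      have : x ∈ M ∩ Ω1 := by rw [hΩ1]; exact ⟨hx, b', hb', by nlinarith⟩
      exact this.2
  obtain ⟨ρ0, hρ0, hann⟩ := ss_ann hM.mfd hh ht hcut.ζ_s hζ0 hkap hkap0 hbet ss_beta_zero u
    (fun ρ hρ => (hu ρ hρ).1) (hΩo.inter hZo) hKcc hKcY hloc (min (dd / 3) ((1 / 100) ^ 2))
    (lt_min (by positivity) (by norm_num))
  set ρ : ℝ := min (ρ0 / 2) (1 / 2) with hρ
  have hρpos : 0 < ρ := lt_min (by positivity) (by norm_num)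
  have hρ1 : ρ ≤ 1 / 2 := min_le_right _ _
  have hρ2 : ρ ∈ Set.Ioo 0 ρ0 := ⟨hρpos, lt_of_le_of_lt (min_le_left _ _) (by linarith)⟩
  obtain ⟨hus, hueq, huht⟩ := hu ρ ⟨hρpos, hρ1⟩
  have hann' := hann ρ hρ2 hρ1
  obtain ⟨hmet, hmle⟩ := ss_out_met hM.mfd hh hus hcut.ζ_s hζ0 hkap hkap0
  have hts := ss_out_smooth hM.mfd hh ht hus hcut.ζ_s hbet
  have hVpos : ∀ τ, 0 < ssV T τ := fun τ => by
    unfold ssV; nlinarith [sq_nonneg τ, hF.T_ge]
  refine ⟨ssHc n M h ζ (ssKap sg a) (u ρ), ssTc n M h t ζ (ssBeta sg a) (u ρ),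
    ssNc M g0 A (0.98 * W), hmet, hmle, hts, hcpt _, ?_, ?_, ?_, ?_⟩
  · rintro x ⟨hx, a', ha', h⟩
    exact ⟨hx, a', ha', by nlinarith⟩
  · intro x hx hxK
    have hz : ζ x = 0 := hcut.ζ_zero x hx fun a' ha' => by
      by_contra hcon
      exact hxK ⟨hx, a', ha', (not_le.1 hcon).le⟩
    constructor
    · exact ssHc_zero hz
    · simp [ssTc, hz]
  · -- the curvature inequality
    intro x hx
    by_cases c1 : x ∈ ssNb M g0 A (0.82 * W)
    · -- region `ζ = 1`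
      have hxO : x ∈ M ∩ Ω2 := by rw [hΩ2]; exact c1
      have hone : ∀ y ∈ M ∩ Ω2, ζ y = 1 := by
        intro y hy
        rw [hΩ2] at hy
        obtain ⟨hy1, a', ha', h⟩ := hy
        exact hcut.ζ_one y hy1 ⟨a', ha', h.le⟩
      have hsub : M ∩ Ω2 ⊆ M ∩ Ω := by
        rw [hΩ2, hΩ]; rintro y ⟨hy, a', ha', h⟩; exact ⟨hy, a', ha', by nlinarith⟩
      have e1 : ∀ y ∈ M ∩ Ω2, ssHc n M h ζ (ssKap sg a) (u ρ) y = ssHu n M h (ssKap sg a) (u ρ) y ∧
          ssTc n M h t ζ (ssBeta sg a) (u ρ) y = ssTu n M h t (ssBeta sg a) (u ρ) y := by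
        intro y hy
        constructor
        · exact ssHc_one (hone y hy)
        · simp [ssTc, ssTu, hone y hy]
      have key := ss_bal_M hn δ dd a ρ S0 S1 T W h0 h1 hd0 ha0 ha1 hch hρpos hρ1 hsg hF hS1' hWpos
        hM hg0 hh hle ht hus hA hcut hΩ2o (fun y hy => hueq y (hsub hy))
        (fun y hy => huht y (hsub hy)) x hxO
      rw [ssn_dsc_congr (hΩ2o.mem_nhds hxO.2) e1, (e1 x hxO).2,
        ssn_trM_congr (n := n) (M := M) (e1 x hxO).1 (rfl : g0 x = g0 x)]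
      have := hVpos (ssTu n M h t (ssBeta sg a) (u ρ) x)
      nlinarith
    · have c1' : ∀ a' ∈ A, 0.82 * W ≤ rdist M g0 a' x := by
        intro a' ha'
        by_contra hcon
        exact c1 ⟨hx, a', ha', not_le.1 hcon⟩
      by_cases c2 : x ∈ ssNc M g0 A (0.99 * W)
      · -- the annulus
        have hxK : x ∈ Kc := by
          refine ⟨c2, fun hx1 => ?_⟩
          have : x ∈ ssNb M g0 A (0.81 * W) := by rw [← hΩ1]; exact ⟨hx, hx1⟩
          obtain ⟨_, a', ha', h⟩ := this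
          have := c1' a' ha'
          nlinarith
        obtain ⟨k1, k2, _⟩ := hann' x hxK
        have htr := ssn_trM_anti hM.mfd hh hmet hg0 hmle hx
        have := ss_ann_num (Dsc n M h t x) _ (t x) (ssTc n M h t ζ (ssBeta sg a) (u ρ) x) T dd
          (δ * (trM n M h g0 x - trM n M (ssHc n M h ζ (ssKap sg a) (u ρ)) g0 x)) hF.T_ge hd0
          (by linarith) (k1.trans (min_le_left _ _))
          (by
            have : ssTc n M h t ζ (ssBeta sg a) (u ρ) x - t x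
                = -(ζ x * ssBeta sg a (gradSq n M h (u ρ) x)) := by simp [ssTc]
            rw [this, abs_neg]; exact k2.trans (min_le_left _ _))
          (mul_nonneg h0.le (by linarith))
        exact this
      · -- nothing changes
        set O3 : Set (E N) := (ssNc M g0 A (0.98 * W))ᶜ with hO3
        have hO3o : IsOpen O3 := (hcpt _).isClosed.isOpen_compl
        have hxO3 : x ∈ O3 := by
          rintro ⟨_, a', ha', h⟩
          exact c2 ⟨hx, a', ha', by nlinarith⟩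
        have e1 : ∀ y ∈ M ∩ O3, ssHc n M h ζ (ssKap sg a) (u ρ) y = h y ∧
            ssTc n M h t ζ (ssBeta sg a) (u ρ) y = t y := by
          intro y hy
          have hz : ζ y = 0 := hcut.ζ_zero y hy.1 fun a' ha' => by
            by_contra hcon
            exact hy.2 ⟨hy.1, a', ha', (not_le.1 hcon).le⟩
          constructor
          · exact ssHc_zero hz
          · simp [ssTc, hz]
        rw [ssn_dsc_congr (hO3o.mem_nhds hxO3) e1, (e1 x ⟨hx, hxO3⟩).2,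
          ssn_trM_congr (n := n) (M := M) (e1 x ⟨hx, hxO3⟩).1 (rfl : g0 x = g0 x)]
        have := hVpos (t x)
        simp only [sub_self, max_self, mul_zero, zero_mul]
        nlinarith
  · -- the distance gain
    have hS01 : S1 < 1 := lt_of_lt_of_le hS1' hF.S0_le
    refine ss_len M h (u ρ) ζ (ssKap sg a) A B W hM hh hus hcut.ζ_s hcut.ζ_mem hkap hkap0
      (fun σ hσ => ss_kap_large hsg hσ) (by rw [hW]; norm_num) hA hB ?_ ?_ ?_ ?_
    · intro x hx y hy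
      exact (hAB x hx y hy).trans (ssn_rdist_mono hM.mfd hg0 hh hle x y)
    · intro x hx
      have hxM := hA hx
      have hr : rdist M g0 x x = 0 := ssn_rdist_self hxM
      have hz : ζ x = 1 := hcut.ζ_one x hxM ⟨x, hx, by rw [hr]; positivity⟩
      have hxΩ : x ∈ M ∩ Ω := by rw [hΩ]; exact ⟨hxM, x, hx, by rw [hr]; positivity⟩
      have k1 := abs_le.1 (huht x hxΩ)
      have k2 := hcut.ψ_A x hx
      have hη : 0 ≤ ssEta ρ η1 x ∧ ssEta ρ η1 x ≤ 1 := by
        obtain ⟨e1, e2⟩ := hcut.η_mem x hxM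
        have e3 : η1 x ^ 2 ≤ 1 := by nlinarith
        unfold ssEta
        constructor
        · nlinarith [sq_nonneg (η1 x)]
        · nlinarith [mul_nonneg (by linarith : (0 : ℝ) ≤ 1 - ρ) (sub_nonneg.2 e3)]
      rw [hz, one_mul]
      nlinarith [k1.1]
    · intro y hy
      have hz : ζ y = 0 := hcut.ζ_zero y (hB hy) fun a' ha' => by
        have := hAB a' ha' y hy; nlinarith
      rw [hz, zero_mul]
    · intro x hx hz0 hz1
      have hxK : x ∈ Kc := by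
        refine ⟨?_, fun hx1 => ?_⟩
        · by_contra hcon
          have : ζ x = 0 := hcut.ζ_zero x hx fun a' ha' => by
            by_contra hc2
            exact hcon ⟨hx, a', ha', by have := not_le.1 hc2; nlinarith⟩
          linarith
        · have : x ∈ ssNb M g0 A (0.81 * W) := by rw [← hΩ1]; exact ⟨hx, hx1⟩
          obtain ⟨_, a', ha', h⟩ := this
          have : ζ x = 1 := hcut.ζ_one x hx ⟨a', ha', by nlinarith⟩
          linarith
      exact (hann' x hxK).2.2.trans (min_le_right _ _)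

end Claimed.Agent.R315
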