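import Claimed.Agent.R315.Ss.Smd

/-!
# Row 315, paper S: Section 5.1, spatial cutoffs: package SS-CUT (#7664) `ss_ramp`, `ss_cutoffs`

## SS-CUT `ss_ramp` (1-d) and `ss_cutoffs`  (~400 lines)
`ss_ramp`: `φ τ := ∫_τ^∞ B`, `B` = `ContDiffBump` centred at `(p+q)/2`, `rIn = (q-p)/4`, `rOut = (q-p)/2`.
`ss_cutoffs` with `r` from `ss_smooth_dist` (`R = 2W`, `ε = 1/10`), `W ≥ 10000` (helper185 13:40Z: FALSE for `W < 3200`, `η1` drops from 1 to 0 over a distance `W/4` with slope `1/800`; the only user has `W = 10^5`):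
 `ψ = (9/10) φ_{2, 0.48W}(r)`:  height `≥ (9/10)(0.48W - 2)/2 > W/5`, `|dψ| ≤ (9/10)(11/10) ≤ 1`, on `A`: `r ≤ ε ≤ 2`; `r_A ≥ 0.49W ⇒ r ≥ 0.49W - ε ≥ 0.48W ⇒ ψ = 0`.
 `η1 = φ_{0.56W,0.79W}(r)/φ_{0.56W,0.79W}(0.56W)`: slope `≤ 2/(0.23W) * (11/10) ≤ 1/800`.   `ζ` the same between `0.83W` and `0.97W`.
 Chain rule `gradSq (φ ∘ r) = φ'(r)² gradSq r` (`rm_ip_comp_left/right` + `if_gradSq_eq`).
-/

set_option autoImplicit false
open scoped ContDiff
open Claims.C0499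

namespace Claimed.Agent.R315

/-- a smooth monotone step of height `c` on `[a,b]` with slope at most `k`, provided `c < k (b-a)`. -/
theorem sscut_step0 {a b c k : ℝ} (hab : a < b) (hc : 0 ≤ c) (hk : c < k * (b - a)) :
    ∃ F : ℝ → ℝ, ContDiff ℝ ∞ F ∧ (∀ s, s ≤ a → F s = 0 ∧ deriv F s = 0) ∧
      (∀ s, b ≤ s → F s = c ∧ deriv F s = 0) ∧ ∀ s, 0 ≤ deriv F s ∧ deriv F s ≤ k := by
  have hk0 : 0 < k := by
    by_contra h
    push Not at h
    have : k * (b - a) ≤ 0 := mul_nonpos_of_nonpos_of_nonneg h (by linarith)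
    linarith
  -- choose δ
  obtain ⟨δ, hδ0, hδ1, hδ2⟩ : ∃ δ : ℝ, 0 < δ ∧ 2 * δ < b - a ∧ c ≤ k * (b - a - 2 * δ) := by
    refine ⟨min ((b - a) / 4) ((k * (b - a) - c) / (2 * k)), lt_min (by linarith) (by
      apply div_pos <;> linarith), ?_, ?_⟩
    · have := min_le_left ((b - a) / 4) ((k * (b - a) - c) / (2 * k))
      linarith
    · have h := min_le_right ((b - a) / 4) ((k * (b - a) - c) / (2 * k))
      have h2 : k * (2 * ((k * (b - a) - c) / (2 * k))) = k * (b - a) - c := by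
        field_simp
      have h3 : k * (2 * min ((b - a) / 4) ((k * (b - a) - c) / (2 * k)))
          ≤ k * (2 * ((k * (b - a) - c) / (2 * k))) :=
        mul_le_mul_of_nonneg_left (by linarith) hk0.le
      rw [h2] at h3
      nlinarith
  set χ : ℝ → ℝ := fun s => Real.smoothTransition ((s - a) / δ) * Real.smoothTransition ((b - s) / δ)
    with hχdef
  have hχ : ContDiff ℝ ∞ χ :=
    (Real.smoothTransition.contDiff.comp ((contDiff_id.sub contDiff_const).div_const _)).mul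
      (Real.smoothTransition.contDiff.comp ((contDiff_const.sub contDiff_id).div_const _))
  have hχ0 : ∀ s, 0 ≤ χ s := fun s =>
    mul_nonneg (Real.smoothTransition.nonneg _) (Real.smoothTransition.nonneg _)
  have hχ1 : ∀ s, χ s ≤ 1 := fun s =>
    mul_le_one₀ (Real.smoothTransition.le_one _) (Real.smoothTransition.nonneg _)
      (Real.smoothTransition.le_one _)
  have hχa : ∀ s, s ≤ a → χ s = 0 := fun s hs => by
    show Real.smoothTransition ((s - a) / δ) * _ = 0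
    rw [Real.smoothTransition.zero_of_nonpos (div_nonpos_of_nonpos_of_nonneg (by linarith) hδ0.le),
      zero_mul]
  have hχb : ∀ s, b ≤ s → χ s = 0 := fun s hs => by
    show _ * Real.smoothTransition ((b - s) / δ) = 0
    rw [Real.smoothTransition.zero_of_nonpos (x := (b - s) / δ)
      (div_nonpos_of_nonpos_of_nonneg (by linarith) hδ0.le), mul_zero]
  have hχm : ∀ s, a + δ ≤ s → s ≤ b - δ → χ s = 1 := fun s h1 h2 => by
    show Real.smoothTransition ((s - a) / δ) * Real.smoothTransition ((b - s) / δ) = 1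
    rw [Real.smoothTransition.one_of_one_le ((one_le_div hδ0).2 (by linarith)),
      Real.smoothTransition.one_of_one_le ((one_le_div hδ0).2 (by linarith)), mul_one]
  have hint : ∀ x y, IntervalIntegrable χ MeasureTheory.volume x y := fun x y => hχ.continuous.intervalIntegrable _ _
  set G : ℝ → ℝ := fun r => ∫ s in a..r, χ s with hGdef
  have hd : ∀ r, HasDerivAt G (χ r) r := fun r =>
    intervalIntegral.integral_hasDerivAt_right (hint _ _)
      (hχ.continuous.stronglyMeasurableAtFilter _ _) hχ.continuous.continuousAt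
  have hdG : deriv G = χ := funext fun r => (hd r).deriv
  have hG : ContDiff ℝ ∞ G :=
    contDiff_infty_iff_deriv.2 ⟨fun r => (hd r).differentiableAt, by rw [hdG]; exact hχ⟩
  have hGa : ∀ r, r ≤ a → G r = 0 := fun r hr => by
    have : ∫ s in a..r, χ s = ∫ s in a..r, (0 : ℝ) := by
      refine intervalIntegral.integral_congr fun s hs => hχa s ?_
      rw [Set.uIcc_of_ge hr] at hs
      exact hs.2
    show ∫ s in a..r, χ s = 0
    rw [this]
    simp
  have hGb : ∀ r, b ≤ r → G r = G b := fun r hr => by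
    have h1 : ∫ s in a..r, χ s = (∫ s in a..b, χ s) + ∫ s in b..r, χ s :=
      (intervalIntegral.integral_add_adjacent_intervals (hint _ _) (hint _ _)).symm
    have h2 : ∫ s in b..r, χ s = ∫ s in b..r, (0 : ℝ) := by
      refine intervalIntegral.integral_congr fun s hs => hχb s ?_
      rw [Set.uIcc_of_le hr] at hs
      exact hs.1
    show ∫ s in a..r, χ s = ∫ s in a..b, χ s
    rw [h1, h2]
    simp
  have hI : b - a - 2 * δ ≤ G b := by
    have h1 : ∫ s in a..b, χ s = (∫ s in a..(a + δ), χ s) + ((∫ s in (a + δ)..(b - δ), χ s)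
        + ∫ s in (b - δ)..b, χ s) := by
      rw [intervalIntegral.integral_add_adjacent_intervals (hint _ _) (hint _ _),
        intervalIntegral.integral_add_adjacent_intervals (hint _ _) (hint _ _)]
    have h2 : ∫ s in (a + δ)..(b - δ), χ s = ∫ s in (a + δ)..(b - δ), (1 : ℝ) := by
      refine intervalIntegral.integral_congr fun s hs => ?_
      rw [Set.uIcc_of_le (by linarith)] at hs
      exact hχm s hs.1 hs.2
    have h3 : 0 ≤ ∫ s in a..(a + δ), χ s :=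
      intervalIntegral.integral_nonneg (by linarith) fun s _ => hχ0 s
    have h4 : 0 ≤ ∫ s in (b - δ)..b, χ s :=
      intervalIntegral.integral_nonneg (by linarith) fun s _ => hχ0 s
    show _ ≤ ∫ s in a..b, χ s
    rw [h1, h2]
    simp only [intervalIntegral.integral_const, smul_eq_mul, mul_one]
    linarith
  have hI0 : 0 < G b := by linarith
  have hcI : c / G b ≤ k := by
    rw [div_le_iff₀ hI0]
    exact hδ2.trans (mul_le_mul_of_nonneg_left hI hk0.le)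
  have hcI0 : 0 ≤ c / G b := div_nonneg hc hI0.le
  have hdF : deriv (fun r => c / G b * G r) = fun r => c / G b * χ r := by
    funext r
    rw [deriv_const_mul _ (hd r).differentiableAt, hdG]
  refine ⟨fun r => c / G b * G r, contDiff_const.mul hG, fun s hs => ?_, fun s hs => ?_, fun s => ?_⟩
  · rw [hdF]
    exact ⟨by show c / G b * G s = 0; rw [hGa s hs, mul_zero],
      by show c / G b * χ s = 0; rw [hχa s hs, mul_zero]⟩
  · rw [hdF]
    exact ⟨by show c / G b * G s = c; rw [hGb s hs, div_mul_cancel₀ _ hI0.ne'],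
      by show c / G b * χ s = 0; rw [hχb s hs, mul_zero]⟩
  · rw [hdF]
    refine ⟨mul_nonneg hcI0 (hχ0 s), ?_⟩
    calc c / G b * χ s ≤ c / G b * 1 := mul_le_mul_of_nonneg_left (hχ1 s) hcI0
      _ ≤ k := by rw [mul_one]; exact hcI

/-- the step, with monotonicity and bounds. -/
theorem sscut_step {a b c k : ℝ} (hab : a < b) (hc : 0 ≤ c) (hk : c < k * (b - a)) :
    ∃ F : ℝ → ℝ, ContDiff ℝ ∞ F ∧ (∀ s, s ≤ a → F s = 0) ∧ (∀ s, b ≤ s → F s = c) ∧
      Monotone F ∧ (∀ s, 0 ≤ F s ∧ F s ≤ c) ∧ ∀ s, 0 ≤ deriv F s ∧ deriv F s ≤ k := by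
  obtain ⟨F, hF, hFa, hFb, hFd⟩ := sscut_step0 hab hc hk
  have hmono : Monotone F :=
    monotone_of_deriv_nonneg (hF.differentiable (by simp)) fun s => (hFd s).1
  refine ⟨F, hF, fun s hs => (hFa s hs).1, fun s hs => (hFb s hs).1, hmono, fun s => ⟨?_, ?_⟩, hFd⟩
  · have := hmono (min_le_left s a)
    rwa [(hFa _ (min_le_right s a)).1] at this
  · have := hmono (le_max_left s b)
    rwa [(hFb _ (le_max_right s b)).1] at this

/-- a smooth ramp of slope at most one. -/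
theorem ss_ramp (p q : ℝ) (hpq : p < q) :
    ∃ φ : ℝ → ℝ, ContDiff ℝ ∞ φ ∧ Antitone φ ∧ (∀ τ, q ≤ τ → φ τ = 0) ∧
      (∀ τ, τ ≤ p → φ τ = φ p) ∧ (q - p) / 2 ≤ φ p ∧ ∀ τ, |deriv φ τ| ≤ 1 := by
  obtain ⟨F, hF, hFa, hFb, hmono, -, hFd⟩ := sscut_step (a := p) (b := q) (c := (q - p) / 2) (k := 1)
    hpq (by linarith) (by linarith)
  have hd : ∀ τ, deriv (fun τ => (q - p) / 2 - F τ) τ = - deriv F τ := fun τ => by
    rw [deriv_const_sub]
  refine ⟨fun τ => (q - p) / 2 - F τ, contDiff_const.sub hF, fun x y hxy => ?_, fun τ hτ => ?_,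
    fun τ hτ => ?_, ?_, fun τ => ?_⟩
  · have := hmono hxy
    show (q - p) / 2 - F y ≤ (q - p) / 2 - F x
    linarith
  · show (q - p) / 2 - F τ = 0
    rw [hFb τ hτ, sub_self]
  · show (q - p) / 2 - F τ = (q - p) / 2 - F p
    rw [hFa τ hτ, hFa p le_rfl]
  · show (q - p) / 2 ≤ (q - p) / 2 - F p
    rw [hFa p le_rfl, sub_zero]
  · rw [hd τ, abs_neg, abs_of_nonneg (hFd τ).1]
    exact (hFd τ).2

/-- the cutoffs of S (5.4). -/
structure SsCut (n : ℕ) {N : ℕ} (M : Set (E N)) (h0 : Ten (E N)) (A : Set (E N)) (W : ℝ)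
    (ψ η1 ζ : E N → ℝ) : Prop where
  ψ_s : SmoothAlong n M ψ
  η_s : SmoothAlong n M η1
  ζ_s : SmoothAlong n M ζ
  ψ_nonneg : ∀ x ∈ M, 0 ≤ ψ x
  ψ_A : ∀ x ∈ A, W / 5 < ψ x
  ψ_grad : ∀ x ∈ M, gradSq n M h0 ψ x ≤ 1
  ψ_zero : ∀ x ∈ M, (∀ a ∈ A, 0.49 * W ≤ rdist M h0 a x) → ψ x = 0
  η_mem : ∀ x ∈ M, 0 ≤ η1 x ∧ η1 x ≤ 1
  η_one : ∀ x ∈ M, (∃ a ∈ A, rdist M h0 a x ≤ 0.55 * W) → η1 x = 1
  η_zero : ∀ x ∈ M, (∀ a ∈ A, 0.8 * W ≤ rdist M h0 a x) → η1 x = 0
  η_grad : ∀ x ∈ M, gradSq n M h0 η1 x ≤ (1 / 800) ^ 2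
  ζ_mem : ∀ x ∈ M, 0 ≤ ζ x ∧ ζ x ≤ 1
  ζ_one : ∀ x ∈ M, (∃ a ∈ A, rdist M h0 a x ≤ 0.82 * W) → ζ x = 1
  ζ_zero : ∀ x ∈ M, (∀ a ∈ A, 0.98 * W ≤ rdist M h0 a x) → ζ x = 0

/-- composition of the smoothed distance with a step. -/
theorem sscut_comp {n N : ℕ} {M : Set (E N)} {h0 : Ten (E N)} (hM : IsMfd n M)
    (hh0 : IsMetricOn n M h0) {r : E N → ℝ} (hr : SmoothAlong n M r) {ε : ℝ}
    (hg : ∀ x ∈ M, gradSq n M h0 r x ≤ (1 + ε) ^ 2) {F : ℝ → ℝ} (hF : ContDiff ℝ ∞ F) (c : ℝ) {k : ℝ}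
    (hd : ∀ s, 0 ≤ deriv F s ∧ deriv F s ≤ k) :
    SmoothAlong n M (fun x => c - F (r x)) ∧
      ∀ x ∈ M, gradSq n M h0 (fun x => c - F (r x)) x ≤ (k * (1 + ε)) ^ 2 := by
  have hφ : ContDiff ℝ ∞ (fun s => c - F s) := contDiff_const.sub hF
  refine ⟨gs_sm_comp' (φ := fun s => c - F s) hφ hr, fun x hx => ?_⟩
  have h1 := gs_sq_comp (φ := fun s => c - F s) hM hh0 isOpen_univ hφ.contDiffOn hr
    (fun _ _ => Set.mem_univ _) hx
  rw [h1, deriv_const_sub, neg_sq, mul_pow]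
  have h2 : deriv F (r x) ^ 2 ≤ k ^ 2 := pow_le_pow_left₀ (hd _).1 (hd _).2 2
  exact mul_le_mul h2 (hg x hx) (gs_sq_nonneg hM hh0 hr hx) (sq_nonneg k)

theorem ss_cutoffs {n N : ℕ} (M : Set (E N)) (h0 : Ten (E N)) (hM : Carrier n M)
    (hh0 : IsMetricOn n M h0) (hp : IsProperOn M h0) (A : Set (E N)) (hA : A ⊆ M)
    (hA1 : A.Nonempty) (hA2 : IsCompact A) (W : ℝ) (hW : 10000 ≤ W) :
    ∃ ψ η1 ζ : E N → ℝ, SsCut n M h0 A W ψ η1 ζ := by
  obtain ⟨r, hr, hra, hrb, hrg⟩ := ss_smooth_dist M h0 hM hh0 hp A hA hA1 hA2 (2 * W) (1 / 10)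
    (by linarith) (by norm_num)
  -- lower bound for `r` far from `A`
  have hfar : ∀ x ∈ M, ∀ c : ℝ, c ≤ 2 * W → (∀ a ∈ A, c ≤ rdist M h0 a x) → c - 1 / 10 ≤ r x := by
    intro x hx c hc hall
    rcases hrb x hx with h | ⟨a, ha, h⟩
    · linarith
    · have := hall a ha
      linarith
  obtain ⟨F₁, hF₁, hF₁a, hF₁b, -, hF₁m, hF₁d⟩ := sscut_step (a := 2) (b := 0.48 * W) (c := W / 4)
    (k := 10 / 11) (by linarith) (by linarith) (by linarith)
  obtain ⟨F₂, hF₂, hF₂a, hF₂b, -, hF₂m, hF₂d⟩ := sscut_step (a := 0.56 * W) (b := 0.79 * W) (c := 1)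
    (k := 1 / 880) (by linarith) (by norm_num) (by linarith)
  obtain ⟨F₃, hF₃, hF₃a, hF₃b, -, hF₃m, hF₃d⟩ := sscut_step (a := 0.83 * W) (b := 0.97 * W) (c := 1)
    (k := 1) (by linarith) (by norm_num) (by linarith)
  obtain ⟨hs₁, hg₁⟩ := sscut_comp hM.mfd hh0 hr hrg hF₁ (W / 4) hF₁d
  obtain ⟨hs₂, hg₂⟩ := sscut_comp hM.mfd hh0 hr hrg hF₂ 1 hF₂d
  obtain ⟨hs₃, -⟩ := sscut_comp hM.mfd hh0 hr hrg hF₃ 1 hF₃d
  refine ⟨fun x => W / 4 - F₁ (r x), fun x => 1 - F₂ (r x), fun x => 1 - F₃ (r x),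
    { ψ_s := hs₁, η_s := hs₂, ζ_s := hs₃, ψ_nonneg := fun x _ => ?_, ψ_A := fun x hx => ?_,
      ψ_grad := fun x hx => ?_, ψ_zero := fun x hx hall => ?_, η_mem := fun x _ => ?_,
      η_one := fun x hx hex => ?_, η_zero := fun x hx hall => ?_, η_grad := fun x hx => ?_,
      ζ_mem := fun x _ => ?_, ζ_one := fun x hx hex => ?_, ζ_zero := fun x hx hall => ?_ }⟩
  · show 0 ≤ W / 4 - F₁ (r x)
    linarith [(hF₁m (r x)).2]
  · show W / 5 < W / 4 - F₁ (r x)
    have h1 := hra x (hA hx) x hx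
    rw [if_rdist_self h0 (hA hx)] at h1
    rw [hF₁a _ (by linarith)]
    linarith
  · refine (hg₁ x hx).trans (le_of_eq ?_)
    norm_num
  · show W / 4 - F₁ (r x) = 0
    have := hfar x hx (0.49 * W) (by linarith) hall
    rw [hF₁b _ (by linarith), sub_self]
  · show 0 ≤ 1 - F₂ (r x) ∧ 1 - F₂ (r x) ≤ 1
    constructor <;> linarith [(hF₂m (r x)).1, (hF₂m (r x)).2]
  · show 1 - F₂ (r x) = 1
    obtain ⟨a, ha, h⟩ := hex
    have := hra x hx a ha
    rw [hF₂a _ (by linarith), sub_zero]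
  · show 1 - F₂ (r x) = 0
    have := hfar x hx (0.8 * W) (by linarith) hall
    rw [hF₂b _ (by linarith), sub_self]
  · refine (hg₂ x hx).trans (le_of_eq ?_)
    norm_num
  · show 0 ≤ 1 - F₃ (r x) ∧ 1 - F₃ (r x) ≤ 1
    constructor <;> linarith [(hF₃m (r x)).1, (hF₃m (r x)).2]
  · show 1 - F₃ (r x) = 1
    obtain ⟨a, ha, h⟩ := hex
    have := hra x hx a ha
    rw [hF₃a _ (by linarith), sub_zero]
  · show 1 - F₃ (r x) = 0
    have := hfar x hx (0.98 * W) (by linarith) hall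
    rw [hF₃b _ (by linarith), sub_self]

end Claimed.Agent.R315
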