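import Claimed.Agent.R315.Ss.LenB
import Claimed.Agent.R315.Pack002
import Claimed.Agent.R315.Pack003

/-!
# Row 315, paper S: Section 5.4, the distance gain: package SS-LEN-A (#8518) `ss_len`

`h' = h + ζ κ(σ) du²`, `σ = |du|²_h`, `f = ζ u` the effective height.

## SS-LEN-A `ss_len` (~500 lines)
`if_le_rdist` + `if_join_of_connected`: it suffices to bound `if_len h' c` for an admissible curve `c` from `x ∈ A` to `y ∈ B`.
Apply `ss_len_int` with `f = (ζ u) ∘ c`, `v = if_speed h c`, `p = if_speed h' c` (continuity: `if_speed_continuousOn`; `h'` is a metric: `ss_out_met` of `Ss/Loc.lean`, or prove `IsTenOn` directly), `∫ v = if_len h c ≥ rdist M h x y ≥ W`.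
At `τ ∈ [0,1]` use `if_adm_lift`: `c = ψ ∘ υ`, `c' = dψ(υ')` near `τ` (within `[0,1]`); `a = υ'(τ)`, `y = υ(τ)`, `G = cm h ψ y`:
 * `v² = aᵀ G a` (`if_cm_bil`), `f∘c = (f∘ψ)∘υ` has the derivative `f' = ∑ ∂_i(f∘ψ)(y) a_i` within `[0,1]`; it is continuous on `[0,1]`;
 * Cauchy-Schwarz `(∑ p_i a_i)² ≤ (pᵀ G⁻¹ p)(aᵀ G a)`, i.e. `|f'| ≤ √(gradSq n M h f (c τ)) v` (`if_gradSq_eq`);
 * `h'(c',c') = v² + ζ κ(σ) (du(c'))²`, `du(c') = tder n M u (c τ) (dψ a) = ∑ ∂_i(u∘ψ) a_i`;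
 * `ζ(c τ) = 0`: `ζ∘ψ ≥ 0` has a local minimum at `y`, `d(ζ∘ψ) = 0`, `d(f∘ψ) = 0`, `f' = 0`, `w = 0`;
 * `0 < ζ < 1`: `|f'| ≤ v/100`, `w = 0`;
 * `ζ = 1`: local maximum, `d(f∘ψ) = d(u∘ψ)`; if `σ < (5/100)²`: `|f'| ≤ v/20`, `w = 0`; if `σ ≥ (5/100)²`: `κ = 1`, `h'(c',c') = v² + f'² ≥ v² + w²`.
 In the cases `w = 0`: `p ≥ v` since `ζ κ ≥ 0`.
-/

set_option autoImplicit false
set_option linter.unusedSectionVars false
open scoped ContDiff
open Claims.C0499

namespace Claimed.Agent.R315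

section aux

open Set Filter Topology

variable {V : Type} [NormedAddCommGroup V] [NormedSpace ℝ V] [FiniteDimensional ℝ V]
variable {d : ℕ} {M : Set V}

theorem sslen_smooth_mul {f k : V → ℝ} (hf : SmoothAlong d M f) (hk : SmoothAlong d M k) :
    SmoothAlong d M (fun z => f z * k z) :=
  fun ψ U h => (hf ψ U h).mul (hk ψ U h)

/-- product rule for `tder` on tangent vectors. -/
theorem sslen_tder_mul {f k : V → ℝ} (hf : SmoothAlong d M f) (hk : SmoothAlong d M k) {x v : V}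
    (hv : v ∈ if_Tan d M x) :
    tder d M (fun z => f z * k z) x v = f x * tder d M k x v + k x * tder d M f x v := by
  obtain ⟨ψ, U, u, a, h, hu, rfl, rfl⟩ := hv
  rw [if_tder_apply (sslen_smooth_mul hf hk) h hu, if_tder_apply hf h hu, if_tder_apply hk h hu]
  have e : (fun z => f z * k z) ∘ ψ = fun w => (f ∘ ψ) w * (k ∘ ψ) w := rfl
  rw [e, fderiv_fun_mul (if_smoothAlong_differentiableAt hf h hu)
    (if_smoothAlong_differentiableAt hk h hu)]
  simp only [_root_.add_apply, _root_.smul_apply, smul_eq_mul, Function.comp]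

theorem sslen_tder_min {f : V → ℝ} (hf : SmoothAlong d M f) {x v : V} (hv : v ∈ if_Tan d M x)
    (hmin : ∀ z ∈ M, f x ≤ f z) : tder d M f x v = 0 := by
  obtain ⟨ψ, U, u, a, h, hu, rfl, rfl⟩ := hv
  rw [if_tder_apply hf h hu]
  have : IsLocalMin (f ∘ ψ) u := by
    filter_upwards [(if_open h).mem_nhds hu] with w hw
    exact hmin _ (if_mem h hw)
  rw [this.fderiv_eq_zero]
  rfl

theorem sslen_tder_max {f : V → ℝ} (hf : SmoothAlong d M f) {x v : V} (hv : v ∈ if_Tan d M x)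
    (hmax : ∀ z ∈ M, f z ≤ f x) : tder d M f x v = 0 := by
  obtain ⟨ψ, U, u, a, h, hu, rfl, rfl⟩ := hv
  rw [if_tder_apply hf h hu]
  have : IsLocalMax (f ∘ ψ) u := by
    filter_upwards [(if_open h).mem_nhds hu] with w hw
    exact hmax _ (if_mem h hw)
  rw [this.fderiv_eq_zero]
  rfl

/-- the derivative of a function along an admissible curve is continuous. -/
theorem sslen_tder_continuousOn (hM : IsMfd d M) {f : V → ℝ} (hf : SmoothAlong d M f) {c : ℝ → V}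
    (hc : if_Adm M c) : ContinuousOn (fun t => tder d M f (c t) (deriv c t)) (Icc (0 : ℝ) 1) := by
  intro t₀ ht₀
  obtain ⟨ψ, U, h, hct⟩ := hM (c t₀) (hc.2 t₀ ht₀)
  obtain ⟨υ, I, hI, ht₀I, hυ, hmaps, hlift⟩ := if_adm_lift hc h hct
  have h1 : ContinuousOn (fun t => fderiv ℝ (f ∘ ψ) (υ t) (deriv υ t)) I := by
    have a : ContinuousOn (fun t => fderiv ℝ (f ∘ ψ) (υ t)) I :=
      ((hf ψ U h).continuousOn_fderiv_of_isOpen (if_open h) (by simp)).comp hυ.continuousOn hmaps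
    have b : ContinuousOn (deriv υ) I := hυ.continuousOn_deriv_of_isOpen hI le_rfl
    exact a.clm_apply b
  have key : ∀ t ∈ I ∩ Icc (0 : ℝ) 1,
      tder d M f (c t) (deriv c t) = fderiv ℝ (f ∘ ψ) (υ t) (deriv υ t) := by
    intro t ht
    obtain ⟨e1, e2⟩ := hlift t ht
    rw [e1, e2, if_tder_apply hf h (hmaps ht.1)]
  refine ((h1.continuousAt (hI.mem_nhds ht₀I)).continuousWithinAt).congr_of_eventuallyEq ?_
    (key t₀ ⟨ht₀I, ht₀⟩)
  filter_upwards [inter_mem_nhdsWithin _ (hI.mem_nhds ht₀I)] with s hs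
  exact key s ⟨hs.2, hs.1⟩

theorem sslen_gradSq_nonneg (hM : IsMfd d M) {h : Ten V} (hh : IsMetricOn d M h) {f : V → ℝ}
    (hf : SmoothAlong d M f) {x : V} (hx : x ∈ M) : 0 ≤ gradSq d M h f x := by
  obtain ⟨ψ, U, hp, u, hu, rfl⟩ := hM x hx
  rw [if_gradSq_eq hh hf hp hu]
  exact rm_sq_nonneg ⟨if_open hp, (hh ψ U hp).1, (hh ψ U hp).2⟩ hu _

/-- the cut metric is a smooth tensor. -/
theorem sslen_isTenOn (hM : IsMfd d M) {h : Ten V} (hh : IsMetricOn d M h) {u ζ : V → ℝ}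
    (hu : SmoothAlong d M u) (hζ : SmoothAlong d M ζ) {kap : ℝ → ℝ}
    (hk : ContDiffOn ℝ ∞ kap (Set.Ioi (-1))) :
    IsTenOn d M (fun z => h z + (ζ z * kap (gradSq d M h u z)) • dsqT d M u z) := by
  intro ψ U hp i j
  have h1 : ContDiffOn ℝ ∞ (fun w => kap (gradSq d M h u (ψ w))) U :=
    hk.comp (if_gradSq_smoothAlong hh hu ψ U hp) fun w hw =>
      lt_of_lt_of_le (by norm_num) (sslen_gradSq_nonneg hM hh hu (if_mem hp hw))
  exact ((hh ψ U hp).1 i j).add (((hζ ψ U hp).mul h1).mul (if_isTenOn_dsqT hu ψ U hp i j))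

/-- the pointwise inequality, case `|f'| ≤ v/20`. -/
theorem sslen_pt_small {a f' e : ℝ} (he : 0 ≤ e) (hf : |f'| ≤ Real.sqrt a / 20) (ha : 0 ≤ a) :
    Real.sqrt a ^ 2 + (max (|f'| - Real.sqrt a / 20) 0) ^ 2 ≤ Real.sqrt (a + e) ^ 2 := by
  rw [max_eq_right (by linarith), Real.sq_sqrt ha, Real.sq_sqrt (by linarith)]
  linarith

/-- the pointwise inequality, case `κ = 1`. -/
theorem sslen_pt_large {a f' : ℝ} (ha : 0 ≤ a) :
    Real.sqrt a ^ 2 + (max (|f'| - Real.sqrt a / 20) 0) ^ 2 ≤ Real.sqrt (a + f' ^ 2) ^ 2 := by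
  rw [Real.sq_sqrt ha, Real.sq_sqrt (by positivity)]
  have h0 : 0 ≤ max (|f'| - Real.sqrt a / 20) 0 := le_max_right _ _
  have h1 : max (|f'| - Real.sqrt a / 20) 0 ≤ |f'| :=
    max_le (by linarith [Real.sqrt_nonneg a]) (abs_nonneg _)
  have h2 : (max (|f'| - Real.sqrt a / 20) 0) ^ 2 ≤ |f'| ^ 2 := pow_le_pow_left₀ h0 h1 2
  rw [sq_abs] at h2
  linarith

theorem sslen_abs_le {a f' s q : ℝ} (ha : 0 ≤ a) (hq : 0 ≤ q) (h1 : f' ^ 2 ≤ s * a) (h2 : s ≤ q ^ 2) :
    |f'| ≤ q * Real.sqrt a := by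
  refine abs_le_of_sq_le_sq ?_ (by positivity)
  rw [mul_pow, Real.sq_sqrt ha]
  exact h1.trans (mul_le_mul_of_nonneg_right h2 ha)

end aux

/-- S (5.2): the distance gain. -/
theorem ss_len {n N : ℕ} (M : Set (E N)) (h : Ten (E N)) (u ζ : E N → ℝ) (kap : ℝ → ℝ)
    (A B : Set (E N)) (W : ℝ) (hM : Carrier n M) (hh : IsMetricOn n M h)
    (hu : SmoothAlong n M u) (hζ : SmoothAlong n M ζ) (hζ01 : ∀ x ∈ M, 0 ≤ ζ x ∧ ζ x ≤ 1)
    (hk : ContDiffOn ℝ ∞ kap (Set.Ioi (-1))) (hk0 : ∀ σ, 0 ≤ σ → 0 ≤ kap σ)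
    (hk1 : ∀ σ, (5 / 100 : ℝ) ^ 2 ≤ σ → kap σ = 1) (hW : 100 ≤ W) (hA : A ⊆ M) (hB : B ⊆ M)
    (hAB : ∀ x ∈ A, ∀ y ∈ B, W ≤ rdist M h x y) (hAu : ∀ x ∈ A, W / 5 - 1 ≤ ζ x * u x)
    (hBu : ∀ y ∈ B, ζ y * u y = 0)
    (hgr : ∀ x ∈ M, 0 < ζ x → ζ x < 1 →
      gradSq n M h (fun z => ζ z * u z) x ≤ (1 / 100 : ℝ) ^ 2) :
    ∀ x ∈ A, ∀ y ∈ B, 1.004 * W ≤
      rdist M (fun z => h z + (ζ z * kap (gradSq n M h u z)) • dsqT n M u z) x y := by
  intro x hx y hy
  refine if_le_rdist (if_join_of_connected hM.mfd hM.conn.isPreconnected (hA hx) (hB hy))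
    fun c hc h0 h1 => ?_
  have hF : SmoothAlong n M (fun z => ζ z * u z) := sslen_smooth_mul hζ hu
  have hten : IsTenOn n M h := (if_isMetricOn_iff.1 hh).1
  refine ss_len_int ((fun z => ζ z * u z) ∘ c)
    (fun τ => tder n M (fun z => ζ z * u z) (c τ) (deriv c τ)) (if_speed h c)
    (if_speed (fun z => h z + (ζ z * kap (gradSq n M h u z)) • dsqT n M u z) c) W hW
    (fun τ hτ => if_hasDerivWithinAt_comp hM.mfd hF hc hτ) (sslen_tder_continuousOn hM.mfd hF hc)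
    (if_speed_continuousOn hM.mfd hten hc)
    (if_speed_continuousOn hM.mfd (sslen_isTenOn hM.mfd hh hu hζ hk) hc)
    (fun τ _ => if_speed_nonneg _ _ _) (fun τ _ => if_speed_nonneg _ _ _) (fun τ hτ => ?_)
    ((hAB x hx y hy).trans (if_rdist_le' hc h h0 h1)) ?_ ?_
  · -- the pointwise inequality
    have hxM : c τ ∈ M := hc.2 τ hτ
    have htan : deriv c τ ∈ if_Tan n M (c τ) := if_tan_of_adm hM.mfd hc hτ
    have ha : 0 ≤ h (c τ) (deriv c τ) (deriv c τ) := if_metric_nonneg hh htan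
    have hσ : 0 ≤ gradSq n M h u (c τ) := sslen_gradSq_nonneg hM.mfd hh hu hxM
    have hprod := sslen_tder_mul hζ hu htan
    have hp : if_speed (fun z => h z + (ζ z * kap (gradSq n M h u z)) • dsqT n M u z) c τ
        = Real.sqrt (h (c τ) (deriv c τ) (deriv c τ)
          + ζ (c τ) * kap (gradSq n M h u (c τ)) * tder n M u (c τ) (deriv c τ) ^ 2) := by
      unfold if_speed
      congr 1
      simp only [_root_.add_apply, _root_.smul_apply, smul_eq_mul, if_dsqT_apply]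
      ring
    rw [hp]
    unfold if_speed
    have he : 0 ≤ ζ (c τ) * kap (gradSq n M h u (c τ)) * tder n M u (c τ) (deriv c τ) ^ 2 :=
      mul_nonneg (mul_nonneg (hζ01 _ hxM).1 (hk0 _ hσ)) (sq_nonneg _)
    rcases (hζ01 _ hxM).1.eq_or_lt with hz0 | hz0
    · -- `ζ = 0`
      have h2 : tder n M ζ (c τ) (deriv c τ) = 0 :=
        sslen_tder_min hζ htan fun z hz => by rw [← hz0]; exact (hζ01 z hz).1
      have h3 : tder n M (fun z => ζ z * u z) (c τ) (deriv c τ) = 0 := by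
        rw [hprod, h2, ← hz0]; ring
      refine sslen_pt_small he ?_ ha
      rw [h3, abs_zero]
      positivity
    · rcases (hζ01 _ hxM).2.eq_or_lt with hz1 | hz1
      · -- `ζ = 1`
        have h2 : tder n M ζ (c τ) (deriv c τ) = 0 :=
          sslen_tder_max hζ htan fun z hz => by rw [hz1]; exact (hζ01 z hz).2
        have h3 : tder n M (fun z => ζ z * u z) (c τ) (deriv c τ)
            = tder n M u (c τ) (deriv c τ) := by
          rw [hprod, h2, hz1]; ring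
        rw [h3]
        by_cases hs : (5 / 100 : ℝ) ^ 2 ≤ gradSq n M h u (c τ)
        · rw [hk1 _ hs, hz1, one_mul, one_mul]
          exact sslen_pt_large ha
        · refine sslen_pt_small he ?_ ha
          have := sslen_abs_le (q := 5 / 100) ha (by norm_num) (if_tder_sq_le hh hu htan)
            (not_le.1 hs).le
          linarith
      · -- `0 < ζ < 1`
        refine sslen_pt_small he ?_ ha
        have := sslen_abs_le (q := 1 / 100) ha (by norm_num) (if_tder_sq_le hh hF htan)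
          (hgr _ hxM hz0 hz1)
        have h4 := Real.sqrt_nonneg (h (c τ) (deriv c τ) (deriv c τ))
        linarith
  · simp only [Function.comp, h0]
    exact hAu x hx
  · simp only [Function.comp, h1]
    exact hBu y hy

end Claimed.Agent.R315
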