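import Claimed.Agent.R315.Ss.Pert
import Claimed.Agent.R315.Pack011

/-!
# Row 315, paper S: package SS-LOC-OUT (#8520) `ssHc`, `ssTc`, `ss_out_met`, `ss_out_smooth`

## SS-LOC-OUT `ss_out_met`, `ss_out_le`, `ss_out_smooth` (~150 lines): `ssb_update` + `ss_upd_met` + `ss_comp_sigma` + `if_gradSq_eq`.
-/

set_option autoImplicit false
open scoped ContDiff
open Claims.C0499

namespace Claimed.Agent.R315

variable {n N : ℕ}

/-- the cut metric `h + ζ κ(σ) du²`. -/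
noncomputable def ssHc (n : ℕ) (M : Set (E N)) (h : Ten (E N)) (ζ : E N → ℝ) (kap : ℝ → ℝ)
    (u : E N → ℝ) : Ten (E N) :=
  fun x => h x + (ζ x * kap (gradSq n M h u x)) • dsqT n M u x

/-- the cut drift `t - ζ β(σ)`. -/
noncomputable def ssTc (n : ℕ) (M : Set (E N)) (h : Ten (E N)) (t ζ : E N → ℝ) (bet : ℝ → ℝ)
    (u : E N → ℝ) : E N → ℝ :=
  fun x => t x - ζ x * bet (gradSq n M h u x)

theorem ssLocOut_c_smooth {M : Set (E N)} {h : Ten (E N)} (hh : IsMetricOn n M h)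
    {u ζ : E N → ℝ} (hu : SmoothAlong n M u) (hζ : SmoothAlong n M ζ)
    {kap : ℝ → ℝ} (hk : ContDiffOn ℝ ∞ kap (Set.Ioi (-1))) {ψ : E n → E N} {U : Set (E n)}
    (hψ : IsParam M ψ U) :
    ContDiffOn ℝ ∞ (fun z => ζ (ψ z) * kap (gradSq n M h u (ψ z))) U := by
  have h1 : ContDiffOn ℝ ∞ (fun z => kap (gradSqC (cm h ψ) (u ∘ ψ) z)) U :=
    ss_comp_sigma (ssb_met hh hψ) (hu ψ U hψ) hk
  have h2 : ContDiffOn ℝ ∞ (fun z => ζ (ψ z) * kap (gradSqC (cm h ψ) (u ∘ ψ) z)) U :=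
    (hζ ψ U hψ).mul h1
  refine h2.congr fun z hz => ?_
  rw [if_gradSq_eq hh hu hψ hz]

theorem ssLocOut_dudu_psd {d : ℕ} (u : E d → ℝ) (y : E d) : (ssDuDu u y).PosSemidef := by
  have e : ssDuDu u y = Matrix.vecMulVec (fun i => pdiff u i y) (star fun i => pdiff u i y) := by
    ext i j
    simp [ssDuDu, Matrix.vecMulVec_apply]
  rw [e]
  exact Matrix.posSemidef_vecMulVec_self_star _

theorem ss_out_met {M : Set (E N)} {h : Ten (E N)} (hM : IsMfd n M) (hh : IsMetricOn n M h)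
    {u ζ : E N → ℝ} (hu : SmoothAlong n M u) (hζ : SmoothAlong n M ζ) (hζ0 : ∀ x ∈ M, 0 ≤ ζ x)
    {kap : ℝ → ℝ} (hk : ContDiffOn ℝ ∞ kap (Set.Ioi (-1))) (hk0 : ∀ σ, 0 ≤ σ → 0 ≤ kap σ) :
    IsMetricOn n M (ssHc n M h ζ kap u) ∧ MetLE n M h (ssHc n M h ζ kap u) := by
  have hc0 : ∀ (ψ : E n → E N) (U : Set (E n)), IsParam M ψ U → ∀ y ∈ U,
      0 ≤ ζ (ψ y) * kap (gradSq n M h u (ψ y)) := by
    intro ψ U hψ y hy
    refine mul_nonneg (hζ0 _ (if_mem hψ hy)) (hk0 _ ?_)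
    rw [if_gradSq_eq hh hu hψ hy]
    exact rm_sq_nonneg (ssb_met hh hψ) hy _
  have hcm : ∀ (ψ : E n → E N) (U : Set (E n)), IsParam M ψ U → ∀ y ∈ U,
      cm (ssHc n M h ζ kap u) ψ y =
        cm h ψ y + (ζ (ψ y) * kap (gradSq n M h u (ψ y))) • ssDuDu (u ∘ ψ) y := by
    intro ψ U hψ y hy
    exact ssb_update (c := fun x => ζ x * kap (gradSq n M h u x)) hu hψ hy
  constructor
  · intro ψ U hψ
    have hmet := ss_upd_met (ssb_met hh hψ) (hu ψ U hψ) (ssLocOut_c_smooth hh hu hζ hk hψ)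
      (hc0 ψ U hψ)
    constructor
    · intro i j
      refine (hmet.smooth i j).congr fun y hy => ?_
      rw [hcm ψ U hψ y hy]
    · intro y hy
      rw [hcm ψ U hψ y hy]
      exact hmet.pos y hy
  · intro ψ U hψ y hy
    rw [hcm ψ U hψ y hy, add_sub_cancel_left]
    exact (ssLocOut_dudu_psd _ _).smul (hc0 ψ U hψ y hy)

theorem ss_out_smooth {M : Set (E N)} {h : Ten (E N)} (hM : IsMfd n M) (hh : IsMetricOn n M h)
    {t u ζ : E N → ℝ} (ht : SmoothAlong n M t) (hu : SmoothAlong n M u)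
    (hζ : SmoothAlong n M ζ) {bet : ℝ → ℝ} (hb : ContDiffOn ℝ ∞ bet (Set.Ioi (-1))) :
    SmoothAlong n M (ssTc n M h t ζ bet u) := by
  intro ψ U hψ
  exact (ht ψ U hψ).sub (ssLocOut_c_smooth hh hu hζ hb hψ)

end Claimed.Agent.R315
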