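import Claimed.Agent.R315.Ss.LocN
import Claimed.Agent.R315.Ss.LocOut
import Claimed.Agent.R315.Rm.Glob

/-!
# Row 315, paper S: package SS-LOC-ANN (#8522) `ss_ann`

Constants: `W = 10^5`, `(S0,T,F)` from `ss_pressure 1000 20 (ssEps n) (ssB0 δ)`, `a = dd/4`, switch `sg`, cutoffs `ψ, η1, ζ` (`ss_cutoffs`), `Ω = {r_A < 1.1 W}`, `Z = {r_A > 0.8 W}`, `u = u_ρ` (`ss_graph`),
   `h' = ssHc = h + ζ κ(σ) du²`,   `t' = ssTc = t - ζ β(σ)`,   `K = {r_A ≤ 0.98 W}`.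
Three regions: `{r_A < 0.82W}` (`ζ = 1`: `ss_bal_M`), the compact annulus `{0.81W ≤ r_A ≤ 0.99W}` (`ss_ann`, `ss_ann_num`; only `C²`-closeness to `(h,t)` is used there), `{r_A > 0.98W}` (nothing changes).

## SS-LOC-ANN `ss_ann` (~400 lines): `ssn_compact_charts` for `Kc ⊆ M ∩ Y`; in each chart `ss_pert` gives `ε'_k`, `hloc` gives `ρ0_k`; `ρ0 = min`.  Dictionary as above (`ssb_update`, `ssb_dsc` for `ssHc`, `ssTc`).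
-/

set_option autoImplicit false
open scoped ContDiff Topology
open Claims.C0499

namespace Claimed.Agent.R315

variable {n N : ℕ}

/-- the cut data are `C²`-close to the original data on a compact set where `u_ρ → 0` in `C³`. -/
theorem ss_ann {M : Set (E N)} {h : Ten (E N)} (hM : IsMfd n M) (hh : IsMetricOn n M h)
    {t ζ : E N → ℝ} (ht : SmoothAlong n M t) (hζ : SmoothAlong n M ζ) (hζ0 : ∀ x ∈ M, 0 ≤ ζ x)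
    {kap bet : ℝ → ℝ} (hk : ContDiffOn ℝ ∞ kap (Set.Ioi (-1))) (hk0 : ∀ σ, 0 ≤ σ → 0 ≤ kap σ)
    (hb : ContDiffOn ℝ ∞ bet (Set.Ioi (-1))) (hb0 : bet 0 = 0) (u : ℝ → E N → ℝ)
    (hu : ∀ ρ ∈ Set.Ioc (0 : ℝ) (1 / 2), SmoothAlong n M (u ρ)) {Y Kc : Set (E N)}
    (hY : IsOpen Y) (hKc : IsCompact Kc) (hKY : Kc ⊆ M ∩ Y)
    (hloc : ∀ (φ : E n → E N) (U : Set (E n)), IsParam M φ U → φ '' U ⊆ Y →
      ∀ C : Set (E n), IsCompact C → C ⊆ U → ∀ ε' : ℝ, 0 < ε' →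
        ∃ ρ0 : ℝ, 0 < ρ0 ∧ ∀ ρ ∈ Set.Ioo 0 ρ0, ∀ y ∈ C, ∀ k ≤ 3,
          ‖iteratedFDeriv ℝ k (u ρ ∘ φ) y‖ ≤ ε') (ε : ℝ) (hε : 0 < ε) :
    ∃ ρ0 : ℝ, 0 < ρ0 ∧ ∀ ρ ∈ Set.Ioo 0 ρ0, ρ ≤ 1 / 2 → ∀ x ∈ Kc,
      |Dsc n M (ssHc n M h ζ kap (u ρ)) (ssTc n M h t ζ bet (u ρ)) x - Dsc n M h t x| ≤ ε ∧
      |ζ x * bet (gradSq n M h (u ρ) x)| ≤ ε ∧
      gradSq n M h (fun z => ζ z * u ρ z) x ≤ ε := by
  obtain ⟨m, φ, U, C, hch, hcov⟩ := ssn_compact_charts hM hY hKc hKY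
  have hpert := fun k => ss_pert (ssb_met hh (hch k).1) (ht _ _ (hch k).1) (hζ _ _ (hch k).1)
    (fun y hy => hζ0 _ (if_mem (hch k).1 hy)) hk hk0 hb hb0 (C k) (hch k).2.2.1 (hch k).2.2.2 ε hε
  choose ε' hε' H using hpert
  have hl := fun k => hloc (φ k) (U k) (hch k).1 (hch k).2.1 (C k) (hch k).2.2.1 (hch k).2.2.2
    (ε' k) (hε' k)
  choose ρk hρk Hρ using hl
  have hev : ∀ᶠ ρ in 𝓝[>] (0 : ℝ), ∀ k, ρ ∈ Set.Ioo 0 (ρk k) :=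
    Filter.eventually_all.2 fun k => Ioo_mem_nhdsGT (hρk k)
  obtain ⟨ρ0, hρ0, hsub⟩ := mem_nhdsGT_iff_exists_Ioo_subset.1 hev
  refine ⟨ρ0, hρ0, fun ρ hρ hρ2 x hx => ?_⟩
  have hρm : ρ ∈ Set.Ioc (0 : ℝ) (1 / 2) := ⟨hρ.1, hρ2⟩
  have hus := hu ρ hρm
  obtain ⟨k, hk'⟩ := Set.mem_iUnion.1 (hcov hx)
  obtain ⟨y, hyC, rfl⟩ := hk'
  have hφ := (hch k).1
  have hyU : y ∈ U k := (hch k).2.2.2 hyC
  have hUo : IsOpen (U k) := if_open hφ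
  obtain ⟨m1, -⟩ := ss_out_met hM hh hus hζ hζ0 hk hk0
  have m3 := ss_out_smooth hM hh ht hus hζ hb
  obtain ⟨r1, r2, r3⟩ := H k (u ρ ∘ φ k) (hus _ _ hφ) y hyC (Hρ k ρ (hsub hρ k) y hyC)
  have e1 : cm (ssHc n M h ζ kap (u ρ)) (φ k) =ᶠ[𝓝 y] fun z => cm h (φ k) z
      + ((ζ ∘ φ k) z * kap (gradSqC (cm h (φ k)) (u ρ ∘ φ k) z)) • ssDuDu (u ρ ∘ φ k) z := by
    filter_upwards [hUo.mem_nhds hyU] with z hz
    unfold ssHc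
    rw [ssb_update (c := fun x => ζ x * kap (gradSq n M h (u ρ) x)) hus hφ hz,
      if_gradSq_eq hh hus hφ hz]
    rfl
  have e2 : ssTc n M h t ζ bet (u ρ) ∘ φ k =ᶠ[𝓝 y] fun z => (t ∘ φ k) z
      - (ζ ∘ φ k) z * bet (gradSqC (cm h (φ k)) (u ρ ∘ φ k) z) := by
    filter_upwards [hUo.mem_nhds hyU] with z hz
    show t (φ k z) - ζ (φ k z) * bet (gradSq n M h (u ρ) (φ k z)) = _
    rw [if_gradSq_eq hh hus hφ hz]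
    rfl
  have hζu : SmoothAlong n M (fun z => ζ z * u ρ z) := fun ψ W hψ => (hζ ψ W hψ).mul (hus ψ W hψ)
  refine ⟨?_, ?_, ?_⟩
  · rw [ssb_dsc m1 m3 hφ hyU, ssb_dsc hh ht hφ hyU, rm_Dsc_congr_met e1, rm_Dsc_congr e2]
    exact r1
  · rw [if_gradSq_eq hh hus hφ hyU]
    exact r2
  · rw [if_gradSq_eq hh hζu hφ hyU]
    exact r3

end Claimed.Agent.R315
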