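import Claimed.Agent.R315.Pack010

/-!
# Row 315, paper S: package SS-LOC-N (#8519) `ssNb`, `ssNc`, `ssn_nc_compact`, `ssn_nb_open`, `ssn_compact_charts`, `ssn_trM_anti`

## SS-LOC-N  neighbourhoods of a compact set, finite chart covers, monotonicity of the trace (`ssn_nc_compact`, `ssn_nb_open`, `ssn_compact_charts`, `ssn_trM_anti`; ~300 lines)
 `ssn_nc_compact`: `ssNc ⊆ {y ∈ M | rdist a0 y ≤ D + c}` (`D = max rdist a0 a` on `A`), compact by `IsProperOn`; `ssNc` = image under `Prod.snd` of the closed subset `{(a,x) | rdist a x ≤ c}` of the compact `A × ball` (`ssn_rdist_continuousOn`).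
 `ssn_nb_open`: `continuousOn_iff'` for `x ↦ rdist a x` on `M`, union over `a ∈ A`.
 `ssn_compact_charts`: for `x ∈ K` a parametrisation `(φ,U)` at `x`, restricted to `φ⁻¹ Y` (`if_param_restrict`), `closedBall y r ⊆ U`; `φ '' ball y r` is relatively open in `M`; finite subcover.
 `ssn_trM_anti`: in a chart `tr(H⁻¹K) ≥ tr(H'⁻¹K)` for `H ≤ H'` positive definite, `K` positive semidefinite (`H'⁻¹ ≤ H⁻¹`: Mathlib `Matrix.PosDef` inverse antitone / `CStarAlgebra` order; or simultaneous diagonalisation).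
-/

set_option autoImplicit false
open scoped ContDiff
open Claims.C0499

namespace Claimed.Agent.R315

variable {n N : ℕ}

/-- `{r_A < c}`. -/
def ssNb (M : Set (E N)) (h0 : Ten (E N)) (A : Set (E N)) (c : ℝ) : Set (E N) :=
  {x | x ∈ M ∧ ∃ a ∈ A, rdist M h0 a x < c}

/-- `{r_A ≤ c}`. -/
def ssNc (M : Set (E N)) (h0 : Ten (E N)) (A : Set (E N)) (c : ℝ) : Set (E N) :=
  {x | x ∈ M ∧ ∃ a ∈ A, rdist M h0 a x ≤ c}

theorem ssn_nc_compact {M : Set (E N)} {h0 : Ten (E N)} (hM : Carrier n M)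
    (hh0 : IsMetricOn n M h0) (hp : IsProperOn M h0) {A : Set (E N)} (hA : A ⊆ M)
    (hA2 : IsCompact A) (c : ℝ) : IsCompact (ssNc M h0 A c) := by
  rcases A.eq_empty_or_nonempty with rfl | ⟨a0, ha0⟩
  · have : ssNc M h0 ∅ c = ∅ := by
      ext x
      simp [ssNc]
    rw [this]
    exact isCompact_empty
  have hcont := ssn_rdist_continuousOn hM hh0
  have hc1 : ContinuousOn (fun a : E N => rdist M h0 a0 a) A := by
    have h1 : ContinuousOn (fun a : E N => ((a0, a) : E N × E N)) A :=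
      (continuous_const.prodMk continuous_id).continuousOn
    exact hcont.comp h1 fun a ha => ⟨hA ha0, hA ha⟩
  obtain ⟨D, hD⟩ := (hA2.image_of_continuousOn hc1).bddAbove
  have hD' : ∀ a ∈ A, rdist M h0 a0 a ≤ D := fun a ha => hD ⟨a, ha, rfl⟩
  set B : Set (E N) := {y | y ∈ M ∧ rdist M h0 a0 y ≤ D + c} with hB
  have hBc : IsCompact B := hp a0 (hA ha0) (D + c)
  have hAB : IsCompact (A ×ˢ B) := hA2.prod hBc
  have hsub : A ×ˢ B ⊆ M ×ˢ M := Set.prod_mono hA fun y hy => hy.1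
  have hcl : IsClosed (A ×ˢ B ∩ (fun p : E N × E N => rdist M h0 p.1 p.2) ⁻¹' Set.Iic c) :=
    (hcont.mono hsub).preimage_isClosed_of_isClosed hAB.isClosed isClosed_Iic
  have hcp : IsCompact (A ×ˢ B ∩ (fun p : E N × E N => rdist M h0 p.1 p.2) ⁻¹' Set.Iic c) :=
    hAB.of_isClosed_subset hcl Set.inter_subset_left
  have himg : ssNc M h0 A c =
      Prod.snd '' (A ×ˢ B ∩ (fun p : E N × E N => rdist M h0 p.1 p.2) ⁻¹' Set.Iic c) := by
    ext x
    constructor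
    · rintro ⟨hx, a, ha, hax⟩
      refine ⟨(a, x), ⟨⟨ha, hx, ?_⟩, hax⟩, rfl⟩
      have := ssn_rdist_triangle hM hh0 (hA ha0) (hA ha) hx
      have := hD' a ha
      simp only at *
      linarith
    · rintro ⟨⟨a, y⟩, ⟨⟨ha, hy⟩, hay⟩, rfl⟩
      exact ⟨hy.1, a, ha, hay⟩
  rw [himg]
  exact hcp.image continuous_snd

theorem ssn_nb_open {M : Set (E N)} {h0 : Ten (E N)} (hM : Carrier n M)
    (hh0 : IsMetricOn n M h0) {A : Set (E N)} (hA : A ⊆ M) (c : ℝ) :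
    ∃ Ω : Set (E N), IsOpen Ω ∧ M ∩ Ω = ssNb M h0 A c := by
  have hcont := ssn_rdist_continuousOn hM hh0
  have h1 : ∀ a ∈ A, ∃ O : Set (E N), IsOpen O ∧
      (fun x : E N => rdist M h0 a x) ⁻¹' Set.Iio c ∩ M = O ∩ M := by
    intro a ha
    have hc1 : ContinuousOn (fun x : E N => rdist M h0 a x) M := by
      have h2 : ContinuousOn (fun x : E N => ((a, x) : E N × E N)) M :=
        (continuous_const.prodMk continuous_id).continuousOn
      exact hcont.comp h2 fun x hx => ⟨hA ha, hx⟩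
    exact continuousOn_iff'.1 hc1 _ isOpen_Iio
  choose! O hO hOe using h1
  refine ⟨⋃ a ∈ A, O a, isOpen_biUnion hO, ?_⟩
  ext x
  simp only [Set.mem_inter_iff, Set.mem_iUnion, exists_prop, ssNb, Set.mem_setOf_eq]
  constructor
  · rintro ⟨hx, a, ha, hxa⟩
    have : x ∈ O a ∩ M := ⟨hxa, hx⟩
    rw [← hOe a ha] at this
    exact ⟨hx, a, ha, this.1⟩
  · rintro ⟨hx, a, ha, hxa⟩
    have : x ∈ (fun x : E N => rdist M h0 a x) ⁻¹' Set.Iio c ∩ M := ⟨hxa, hx⟩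
    rw [hOe a ha] at this
    exact ⟨hx, a, ha, this.1⟩

/-- a compact subset of `M ∩ Y` is covered by finitely many compact chart pieces inside `Y`. -/
theorem ssn_compact_charts {M : Set (E N)} (hM : IsMfd n M) {Y K : Set (E N)} (hY : IsOpen Y)
    (hK : IsCompact K) (hKY : K ⊆ M ∩ Y) :
    ∃ (m : ℕ) (φ : Fin m → E n → E N) (U C : Fin m → Set (E n)),
      (∀ k, IsParam M (φ k) (U k) ∧ φ k '' U k ⊆ Y ∧ IsCompact (C k) ∧ C k ⊆ U k) ∧
      K ⊆ ⋃ k, φ k '' C k := by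
  have h1 : ∀ x ∈ K, ∃ (ψ : E n → E N) (U C : Set (E n)) (O : Set (E N)),
      IsParam M ψ U ∧ ψ '' U ⊆ Y ∧ IsCompact C ∧ C ⊆ U ∧ O ∈ nhds x ∧ M ∩ O ⊆ ψ '' C := by
    intro x hx
    obtain ⟨ψ, U, hψ, u, hu, rfl⟩ := hM x (hKY hx).1
    have hU' : IsOpen (U ∩ ψ ⁻¹' Y) :=
      (if_continuousOn hψ).isOpen_inter_preimage (if_open hψ) hY
    have hψ' : IsParam M ψ (U ∩ ψ ⁻¹' Y) := if_mono hψ hU' Set.inter_subset_left
    obtain ⟨r, hr, hball⟩ := Metric.nhds_basis_closedBall.mem_iff.1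
      (hU'.mem_nhds ⟨hu, (hKY hx).2⟩)
    obtain ⟨O, hO, hOe⟩ := if_image_open hψ' Metric.isOpen_ball
      (Metric.ball_subset_closedBall.trans hball)
    refine ⟨ψ, U ∩ ψ ⁻¹' Y, Metric.closedBall u r, O, hψ', ?_, isCompact_closedBall u r, hball,
      ?_, ?_⟩
    · rintro _ ⟨w, hw, rfl⟩
      exact hw.2
    · have : ψ u ∈ M ∩ O := by
        rw [← hOe]
        exact ⟨u, Metric.mem_ball_self hr, rfl⟩
      exact hO.mem_nhds this.2
    · rw [← hOe]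
      exact Set.image_mono Metric.ball_subset_closedBall
  choose! ψ U C O hψ hY' hC hCU hO hOC using h1
  obtain ⟨t, ht, hcov⟩ := hK.elim_nhds_subcover O hO
  let e := t.equivFin
  refine ⟨t.card, fun k => ψ (e.symm k), fun k => U (e.symm k), fun k => C (e.symm k), ?_, ?_⟩
  · intro k
    have hk : ((e.symm k : t) : E N) ∈ K := ht _ (e.symm k).2
    exact ⟨hψ _ hk, hY' _ hk, hC _ hk, hCU _ hk⟩
  · intro x hx
    obtain ⟨y, hy, hxy⟩ := Set.mem_iUnion₂.1 (hcov hx)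
    refine Set.mem_iUnion.2 ⟨e ⟨y, hy⟩, ?_⟩
    simp only [Equiv.symm_apply_apply]
    exact hOC y (ht y hy) ⟨(hKY hx).1, hxy⟩

/-- the inverse is antitone on positive definite matrices. -/
theorem ssLocN_inv_anti {d : ℕ} {H H' : Matrix (Fin d) (Fin d) ℝ} (hH : H.PosDef)
    (hH' : H'.PosDef) (hle : (H' - H).PosSemidef) : (H⁻¹ - H'⁻¹).PosSemidef := by
  have u1 : IsUnit H.det := isUnit_iff_ne_zero.2 hH.det_pos.ne'
  have u2 : IsUnit H'.det := isUnit_iff_ne_zero.2 hH'.det_pos.ne'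
  have a1 : H * H⁻¹ = 1 := Matrix.mul_nonsing_inv _ u1
  have a2 : H⁻¹ * H = 1 := Matrix.nonsing_inv_mul _ u1
  have a3 : H' * H'⁻¹ = 1 := Matrix.mul_nonsing_inv _ u2
  have a4 : H'⁻¹ * H' = 1 := Matrix.nonsing_inv_mul _ u2
  have s1 : (H'⁻¹).conjTranspose = H'⁻¹ := hH'.isHermitian.inv.eq
  have s2 : (H' - H).conjTranspose = H' - H := hle.isHermitian.eq
  have p1 := hle.conjTranspose_mul_mul_same H'⁻¹
  have p2 := hH.inv.posSemidef.conjTranspose_mul_mul_same ((H' - H) * H'⁻¹)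
  have p3 := p1.add p2
  rw [Matrix.conjTranspose_mul, s1, s2] at p3
  have b1 : H'⁻¹ * (H' - H) = 1 - H'⁻¹ * H := by rw [mul_sub, a4]
  have b2 : (H' - H) * H'⁻¹ = 1 - H * H'⁻¹ := by rw [sub_mul, a3]
  have b3 : (1 - H'⁻¹ * H) * H⁻¹ = H⁻¹ - H'⁻¹ := by
    rw [sub_mul, one_mul, mul_assoc, a1, mul_one]
  have b4 : (H⁻¹ - H'⁻¹) * (1 - H * H'⁻¹) = H⁻¹ - H'⁻¹ - H'⁻¹ + H'⁻¹ * H * H'⁻¹ := by
    rw [mul_sub, mul_one, sub_mul, ← mul_assoc H⁻¹, a2, one_mul, ← mul_assoc]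
    abel
  have e : H'⁻¹ * (H' - H) * H'⁻¹ + H'⁻¹ * (H' - H) * H⁻¹ * ((H' - H) * H'⁻¹) = H⁻¹ - H'⁻¹ := by
    rw [b1, b2, b3, b4, sub_mul, one_mul]
    abel
  rwa [e] at p3

theorem ssn_trM_anti {M : Set (E N)} {h h' k : Ten (E N)} (hM : IsMfd n M)
    (hh : IsMetricOn n M h) (hh' : IsMetricOn n M h') (hk : IsMetricOn n M k)
    (hle : MetLE n M h h') {x : E N} (hx : x ∈ M) : trM n M h' k x ≤ trM n M h k x := by
  obtain ⟨ψ, U, hψ, u, hu, rfl⟩ := hM x hx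
  rw [if_trM_eq hh k hψ hu, if_trM_eq hh' k hψ hu]
  have h1 := ssLocN_inv_anti ((hh ψ U hψ).2 u hu) ((hh' ψ U hψ).2 u hu) (hle ψ U hψ u hu)
  have h2 := if_trace_mul_nonneg h1 ((hk ψ U hψ).2 u hu).posSemidef
  rw [Matrix.sub_mul, Matrix.trace_sub] at h2
  unfold trC
  linarith

end Claimed.Agent.R315
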