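import Claimed.Agent.R315.Pack006

/-!
# Row 315, paper S, Proposition 4.1: the signed pressure law   (package SS-PRESS)

PURE CALCULUS, no dependencies (only `IsPressure`, `ssV` of `Ss/Defs.lean`).  Paper: `sections/pressure.tex`.

The statement only asks for the EXISTENCE of a law, so instead of the implicit construction of the paper we use
an explicit one (helper108):

  `F x t = ξ (N + ξ² M)`,  `ξ = tan (k x)`,  `N = √(t²+T²)`,  `M = D (3 - arctan u)`,  `u = t/(sg (1+ξ²))`,  `S0 = π/(2k)`.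

With `w = ξ²`, `Q = ξ M_ξ = 2 D w u/((1+u²)(1+w))`, `E = -M_t = D/((1+u²) sg (1+w))`, `τ = t/N`:
  `F_x = k (1+w) (N + w (3M+Q))`,   `F_t = ξ (τ - w E)`,   `D ≤ M ≤ 5D`, `|Q| ≤ D`, `0 ≤ E ≤ D/sg`, `|τ| ≤ 1`.
Constants: `k = max A0 (max ε⁻¹ 2)`, `c₁ = 4 (8 P0 k + 1)`, `sg = max ε⁻¹ ((2k + 40 k c₁)/b0)`, `D = c₁ sg`,
`T = max 10 (max ε⁻¹ (max (4k/b0) (max (4k/ε) (80 k D/b0))))`.
 * `fx_ge`: `F_x ≥ k N`;  `ft_le`: `|τ - wE| ≤ 1 + w D/sg ≤ ε (N + w M)`;  `fft_le`: `F F_t ≤ w (N + wM) ≤ ε F_x`;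
 * `fx_le`: `F_x ≤ k (1+w)(N + 4wM)`, compared term by term with `b0 N² + ε w (N+wM)²`;
 * `alt`: if `F_x > b0 N²` then `w ≥ 1` and `N < sg w` (as `D/sg²` is small), so `|u| < 1` and `w E ≥ D/(4 sg) ≥ 8 P0 k + 1`
   (as `D/sg` is large), whence `-F F_t = w (N+wM)(wE - τ) ≥ 8 P0 k w (N+wM) ≥ P0 F_x`;
 * `pole`: `F ≥ ξ` for `ξ ≥ 0`.
-/

set_option autoImplicit false
open scoped ContDiff

namespace Claimed.Agent.R315

/-- the decreasing multiplier `M = D (3 - arctan (t/(sg (1+ξ²))))`. -/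
noncomputable def sspM (D sg ξ t : ℝ) : ℝ := D * (3 - Real.arctan (t / (sg * (1 + ξ ^ 2))))

/-- the law in the variable `ξ = tan (k x)`. -/
noncomputable def sspTh (T D sg ξ t : ℝ) : ℝ :=
  ξ * (Real.sqrt (t ^ 2 + T ^ 2) + ξ ^ 2 * sspM D sg ξ t)

theorem ssp_hasDerivAt_t (T D sg ξ t : ℝ) (hT : 0 < T) (hsg : 0 < sg) :
    HasDerivAt (fun r => sspTh T D sg ξ r)
      (ξ * (t / Real.sqrt (t ^ 2 + T ^ 2)
        - ξ ^ 2 * (D / ((1 + (t / (sg * (1 + ξ ^ 2))) ^ 2) * (sg * (1 + ξ ^ 2)))))) t := by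
  unfold sspTh sspM
  have hpos : 0 < t ^ 2 + T ^ 2 := by positivity
  have hs : 0 < sg * (1 + ξ ^ 2) := by positivity
  have h1 : HasDerivAt (fun r : ℝ => Real.sqrt (r ^ 2 + T ^ 2))
      (t / Real.sqrt (t ^ 2 + T ^ 2)) t := by
    have := ((hasDerivAt_pow 2 t).add_const (T ^ 2)).sqrt hpos.ne'
    refine this.congr_deriv ?_
    have : 0 < Real.sqrt (t ^ 2 + T ^ 2) := Real.sqrt_pos.2 hpos
    field_simp
    simp [mul_comm]
  have h2 : HasDerivAt (fun r : ℝ => Real.arctan (r / (sg * (1 + ξ ^ 2))))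
      (1 / (1 + (t / (sg * (1 + ξ ^ 2))) ^ 2) * (1 / (sg * (1 + ξ ^ 2)))) t := by
    have := ((hasDerivAt_id t).div_const (sg * (1 + ξ ^ 2))).arctan
    simpa using this
  have h3 := (h1.fun_add (((h2.const_sub 3).const_mul D).const_mul (ξ ^ 2))).const_mul ξ
  refine h3.congr_deriv ?_
  have : 0 < 1 + (t / (sg * (1 + ξ ^ 2))) ^ 2 := by positivity
  generalize (1 + (t / (sg * (1 + ξ ^ 2))) ^ 2) = q at *
  field_simp
  ring

theorem ssp_hasDerivAt_xi (T D sg ξ t : ℝ) (hsg : 0 < sg) :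
    HasDerivAt (fun z => sspTh T D sg z t)
      (Real.sqrt (t ^ 2 + T ^ 2) + ξ ^ 2 * (3 * sspM D sg ξ t
        + 2 * D * ξ ^ 2 * (t / (sg * (1 + ξ ^ 2)))
          / ((1 + (t / (sg * (1 + ξ ^ 2))) ^ 2) * (1 + ξ ^ 2)))) ξ := by
  unfold sspTh sspM
  have hw : 0 < 1 + ξ ^ 2 := by positivity
  have hs : 0 < sg * (1 + ξ ^ 2) := by positivity
  have h0 : HasDerivAt (fun z : ℝ => sg * (1 + z ^ 2)) (sg * (2 * ξ)) ξ := by
    have := ((hasDerivAt_pow 2 ξ).const_add 1).const_mul sg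
    simpa using this
  have h1 : HasDerivAt (fun z : ℝ => t / (sg * (1 + z ^ 2)))
      (-(t * (sg * (2 * ξ))) / (sg * (1 + ξ ^ 2)) ^ 2) ξ := by
    have := (hasDerivAt_const ξ t).fun_div h0 hs.ne'
    simpa using this
  have h2 := h1.arctan
  have h3 := (h2.const_sub 3).const_mul D
  have h4 := (hasDerivAt_id' ξ).fun_mul
    (((hasDerivAt_pow 2 ξ).fun_mul h3).const_add (Real.sqrt (t ^ 2 + T ^ 2)))
  refine h4.congr_deriv ?_
  have : 0 < 1 + (t / (sg * (1 + ξ ^ 2))) ^ 2 := by positivity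
  generalize (1 + (t / (sg * (1 + ξ ^ 2))) ^ 2) = q at *
  generalize Real.arctan (t / (sg * (1 + ξ ^ 2))) = a at *
  field_simp
  ring

theorem ssp_fx_upper {k N w M Q D : ℝ} (hk : 0 < k) (hw : 0 ≤ w)
    (hM1 : D ≤ M) (hQ : |Q| ≤ D) :
    k * (1 + w) * (N + w * (3 * M + Q)) ≤ k * (1 + w) * (N + 4 * (w * M)) := by
  have hQ' := abs_le.1 hQ
  have : w * (3 * M + Q) ≤ 4 * (w * M) := by nlinarith
  gcongr

theorem ssp_fx_ge {A0 k N w M Q D : ℝ} (hA : A0 ≤ k) (hk : 0 < k) (hN : 0 ≤ N) (hw : 0 ≤ w)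
    (hD : 0 ≤ D) (hM1 : D ≤ M) (hQ : |Q| ≤ D) :
    A0 * N ≤ k * (1 + w) * (N + w * (3 * M + Q)) := by
  have hQ' := abs_le.1 hQ
  have h1 : 0 ≤ w * (3 * M + Q) := mul_nonneg hw (by linarith)
  have h2 : k * N ≤ k * (1 + w) * (N + w * (3 * M + Q)) := by
    have : N ≤ (1 + w) * (N + w * (3 * M + Q)) := by nlinarith [mul_nonneg hw hN, mul_nonneg hw h1]
    calc k * N ≤ k * ((1 + w) * (N + w * (3 * M + Q))) := by gcongr
      _ = _ := by ring
  nlinarith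

theorem ssp_ft_le {ε sg T N w M D E τ ξ : ℝ} (hε : 0 < ε) (hs1 : 1 ≤ ε * sg)
    (hT1 : 1 ≤ ε * T) (hTN : T ≤ N) (hw : 0 ≤ w) (hD : 0 ≤ D) (hM1 : D ≤ M)
    (hτ : |τ| ≤ 1) (hE0 : 0 ≤ E) (hE1 : E * sg ≤ D) :
    |ξ * (τ - w * E)| ≤ ε * |ξ * (N + w * M)| := by
  have hτ' := abs_le.1 hτ
  have hEε : E ≤ ε * D := by
    calc E = E * 1 := by ring
      _ ≤ E * (ε * sg) := by gcongr
      _ = ε * (E * sg) := by ring
      _ ≤ ε * D := by gcongr
  have hwE : 0 ≤ w * E := mul_nonneg hw hE0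
  have h1 : |τ - w * E| ≤ 1 + w * E := by
    rw [abs_le]; constructor <;> linarith
  have h2 : 1 + w * E ≤ ε * (N + w * M) := by
    have a1 : 1 ≤ ε * N := le_trans hT1 (by gcongr)
    have a2 : w * E ≤ ε * (w * M) := by
      calc w * E ≤ w * (ε * D) := by gcongr
        _ ≤ w * (ε * M) := by gcongr
        _ = ε * (w * M) := by ring
    linarith
  have h3 : 0 ≤ N + w * M := by
    have : 0 ≤ w * M := mul_nonneg hw (le_trans hD hM1)
    have : 0 < T := by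
      by_contra h
      push Not at h
      nlinarith
    linarith
  rw [abs_mul, abs_mul, abs_of_nonneg h3]
  calc |ξ| * |τ - w * E| ≤ |ξ| * (ε * (N + w * M)) := by
        gcongr; exact le_trans h1 h2
    _ = ε * (|ξ| * (N + w * M)) := by ring

theorem ssp_fft_le {ε k N M Q D E τ ξ : ℝ} (hk : 1 ≤ ε * k) (hN : 0 ≤ N)
    (hD : 0 ≤ D) (hM1 : D ≤ M) (hQ : |Q| ≤ D) (hτ : |τ| ≤ 1) (hE0 : 0 ≤ E) :
    (ξ * (N + ξ ^ 2 * M)) * (ξ * (τ - ξ ^ 2 * E))
      ≤ ε * (k * (1 + ξ ^ 2) * (N + ξ ^ 2 * (3 * M + Q))) := by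
  have hτ' := abs_le.1 hτ
  have hQ' := abs_le.1 hQ
  set w := ξ ^ 2 with hwdef
  have hw : 0 ≤ w := by positivity
  have hM0 : 0 ≤ M := le_trans hD hM1
  have hB : 0 ≤ N + w * M := by positivity
  have h1 : (ξ * (N + w * M)) * (ξ * (τ - w * E)) = w * (N + w * M) * (τ - w * E) := by
    rw [hwdef]; ring
  have h2 : w * (N + w * M) * (τ - w * E) ≤ w * (N + w * M) * 1 := by
    have : τ - w * E ≤ 1 := by nlinarith [mul_nonneg hw hE0]
    gcongr
  have h3 : w * (N + w * M) ≤ (1 + w) * (N + w * (3 * M + Q)) := by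
    have a : w * M ≤ w * (3 * M + Q) := by gcongr; linarith
    have b : N + w * M ≤ N + w * (3 * M + Q) := by linarith
    calc w * (N + w * M) ≤ (1 + w) * (N + w * M) := by nlinarith
      _ ≤ (1 + w) * (N + w * (3 * M + Q)) := by gcongr
  have h4 : 0 ≤ (1 + w) * (N + w * (3 * M + Q)) := le_trans (by positivity) h3
  calc (ξ * (N + w * M)) * (ξ * (τ - w * E)) ≤ (1 + w) * (N + w * (3 * M + Q)) := by
        rw [h1]; linarith
    _ = 1 * ((1 + w) * (N + w * (3 * M + Q))) := by ring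
    _ ≤ (ε * k) * ((1 + w) * (N + w * (3 * M + Q))) := by gcongr
    _ = _ := by ring

theorem ssp_fx_le {ε b0 k T N M Q D ξ : ℝ} (hε : 0 < ε) (hb : 0 < b0) (hk : 0 < k)
    (hT0 : 0 < T) (hTN : T ≤ N) (hD : 0 ≤ D) (hM1 : D ≤ M) (hM2 : M ≤ 5 * D) (hQ : |Q| ≤ D)
    (hT2 : 4 * k ≤ b0 * T) (hT3 : 4 * k ≤ ε * T) (hT4 : 80 * k * D ≤ b0 * T ^ 2) :
    k * (1 + ξ ^ 2) * (N + ξ ^ 2 * (3 * M + Q)) ≤ b0 * N ^ 2 + ε * (ξ * (N + ξ ^ 2 * M)) ^ 2 := by
  set w := ξ ^ 2 with hwdef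
  have hw : 0 ≤ w := by positivity
  have hN : 0 < N := lt_of_lt_of_le hT0 hTN
  have hM0 : 0 ≤ M := le_trans hD hM1
  refine le_trans (ssp_fx_upper hk hw hM1 hQ) ?_
  have e1 : (ξ * (N + w * M)) ^ 2 = w * (N + w * M) ^ 2 := by rw [hwdef]; ring
  rw [e1]
  have a1 : k * N ≤ b0 * N ^ 2 / 4 := by
    have : 4 * k ≤ b0 * N := le_trans hT2 (by gcongr)
    nlinarith
  have a2 : k * (w * N) ≤ ε * (w * N ^ 2) / 4 := by
    have : 4 * k ≤ ε * N := le_trans hT3 (by gcongr)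
    have h : 0 ≤ w * N := by positivity
    nlinarith
  have a3 : 4 * k * (w * M) ≤ 10 * k * D + 2 * k * (w ^ 2 * M) := by
    have h1 : 2 * w ≤ 1 + w ^ 2 := by nlinarith [sq_nonneg (w - 1)]
    have h2 : 4 * k * (w * M) ≤ 2 * k * M * (1 + w ^ 2) := by
      have : 0 ≤ 2 * k * M := by positivity
      nlinarith
    have h3 : 2 * k * M ≤ 10 * k * D := by nlinarith
    nlinarith
  have a4 : 10 * k * D ≤ b0 * N ^ 2 / 8 := by
    have : T ^ 2 ≤ N ^ 2 := by gcongr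
    nlinarith
  have a5 : 6 * k * (w ^ 2 * M) ≤ 2 * ε * (w ^ 2 * (N * M)) := by
    have : 4 * k ≤ ε * N := le_trans hT3 (by gcongr)
    have h : 0 ≤ w ^ 2 * M := by positivity
    nlinarith
  have a6 : 0 ≤ ε * (w ^ 3 * M ^ 2) := by positivity
  have a7 : 0 ≤ ε * (w * N ^ 2) := by positivity
  have a8 : 0 ≤ b0 * N ^ 2 := by positivity
  nlinarith

theorem ssp_alt_A {b0 k T N D w : ℝ} (hk : 0 < k)
    (hT0 : 0 < T) (hTN : T ≤ N) (hD : 0 ≤ D) (hw : 0 ≤ w)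
    (hT2 : 4 * k ≤ b0 * T) (hT4 : 80 * k * D ≤ b0 * T ^ 2) (hb : 0 < b0)
    (hlt : b0 * N ^ 2 < k * (1 + w) * (N + 20 * (w * D))) : 1 ≤ w := by
  have hN : 0 < N := lt_of_lt_of_le hT0 hTN
  have hTN2 : T ^ 2 ≤ N ^ 2 := by gcongr
  have hkN : 4 * k ≤ b0 * N := le_trans hT2 (by gcongr)
  by_contra h
  push Not at h
  have h1 : k * (1 + w) * (N + 20 * (w * D)) ≤ k * 2 * (N + 20 * (1 * D)) := by
    gcongr
    linarith
  have h2 : 2 * k * N ≤ b0 * N ^ 2 / 2 := by nlinarith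
  have h3 : 40 * k * D ≤ b0 * N ^ 2 / 2 := by nlinarith
  linarith

theorem ssp_alt_B {b0 k sg N D w : ℝ} (hk : 0 < k) (hsg : 0 < sg) (hN : 0 < N)
    (hD : 0 ≤ D) (hw1 : 1 ≤ w) (hs2 : 2 * k * sg + 40 * k * D ≤ b0 * sg ^ 2)
    (hlt : b0 * N ^ 2 < k * (1 + w) * (N + 20 * (w * D))) : N < sg * w := by
  have hw : 0 ≤ w := by linarith
  by_contra h
  push Not at h
  have h1 : k * (1 + w) * (N + 20 * (w * D)) ≤ k * (2 * w) * (N + 20 * (w * D)) := by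
    gcongr
    linarith
  have h2 : sg ^ 2 * (k * (2 * w) * (N + 20 * (w * D)))
      = 2 * k * sg * ((sg * w) * N) + 40 * k * D * (sg * w) ^ 2 := by ring
  have h3 : (sg * w) * N ≤ N * N := by gcongr
  have h4 : (sg * w) ^ 2 ≤ N ^ 2 := by
    have : 0 ≤ sg * w := by positivity
    gcongr
  have h5 : sg ^ 2 * (k * (2 * w) * (N + 20 * (w * D))) ≤ (2 * k * sg + 40 * k * D) * N ^ 2 := by
    rw [h2]
    have c1 : 2 * k * sg * ((sg * w) * N) ≤ 2 * k * sg * (N * N) := by gcongr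
    have c2 : 40 * k * D * (sg * w) ^ 2 ≤ 40 * k * D * N ^ 2 := by gcongr
    calc _ ≤ 2 * k * sg * (N * N) + 40 * k * D * N ^ 2 := add_le_add c1 c2
      _ = _ := by ring
  have h6 : (2 * k * sg + 40 * k * D) * N ^ 2 ≤ b0 * sg ^ 2 * N ^ 2 := by gcongr
  have h7 : sg ^ 2 * (b0 * N ^ 2) < sg ^ 2 * (k * (2 * w) * (N + 20 * (w * D))) := by
    have : 0 < sg ^ 2 := by positivity
    have : b0 * N ^ 2 < k * (2 * w) * (N + 20 * (w * D)) := lt_of_lt_of_le hlt h1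
    gcongr
  have h8 : sg ^ 2 * (b0 * N ^ 2) = b0 * sg ^ 2 * N ^ 2 := by ring
  linarith

theorem ssp_alt_C {P0 k sg N D w t : ℝ} (hsg : 0 < sg) (htN : |t| ≤ N) (hD : 0 ≤ D)
    (hw1 : 1 ≤ w) (hNw : N < sg * w) (hDs : 4 * sg * (8 * P0 * k + 1) ≤ D) :
    8 * P0 * k + 1 ≤ w * (D / ((1 + (t / (sg * (1 + w))) ^ 2) * (sg * (1 + w)))) := by
  have hw : 0 < w := by linarith
  have hs : 0 < sg * (1 + w) := by positivity
  have hu : (t / (sg * (1 + w))) ^ 2 ≤ 1 := by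
    rw [div_pow, div_le_one (by positivity)]
    have h1 : |t| ≤ sg * (1 + w) := by nlinarith
    calc t ^ 2 = |t| ^ 2 := (sq_abs t).symm
      _ ≤ (sg * (1 + w)) ^ 2 := by gcongr
  have hq0 : 0 ≤ (t / (sg * (1 + w))) ^ 2 := by positivity
  generalize (t / (sg * (1 + w))) ^ 2 = q at hu hq0 ⊢
  have hden : (1 + q) * (sg * (1 + w)) ≤ 4 * (sg * w) := by
    have h1 : (1 + q) * (sg * (1 + w)) ≤ 2 * (sg * (1 + w)) := by gcongr; linarith
    nlinarith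
  have h1 : D / (4 * (sg * w)) ≤ D / ((1 + q) * (sg * (1 + w))) := by
    apply div_le_div_of_nonneg_left hD (by positivity) hden
  have h2 : w * (D / (4 * (sg * w))) = D / (4 * sg) := by
    field_simp
  have h3 : 8 * P0 * k + 1 ≤ D / (4 * sg) := by
    rw [le_div_iff₀ (by positivity)]
    linarith
  calc 8 * P0 * k + 1 ≤ w * (D / (4 * (sg * w))) := by rw [h2]; exact h3
    _ ≤ _ := by gcongr

theorem ssp_alt {P0 b0 k sg T N M Q D τ ξ t : ℝ} (hP : 0 < P0) (hb : 0 < b0) (hk : 0 < k)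
    (hsg : 0 < sg) (hT0 : 0 < T) (hTN : T ≤ N) (htN : |t| ≤ N) (hD : 0 ≤ D) (hM1 : D ≤ M)
    (hM2 : M ≤ 5 * D) (hQ : |Q| ≤ D) (hτ : |τ| ≤ 1)
    (hs2 : 2 * k * sg + 40 * k * D ≤ b0 * sg ^ 2) (hDs : 4 * sg * (8 * P0 * k + 1) ≤ D)
    (hT2 : 4 * k ≤ b0 * T) (hT4 : 80 * k * D ≤ b0 * T ^ 2) :
    k * (1 + ξ ^ 2) * (N + ξ ^ 2 * (3 * M + Q)) ≤ b0 * N ^ 2 ∨
    P0 * (k * (1 + ξ ^ 2) * (N + ξ ^ 2 * (3 * M + Q))) ≤
      -((ξ * (N + ξ ^ 2 * M)) * (ξ * (τ - ξ ^ 2 *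
        (D / ((1 + (t / (sg * (1 + ξ ^ 2))) ^ 2) * (sg * (1 + ξ ^ 2))))))) := by
  have hw : 0 ≤ ξ ^ 2 := by positivity
  have hN : 0 < N := lt_of_lt_of_le hT0 hTN
  have hM0 : 0 ≤ M := le_trans hD hM1
  have hτ' := abs_le.1 hτ
  by_cases hcase : k * (1 + ξ ^ 2) * (N + ξ ^ 2 * (3 * M + Q)) ≤ b0 * N ^ 2
  · exact Or.inl hcase
  right
  push Not at hcase
  have e1 : ∀ E : ℝ, -((ξ * (N + ξ ^ 2 * M)) * (ξ * (τ - ξ ^ 2 * E)))
      = ξ ^ 2 * (N + ξ ^ 2 * M) * (ξ ^ 2 * E - τ) := by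
    intro E; ring
  rw [e1]
  generalize ξ ^ 2 = w at *
  have hup := ssp_fx_upper (N := N) hk hw hM1 hQ
  have hup2 : k * (1 + w) * (N + 4 * (w * M)) ≤ k * (1 + w) * (N + 20 * (w * D)) := by
    have : w * M ≤ w * (5 * D) := by gcongr
    have : N + 4 * (w * M) ≤ N + 20 * (w * D) := by linarith
    gcongr
  have hlt : b0 * N ^ 2 < k * (1 + w) * (N + 20 * (w * D)) := by linarith
  have hw1 := ssp_alt_A hk hT0 hTN hD hw hT2 hT4 hb hlt
  have hNw := ssp_alt_B hk hsg hN hD hw1 hs2 hlt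
  have hE := ssp_alt_C (P0 := P0) (k := k) hsg htN hD hw1 hNw hDs
  generalize D / ((1 + (t / (sg * (1 + w))) ^ 2) * (sg * (1 + w))) = E at *
  have hB : 0 ≤ w * (N + w * M) := by positivity
  have h8 : 8 * P0 * k ≤ w * E - τ := by linarith
  have h10 : k * (1 + w) * (N + 4 * (w * M)) ≤ k * (2 * w) * (4 * (N + w * M)) := by
    have : N + 4 * (w * M) ≤ 4 * (N + w * M) := by linarith
    have : 1 + w ≤ 2 * w := by linarith
    gcongr
  calc P0 * (k * (1 + w) * (N + w * (3 * M + Q))) ≤ P0 * (k * (2 * w) * (4 * (N + w * M))) := by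
        have := le_trans hup h10
        gcongr
    _ = w * (N + w * M) * (8 * P0 * k) := by ring
    _ ≤ w * (N + w * M) * (w * E - τ) := by gcongr

theorem ssp_M_bounds {D : ℝ} (hD : 0 ≤ D) (sg ξ t : ℝ) :
    D ≤ sspM D sg ξ t ∧ sspM D sg ξ t ≤ 5 * D := by
  unfold sspM
  have h1 := Real.arctan_lt_pi_div_two (t / (sg * (1 + ξ ^ 2)))
  have h2 := Real.neg_pi_div_two_lt_arctan (t / (sg * (1 + ξ ^ 2)))
  have h3 := Real.pi_le_four
  constructor <;> nlinarith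

theorem ssp_Q_bound {D : ℝ} (hD : 0 ≤ D) (w u : ℝ) (hw : 0 ≤ w) :
    |2 * D * w * u / ((1 + u ^ 2) * (1 + w))| ≤ D := by
  have h1 : 0 < (1 + u ^ 2) * (1 + w) := by positivity
  rw [abs_div, abs_of_pos h1, div_le_iff₀ h1, abs_mul, abs_of_nonneg (by positivity)]
  have h2 : 2 * |u| ≤ 1 + u ^ 2 := by
    nlinarith [sq_nonneg (|u| - 1), sq_abs u]
  have h3 : 0 ≤ D * w := by positivity
  calc 2 * D * w * |u| = D * w * (2 * |u|) := by ring
    _ ≤ D * w * (1 + u ^ 2) := by gcongr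
    _ ≤ D * (1 + w) * (1 + u ^ 2) := by gcongr; linarith
    _ = _ := by ring

theorem ssp_E_bounds {D sg : ℝ} (hD : 0 ≤ D) (hsg : 0 < sg) (w u : ℝ) (hw : 0 ≤ w) :
    0 ≤ D / ((1 + u ^ 2) * (sg * (1 + w))) ∧ D / ((1 + u ^ 2) * (sg * (1 + w))) * sg ≤ D := by
  have h1 : 0 < (1 + u ^ 2) * (sg * (1 + w)) := by positivity
  refine ⟨by positivity, ?_⟩
  rw [div_mul_eq_mul_div, div_le_iff₀ h1]
  have : 1 ≤ (1 + u ^ 2) * (1 + w) := by nlinarith [sq_nonneg u, mul_nonneg (sq_nonneg u) hw]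
  calc D * sg = D * sg * 1 := by ring
    _ ≤ D * sg * ((1 + u ^ 2) * (1 + w)) := by gcongr
    _ = _ := by ring

theorem ssp_N_facts {T : ℝ} (hT : 0 < T) (t : ℝ) :
    T ≤ Real.sqrt (t ^ 2 + T ^ 2) ∧ |t| ≤ Real.sqrt (t ^ 2 + T ^ 2) ∧
      Real.sqrt (t ^ 2 + T ^ 2) ^ 2 = t ^ 2 + T ^ 2 ∧ |t / Real.sqrt (t ^ 2 + T ^ 2)| ≤ 1 := by
  have h0 : 0 ≤ t ^ 2 + T ^ 2 := by positivity
  have h1 : T ≤ Real.sqrt (t ^ 2 + T ^ 2) := Real.le_sqrt_of_sq_le (by nlinarith [sq_nonneg t])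
  have h2 : |t| ≤ Real.sqrt (t ^ 2 + T ^ 2) := Real.abs_le_sqrt (by nlinarith [sq_nonneg T])
  refine ⟨h1, h2, Real.sq_sqrt h0, ?_⟩
  have h3 : 0 < Real.sqrt (t ^ 2 + T ^ 2) := lt_of_lt_of_le hT h1
  rw [abs_div, abs_of_pos h3, div_le_one h3]
  exact h2

theorem ssp_hasDerivAt_x (k T D sg x t : ℝ) (hsg : 0 < sg) (hc : Real.cos (k * x) ≠ 0) :
    HasDerivAt (fun y => sspTh T D sg (Real.tan (k * y)) t)
      (k * (1 + Real.tan (k * x) ^ 2) * (Real.sqrt (t ^ 2 + T ^ 2) + Real.tan (k * x) ^ 2 *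
        (3 * sspM D sg (Real.tan (k * x)) t
        + 2 * D * Real.tan (k * x) ^ 2 * (t / (sg * (1 + Real.tan (k * x) ^ 2)))
          / ((1 + (t / (sg * (1 + Real.tan (k * x) ^ 2))) ^ 2) * (1 + Real.tan (k * x) ^ 2))))) x := by
  have h1 : HasDerivAt (fun y => Real.tan (k * y)) (k * (1 + Real.tan (k * x) ^ 2)) x := by
    have h := (Real.hasDerivAt_tan hc).comp x ((hasDerivAt_id' x).const_mul k)
    refine h.congr_deriv ?_
    rw [← Real.inv_one_add_tan_sq hc]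
    simp [mul_comm]
  have h2 := (ssp_hasDerivAt_xi T D sg (Real.tan (k * x)) t hsg).comp x h1
  refine h2.congr_deriv ?_
  ring

theorem ssp_contDiffOn (k T D sg : ℝ) (hk : 0 < k) (hT : 0 < T) (hsg : 0 < sg) :
    ContDiffOn ℝ ∞ (fun p : ℝ × ℝ => sspTh T D sg (Real.tan (k * p.1)) p.2)
      (Set.Ioo (-(Real.pi / (2 * k))) (Real.pi / (2 * k)) ×ˢ Set.univ) := by
  intro p hp
  apply ContDiffAt.contDiffWithinAt
  have hx := hp.1
  have hc : Real.cos (k * p.1) ≠ 0 := by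
    apply ne_of_gt
    apply Real.cos_pos_of_mem_Ioo
    have e : k * (Real.pi / (2 * k)) = Real.pi / 2 := by field_simp
    constructor
    · have := mul_lt_mul_of_pos_left hx.1 hk
      rw [mul_neg, e] at this
      exact this
    · have := mul_lt_mul_of_pos_left hx.2 hk
      rw [e] at this
      exact this
  have h1 : ContDiffAt ℝ ∞ (fun p : ℝ × ℝ => Real.tan (k * p.1)) p := by
    have h0 : ContDiffAt ℝ ∞ (fun p : ℝ × ℝ => k * p.1) p := contDiffAt_const.mul contDiffAt_fst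
    exact ContDiffAt.comp (g := Real.tan) p (Real.contDiffAt_tan.2 hc) h0
  have h2 : ContDiffAt ℝ ∞ (fun p : ℝ × ℝ => Real.sqrt (p.2 ^ 2 + T ^ 2)) p :=
    ((contDiffAt_snd.pow 2).add contDiffAt_const).sqrt (by positivity)
  have h3 : ContDiffAt ℝ ∞ (fun p : ℝ × ℝ => p.2 / (sg * (1 + Real.tan (k * p.1) ^ 2))) p :=
    contDiffAt_snd.div (contDiffAt_const.mul (contDiffAt_const.add (h1.pow 2))) (by positivity)
  unfold sspTh sspM
  exact h1.mul (h2.add ((h1.pow 2).mul (contDiffAt_const.mul (contDiffAt_const.sub h3.arctan))))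

/-- S Proposition 4.1. -/
theorem ss_pressure (A0 P0 ε b0 : ℝ) (hA : 0 < A0) (hP : 0 < P0) (hε : 0 < ε) (hb : 0 < b0) :
    ∃ (S0 T : ℝ) (F : ℝ → ℝ → ℝ), IsPressure A0 P0 ε b0 S0 T F := by
  obtain ⟨k, hkA, hkε, hk2⟩ : ∃ k : ℝ, A0 ≤ k ∧ ε⁻¹ ≤ k ∧ 2 ≤ k :=
    ⟨max A0 (max ε⁻¹ 2), le_max_left _ _, le_trans (le_max_left _ _) (le_max_right _ _),
      le_trans (le_max_right _ _) (le_max_right _ _)⟩
  have hk : 0 < k := by linarith
  have hk1 : 1 ≤ ε * k := by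
    have := mul_le_mul_of_nonneg_left hkε hε.le
    rwa [mul_inv_cancel₀ hε.ne'] at this
  obtain ⟨sg, hsgε, hsgb⟩ : ∃ sg : ℝ, ε⁻¹ ≤ sg ∧
      (2 * k + 40 * k * (4 * (8 * P0 * k + 1))) / b0 ≤ sg :=
    ⟨max ε⁻¹ ((2 * k + 40 * k * (4 * (8 * P0 * k + 1))) / b0), le_max_left _ _, le_max_right _ _⟩
  have hsg : 0 < sg := lt_of_lt_of_le (by positivity) hsgε
  have hs1 : 1 ≤ ε * sg := by
    have := mul_le_mul_of_nonneg_left hsgε hε.le
    rwa [mul_inv_cancel₀ hε.ne'] at this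
  obtain ⟨D, hDdef⟩ : ∃ D : ℝ, D = 4 * (8 * P0 * k + 1) * sg := ⟨_, rfl⟩
  have hD : 0 ≤ D := by rw [hDdef]; positivity
  have hDs : 4 * sg * (8 * P0 * k + 1) ≤ D := by rw [hDdef]; linarith
  have hs2 : 2 * k * sg + 40 * k * D ≤ b0 * sg ^ 2 := by
    rw [div_le_iff₀ hb] at hsgb
    rw [hDdef]
    nlinarith
  obtain ⟨T, hT10, hTε, hTb, hTk, hTD⟩ : ∃ T : ℝ, 10 ≤ T ∧ ε⁻¹ ≤ T ∧ 4 * k / b0 ≤ T ∧
      4 * k / ε ≤ T ∧ 80 * k * D / b0 ≤ T :=
    ⟨max 10 (max ε⁻¹ (max (4 * k / b0) (max (4 * k / ε) (80 * k * D / b0)))),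
      le_max_left _ _, le_trans (le_max_left _ _) (le_max_right _ _),
      le_trans (le_trans (le_max_left _ _) (le_max_right _ _)) (le_max_right _ _),
      le_trans (le_trans (le_trans (le_max_left _ _) (le_max_right _ _)) (le_max_right _ _))
        (le_max_right _ _),
      le_trans (le_trans (le_trans (le_max_right _ _) (le_max_right _ _)) (le_max_right _ _))
        (le_max_right _ _)⟩
  have hT0 : 0 < T := by linarith
  have hT1 : 1 ≤ ε * T := by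
    have := mul_le_mul_of_nonneg_left hTε hε.le
    rwa [mul_inv_cancel₀ hε.ne'] at this
  have hT2 : 4 * k ≤ b0 * T := by
    rw [div_le_iff₀ hb] at hTb; linarith
  have hT3 : 4 * k ≤ ε * T := by
    rw [div_le_iff₀ hε] at hTk; linarith
  have hT4 : 80 * k * D ≤ b0 * T ^ 2 := by
    rw [div_le_iff₀ hb] at hTD
    nlinarith
  have hS0 : 0 < Real.pi / (2 * k) := by have := Real.pi_pos; positivity
  have hcos : ∀ x ∈ Set.Ioo (-(Real.pi / (2 * k))) (Real.pi / (2 * k)), Real.cos (k * x) ≠ 0 := by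
    intro x hx
    apply ne_of_gt
    apply Real.cos_pos_of_mem_Ioo
    have e : k * (Real.pi / (2 * k)) = Real.pi / 2 := by field_simp
    constructor
    · have := mul_lt_mul_of_pos_left hx.1 hk
      rw [mul_neg, e] at this
      exact this
    · have := mul_lt_mul_of_pos_left hx.2 hk
      rw [e] at this
      exact this
  have hdx : ∀ x ∈ Set.Ioo (-(Real.pi / (2 * k))) (Real.pi / (2 * k)), ∀ t,
      deriv (fun y => sspTh T D sg (Real.tan (k * y)) t) x = _ :=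
    fun x hx t => (ssp_hasDerivAt_x k T D sg x t hsg (hcos x hx)).deriv
  have hdt : ∀ x t, deriv (fun r => sspTh T D sg (Real.tan (k * x)) r) t = _ :=
    fun x t => (ssp_hasDerivAt_t T D sg (Real.tan (k * x)) t hT0 hsg).deriv
  refine ⟨Real.pi / (2 * k), T, fun x t => sspTh T D sg (Real.tan (k * x)) t,
    { S0_pos := hS0
      S0_le := ?_
      T_ge := hT10
      smooth := ssp_contDiffOn k T D sg hk hT0 hsg
      odd := ?_
      fx_ge := ?_
      ft_le := ?_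
      fft_le := ?_
      alt := ?_
      fx_le := ?_
      pole := ?_ }⟩
  · rw [div_le_one (by positivity)]
    have := Real.pi_le_four
    linarith
  · intro x t
    simp only [sspTh, sspM, mul_neg, Real.tan_neg, even_two, Even.neg_pow]
    ring
  · intro x hx t
    rw [hdx x hx t]
    obtain ⟨n1, n2, n3, n4⟩ := ssp_N_facts hT0 t
    obtain ⟨m1, m2⟩ := ssp_M_bounds hD sg (Real.tan (k * x)) t
    have hq := ssp_Q_bound hD (Real.tan (k * x) ^ 2) (t / (sg * (1 + Real.tan (k * x) ^ 2)))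
      (by positivity)
    unfold ssV
    exact ssp_fx_ge hkA hk (le_trans hT0.le n1) (by positivity) hD m1 hq
  · intro x hx t
    rw [hdt x t]
    obtain ⟨n1, n2, n3, n4⟩ := ssp_N_facts hT0 t
    obtain ⟨m1, m2⟩ := ssp_M_bounds hD sg (Real.tan (k * x)) t
    obtain ⟨e1, e2⟩ := ssp_E_bounds hD hsg (Real.tan (k * x) ^ 2)
      (t / (sg * (1 + Real.tan (k * x) ^ 2))) (by positivity)
    exact ssp_ft_le hε hs1 hT1 n1 (by positivity) hD m1 n4 e1 e2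
  · intro x hx t
    rw [hdt x t, hdx x hx t]
    obtain ⟨n1, n2, n3, n4⟩ := ssp_N_facts hT0 t
    obtain ⟨m1, m2⟩ := ssp_M_bounds hD sg (Real.tan (k * x)) t
    have hq := ssp_Q_bound hD (Real.tan (k * x) ^ 2) (t / (sg * (1 + Real.tan (k * x) ^ 2)))
      (by positivity)
    obtain ⟨e1, e2⟩ := ssp_E_bounds hD hsg (Real.tan (k * x) ^ 2)
      (t / (sg * (1 + Real.tan (k * x) ^ 2))) (by positivity)
    exact ssp_fft_le hk1 (le_trans hT0.le n1) hD m1 hq n4 e1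
  · intro x hx t
    rw [hdt x t, hdx x hx t]
    obtain ⟨n1, n2, n3, n4⟩ := ssp_N_facts hT0 t
    obtain ⟨m1, m2⟩ := ssp_M_bounds hD sg (Real.tan (k * x)) t
    have hq := ssp_Q_bound hD (Real.tan (k * x) ^ 2) (t / (sg * (1 + Real.tan (k * x) ^ 2)))
      (by positivity)
    have key := ssp_alt (ξ := Real.tan (k * x)) hP hb hk hsg hT0 n1 n2 hD m1 m2 hq n4 hs2 hDs hT2 hT4
    rw [n3] at key
    unfold ssV sspTh
    exact key
  · intro x hx t
    rw [hdx x hx t]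
    obtain ⟨n1, n2, n3, n4⟩ := ssp_N_facts hT0 t
    obtain ⟨m1, m2⟩ := ssp_M_bounds hD sg (Real.tan (k * x)) t
    have hq := ssp_Q_bound hD (Real.tan (k * x) ^ 2) (t / (sg * (1 + Real.tan (k * x) ^ 2)))
      (by positivity)
    have key := ssp_fx_le (ξ := Real.tan (k * x)) hε hb hk hT0 n1 hD m1 m2 hq hT2 hT3 hT4
    rw [n3] at key
    unfold ssV sspTh
    exact key
  · intro R L
    have e : k * (Real.pi / (2 * k)) = Real.pi / 2 := by field_simp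
    have hL : 0 < max L 1 := lt_of_lt_of_le one_pos (le_max_right _ _)
    have ha0 : 0 < Real.arctan (max L 1) := Real.arctan_pos.2 hL
    have ha1 := Real.arctan_lt_pi_div_two (max L 1)
    refine ⟨Real.arctan (max L 1) / k, by positivity, ?_, ?_⟩
    · rw [div_lt_iff₀ hk, mul_comm, e]
      exact ha1
    · intro x hx t _
      have hx1 : Real.arctan (max L 1) ≤ k * x := by
        have := hx.1
        rw [div_le_iff₀ hk] at this
        linarith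
      have hx2 : k * x < Real.pi / 2 := by
        have := mul_lt_mul_of_pos_left hx.2 hk
        rwa [e] at this
      have htan : max L 1 ≤ Real.tan (k * x) := by
        have h1 : Real.tan (Real.arctan (max L 1)) ≤ Real.tan (k * x) := by
          apply Real.strictMonoOn_tan.monotoneOn _ _ hx1
          · exact ⟨Real.neg_pi_div_two_lt_arctan _, ha1⟩
          · exact ⟨by linarith, hx2⟩
        rwa [Real.tan_arctan] at h1
      obtain ⟨n1, n2, n3, n4⟩ := ssp_N_facts hT0 t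
      obtain ⟨m1, m2⟩ := ssp_M_bounds hD sg (Real.tan (k * x)) t
      have hξ : 0 < Real.tan (k * x) := lt_of_lt_of_le hL htan
      have h2 : 0 ≤ Real.tan (k * x) ^ 2 * sspM D sg (Real.tan (k * x)) t :=
        mul_nonneg (by positivity) (le_trans hD m1)
      show L ≤ sspTh T D sg (Real.tan (k * x)) t
      unfold sspTh
      have h3 : (1 : ℝ) ≤ Real.sqrt (t ^ 2 + T ^ 2) + Real.tan (k * x) ^ 2 *
          sspM D sg (Real.tan (k * x)) t := by linarith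
      calc L ≤ Real.tan (k * x) := le_trans (le_max_left _ _) htan
        _ = Real.tan (k * x) * 1 := by ring
        _ ≤ _ := by gcongr

end Claimed.Agent.R315
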