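import Claimed.Agent.R315.Ss.Graph
import Claimed.Agent.R315.Ss.Bal
import Claimed.Agent.R315.Ss.Cut
import Claimed.Agent.R315.Ss.Press
import Claimed.Agent.R315.Ss.LocN
import Claimed.Agent.R315.Ss.LocOut
import Claimed.Agent.R315.Ss.Slope
import Claimed.Agent.R315.Rm.Glob

/-!
# Row 315, paper S: package SS-LOC-BALM (#8521) `ss_bal_M`

Constants: `W = 10^5`, `(S0,T,F)` from `ss_pressure 1000 20 (ssEps n) (ssB0 δ)`, `a = dd/4`, switch `sg`, cutoffs `ψ, η1, ζ` (`ss_cutoffs`), `Ω = {r_A < 1.1 W}`, `Z = {r_A > 0.8 W}`, `u = u_ρ` (`ss_graph`),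
   `h' = ssHc = h + ζ κ(σ) du²`,   `t' = ssTc = t - ζ β(σ)`,   `K = {r_A ≤ 0.98 W}`.
Three regions: `{r_A < 0.82W}` (`ζ = 1`: `ss_bal_M`), the compact annulus `{0.81W ≤ r_A ≤ 0.99W}` (`ss_ann`, `ss_ann_num`; only `C²`-closeness to `(h,t)` is used there), `{r_A > 0.98W}` (nothing changes).

## SS-LOC-BALM `ss_bal_M` (~400 lines): `ssb_forall`-type reduction to a parametrisation `(φ,U)` with `φ '' U ⊆ O` (`if_param_restrict`), then `ss_bal` with `G0 = cm h0 φ`, `G = cm h φ`, and the functions `· ∘ φ`.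
 Dictionary: `ssb_dsc`, `ssb_hu`, `ssb_tu`, `ssb_div`, `if_gradSq_eq`, `if_trM_eq`.  `rm_DscC` only depends on germs: `cm (ssHu ..) φ = ssHuC (cm h φ) ..` on the open set `U`.
 `hdich`: if `∃ a ∈ A, rdist a x ≤ 0.55 W` then `η1 x = 1`; otherwise `∀ a, 0.55W < rdist a x`; for `x'` in a neighbourhood of `x` in `M`: `rdist x x' < 0.06 W` (`ssn_rdist_continuousOn`, `ssn_rdist_self`), so `rdist a x' ≥ 0.49W` (`ssn_rdist_triangle`), `ψ x' = 0`.
-/

set_option autoImplicit false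
open scoped ContDiff Topology
open Claims.C0499

namespace Claimed.Agent.R315

variable {n N : ℕ}

/-- S (5.26) on an open piece of the manifold. -/
theorem ss_bal_M (hn : 4 ≤ n) (δ dd a ρ S0 S1 T W : ℝ) (hδ0 : 0 < δ) (hδ1 : δ < 1 / 10)
    (hd : 0 < dd) (ha0 : 0 < a) (ha1 : a ≤ 1 / 2)
    (hch : (2 * (200 * ssB0 δ) + 3) * a ^ 2 ≤ dd / 4) (hρ0 : 0 < ρ) (hρ1 : ρ ≤ 1 / 2)
    {sg : ℝ → ℝ} (hsg : IsSwitch sg) {F : ℝ → ℝ → ℝ}
    (hF : IsPressure 1000 20 (ssEps n) (ssB0 δ) S0 T F) (hS1 : S1 < S0) (hW : 0 < W)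
    {M : Set (E N)} {h0 h : Ten (E N)} {t u ψ η1 ζ : E N → ℝ} {A : Set (E N)}
    (hM : Carrier n M) (hh0 : IsMetricOn n M h0) (hh : IsMetricOn n M h) (hle : MetLE n M h0 h)
    (ht : SmoothAlong n M t) (hu : SmoothAlong n M u) (hA : A ⊆ M)
    (hcut : SsCut n M h0 A W ψ η1 ζ) {O : Set (E N)} (hO : IsOpen O)
    (heq : SsEq n M h t ψ η1 sg a F ρ 1 u (M ∩ O))
    (hht : ∀ x ∈ M ∩ O, |u x - ψ x| ≤ S1 * ssEta ρ η1 x) :
    ∀ x ∈ M ∩ O, Dsc n M h t x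
        + max (ssV T (ssTu n M h t (ssBeta sg a) u x) - ssV T (t x)) 0
        - δ * (trM n M h h0 x - trM n M (ssHu n M h (ssKap sg a) u) h0 x)
            * ssV T (ssTu n M h t (ssBeta sg a) u x)
        - dd / 2 * ssV T (ssTu n M h t (ssBeta sg a) u x)
      ≤ Dsc n M (ssHu n M h (ssKap sg a) u) (ssTu n M h t (ssBeta sg a) u) x := by
  have h1s : SmoothAlong n M (fun _ : E N => (1 : ℝ)) := fun _ _ _ => contDiffOn_const
  have eH : ssHc n M h (fun _ => 1) (ssKap sg a) u = ssHu n M h (ssKap sg a) u := by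
    funext x
    simp [ssHc, ssHu]
  have eT : ssTc n M h t (fun _ => 1) (ssBeta sg a) u = ssTu n M h t (ssBeta sg a) u := by
    funext x
    simp [ssTc, ssTu]
  have m1 : IsMetricOn n M (ssHu n M h (ssKap sg a) u) := by
    rw [← eH]
    exact (ss_out_met (ζ := fun _ => 1) hM.mfd hh hu h1s (fun _ _ => zero_le_one)
      (ss_kap_smooth hsg ha0 ha1) (fun σ hσ => (ss_kap_nonneg hsg ha0 ha1 hσ).1)).1
  have m3 : SmoothAlong n M (ssTu n M h t (ssBeta sg a) u) := by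
    rw [← eT]
    exact ss_out_smooth (ζ := fun _ => 1) hM.mfd hh ht hu h1s (ss_beta_smooth hsg ha0 ha1)
  rintro x ⟨hxM, hxO⟩
  obtain ⟨φ, U0, hφ0, y0, hy0, rfl⟩ := hM.mfd x hxM
  have hUo : IsOpen (U0 ∩ φ ⁻¹' O) := (if_continuousOn hφ0).isOpen_inter_preimage (if_open hφ0) hO
  have hφ : IsParam M φ (U0 ∩ φ ⁻¹' O) := if_mono hφ0 hUo Set.inter_subset_left
  set U := U0 ∩ φ ⁻¹' O with hU
  have hyU : y0 ∈ U := ⟨hy0, hxO⟩
  have hmem : ∀ y ∈ U, φ y ∈ M := fun y hy => if_mem hφ hy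
  have hη0 : ∀ y ∈ U, 0 < ρ + (1 - ρ) * η1 (φ y) ^ 2 := fun y _ => by
    have : 0 ≤ (1 - ρ) * η1 (φ y) ^ 2 := mul_nonneg (by linarith) (sq_nonneg _)
    linarith
  have key := ss_bal n hn δ dd a ρ S0 T hδ0 hδ1 hd ha0 ha1 hch hρ0 hρ1 hsg hF
    (G0 := cm h0 φ) (G := cm h φ) (U := U) (ssb_met hh0 hφ) (ssb_met hh hφ)
    (fun y hy => ssb_metLE hle hφ hy) (t := t ∘ φ) (u := u ∘ φ) (ψ := ψ ∘ φ) (η1 := η1 ∘ φ)
    (ht φ U hφ) (hu φ U hφ) (hcut.ψ_s φ U hφ) (hcut.η_s φ U hφ)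
    (fun y hy => hcut.η_mem _ (hmem y hy))
    (fun y hy => by
      rw [← if_gradSq_eq hh0 hcut.ψ_s hφ hy]
      exact hcut.ψ_grad _ (hmem y hy))
    (fun y hy => by
      rw [← if_gradSq_eq hh0 hcut.η_s hφ hy]
      exact hcut.η_grad _ (hmem y hy))
    (fun y hy => by
      by_cases hex : ∃ a' ∈ A, rdist M h0 a' (φ y) ≤ 0.55 * W
      · exact Or.inl (hcut.η_one _ (hmem y hy) hex)
      · right
        push Not at hex
        have hc : ContinuousOn (fun y' => rdist M h0 (φ y) (φ y')) U :=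
          (ssn_rdist_continuousOn hM hh0).comp
            (continuousOn_const.prodMk (if_continuousOn hφ))
            fun y' hy' => ⟨hmem y hy, hmem y' hy'⟩
        have hca := hc.continuousAt (hUo.mem_nhds hy)
        have hlt : ∀ᶠ y' in 𝓝 y, rdist M h0 (φ y) (φ y') < 0.06 * W := by
          refine hca.eventually_lt continuousAt_const ?_
          rw [ssn_rdist_self (hmem y hy)]
          positivity
        filter_upwards [hlt, hUo.mem_nhds hy] with y' h1 h2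
        refine hcut.ψ_zero _ (hmem y' h2) fun a' ha' => ?_
        have h3 := ssn_rdist_triangle hM hh0 (hA ha') (hmem y' h2) (hmem y hy)
        rw [ssn_rdist_comm (φ y') (φ y)] at h3
        have h4 := hex a' ha'
        linarith)
    (fun y hy => by
      refine lt_of_le_of_lt (hht _ ⟨hmem y hy, hy.2⟩) ?_
      exact mul_lt_mul_of_pos_right hS1 (hη0 y hy))
    (fun y hy => by
      have := heq _ ⟨hmem y hy, hy.2⟩
      rw [ssb_div hh ht hu _ hφ hy, if_gradSq_eq hh hu hφ hy, one_mul] at this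
      exact this)
    y0 hyU
  have e1 : cm (ssHu n M h (ssKap sg a) u) φ =ᶠ[𝓝 y0] ssHuC (cm h φ) (ssKap sg a) (u ∘ φ) := by
    filter_upwards [hUo.mem_nhds hyU] with z hz
    exact ssb_hu hh hu _ hφ hz
  have e2 : ssTu n M h t (ssBeta sg a) u ∘ φ
      =ᶠ[𝓝 y0] ssTuC (cm h φ) (t ∘ φ) (ssBeta sg a) (u ∘ φ) := by
    filter_upwards [hUo.mem_nhds hyU] with z hz
    exact ssb_tu hh hu _ hφ hz
  have e3 : trC (cm (ssHu n M h (ssKap sg a) u) φ) (cm h0 φ) y0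
      = trC (ssHuC (cm h φ) (ssKap sg a) (u ∘ φ)) (cm h0 φ) y0 := by
    unfold trC
    rw [ssb_hu hh hu _ hφ hyU]
  rw [ssb_dsc hh ht hφ hyU, ssb_dsc m1 m3 hφ hyU, rm_Dsc_congr_met e1, rm_Dsc_congr e2,
    ssb_tu hh hu _ hφ hyU, if_trM_eq hh h0 hφ hyU, if_trM_eq m1 h0 hφ hyU, e3]
  exact key

end Claimed.Agent.R315
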