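import Claimed.Agent.R315.Ss.Cmp
import Claimed.Agent.R315.Pack005
import Claimed.Agent.R315.Pack006

/-!
# Row 315, paper S: package SS-PERT-B (#8516) `ss_upd_met`, `ss_comp_sigma`, `ss_pert_jet`

Used on the cutoff annulus: `u = u_ρ → 0` in `C³`, so `G' = G + ζ κ(σ) du²`, `t' = t - ζ β(σ)` are `C²`-close to `G, t`, hence `rm_DscC G' t'` is close to `rm_DscC G t`.
Everything is POINTWISE in `y ∈ C` (`C` compact): only the 3-jet of `u` at `y` is involved.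

## SS-PERT-B `ss_pert_jet`  (~500 lines)
Write `N_k(f) = ‖iteratedFDeriv ℝ k f y‖`.  Mathlib: `norm_iteratedFDeriv_mul_le` (Leibniz), `norm_iteratedFDeriv_comp_le` (Faa di Bruno bound).  `|pdiff f k y| ≤ N_1 f`, `|rm_p2 f k l y| ≤ N_2 f`  (`‖eb i‖ = 1`;
`pdiff f i y = fderiv ℝ f y (eb i)`; `rm_p2 f i j y = iteratedFDeriv ℝ 2 f y ![eb i, eb j]`), `N_k(pdiff u i) ≤ N_{k+1}(u)`.
On the compact `C` all `N_k` (`k ≤ 2`) of `ζ`, `(G⁻¹)_ij` are bounded by some `B ≥ 1` (continuity of `iteratedFDeriv` on `U`).  If `N_k(u) ≤ ε' ≤ 1` (`k ≤ 3`):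
 `σ = ∑ G^{ij} u_i u_j`: `N_k(σ) ≤ c(d) B ε'²` (`k ≤ 2`), in particular `|σ y| ≤ 1/2` if `ε'` is small; `κ, β` have bounded derivatives of order `≤ 2` on `[-1/2,1/2]`: `N_k(κ∘σ) ≤ B'`, and
 `N_0(β∘σ) = |β(σ) - β(0)| ≤ B'|σ|`, `N_k(β∘σ) ≤ c B' (N_1σ + N_2σ + (N_1σ)²)` for `k = 1,2` (direct chain rule is easier than Faa di Bruno here).
 Products: every entry of `c • du²` is `ζ · κ(σ) · u_i · u_j`, `N_k ≤ c B B' ε'²`.   `gradSqC G (ζu) ≤ d² B (N_1(ζu))²`.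
-/

set_option autoImplicit false
open scoped ContDiff
open Claims.C0499

namespace Claimed.Agent.R315

variable {d : ℕ}

/-! ### pointwise jet calculus -/

section jets

variable {X : Type} [NormedAddCommGroup X] [NormedSpace ℝ X]

/-- `f` is smooth on `U` and its derivatives of order `≤ n` at `y` are bounded by `B`. -/
def sspbJ (U : Set X) (y : X) (n : ℕ) (f : X → ℝ) (B : ℝ) : Prop :=
  ContDiffOn ℝ ∞ f U ∧ ∀ k ≤ n, ‖iteratedFDeriv ℝ k f y‖ ≤ B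

variable {U : Set X} {y : X} {n : ℕ} {f g : X → ℝ} {A B : ℝ}

theorem sspbJ.mono (h : sspbJ U y n f A) (hAB : A ≤ B) : sspbJ U y n f B :=
  ⟨h.1, fun k hk => (h.2 k hk).trans hAB⟩

theorem sspbJ.of_le {m : ℕ} (h : sspbJ U y n f A) (hm : m ≤ n) : sspbJ U y m f A :=
  ⟨h.1, fun k hk => h.2 k (hk.trans hm)⟩

theorem sspbJ.nonneg (h : sspbJ U y n f A) : 0 ≤ A := (norm_nonneg _).trans (h.2 0 (Nat.zero_le _))

theorem sspbJ.val (h : sspbJ U y n f A) : |f y| ≤ A := by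
  have := h.2 0 (Nat.zero_le _)
  rwa [norm_iteratedFDeriv_zero, Real.norm_eq_abs] at this

theorem sspbJ.mul (hU : IsOpen U) (hy : y ∈ U) (hf : sspbJ U y n f A) (hg : sspbJ U y n g B) :
    sspbJ U y n (fun z => f z * g z) (2 ^ n * A * B) := by
  refine ⟨hf.1.mul hg.1, fun k hk => ?_⟩
  have hA := hf.nonneg
  have hB := hg.nonneg
  have h1 := norm_iteratedFDerivWithin_mul_le hf.1 hg.1 hU.uniqueDiffOn hy (n := k) (by exact_mod_cast le_top)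
  simp only [iteratedFDerivWithin_of_isOpen _ hU hy] at h1
  refine h1.trans ?_
  calc ∑ i ∈ Finset.range (k + 1), (k.choose i : ℝ) * ‖iteratedFDeriv ℝ i f y‖ * ‖iteratedFDeriv ℝ (k - i) g y‖
      ≤ ∑ i ∈ Finset.range (k + 1), (k.choose i : ℝ) * A * B := by
        refine Finset.sum_le_sum fun i hi => ?_
        have hi' : i ≤ k := Nat.lt_succ_iff.1 (Finset.mem_range.1 hi)
        have h2 := hf.2 i (hi'.trans hk)
        have h3 := hg.2 (k - i) ((Nat.sub_le _ _).trans hk)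
        gcongr
    _ = 2 ^ k * A * B := by
        rw [← Finset.sum_mul, ← Finset.sum_mul]
        congr 2
        exact_mod_cast Nat.sum_range_choose k
    _ ≤ 2 ^ n * A * B := by
        have : (2 : ℝ) ^ k ≤ 2 ^ n := pow_le_pow_right₀ (by norm_num) hk
        gcongr

theorem sspbJ.sum (hU : IsOpen U) (hy : y ∈ U) {ι : Type} (s : Finset ι) {F : ι → X → ℝ} {b : ι → ℝ}
    (h : ∀ i ∈ s, sspbJ U y n (F i) (b i)) : sspbJ U y n (fun z => ∑ i ∈ s, F i z) (∑ i ∈ s, b i) := by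
  refine ⟨ContDiffOn.sum fun i hi => (h i hi).1, fun k hk => ?_⟩
  rw [iteratedFDeriv_fun_sum_apply fun i hi => (((h i hi).1.contDiffAt (hU.mem_nhds hy)).of_le
    (by exact_mod_cast le_top))]
  exact (norm_sum_le _ _).trans (Finset.sum_le_sum fun i hi => (h i hi).2 k hk)

/-- composition with a function of one variable; `D` controls the derivatives of order `≥ 1` of the inner function. -/
theorem sspbJ.comp (hU : IsOpen U) (hy : y ∈ U) {T : Set ℝ} (hT : IsOpen T) {h : ℝ → ℝ} {C D : ℝ}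
    (hf : ContDiffOn ℝ ∞ f U) (hmap : Set.MapsTo f U T) (hh : sspbJ T (f y) n h C)
    (hD : ∀ i, 1 ≤ i → i ≤ n → ‖iteratedFDeriv ℝ i f y‖ ≤ D ^ i) (k : ℕ) (hk : k ≤ n) :
    ‖iteratedFDeriv ℝ k (fun z => h (f z)) y‖ ≤ k.factorial * C * D ^ k := by
  have h1 := norm_iteratedFDerivWithin_comp_le (n := k) (C := C) (D := D) hh.1 hf (by exact_mod_cast le_top)
    hT.uniqueDiffOn hU.uniqueDiffOn hmap hy
    (fun i hi => by
      rw [iteratedFDerivWithin_of_isOpen _ hT (hmap hy)]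
      exact hh.2 i (hi.trans hk))
    (fun i hi1 hi2 => by
      rw [iteratedFDerivWithin_of_isOpen _ hU hy]
      exact hD i hi1 (hi2.trans hk))
  rw [iteratedFDerivWithin_of_isOpen _ hU hy] at h1
  exact h1

/-- uniform jet bounds on compact sets. -/
theorem sspb_exists_bound (hU : IsOpen U) (hf : ContDiffOn ℝ ∞ f U) {K : Set X} (hK : IsCompact K) (hKU : K ⊆ U)
    (n : ℕ) : ∃ B : ℝ, ∀ z ∈ K, sspbJ U z n f B := by
  induction n with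
  | zero =>
    have hc : ContinuousOn (fun z => iteratedFDeriv ℝ 0 f z) K := fun z hz =>
      ((hf.contDiffAt (hU.mem_nhds (hKU hz))).continuousAt_iteratedFDeriv
        (by exact_mod_cast le_top)).continuousWithinAt
    obtain ⟨B, hB⟩ := hK.exists_bound_of_continuousOn hc
    refine ⟨B, fun z hz => ⟨hf, fun k hk => ?_⟩⟩
    obtain rfl : k = 0 := by omega
    exact hB z hz
  | succ n ih =>
    obtain ⟨B0, hB0⟩ := ih
    have hc : ContinuousOn (fun z => iteratedFDeriv ℝ (n + 1) f z) K := fun z hz =>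
      ((hf.contDiffAt (hU.mem_nhds (hKU hz))).continuousAt_iteratedFDeriv
        (by exact_mod_cast le_top)).continuousWithinAt
    obtain ⟨B, hB⟩ := hK.exists_bound_of_continuousOn hc
    refine ⟨max B0 B, fun z hz => ⟨hf, fun k hk => ?_⟩⟩
    rcases Nat.lt_or_ge k (n + 1) with h1 | h1
    · exact ((hB0 z hz).2 k (by omega)).trans (le_max_left _ _)
    · obtain rfl : k = n + 1 := by omega
      exact (hB z hz).trans (le_max_right _ _)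

end jets

theorem sspb_norm_eb (i : Fin d) : ‖(EuclideanSpace.single i (1 : ℝ) : E d)‖ = 1 := by
  simp

theorem sspbJ.pder {U : Set (E d)} {y : E d} {n : ℕ} {f : E d → ℝ} {A : ℝ} (hU : IsOpen U) (hy : y ∈ U)
    (h : sspbJ U y (n + 1) f A) (i : Fin d) : sspbJ U y n (fun z => pdiff f i z) A := by
  refine ⟨rm_pdiff_smooth hU h.1 i, fun k hk => ?_⟩
  have h1 : ContDiffAt ℝ ∞ (fderiv ℝ f) y :=
    (h.1.fderiv_of_isOpen hU (by simp)).contDiffAt (hU.mem_nhds hy)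
  have h2 := (ContinuousLinearMap.apply ℝ ℝ (EuclideanSpace.single i (1 : ℝ) : E d)).norm_iteratedFDeriv_comp_left
    (n := k) h1 (by exact_mod_cast le_top)
  have h3 : ‖ContinuousLinearMap.apply ℝ ℝ (EuclideanSpace.single i (1 : ℝ) : E d)‖ ≤ 1 := by
    refine ContinuousLinearMap.opNorm_le_bound _ zero_le_one fun L => ?_
    have := L.le_opNorm (EuclideanSpace.single i (1 : ℝ) : E d)
    rw [sspb_norm_eb, mul_one] at this
    simpa using this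
  have h4 : (fun z => pdiff f i z)
      = (ContinuousLinearMap.apply ℝ ℝ (EuclideanSpace.single i (1 : ℝ) : E d)) ∘ fderiv ℝ f := by
    funext z
    rfl
  rw [h4]
  refine h2.trans ?_
  rw [norm_iteratedFDeriv_fderiv]
  calc _ ≤ 1 * ‖iteratedFDeriv ℝ (k + 1) f y‖ := by gcongr
    _ ≤ A := by rw [one_mul]; exact h.2 (k + 1) (by omega)

theorem sspbJ.pd {U : Set (E d)} {y : E d} {n : ℕ} {f : E d → ℝ} {A : ℝ} (hU : IsOpen U) (hy : y ∈ U)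
    (h : sspbJ U y (n + 1) f A) (i : Fin d) : |pdiff f i y| ≤ A :=
  (h.pder hU hy i).val

theorem sspbJ.p2 {U : Set (E d)} {y : E d} {n : ℕ} {f : E d → ℝ} {A : ℝ} (hU : IsOpen U) (hy : y ∈ U)
    (h : sspbJ U y (n + 2) f A) (i j : Fin d) : |rm_p2 f i j y| ≤ A :=
  ((h.pder hU hy j).pder hU hy i).val

theorem sspb_sigma_smooth {G : rm_MF d} {U : Set (E d)} (hG : rm_Met G U) {u : E d → ℝ}
    (hu : ContDiffOn ℝ ∞ u U) : ContDiffOn ℝ ∞ (fun z => gradSqC G u z) U :=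
  if_gradSqC_contDiffOn hG.opn hG.smooth (rm_det_ne hG) hu

theorem sspb_sigma_maps {G : rm_MF d} {U : Set (E d)} (hG : rm_Met G U) (u : E d → ℝ) :
    Set.MapsTo (fun z => gradSqC G u z) U (Set.Ioi (-1)) := by
  intro z hz
  have := rm_sq_nonneg hG hz u
  show (-1 : ℝ) < gradSqC G u z
  linarith

/-- `G + c du²` is a metric for `c ≥ 0`. -/
theorem ss_upd_met {G : rm_MF d} {U : Set (E d)} (hG : rm_Met G U) {u c : E d → ℝ}
    (hu : ContDiffOn ℝ ∞ u U) (hc : ContDiffOn ℝ ∞ c U) (hc0 : ∀ y ∈ U, 0 ≤ c y) :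
    rm_Met (fun z => G z + c z • ssDuDu u z) U := by
  refine ⟨hG.opn, fun i j => ?_, fun y hy => ?_⟩
  · have e : (fun z => (G z + c z • ssDuDu u z) i j) = fun z => G z i j + c z * (pdiff u i z * pdiff u j z) := by
      funext z
      simp [ssDuDu]
    rw [e]
    exact (hG.smooth i j).add (hc.mul ((rm_pdiff_smooth hG.opn hu i).mul (rm_pdiff_smooth hG.opn hu j)))
  · refine (hG.pos y hy).add_posSemidef ?_
    have e : ssDuDu u y = Matrix.vecMulVec (fun i => pdiff u i y) (star fun i => pdiff u i y) := by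
      ext i j
      simp [ssDuDu, Matrix.vecMulVec_apply]
    rw [e]
    exact (Matrix.posSemidef_vecMulVec_self_star _).smul (hc0 y hy)

/-- smoothness of `f(σ)` for `f` smooth on `(-1,∞)`. -/
theorem ss_comp_sigma {G : rm_MF d} {U : Set (E d)} (hG : rm_Met G U) {u : E d → ℝ}
    (hu : ContDiffOn ℝ ∞ u U) {f : ℝ → ℝ} (hf : ContDiffOn ℝ ∞ f (Set.Ioi (-1))) :
    ContDiffOn ℝ ∞ (fun z => f (gradSqC G u z)) U :=
  hf.comp (sspb_sigma_smooth hG hu) (sspb_sigma_maps hG u)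

theorem sspb_fact_le {k : ℕ} (hk : k ≤ 2) : (k.factorial : ℝ) ≤ 2 := by
  interval_cases k <;> norm_num [Nat.factorial]

/-- the jet of `σ = |du|²_G`. -/
theorem sspb_sigma_jet {G : rm_MF d} {U : Set (E d)} (hG : rm_Met G U) {y : E d} (hy : y ∈ U) {B : ℝ}
    (hB : ∀ i j, sspbJ U y 2 (fun w => (G w)⁻¹ i j) B) {u : E d → ℝ} {e : ℝ} (hu : sspbJ U y 3 u e) :
    sspbJ U y 2 (fun z => gradSqC G u z) ((d : ℝ) ^ 2 * 16 * B * e ^ 2) := by
  have hU := hG.opn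
  have h1 : sspbJ U y 2 (fun z => ∑ i : Fin d, ∑ j : Fin d, (G z)⁻¹ i j * pdiff u i z * pdiff u j z)
      (∑ _i : Fin d, ∑ _j : Fin d, 2 ^ 2 * (2 ^ 2 * B * e) * e) :=
    sspbJ.sum hU hy _ fun i _ => sspbJ.sum hU hy _ fun j _ =>
      ((hB i j).mul hU hy (hu.pder hU hy i)).mul hU hy (hu.pder hU hy j)
  have e1 : (∑ _i : Fin d, ∑ _j : Fin d, 2 ^ 2 * (2 ^ 2 * B * e) * e) = (d : ℝ) ^ 2 * 16 * B * e ^ 2 := by
    simp only [Finset.sum_const, Finset.card_univ, Fintype.card_fin, nsmul_eq_mul]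
    ring
  rw [e1] at h1
  exact h1

/-- jet of `κ(σ)`. -/
theorem sspb_kap_jet {G : rm_MF d} {U : Set (E d)} (hG : rm_Met G U) {kap : ℝ → ℝ}
    (hk : ContDiffOn ℝ ∞ kap (Set.Ioi (-1))) {y : E d} (hy : y ∈ U) {B δ : ℝ} {u : E d → ℝ}
    (hu : ContDiffOn ℝ ∞ u U) (hJσ : sspbJ U y 2 (fun z => gradSqC G u z) δ) (hδ1 : δ ≤ 1)
    (hBk : sspbJ (Set.Ioi (-1)) (gradSqC G u y) 2 kap B) :
    sspbJ U y 2 (fun z => kap (gradSqC G u z)) (2 * B) := by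
  have hB0 := hBk.nonneg
  refine ⟨ss_comp_sigma hG hu hk, fun k hk2 => ?_⟩
  have h1 := sspbJ.comp (D := 1) hG.opn hy isOpen_Ioi (sspb_sigma_smooth hG hu) (sspb_sigma_maps hG u)
    hBk (fun i _ hi => by rw [one_pow]; exact (hJσ.2 i hi).trans hδ1) k hk2
  rw [one_pow, mul_one] at h1
  refine h1.trans ?_
  have := sspb_fact_le hk2
  gcongr

/-- jet of `β(σ)`. -/
theorem sspb_bet_jet {G : rm_MF d} {U : Set (E d)} (hG : rm_Met G U) {bet : ℝ → ℝ}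
    (hb : ContDiffOn ℝ ∞ bet (Set.Ioi (-1))) {y : E d} (hy : y ∈ U) {B δ η D : ℝ} {u : E d → ℝ}
    (hu : ContDiffOn ℝ ∞ u U) (hJσ : sspbJ U y 2 (fun z => gradSqC G u z) δ) (hD0 : 0 < D) (hD1 : D ≤ 1)
    (hδD : δ ≤ D ^ 2) (hBb : sspbJ (Set.Ioi (-1)) (gradSqC G u y) 2 bet B)
    (hη : |bet (gradSqC G u y)| ≤ η) :
    sspbJ U y 2 (fun z => bet (gradSqC G u z)) (max η (2 * B * D)) := by
  have hB0 := hBb.nonneg
  refine ⟨ss_comp_sigma hG hu hb, fun k hk2 => ?_⟩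
  rcases Nat.eq_zero_or_pos k with rfl | hkpos
  · rw [norm_iteratedFDeriv_zero, Real.norm_eq_abs]
    exact hη.trans (le_max_left _ _)
  · refine le_trans ?_ (le_max_right _ _)
    have h1 := sspbJ.comp (D := D) hG.opn hy isOpen_Ioi (sspb_sigma_smooth hG hu) (sspb_sigma_maps hG u)
      hBb (fun i hi1 hi => by
        refine ((hJσ.2 i hi).trans hδD).trans ?_
        exact pow_le_pow_of_le_one hD0.le hD1 hi) k hk2
    refine h1.trans ?_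
    have h2 := sspb_fact_le hk2
    have h3 : D ^ k ≤ D := by
      calc D ^ k ≤ D ^ 1 := pow_le_pow_of_le_one hD0.le hD1 hkpos
        _ = D := pow_one D
    gcongr

/-- the estimate for `|d(ζu)|²`. -/
theorem sspb_last {G : rm_MF d} {U : Set (E d)} (hG : rm_Met G U) {ζ : E d → ℝ} {y : E d} (hy : y ∈ U)
    {B e : ℝ} (hJζ : sspbJ U y 2 ζ B) (hJG : ∀ i j, sspbJ U y 2 (fun w => (G w)⁻¹ i j) B) {u : E d → ℝ}
    (hJu : sspbJ U y 3 u e) : gradSqC G (fun z => ζ z * u z) y ≤ (d : ℝ) ^ 2 * 16 * B ^ 3 * e ^ 2 := by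
  have hU := hG.opn
  have hB0 := hJζ.nonneg
  have he0 := hJu.nonneg
  have hJζu : sspbJ U y 2 (fun z => ζ z * u z) (2 ^ 2 * B * e) := hJζ.mul hU hy (hJu.of_le (by norm_num))
  have hq : ∀ i, |pdiff (fun z => ζ z * u z) i y| ≤ 2 ^ 2 * B * e := fun i => hJζu.pd hU hy i
  have hterm : ∀ i j, (G y)⁻¹ i j * pdiff (fun z => ζ z * u z) i y * pdiff (fun z => ζ z * u z) j y
      ≤ B * (2 ^ 2 * B * e) * (2 ^ 2 * B * e) := by
    intro i j
    refine (le_abs_self _).trans ?_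
    rw [abs_mul, abs_mul]
    have h1 : |(G y)⁻¹ i j| ≤ B := (hJG i j).val
    have h2 := hq i
    have h3 := hq j
    gcongr
  unfold gradSqC
  calc ∑ i : Fin d, ∑ j : Fin d, (G y)⁻¹ i j * pdiff (fun z => ζ z * u z) i y * pdiff (fun z => ζ z * u z) j y
      ≤ ∑ _i : Fin d, ∑ _j : Fin d, B * (2 ^ 2 * B * e) * (2 ^ 2 * B * e) :=
        Finset.sum_le_sum fun i _ => Finset.sum_le_sum fun j _ => hterm i j
    _ = (d : ℝ) ^ 2 * 16 * B ^ 3 * e ^ 2 := by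
        simp only [Finset.sum_const, Finset.card_univ, Fintype.card_fin, nsmul_eq_mul]
        ring

/-- the estimates with explicit constants. -/
theorem sspb_core {G : rm_MF d} {U : Set (E d)} (hG : rm_Met G U) {ζ : E d → ℝ} {kap bet : ℝ → ℝ}
    (hk : ContDiffOn ℝ ∞ kap (Set.Ioi (-1))) (hb : ContDiffOn ℝ ∞ bet (Set.Ioi (-1))) {y : E d} (hy : y ∈ U)
    {B e η D ε1 : ℝ} (hJζ : sspbJ U y 2 ζ B) (hJG : ∀ i j, sspbJ U y 2 (fun w => (G w)⁻¹ i j) B)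
    (hBk : ∀ s ∈ Set.Icc (0 : ℝ) 1, sspbJ (Set.Ioi (-1)) s 2 kap B)
    (hBb : ∀ s ∈ Set.Icc (0 : ℝ) 1, sspbJ (Set.Ioi (-1)) s 2 bet B)
    (hD0 : 0 < D) (hD1 : D ≤ 1)
    (hβ : ∀ s, 0 ≤ s → s ≤ (d : ℝ) ^ 2 * 16 * B * e ^ 2 → |bet s| ≤ η)
    (h1 : (d : ℝ) ^ 2 * 16 * B * e ^ 2 ≤ 1) (h2 : (d : ℝ) ^ 2 * 16 * B * e ^ 2 ≤ D ^ 2)
    (h3 : 128 * B ^ 2 * e ^ 2 ≤ ε1) (h4 : 4 * B * η ≤ ε1) (h5 : 8 * B ^ 2 * D ≤ ε1)
    (h6 : (d : ℝ) ^ 2 * 16 * B ^ 3 * e ^ 2 ≤ ε1) {u : E d → ℝ} (hJu : sspbJ U y 3 u e) :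
    (∀ i j, |((ζ y * kap (gradSqC G u y)) • ssDuDu u y) i j| ≤ ε1) ∧
      (∀ i j k, |pdiff (fun z => ((ζ z * kap (gradSqC G u z)) • ssDuDu u z) i j) k y| ≤ ε1) ∧
      (∀ i j k l, |rm_p2 (fun z => ((ζ z * kap (gradSqC G u z)) • ssDuDu u z) i j) k l y| ≤ ε1) ∧
      |ζ y * bet (gradSqC G u y)| ≤ ε1 ∧
      (∀ k, |pdiff (fun z => ζ z * bet (gradSqC G u z)) k y| ≤ ε1) ∧
      (∀ k l, |rm_p2 (fun z => ζ z * bet (gradSqC G u z)) k l y| ≤ ε1) ∧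
      gradSqC G (fun z => ζ z * u z) y ≤ ε1 := by
  have hU := hG.opn
  have hu := hJu.1
  have hJσ := sspb_sigma_jet hG hy hJG hJu
  have hσ0 : 0 ≤ gradSqC G u y := rm_sq_nonneg hG hy u
  have hσδ : gradSqC G u y ≤ (d : ℝ) ^ 2 * 16 * B * e ^ 2 := (le_abs_self _).trans hJσ.val
  have hσI : gradSqC G u y ∈ Set.Icc (0 : ℝ) 1 := ⟨hσ0, hσδ.trans h1⟩
  have hJk := sspb_kap_jet hG hk hy hu hJσ h1 (hBk _ hσI)
  have hJb := sspb_bet_jet hG hb hy hu hJσ hD0 hD1 h2 (hBb _ hσI) (hβ _ hσ0 hσδ)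
  have hent : ∀ i j, sspbJ U y 2 (fun z => ((ζ z * kap (gradSqC G u z)) • ssDuDu u z) i j) ε1 := by
    intro i j
    have e1 : (fun z => ((ζ z * kap (gradSqC G u z)) • ssDuDu u z) i j)
        = fun z => (ζ z * kap (gradSqC G u z)) * (pdiff u i z * pdiff u j z) := by
      funext z
      simp [ssDuDu]
    rw [e1]
    refine ((hJζ.mul hU hy hJk).mul hU hy ((hJu.pder hU hy i).mul hU hy (hJu.pder hU hy j))).mono ?_
    have h7 : 2 ^ 2 * (2 ^ 2 * B * (2 * B)) * (2 ^ 2 * e * e) = 128 * B ^ 2 * e ^ 2 := by ring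
    rw [h7]
    exact h3
  have hbe : sspbJ U y 2 (fun z => ζ z * bet (gradSqC G u z)) ε1 := by
    refine (hJζ.mul hU hy hJb).mono ?_
    rcases max_cases η (2 * B * D) with ⟨h7, _⟩ | ⟨h7, _⟩
    · rw [h7]
      calc 2 ^ 2 * B * η = 4 * B * η := by ring
        _ ≤ ε1 := h4
    · rw [h7]
      calc 2 ^ 2 * B * (2 * B * D) = 8 * B ^ 2 * D := by ring
        _ ≤ ε1 := h5
  exact ⟨fun i j => (hent i j).val, fun i j k => (hent i j).pd hU hy k, fun i j k l => (hent i j).p2 hU hy k l,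
    hbe.val, fun k => hbe.pd hU hy k, fun k l => hbe.p2 hU hy k l, (sspb_last hG hy hJζ hJG hJu).trans h6⟩

/-- one constant for all the data. -/
theorem sspb_consts {G : rm_MF d} {U : Set (E d)} (hG : rm_Met G U) {ζ : E d → ℝ}
    (hζ : ContDiffOn ℝ ∞ ζ U) {kap bet : ℝ → ℝ} (hk : ContDiffOn ℝ ∞ kap (Set.Ioi (-1)))
    (hb : ContDiffOn ℝ ∞ bet (Set.Ioi (-1))) (C : Set (E d)) (hC : IsCompact C) (hCU : C ⊆ U) :
    ∃ B : ℝ, 1 ≤ B ∧ (∀ y ∈ C, sspbJ U y 2 ζ B) ∧ (∀ y ∈ C, ∀ i j, sspbJ U y 2 (fun w => (G w)⁻¹ i j) B) ∧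
      (∀ s ∈ Set.Icc (0 : ℝ) 1, sspbJ (Set.Ioi (-1)) s 2 kap B) ∧
      (∀ s ∈ Set.Icc (0 : ℝ) 1, sspbJ (Set.Ioi (-1)) s 2 bet B) := by
  have hU := hG.opn
  have hT : IsOpen (Set.Ioi (-1 : ℝ)) := isOpen_Ioi
  have hIcc : Set.Icc (0 : ℝ) 1 ⊆ Set.Ioi (-1) := fun s hs => by
    show (-1 : ℝ) < s
    linarith [hs.1]
  obtain ⟨Bζ, hBζ⟩ := sspb_exists_bound hU hζ hC hCU 2
  have hGi : ∀ i j, ∃ B, ∀ z ∈ C, sspbJ U z 2 (fun w => (G w)⁻¹ i j) B :=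
    fun i j => sspb_exists_bound hU (rm_inv_smooth hG i j) hC hCU 2
  choose BG hBG using hGi
  obtain ⟨Bk, hBk⟩ := sspb_exists_bound hT hk (isCompact_Icc (a := (0 : ℝ)) (b := 1)) hIcc 2
  obtain ⟨Bb, hBb⟩ := sspb_exists_bound hT hb (isCompact_Icc (a := (0 : ℝ)) (b := 1)) hIcc 2
  have hsum0 : 0 ≤ ∑ i, ∑ j, |BG i j| := Finset.sum_nonneg fun i _ => Finset.sum_nonneg fun j _ => abs_nonneg _
  have a1 := abs_nonneg Bζ
  have a2 := abs_nonneg Bk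
  have a3 := abs_nonneg Bb
  have b1 := le_abs_self Bζ
  have b2 := le_abs_self Bk
  have b3 := le_abs_self Bb
  refine ⟨1 + |Bζ| + (∑ i, ∑ j, |BG i j|) + |Bk| + |Bb|, by linarith, fun y hy => (hBζ y hy).mono (by linarith),
    fun y hy i j => (hBG i j y hy).mono ?_, fun s hs => (hBk s hs).mono (by linarith),
    fun s hs => (hBb s hs).mono (by linarith)⟩
  have h1 : |BG i j| ≤ ∑ j', |BG i j'| :=
    Finset.single_le_sum (f := fun j' => |BG i j'|) (fun j' _ => abs_nonneg _) (Finset.mem_univ j)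
  have h2 : ∑ j', |BG i j'| ≤ ∑ i', ∑ j', |BG i' j'| :=
    Finset.single_le_sum (f := fun i' => ∑ j', |BG i' j'|)
      (fun i' _ => Finset.sum_nonneg fun j' _ => abs_nonneg _) (Finset.mem_univ i)
  have := le_abs_self (BG i j)
  linarith

/-- the 2-jets of the increments are small if the 3-jet of `u` is small. -/
theorem ss_pert_jet {G : rm_MF d} {U : Set (E d)} (hG : rm_Met G U) {ζ : E d → ℝ}
    (hζ : ContDiffOn ℝ ∞ ζ U) {kap bet : ℝ → ℝ} (hk : ContDiffOn ℝ ∞ kap (Set.Ioi (-1)))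
    (hb : ContDiffOn ℝ ∞ bet (Set.Ioi (-1))) (hb0 : bet 0 = 0)
    (C : Set (E d)) (hC : IsCompact C) (hCU : C ⊆ U) (ε1 : ℝ) (hε : 0 < ε1) :
    ∃ ε' : ℝ, 0 < ε' ∧ ∀ u : E d → ℝ, ContDiffOn ℝ ∞ u U → ∀ y ∈ C,
      (∀ k ≤ 3, ‖iteratedFDeriv ℝ k u y‖ ≤ ε') →
      (∀ i j, |((ζ y * kap (gradSqC G u y)) • ssDuDu u y) i j| ≤ ε1) ∧
      (∀ i j k, |pdiff (fun z => ((ζ z * kap (gradSqC G u z)) • ssDuDu u z) i j) k y| ≤ ε1) ∧
      (∀ i j k l, |rm_p2 (fun z => ((ζ z * kap (gradSqC G u z)) • ssDuDu u z) i j) k l y| ≤ ε1) ∧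
      |ζ y * bet (gradSqC G u y)| ≤ ε1 ∧
      (∀ k, |pdiff (fun z => ζ z * bet (gradSqC G u z)) k y| ≤ ε1) ∧
      (∀ k l, |rm_p2 (fun z => ζ z * bet (gradSqC G u z)) k l y| ≤ ε1) ∧
      gradSqC G (fun z => ζ z * u z) y ≤ ε1 := by
  obtain ⟨B, hB1, hBζ, hBG, hBk, hBb⟩ := sspb_consts hG hζ hk hb C hC hCU
  have hB0 : 0 < B := by linarith
  have hη0 : 0 < ε1 / (4 * B) := by positivity
  have hD0 : 0 < min 1 (ε1 / (8 * B ^ 2)) := lt_min one_pos (by positivity)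
  have hD1 : min 1 (ε1 / (8 * B ^ 2)) ≤ 1 := min_le_left _ _
  have hD2 : 8 * B ^ 2 * min 1 (ε1 / (8 * B ^ 2)) ≤ ε1 := by
    have h1 : min 1 (ε1 / (8 * B ^ 2)) ≤ ε1 / (8 * B ^ 2) := min_le_right _ _
    rw [le_div_iff₀ (by positivity)] at h1
    linarith
  generalize min 1 (ε1 / (8 * B ^ 2)) = D at hD0 hD1 hD2
  have hbc : ContinuousAt bet 0 :=
    (hb.continuousOn).continuousAt (isOpen_Ioi.mem_nhds (by show (-1 : ℝ) < 0; norm_num))
  obtain ⟨δ0, hδ0, hδb⟩ := Metric.continuousAt_iff.1 hbc _ hη0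
  obtain ⟨mm, hmm0, hm1, hm2, hm3, hm4⟩ : ∃ mm : ℝ, 0 < mm ∧ mm ≤ 1 ∧ mm ≤ δ0 / 2 ∧ mm ≤ D ^ 2 ∧ mm ≤ ε1 :=
    ⟨min (min 1 (δ0 / 2)) (min (D ^ 2) ε1), lt_min (lt_min one_pos (by positivity)) (lt_min (by positivity) hε),
      (min_le_left _ _).trans (min_le_left _ _), (min_le_left _ _).trans (min_le_right _ _),
      (min_le_right _ _).trans (min_le_left _ _), (min_le_right _ _).trans (min_le_right _ _)⟩
  have hKt0 : 0 < (d : ℝ) ^ 2 * 16 * B + 128 * B ^ 2 + (d : ℝ) ^ 2 * 16 * B ^ 3 := by positivity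
  obtain ⟨e, he0, he1, hKe'⟩ : ∃ e : ℝ, 0 < e ∧ e ≤ 1 ∧
      e * ((d : ℝ) ^ 2 * 16 * B + 128 * B ^ 2 + (d : ℝ) ^ 2 * 16 * B ^ 3) ≤ mm := by
    refine ⟨min 1 (mm / ((d : ℝ) ^ 2 * 16 * B + 128 * B ^ 2 + (d : ℝ) ^ 2 * 16 * B ^ 3)),
      lt_min one_pos (by positivity), min_le_left _ _, ?_⟩
    rw [← le_div_iff₀ hKt0]
    exact min_le_right _ _
  have h2 : e ^ 2 ≤ e := by rw [pow_two]; exact mul_le_of_le_one_left he0.le he1
  have hKe : (d : ℝ) ^ 2 * 16 * B * e ^ 2 + 128 * B ^ 2 * e ^ 2 + (d : ℝ) ^ 2 * 16 * B ^ 3 * e ^ 2 ≤ mm := by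
    calc (d : ℝ) ^ 2 * 16 * B * e ^ 2 + 128 * B ^ 2 * e ^ 2 + (d : ℝ) ^ 2 * 16 * B ^ 3 * e ^ 2
        = e ^ 2 * ((d : ℝ) ^ 2 * 16 * B + 128 * B ^ 2 + (d : ℝ) ^ 2 * 16 * B ^ 3) := by ring
      _ ≤ e * ((d : ℝ) ^ 2 * 16 * B + 128 * B ^ 2 + (d : ℝ) ^ 2 * 16 * B ^ 3) := by gcongr
      _ ≤ mm := hKe'
  have ht1 : 0 ≤ (d : ℝ) ^ 2 * 16 * B * e ^ 2 := by positivity
  have ht2 : 0 ≤ 128 * B ^ 2 * e ^ 2 := by positivity
  have ht3 : 0 ≤ (d : ℝ) ^ 2 * 16 * B ^ 3 * e ^ 2 := by positivity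
  refine ⟨e, he0, fun u hu y hyC hjet => ?_⟩
  refine sspb_core (η := ε1 / (4 * B)) (D := D) hG hk hb (hCU hyC) (hBζ y hyC) (hBG y hyC) hBk hBb hD0 hD1 ?_
    (by linarith) (by linarith) (by linarith) ?_ hD2 (by linarith) ⟨hu, hjet⟩
  · intro s hs0 hs
    have h1 : dist s 0 < δ0 := by
      rw [Real.dist_eq, sub_zero, abs_of_nonneg hs0]
      linarith
    have h3 := hδb h1
    rw [hb0, Real.dist_eq, sub_zero] at h3
    exact h3.le
  · have : 4 * B * (ε1 / (4 * B)) = ε1 := by field_simp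
    rw [this]

end Claimed.Agent.R315
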