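import Claimed.Agent.R315.Ss.PertA
import Claimed.Agent.R315.Ss.PertB

/-!
# Row 315, paper S: Section 5.4, continuity of the drift scalar curvature in the `C²` data, chart level (glue `ss_pert` PROVED; packages in `PertA`, `PertB`)

Used on the cutoff annulus: `u = u_ρ → 0` in `C³`, so `G' = G + ζ κ(σ) du²`, `t' = t - ζ β(σ)` are `C²`-close to `G, t`, hence `rm_DscC G' t'` is close to `rm_DscC G t`.
Everything is POINTWISE in `y ∈ C` (`C` compact): only the 3-jet of `u` at `y` is involved.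
-/

set_option autoImplicit false
open scoped ContDiff
open Claims.C0499

namespace Claimed.Agent.R315

variable {d : ℕ}

/-- S Section 5.4: the cut data are close to the original data. -/
theorem ss_pert {G : rm_MF d} {U : Set (E d)} (hG : rm_Met G U) {t ζ : E d → ℝ}
    (ht : ContDiffOn ℝ ∞ t U) (hζ : ContDiffOn ℝ ∞ ζ U) (hζ0 : ∀ y ∈ U, 0 ≤ ζ y)
    {kap bet : ℝ → ℝ} (hk : ContDiffOn ℝ ∞ kap (Set.Ioi (-1))) (hk0 : ∀ σ, 0 ≤ σ → 0 ≤ kap σ)
    (hb : ContDiffOn ℝ ∞ bet (Set.Ioi (-1))) (hb0 : bet 0 = 0)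
    (C : Set (E d)) (hC : IsCompact C) (hCU : C ⊆ U) (ε : ℝ) (hε : 0 < ε) :
    ∃ ε' : ℝ, 0 < ε' ∧ ∀ u : E d → ℝ, ContDiffOn ℝ ∞ u U → ∀ y ∈ C,
      (∀ k ≤ 3, ‖iteratedFDeriv ℝ k u y‖ ≤ ε') →
      |rm_DscC (fun z => G z + (ζ z * kap (gradSqC G u z)) • ssDuDu u z)
          (fun z => t z - ζ z * bet (gradSqC G u z)) y - rm_DscC G t y| ≤ ε ∧
      |ζ y * bet (gradSqC G u y)| ≤ ε ∧ gradSqC G (fun z => ζ z * u z) y ≤ ε := by
  obtain ⟨ε1, hε1, H1⟩ := ss_pert_dsc hG ht C hC hCU ε hε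
  obtain ⟨ε', hε', H2⟩ := ss_pert_jet hG hζ hk hb hb0 C hC hCU (min ε1 ε) (lt_min hε1 hε)
  refine ⟨ε', hε', fun u hu y hy hj => ?_⟩
  obtain ⟨a1, a2, a3, a4, a5, a6, a7⟩ := H2 u hu y hy hj
  have hσ0 : ∀ z ∈ U, 0 ≤ gradSqC G u z := fun z hz => rm_sq_nonneg hG hz u
  have hc : ContDiffOn ℝ ∞ (fun z => ζ z * kap (gradSqC G u z)) U :=
    hζ.mul (ss_comp_sigma hG hu hk)
  have hbs : ContDiffOn ℝ ∞ (fun z => ζ z * bet (gradSqC G u z)) U :=
    hζ.mul (ss_comp_sigma hG hu hb)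
  have hmet := ss_upd_met hG hu hc (fun z hz => mul_nonneg (hζ0 z hz) (hk0 _ (hσ0 z hz)))
  have hD : ∀ i j, ContDiffOn ℝ ∞
      (fun z => ((ζ z * kap (gradSqC G u z)) • ssDuDu u z) i j) U := by
    intro i j
    have := (hmet.smooth i j).sub (hG.smooth i j)
    refine this.congr fun z _ => ?_
    simp
  refine ⟨H1 _ _ hmet hD hbs y hy (fun i j => (a1 i j).trans (min_le_left _ _))
    (fun i j k => (a2 i j k).trans (min_le_left _ _))
    (fun i j k l => (a3 i j k l).trans (min_le_left _ _))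
    (fun k => (a5 k).trans (min_le_left _ _)) (fun k l => (a6 k l).trans (min_le_left _ _)),
    a4.trans (min_le_right _ _), a7.trans (min_le_right _ _)⟩

end Claimed.Agent.R315
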