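import Claimed.Agent.R315.Ss.Graph
import Claimed.Agent.R315.Ss.Bal
import Claimed.Agent.R315.Ss.Pert
import Claimed.Agent.R315.Ss.Len
import Claimed.Agent.R315.Ss.Cut
import Claimed.Agent.R315.Ss.Press
import Claimed.Agent.R315.Ss.LocN
import Claimed.Agent.R315.Ss.LocOut
import Claimed.Agent.R315.Ss.LocBalM
import Claimed.Agent.R315.Ss.LocAnn

/-!
# Row 315, paper S: Lemma 5.1 (local stretching), assembly: UMBRELLA of `LocN`, `LocOut`, `LocBalM`, `LocAnn` + `ss_ann_num` (PROVED); the glue `ss_local_pf` is proved in `LocPf.lean`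

Constants: `W = 10^5`, `(S0,T,F)` from `ss_pressure 1000 20 (ssEps n) (ssB0 δ)`, `a = dd/4`, switch `sg`, cutoffs `ψ, η1, ζ` (`ss_cutoffs`), `Ω = {r_A < 1.1 W}`, `Z = {r_A > 0.8 W}`, `u = u_ρ` (`ss_graph`),
   `h' = ssHc = h + ζ κ(σ) du²`,   `t' = ssTc = t - ζ β(σ)`,   `K = {r_A ≤ 0.98 W}`.
Three regions: `{r_A < 0.82W}` (`ζ = 1`: `ss_bal_M`), the compact annulus `{0.81W ≤ r_A ≤ 0.99W}` (`ss_ann`, `ss_ann_num`; only `C²`-closeness to `(h,t)` is used there), `{r_A > 0.98W}` (nothing changes).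
-/

set_option autoImplicit false
open scoped ContDiff
open Claims.C0499

namespace Claimed.Agent.R315

variable {n N : ℕ}

/-- the numerical step on the annulus. -/
theorem ss_ann_num (D D' t t' T dd c : ℝ) (hT : 10 ≤ T) (hd0 : 0 < dd) (hd1 : dd < 1 / 10)
    (hD : |D' - D| ≤ dd / 3) (ht : |t' - t| ≤ dd / 3) (hc : 0 ≤ c) :
    D + max (ssV T t' - ssV T t) 0 - c * ssV T t' - dd * ssV T t' ≤ D' := by
  have hV : 100 + t' ^ 2 ≤ ssV T t' := by unfold ssV; nlinarith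
  have h1 := abs_le.1 hD
  have h2 := abs_le.1 ht
  have h3 : ssV T t' - ssV T t ≤ 2 * dd / 3 * ssV T t' - dd / 3 := by
    have e : ssV T t' - ssV T t = (t' - t) * (2 * t' - (t' - t)) := by unfold ssV; ring
    rw [e]
    nlinarith [sq_nonneg (t' - 1), sq_nonneg (t' + 1), sq_nonneg (t' - t), abs_nonneg (t' - t),
      mul_nonneg hd0.le (sq_nonneg (t' - 1)), mul_nonneg hd0.le (sq_nonneg (t' + 1)),
      mul_le_mul_of_nonneg_left h2.2 (sq_nonneg (t' - 1)), abs_mul_abs_self (t' - t),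
      mul_nonneg (sub_nonneg.2 h2.2) (sq_nonneg (t' + 1)),
      mul_nonneg (sub_nonneg.2 (neg_le.1 (by linarith [h2.1] : -(dd / 3) ≤ (t' - t)))) (sq_nonneg (t' - 1))]
  have h4 : max (ssV T t' - ssV T t) 0 ≤ 2 * dd / 3 * ssV T t' - dd / 3 := by
    refine max_le h3 ?_
    nlinarith
  have h5 : 0 ≤ c * ssV T t' := mul_nonneg hc (by nlinarith [sq_nonneg t'])
  nlinarith

end Claimed.Agent.R315
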