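import Claimed.Agent.R315.Ss.ResPtB

/-!
# Row 315, paper S, package SS-RESPT, part C: critical points, `ss_res_pt` (prefix `ssrp_`)
Owner: helper39.
-/

set_option autoImplicit false
open scoped ContDiff Topology
open Claims.C0499

namespace Claimed.Agent.R315

variable {n : ℕ} {G : rm_MF n} {U : Set (E n)} {w u : E n → ℝ} {y : E n}

theorem ssrp_lap_zero (hp : ∀ᶠ z in 𝓝 y, ∀ i, pdiff u i z = 0) : lapC G u y = 0 := by
  unfold lapC
  have : ∀ i, pdiff (fun w => Real.sqrt (G w).det * ∑ j, (G w)⁻¹ i j * pdiff u j w) i y = 0 := by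
    intro i
    rw [rm_pdiff_congr (g := fun _ => (0 : ℝ)) ?_, rm_pdiff_const]
    filter_upwards [hp] with z hz
    simp [hz]
  simp [this]

theorem ssrp_ip_zero (hp : ∀ i, pdiff u i y = 0) (f : E n → ℝ) : gradIpC G f u y = 0 := by
  unfold gradIpC
  simp [hp]

/-- the flat case: `du = 0` near `y`. -/
theorem ssrp_flat (hG : rm_Met G U) (hy : y ∈ U) (h0 : ∀ᶠ z in 𝓝 y, gradSqC G u z = 0)
    (hpde : ∀ y ∈ U, ssDivC G w ssG0 u y = 10 * (u y - w y)) :
    rm_DscC G w y = scalarCoord G y ∧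
      rm_DscC (ssHuC G (fun _ => 1) u)
        (fun z => w z + Real.log (1 + gradSqC G u z) / 2 - u z) y = scalarCoord G y ∧
      w y = u y := by
  have hp : ∀ᶠ z in 𝓝 y, ∀ i, pdiff u i z = 0 := by
    filter_upwards [h0, hG.opn.mem_nhds hy] with z hz hzU
    exact (rm_sq_eq_zero hG hzU u).1 hz
  have huw : ∀ᶠ z in 𝓝 y, w z = u z := by
    filter_upwards [hp.eventually_nhds, hG.opn.mem_nhds hy] with z hz hzU
    have h1 := hpde z hzU
    unfold ssDivC at h1
    rw [ssrp_lap_zero hz, ssrp_ip_zero hz.self_of_nhds, ssrp_ip_zero hz.self_of_nhds] at h1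
    linarith
  refine ⟨?_, ?_, huw.self_of_nhds⟩
  · rw [rm_Dsc_congr huw]
    unfold rm_DscC
    rw [ssrp_lap_zero hp, h0.self_of_nhds]; ring
  · have hGe : ssHuC G (fun _ => 1) u =ᶠ[𝓝 y] G := by
      filter_upwards [hp] with z hz
      ext i j
      simp [ssHuC, ssDuDu, hz]
    have hte : (fun z => w z + Real.log (1 + gradSqC G u z) / 2 - u z) =ᶠ[𝓝 y]
        fun _ => (0 : ℝ) := by
      filter_upwards [huw, h0] with z hz1 hz2
      rw [hz1, hz2]; simp
    rw [rm_Dsc_congr_met hGe, rm_Dsc_congr hte]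
    unfold rm_DscC
    rw [rm_lap_const, if_gradSqC_eq, rm_ip_const_left]; ring

/-- = `ss_res_pt`. -/
theorem ssrp_pt (hn : 2 ≤ n) (hG : rm_Met G U) (hw : ContDiffOn ℝ ∞ w U)
    (hu : ContDiffOn ℝ ∞ u U)
    (hpde : ∀ y ∈ U, ssDivC G w ssG0 u y = 10 * (u y - w y)) :
    ∀ y ∈ U, rm_DscC G w y + (w y + Real.log (1 + gradSqC G u y) / 2 - u y) ^ 2 - (100 * n + 203)
      ≤ rm_DscC (ssHuC G (fun _ => 1) u)
          (fun z => w z + Real.log (1 + gradSqC G u z) / 2 - u z) y := by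
  intro y hy
  have hσs := sscm_sq_smooth hG hu
  by_cases hfreq : ∃ᶠ z in 𝓝 y, 0 < gradSqC G u z
  · have hGp : rm_Met (ssHuC G (fun _ => 1) u) U :=
      ss_huC_met hG hu contDiffOn_const fun _ _ => zero_le_one
    have htp : ContDiffOn ℝ ∞ (fun z => w z + Real.log (1 + gradSqC G u z) / 2 - u z) U :=
      (hw.add (((contDiffOn_const.add hσs).log fun z hz =>
        (ssan_one_add_pos hG hz u).ne').div_const 2)).sub hu
    have hF : ContDiffOn ℝ ∞ (fun z => rm_DscC (ssHuC G (fun _ => 1) u)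
        (fun z => w z + Real.log (1 + gradSqC G u z) / 2 - u z) z -
        (rm_DscC G w z + (w z + Real.log (1 + gradSqC G u z) / 2 - u z) ^ 2 - (100 * n + 203))) U :=
      (rm_Dsc_smooth hGp htp).sub (((rm_Dsc_smooth hG hw).add (htp.pow 2)).sub contDiffOn_const)
    have hc := (hF.continuousOn.continuousAt (hG.opn.mem_nhds hy))
    rw [← sub_nonneg]
    by_contra hlt
    rw [not_le] at hlt
    have hev := hc.eventually (gt_mem_nhds hlt)
    obtain ⟨z, hz1, hz2, hz3⟩ := (hfreq.and_eventually (hev.and (hG.opn.mem_nhds hy))).exists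
    have hsub : rm_reg G u U ⊆ U := fun z hz => hz.1
    have hG' : rm_Met G (rm_reg G u U) :=
      ⟨rm_reg_open hG hu, fun i j => (hG.smooth i j).mono hsub, fun z hz => hG.pos z hz.1⟩
    have := ssrp_pos hn hG' (hw.mono hsub) (hu.mono hsub) (fun z hz => hz.2)
      (fun z hz => hpde z hz.1) (y := z) ⟨hz3, hz1⟩
    linarith
  · rw [Filter.not_frequently] at hfreq
    have h0 : ∀ᶠ z in 𝓝 y, gradSqC G u z = 0 := by
      filter_upwards [hfreq, hG.opn.mem_nhds hy] with z hz hzU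
      exact le_antisymm (not_lt.1 hz) (rm_sq_nonneg hG hzU u)
    obtain ⟨a, b, c⟩ := ssrp_flat hG hy h0 hpde
    rw [a, b, h0.self_of_nhds, c]
    have : (0 : ℝ) ≤ n := Nat.cast_nonneg n
    simp
    linarith

end Claimed.Agent.R315
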