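import Claimed.Agent.R315.Ss.Cmp
import Claimed.Agent.R315.Ss.ResPtC

/-!
# Row 315, paper S, Section 3.4: completion of the reserve estimate, chart level   (package SS-RESPT)

Black boxes: `ss_cmp`, `ss_div_eq`, `ss_graph_lap`, `ss_graph_sq`, `ss_huC_met` (`Ss/Cmp.lean`), calculus of `Rm/Ops.lean` (`rm_Dsc_add`).

`c = 10`, `fl₀ σ = (1+σ)^{-1/2}`, `th σ = σ/(1+σ)` (`IsTheta`: `σ th' = σ/(1+σ)² ≤ 2/(1+σ)`), `κ = 1`, `β = -½ log(1+σ)`, `l = (1+σ)^{-1/2}`, `k₁ = l s`, `p = 10(u-w)`.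
`G⁺ = G + du²`, `t_u = w + ½ log(1+σ)`, `t⁺ = t_u - u = -p/10 - β`.

`ss_res_alg` (real inequality).  `θ E = k₁² J2 + p² + k₁² K²/l² + 20 k₁ (s - H + M₁ + K)`, `k₁ M₁ = p`.  Three squares:
 `k₁² J2 - 20 k₁ H ≥ -100 (n-1)`;  `k₁²K²/l² + 2k₁(10 - θ/l)K ≥ -(10 l - θ)² ≥ -100`;  `p² + 2(10-l)p ≥ p²/2 - 2(10-l)² ≥ p²/2 - 200`;  `k₁² ≤ 1`.
 So `θE - 2(l p + k₁θK/l) - k₁² ≥ p²/2 + 20 k₁ s - (100 n + 201)`.  `(t⁺)² ≤ 2p²/100 + 2β²`, `β² ≤ s` (`½ log(1+s²) ≤ log(1+s) ≤ √s`);  `20 k₁ s ≥ 2s` for `s ≥ 1` (`k₁ ≥ 1/√2`), `2s ≤ 2` for `s < 1`.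

`ss_res_pt` at `y`:
CASE 1 `σ y > 0`: on `{σ>0}`: `ss_div_eq` + equation: `k₁ M₁ = p`, `M₁ = p/k₁`, `e M₁ = e(p)/k₁ + M₁ K = 10 (s - e w)/k₁ + M₁K`, `e w = H - M₁ - K`.
 `rm_DscC G⁺ (t_u - u) = rm_DscC G⁺ t_u - 2(Δ_{G⁺}u - ⟨dt_u,du⟩_{G⁺}) - |du|²_{G⁺}` (`rm_Dsc_add` or by hand);
 `Δ_{G⁺}u - ⟨dt_u,du⟩_{G⁺} = ssDivC G w (1/(1+σ)) u` (`ss_graph_lap`) `= l * ssDivC G w fl₀ u + k₁ e(l) = l p + k₁ θ K/l`
 (`1/(1+σ) = l * fl₀`; from the definition of `ssDivC`: `ssDivC G t (A*B) u = A(σ) ssDivC G t B u + B(σ) A'(σ) ⟨dσ,du⟩`; `e l = θK/l` from `l² = 1 - k₁²`, `K = -e log k₁`); `|du|²_{G⁺} = k₁²` (`ss_graph_sq`).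
 Then `ss_cmp` and `ss_res_alg` with `J2 := H²/(n-1)`.
CASE 2 `y ∈ closure {σ>0}`: continuity.   CASE 3 `σ = 0` near `y`: `u` is locally constant, `ssDivC = 0`, so `u = w` near `y`; `t⁺ = 0` near `y`, `G⁺ = G` near `y`, `w` locally constant: both `rm_DscC` equal `scalarCoord G y`.
-/

set_option autoImplicit false
open scoped ContDiff Topology
open Claims.C0499

namespace Claimed.Agent.R315

/-- the real inequality behind S (3.17)-(3.19). -/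
theorem ss_res_alg (n : ℕ) (hn : 2 ≤ n) (s H K J2 p θ l k1 M1 eM1 Eq : ℝ) (hs : 0 < s)
    (hJ : H ^ 2 / ((n : ℝ) - 1) ≤ J2) (hθ : θ = s ^ 2 / (1 + s ^ 2))
    (hl : l = 1 / Real.sqrt (1 + s ^ 2)) (hk : k1 = l * s) (hM1 : M1 = p / k1)
    (heM1 : eM1 = M1 * K + 10 * (s - (H - M1 - K)) / k1)
    (hE : Eq = J2 + M1 ^ 2 + K ^ 2 / (1 - θ) - 2 * M1 * K + 2 * eM1) :
    (-p / 10 + Real.log (1 + s ^ 2) / 2) ^ 2 - (100 * n + 203)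
      ≤ θ * Eq - 2 * (l * p + k1 * θ * K / l) - k1 ^ 2 :=
  ssrp_alg n hn s H K J2 p θ l k1 M1 eM1 Eq hs hJ hθ hl hk hM1 heM1 hE

/-- S Proposition 3.2, pointwise, in a chart. -/
theorem ss_res_pt (n : ℕ) (hn : 2 ≤ n) {G : rm_MF n} {U : Set (E n)} (hG : rm_Met G U)
    {w u : E n → ℝ} (hw : ContDiffOn ℝ ∞ w U) (hu : ContDiffOn ℝ ∞ u U)
    (hpde : ∀ y ∈ U, ssDivC G w (fun σ => 1 / Real.sqrt (1 + σ)) u y = 10 * (u y - w y)) :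
    ∀ y ∈ U, rm_DscC G w y + (w y + Real.log (1 + gradSqC G u y) / 2 - u y) ^ 2 - (100 * n + 203)
      ≤ rm_DscC (ssHuC G (fun _ => 1) u)
          (fun z => w z + Real.log (1 + gradSqC G u z) / 2 - u z) y :=
  ssrp_pt hn hG hw hu hpde

end Claimed.Agent.R315
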