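import Claimed.Agent.R315.Pack011
import Claimed.Agent.R315.Ss.ResPt
import Claimed.Agent.R315.Ss.LocOut
import Claimed.Agent.R315.Rm.Glob

/-!
# Row 315, paper S: package SS-RES (#8742) `ssb_DscC_congr`, `ss_reserve_of_gg`

Equation (S (3.7)):  `div_{h,w}(∇u/√(1+σ)) = 10 (u - w)`,  flux `ssG0 σ = 1/√(1+σ)`, `ω = ssG0 σ`, `Ĝ = G + du² = ssHuC G (fun _ => 1) u`.

## SS-RES `ss_reserve_pf` (~250 lines): `h' = ssHu n M h (fun _ => 1) u`, `t' = w + ½log(1+σ) - u`; `ss_out_met`, `ss_out_smooth` with `ζ = 1`; in charts `ssb_dsc`, `ssb_hu`, `if_gradSq_eq`, `ssb_DscC_congr`, `ss_res_pt`.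
-/

set_option autoImplicit false
open scoped ContDiff Topology
open Claims.C0499

namespace Claimed.Agent.R315

variable {V : Type} [NormedAddCommGroup V] [NormedSpace ℝ V]
variable {d : ℕ}

/-- `rm_DscC` only depends on germs. -/
theorem ssb_DscC_congr {G G' : rm_MF d} {t t' : E d → ℝ} {y : E d}
    (hG : G =ᶠ[𝓝 y] G') (ht : t =ᶠ[𝓝 y] t') : rm_DscC G t y = rm_DscC G' t' y :=
  (rm_Dsc_congr_met hG t).trans (rm_Dsc_congr ht)

/-- S Proposition 3.2 from the global graph. -/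
theorem ss_reserve_of_gg (n : ℕ) (hn : 4 ≤ n) {N : ℕ} (M : Set (E N)) (h : Ten (E N))
    (w u : E N → ℝ) (hM : Carrier n M) (hh : IsMetricOn n M h) (hw : SmoothAlong n M w)
    (hu : SmoothAlong n M u) (heq : ∀ x ∈ M, ssDiv n M h w ssG0 u x = 10 * (u x - w x)) :
    ∃ (h' : Ten (E N)) (t' : E N → ℝ), IsMetricOn n M h' ∧ MetLE n M h h' ∧ SmoothAlong n M t' ∧
      ∀ x ∈ M, Dsc n M h w x + t' x ^ 2 - (100 * n + 203) ≤ Dsc n M h' t' x := by
  have h1s : SmoothAlong n M (fun _ : E N => (1 : ℝ)) := fun _ _ _ => contDiffOn_const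
  obtain ⟨m1, m2⟩ := ss_out_met (ζ := fun _ => 1) (kap := fun _ => 1) hM.mfd hh hu h1s
    (fun _ _ => zero_le_one) contDiffOn_const (fun _ _ => zero_le_one)
  have hbet : ContDiffOn ℝ ∞ (fun σ : ℝ => -(Real.log (1 + σ) / 2)) (Set.Ioi (-1)) := by
    refine ((ContDiffOn.log (contDiffOn_const.add contDiffOn_id) fun σ hσ => ?_).div_const 2).neg
    have : (-1 : ℝ) < σ := hσ
    simp only [id]
    linarith
  have hwu : SmoothAlong n M (fun x => w x - u x) := fun φ W hφ => (hw φ W hφ).sub (hu φ W hφ)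
  have m3 := ss_out_smooth (ζ := fun _ => 1) hM.mfd hh hwu hu h1s hbet
  refine ⟨_, _, m1, m2, m3, ssb_forall hM.mfd fun ψ U hψ y hy => ?_⟩
  have hUo : IsOpen U := if_open hψ
  have e1 : cm (ssHc n M h (fun _ => 1) (fun _ => 1) u) ψ
      =ᶠ[𝓝 y] ssHuC (cm h ψ) (fun _ => 1) (u ∘ ψ) := by
    filter_upwards [hUo.mem_nhds hy] with z hz
    rw [← ssb_hu hh hu (fun _ => 1) hψ hz]
    have : ssHc n M h (fun _ => 1) (fun _ => 1) u = ssHu n M h (fun _ => 1) u := by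
      funext x
      simp [ssHc, ssHu]
    rw [this]
  have e2' : ∀ z ∈ U, ssTc n M h (fun x => w x - u x) (fun _ => 1)
      (fun σ : ℝ => -(Real.log (1 + σ) / 2)) u (ψ z)
      = (w ∘ ψ) z + Real.log (1 + gradSqC (cm h ψ) (u ∘ ψ) z) / 2 - (u ∘ ψ) z := by
    intro z hz
    unfold ssTc
    rw [if_gradSq_eq hh hu hψ hz]
    simp only [Function.comp]
    ring
  have e2 : ssTc n M h (fun x => w x - u x) (fun _ => 1)
      (fun σ : ℝ => -(Real.log (1 + σ) / 2)) u ∘ ψ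
      =ᶠ[𝓝 y] fun z => (w ∘ ψ) z + Real.log (1 + gradSqC (cm h ψ) (u ∘ ψ) z) / 2 - (u ∘ ψ) z := by
    filter_upwards [hUo.mem_nhds hy] with z hz
    exact e2' z hz
  rw [ssb_dsc hh hw hψ hy, ssb_dsc m1 m3 hψ hy, ssb_DscC_congr e1 e2, e2' y hy]
  refine ss_res_pt n (by omega) (ssb_met hh hψ) (hw ψ U hψ) (hu ψ U hψ) (fun z hz => ?_) y hy
  have := heq (ψ z) (if_mem hψ hz)
  rw [ssb_div hh hw hu ssG0 hψ hz] at this
  exact this

end Claimed.Agent.R315
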