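import Claimed.Agent.R315.Ss.Gg
import Claimed.Agent.R315.Ss.ResM
import Claimed.Agent.R315.Ss.Loc

/-!
# Row 315, paper S: Sections 3.1-3.2, 3.4, the global prescribed graph and the quadratic reserve: UMBRELLA of `ResDefs`, `GgCl`, `GgHt`, `Angle`, `GgGr`, `Gg`, `ResM`; `ss_reserve_pf` PROVED

Equation (S (3.7)):  `div_{h,w}(∇u/√(1+σ)) = 10 (u - w)`,  flux `ssG0 σ = 1/√(1+σ)`, `ω = ssG0 σ`, `Ĝ = G + du² = ssHuC G (fun _ => 1) u`.
-/

set_option autoImplicit false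
open scoped ContDiff Topology
open Claims.C0499

namespace Claimed.Agent.R315

variable {V : Type} [NormedAddCommGroup V] [NormedSpace ℝ V]
variable {d : ℕ}

theorem ss_reserve_pf (n : ℕ) (hn : 4 ≤ n) {N : ℕ} (M : Set (E N)) (h : Ten (E N))
    (w : E N → ℝ) (hM : Carrier n M) (hh : IsMetricOn n M h) (hp : IsProperOn M h)
    (hw : SmoothAlong n M w) :
    ∃ (h' : Ten (E N)) (t' : E N → ℝ), IsMetricOn n M h' ∧ MetLE n M h h' ∧ SmoothAlong n M t' ∧
      ∀ x ∈ M, Dsc n M h w x + t' x ^ 2 - (100 * n + 203) ≤ Dsc n M h' t' x := by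
  obtain ⟨u, hu, heq⟩ := ss_gg M h w (by omega) hM hh hp hw
  exact ss_reserve_of_gg n hn M h w u hM hh hw hu heq

end Claimed.Agent.R315
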