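import Claimed.Agent.R315.Ss.Round
import Claimed.Agent.R315.Ss.Asm
import Claimed.Agent.R315.Ss.LocPf
import Claimed.Agent.R315.Ss.Res

/-!
# Row 315, paper S: the level-2 chain  (sub-captain helper59)

`ss_stretch_pf` (= `ss_stretch` of `Top/N4.lean`) is PROVED here from

* `ss_local`    S Lemma 5.1   (PROVED in `Ss/LocPf.lean` from the statements of `Ss/Loc.lean`)
* `ss_round_pf` S Lemma 6.1   (package SS-ROUND, file `Ss/Round.lean`)
* `ss_reserve`  S Prop. 3.2   (`Ss/Res.lean`: `ss_gg` + `ss_reserve_of_gg`)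
* `ss_asm_pf`   S Section 6.2 (package SS-ASM, file `Ss/Asm.lean`)
-/

set_option autoImplicit false
open scoped ContDiff
open MeasureTheory Claims.C0499

namespace Claimed.Agent.R315

/-- S Lemma 5.1. -/
theorem ss_local (n : ℕ) (hn : 4 ≤ n) (δ : ℝ) (h0 : 0 < δ) (h1 : δ < 1 / 10) :
    ∃ W T : ℝ, 1 ≤ W ∧ 10 ≤ T ∧ SsLocal n δ W T :=
  ss_local_pf n hn δ h0 h1

/-- S Proposition 3.2 (quadratic reserve), `C(n) = 100 n + 203`. -/
theorem ss_reserve (n : ℕ) (hn : 4 ≤ n) {N : ℕ} (M : Set (E N)) (h : Ten (E N)) (w : E N → ℝ)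
    (hM : Carrier n M) (hh : IsMetricOn n M h) (hp : IsProperOn M h) (hw : SmoothAlong n M w) :
    ∃ (h' : Ten (E N)) (t' : E N → ℝ), IsMetricOn n M h' ∧ MetLE n M h h' ∧ SmoothAlong n M t' ∧
      ∀ x ∈ M, Dsc n M h w x + t' x ^ 2 - (100 * n + 203) ≤ Dsc n M h' t' x :=
  ss_reserve_pf n hn M h w hM hh hp hw

/-- `ss_stretch` of `Top/N4.lean`. -/
theorem ss_stretch_pf (n : ℕ) (hn : 4 ≤ n) :
    ∃ D : ℝ, 2 ≤ D ∧ ∀ (N : ℕ) (M : Set (E N)) (g : Ten (E N)) (w : E N → ℝ),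
      Drift n M g w (3 / 4) →
        (∀ y ∈ M, ∀ z ∈ M, rdist M g y z ≤ 4 * D) ∨ Nonempty (Stretched n M g D) := by
  have hn0 : (0 : ℝ) < (n : ℝ) + 1 := by positivity
  have hn4 : (4 : ℝ) ≤ (n : ℝ) := by exact_mod_cast hn
  set δ : ℝ := 1 / (300 * ((n : ℝ) + 1)) with hδ
  have hδ0 : 0 < δ := by positivity
  have hδm : ((n : ℝ) + 1) * δ = 1 / 300 := by
    rw [hδ]; field_simp
  have hδ1 : δ < 1 / 10 := by
    rw [hδ, div_lt_div_iff₀ (by positivity) (by norm_num)]; nlinarith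
  have hδ2 : δ < 1 / ((n : ℝ) + 1) := by
    rw [hδ, div_lt_div_iff₀ (by positivity) hn0]; nlinarith
  have hδ3 : 2 * ((n : ℝ) + 1) * δ < 1 - 1 / 1.004 ^ 2 := by
    have : 2 * ((n : ℝ) + 1) * δ = 2 * (((n : ℝ) + 1) * δ) := by ring
    rw [this, hδm]; norm_num
  obtain ⟨W, T, hW, hT, hL⟩ := ss_local n hn δ hδ0 hδ1
  have hR := ss_round_pf n hn δ W T hδ0 hδ2 hW hL
  set R0 : ℝ := 2 * (100 * (n : ℝ) + 203 + T ^ 2) with hR0
  have hc : (1 : ℝ) ≤ 100 * (n : ℝ) + 203 + T ^ 2 := by nlinarith [sq_nonneg T]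
  have hR01 : 1 < R0 := by rw [hR0]; linarith
  have hR02 : 100 * (n : ℝ) + 203 + T ^ 2 ≤ R0 ^ 2 / 4 := by
    rw [hR0]; nlinarith
  have hR03 : 2 ≤ R0 := by rw [hR0]; linarith
  refine ⟨W * R0, by nlinarith, ?_⟩
  intro N M g w hD
  exact ss_asm_pf n hn δ W T R0 hδ0 hδ3 hW hT hR
    (fun N M h w hM hh hp hw => ss_reserve n hn M h w hM hh hp hw) hR01 hR02 N M g w hD

end Claimed.Agent.R315
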