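import Claimed.Agent.R315.Pack006
import Claimed.Agent.R315.Rm.Glob

/-!
# Row 315, paper S, package SS-CMP, part B: change of lapse (prefix `sscm_`)

`G = v² dq² + γ_q`, `G' = (v/l)² dq² + γ_q`, `t' = t - log l`:
`D(G',t') - D(G,t)` by `rm_adm_Dsc` applied twice.  Owner: helper39.
-/

set_option autoImplicit false
open scoped ContDiff Topology
open Claims.C0499

namespace Claimed.Agent.R315

section tang

variable {d : ℕ} {γ : rm_MF d} {W : Set (E d)} {y : E d} {t v l : E d → ℝ}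

theorem sscm_sq_div (h : rm_Met γ W) (hy : y ∈ W) (hv : DifferentiableAt ℝ v y)
    (hl : DifferentiableAt ℝ l y) (hl0 : l y ≠ 0) :
    gradSqC γ (fun w => v w / l w) y =
      gradSqC γ v y / l y ^ 2 - 2 * v y * gradIpC γ v l y / l y ^ 3
        + v y ^ 2 * gradSqC γ l y / l y ^ 4 := by
  have hm : DifferentiableAt ℝ (fun w => (l w)⁻¹) y := hl.inv hl0
  have hφ : HasDerivAt (fun x : ℝ => x⁻¹) (-(l y ^ 2)⁻¹) (l y) := hasDerivAt_inv hl0
  have e : (fun w => v w / l w) = fun w => v w * (l w)⁻¹ := by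
    funext w; rw [div_eq_mul_inv]
  have c1 : ∀ X : E d → ℝ, gradIpC γ (fun w => (l w)⁻¹) X y = -(l y ^ 2)⁻¹ * gradIpC γ l X y := by
    intro X
    rw [rm_ip_comp_left (φ := fun x : ℝ => x⁻¹) hφ.differentiableAt hl, hφ.deriv]
  have c2 : ∀ X : E d → ℝ, gradIpC γ X (fun w => (l w)⁻¹) y = -(l y ^ 2)⁻¹ * gradIpC γ X l y := by
    intro X
    rw [rm_ip_comp_right (φ := fun x : ℝ => x⁻¹) hφ.differentiableAt hl, hφ.deriv]
  rw [e, if_gradSqC_eq, rm_ip_mul_left hv hm, rm_ip_mul_right hv hm, rm_ip_mul_right hv hm,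
    c1, c1, c2, c2, rm_ip_comm h hy l v, if_gradSqC_eq, if_gradSqC_eq]
  field_simp
  ring

/-- the tangential terms of the drift ADM formula under `v ↦ v/l`, `t ↦ t - log l`. -/
theorem sscm_tang (h : rm_Met γ W) (hy : y ∈ W) (ht : ContDiffOn ℝ ∞ t W)
    (hv : ContDiffOn ℝ ∞ v W) (hl : ContDiffOn ℝ ∞ l W) (hvp : ∀ w ∈ W, 0 < v w)
    (hlp : ∀ w ∈ W, 0 < l w) :
    (rm_DscC γ (fun w => t w - Real.log (l w)) y - 2 * lapC γ (fun w => v w / l w) y / (v y / l y)
        + 2 * gradIpC γ (fun w => v w / l w) (fun w => t w - Real.log (l w)) y / (v y / l y))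
      - (rm_DscC γ t y - 2 * lapC γ v y / v y + 2 * gradIpC γ v t y / v y)
      = 2 * gradIpC γ v l y / (v y * l y) - gradSqC γ l y / l y ^ 2 := by
  have hv0 := hvp y hy
  have hl0 := hlp y hy
  have ht' : ContDiffOn ℝ ∞ (fun w => t w - Real.log (l w)) W :=
    ht.sub (hl.log fun w hw => (hlp w hw).ne')
  have hw : ContDiffOn ℝ ∞ (fun w => v w / l w) W := hv.div hl fun w hw => (hlp w hw).ne'
  have A1 := rm_Dsc_log h hy ht hv hvp 1
  have A2 := rm_Dsc_log h hy ht' hw (fun w hw => div_pos (hvp w hw) (hlp w hw)) 1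
  have hc : (fun w => t w - Real.log (l w) - 1 * Real.log (v w / l w)) =ᶠ[𝓝 y]
      fun w => t w - 1 * Real.log (v w) := by
    filter_upwards [h.opn.mem_nhds hy] with w hw
    rw [Real.log_div (hvp w hw).ne' (hlp w hw).ne']
    ring
  rw [rm_Dsc_congr hc, A1] at A2
  unfold rm_dlapC at A2
  rw [sscm_sq_div h hy (rm_da h.opn hv hy) (rm_da h.opn hl hy) hl0.ne',
    rm_ip_comm h hy (fun w => t w - Real.log (l w)) (fun w => v w / l w),
    rm_ip_comm h hy t v] at A2
  generalize rm_DscC γ (fun w => t w - Real.log (l w)) y = D' at A2 ⊢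
  generalize lapC γ (fun w => v w / l w) y = L' at A2 ⊢
  generalize gradIpC γ (fun w => v w / l w) (fun w => t w - Real.log (l w)) y = I' at A2 ⊢
  generalize rm_DscC γ t y = D at A2 ⊢
  generalize lapC γ v y = L at A2 ⊢
  generalize gradIpC γ v t y = I at A2 ⊢
  generalize gradIpC γ v l y = I2 at A2 ⊢
  generalize gradSqC γ l y = Q at A2 ⊢
  generalize gradSqC γ v y = Q2 at A2 ⊢
  generalize v y = a at A2 hv0 ⊢
  generalize l y = b at A2 hl0 ⊢
  have e1 : D' - 2 * L' / (a / b) + 2 * I' / (a / b) =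
      D - 2 * 1 * (L - I) / a + (2 * 1 - 1 ^ 2) * Q2 / a ^ 2 -
        (2 * 1 - 1 ^ 2) * (Q2 / b ^ 2 - 2 * a * I2 / b ^ 3 + a ^ 2 * Q / b ^ 4) / (a / b) ^ 2 := by
    rw [A2]; ring
  rw [e1]
  field_simp
  ring

end tang

section lapse

variable {d : ℕ} {G G' : rm_MF (d + 1)} {U : Set (E (d + 1))} {u w : E (d + 1)}
  {t l : E (d + 1) → ℝ}

/-- `G' = (v/l)² dq² + γ_q` where `G = v² dq² + γ_q`. -/
structure sscm_Resc (G G' : rm_MF (d + 1)) (U : Set (E (d + 1))) (l : E (d + 1) → ℝ) : Prop where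
  met : rm_Met G U
  orth : rm_Orth G U
  met' : rm_Met G' U
  orth' : rm_Orth G' U
  tan : ∀ w ∈ U, rm_tan G' w = rm_tan G w
  lsm : ContDiffOn ℝ ∞ l U
  lpos : ∀ w ∈ U, 0 < l w
  lps : ∀ w ∈ U, rm_lps G' w = rm_lps G w / l w

theorem sscm_Resc.sl (h : sscm_Resc G G' U l) (hu : u ∈ U) :
    rm_sl G' (u 0) =ᶠ[𝓝 (rm_tl d u)] rm_sl G (u 0) :=
  Filter.eventuallyEq_of_mem ((rm_Us_open h.met.opn (u 0)).mem_nhds (rm_mem_Us hu))
    fun _ hy => h.tan _ hy

theorem sscm_Resc.sff (h : sscm_Resc G G' U l) (hw : w ∈ U) :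
    rm_sff G' w = l w • rm_sff G w := by
  have hv := rm_lps_pos h.met hw
  have hl := h.lpos w hw
  ext a b
  simp only [rm_sff, Matrix.of_apply, Matrix.smul_apply, smul_eq_mul]
  rw [h.lps w hw, rm_pdiff_congr_on (f := fun x => G' x a.succ b.succ)
    (g := fun x => G x a.succ b.succ) h.met.opn hw
    (fun x hx => congrFun (congrFun (h.tan x hx) a) b)]
  field_simp

theorem sscm_Resc.H (h : sscm_Resc G G' U l) (hw : w ∈ U) : rm_H G' w = l w * rm_H G w := by
  unfold rm_H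
  rw [h.tan w hw, h.sff hw, Matrix.mul_smul, Matrix.trace_smul, smul_eq_mul]

theorem sscm_Resc.Jsq (h : sscm_Resc G G' U l) (hw : w ∈ U) :
    rm_Jsq G' w = l w ^ 2 * rm_Jsq G w := by
  unfold rm_Jsq
  rw [h.tan w hw, h.sff hw, Matrix.mul_smul, Matrix.smul_mul, Matrix.mul_smul, Matrix.trace_smul,
    Matrix.trace_smul, smul_eq_mul, smul_eq_mul]
  ring

theorem sscm_Resc.e (h : sscm_Resc G G' U l) (hw : w ∈ U) (f : E (d + 1) → ℝ) :
    rm_e G' f w = l w * rm_e G f w := by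
  have hv := rm_lps_pos h.met hw
  have hl := h.lpos w hw
  unfold rm_e
  rw [h.lps w hw]
  field_simp

/-- **change of lapse.** -/
theorem sscm_Resc.Dsc (h : sscm_Resc G G' U l) (hu : u ∈ U) (ht : ContDiffOn ℝ ∞ t U) :
    rm_DscC G' (fun w => t w - Real.log (l w)) u - rm_DscC G t u =
      (1 - l u ^ 2) * rm_Jsq G u + rm_S G t u ^ 2
        - l u ^ 2 * (rm_S G t u + rm_e G (fun w => Real.log (l w)) u) ^ 2
        + 2 * rm_e G (rm_S G t) u
        - 2 * l u ^ 2 * rm_e G (fun w => Real.log (l w)) u *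
            (rm_S G t u + rm_e G (fun w => Real.log (l w)) u)
        - 2 * l u ^ 2 * (rm_e G (rm_S G t) u + rm_e G (rm_e G (fun w => Real.log (l w))) u)
        + 2 * rm_ipS G (rm_lps G) l u / (rm_lps G u * l u) - rm_ipS G l l u / l u ^ 2 := by
  have hv := rm_lps_pos h.met hu
  have hl := h.lpos u hu
  have hβ : ContDiffOn ℝ ∞ (fun w => Real.log (l w)) U := h.lsm.log fun w hw => (h.lpos w hw).ne'
  have ht' : ContDiffOn ℝ ∞ (fun w => t w - Real.log (l w)) U := ht.sub hβ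
  have hA : ContDiffOn ℝ ∞ (rm_S G t) U := (rm_H_smooth h.met).sub (rm_e_smooth h.met ht)
  have hb : ContDiffOn ℝ ∞ (rm_e G (fun w => Real.log (l w))) U := rm_e_smooth h.met hβ
  -- the new drift mean curvature
  have hS : ∀ w ∈ U, rm_S G' (fun w => t w - Real.log (l w)) w =
      l w * (rm_S G t w + rm_e G (fun w => Real.log (l w)) w) := by
    intro w hw
    unfold rm_S
    rw [h.H hw, h.e hw]
    have : rm_e G (fun w => t w - Real.log (l w)) w =
        rm_e G t w - rm_e G (fun w => Real.log (l w)) w := by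
      unfold rm_e
      rw [rm_pdiff_sub (rm_da h.met.opn ht hw) (rm_da h.met.opn hβ hw)]
      ring
    rw [this]; ring
  have hel : rm_e G l u = l u * rm_e G (fun w => Real.log (l w)) u := by
    unfold rm_e
    rw [rm_pdiff_log (rm_da h.met.opn h.lsm hu) hl.ne']
    field_simp
  have heS : rm_e G' (rm_S G' (fun w => t w - Real.log (l w))) u =
      l u * (l u * rm_e G (fun w => Real.log (l w)) u *
          (rm_S G t u + rm_e G (fun w => Real.log (l w)) u) +
        l u * (rm_e G (rm_S G t) u + rm_e G (rm_e G (fun w => Real.log (l w))) u)) := by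
    rw [h.e hu, ← hel]
    congr 1
    unfold rm_e
    rw [rm_pdiff_congr_on h.met.opn hu hS,
      rm_pdiff_mul (rm_da h.met.opn h.lsm hu)
        (rm_da_add (rm_da h.met.opn hA hu) (rm_da h.met.opn hb hu)),
      rm_pdiff_add (rm_da h.met.opn hA hu) (rm_da h.met.opn hb hu)]
    unfold rm_e
    ring
  -- the slice quantities
  have hsl := h.sl hu
  have hT := sscm_tang (rm_sl_met h.met (u 0)) (rm_mem_Us hu) (rm_fs_smooth ht (u 0))
    (rm_fs_smooth (rm_lps_smooth h.met) (u 0)) (rm_fs_smooth h.lsm (u 0))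
    (fun y hy => rm_lps_pos h.met hy) (fun y hy => h.lpos _ hy)
  have hvl := rm_fs_congr (F := rm_lps G') (F' := fun w => rm_lps G w / l w) h.met.opn hu h.lps
  have q1 : rm_DscS G' (fun w => t w - Real.log (l w)) u =
      rm_DscC (rm_sl G (u 0)) (fun y => rm_fs t (u 0) y - Real.log (rm_fs l (u 0) y))
        (rm_tl d u) := by
    unfold rm_DscS
    rw [rm_Dsc_congr_met hsl]
    rfl
  have q2 : rm_lapS G' (rm_lps G') u =
      lapC (rm_sl G (u 0)) (fun y => rm_fs (rm_lps G) (u 0) y / rm_fs l (u 0) y) (rm_tl d u) := by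
    unfold rm_lapS
    rw [rm_lap_congr_met hsl, rm_lap_congr hvl]
    rfl
  have q3 : rm_ipS G' (rm_lps G') (fun w => t w - Real.log (l w)) u =
      gradIpC (rm_sl G (u 0)) (fun y => rm_fs (rm_lps G) (u 0) y / rm_fs l (u 0) y)
        (fun y => rm_fs t (u 0) y - Real.log (rm_fs l (u 0) y)) (rm_tl d u) := by
    unfold rm_ipS
    rw [rm_ip_congr_met hsl.self_of_nhds, rm_ip_congr hvl (Filter.EventuallyEq.refl _ _)]
    rfl
  have r1 : rm_fs (rm_lps G) (u 0) (rm_tl d u) = rm_lps G u := by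
    unfold rm_fs; rw [rm_J_tl]
  have r2 : rm_fs l (u 0) (rm_tl d u) = l u := by
    unfold rm_fs; rw [rm_J_tl]
  rw [r1, r2] at hT
  rw [rm_adm_Dsc h.met' h.orth' hu ht', rm_adm_Dsc h.met h.orth hu ht, q1, q2, q3, heS, hS u hu,
    h.Jsq hu, h.lps u hu]
  have hT' : rm_DscC (rm_sl G (u 0)) (fun y => rm_fs t (u 0) y - Real.log (rm_fs l (u 0) y))
        (rm_tl d u) = _ := eq_add_of_sub_eq (eq_sub_of_add_eq (eq_add_of_sub_eq hT))
  rw [hT']
  unfold rm_DscS rm_lapS rm_ipS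
  rw [if_gradSqC_eq]
  ring

end lapse

end Claimed.Agent.R315
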