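import Claimed.Agent.R315.Ss.CmpB

/-!
# Row 315, paper S, package SS-CMP, part C: `ss_cmp` in lapse coordinates (prefix `sscm_`)

`u = q = w 0`, `G = v² dq² + γ_q`.  Owner: helper39.
-/

set_option autoImplicit false
open scoped ContDiff Topology
open Claims.C0499

namespace Claimed.Agent.R315

section lcase

variable {d : ℕ} {G : rm_MF (d + 1)} {U : Set (E (d + 1))} {t : E (d + 1) → ℝ}
  {th kap bet : ℝ → ℝ} {y w : E (d + 1)}

theorem sscm_sq_q0_pos (hG : rm_Met G U) (ho : rm_Orth G U) (hw : w ∈ U) :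
    0 < gradSqC G (rm_q0 d) w := by
  have hv := rm_lps_pos hG hw
  rw [rm_dict_sq hG ho hw]
  positivity

theorem sscm_sl_q0 (hG : rm_Met G U) (ho : rm_Orth G U) (hw : w ∈ U) :
    ssSl G (rm_q0 d) w = (rm_lps G w)⁻¹ := by
  unfold ssSl
  rw [rm_dict_sq hG ho hw, ← inv_pow, Real.sqrt_sq (inv_pos.2 (rm_lps_pos hG hw)).le]

theorem sscm_E_q0 (hG : rm_Met G U) (ho : rm_Orth G U) (hw : w ∈ U) (f : E (d + 1) → ℝ) :
    ssE G (rm_q0 d) f w = rm_e G f w := by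
  have hv := rm_lps_pos hG hw
  unfold ssE
  rw [sscm_sl_q0 hG ho hw, rm_dict_ip hG ho hw]
  field_simp

theorem sscm_H_q0 (hG : rm_Met G U) (ho : rm_Orth G U) (hw : w ∈ U) :
    ssH G (rm_q0 d) w = rm_H G w := (rm_dict_H hG ho hw).symm

theorem sscm_hu_q0 (G : rm_MF (d + 1)) (kap : ℝ → ℝ) (w : E (d + 1)) (i j : Fin (d + 1)) :
    ssHuC G kap (rm_q0 d) w i j = G w i j + kap (gradSqC G (rm_q0 d) w) *
      ((if i = 0 then 1 else 0) * (if j = 0 then 1 else 0)) := by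
  simp only [ssHuC, ssDuDu, Matrix.add_apply, Matrix.smul_apply, Matrix.of_apply, smul_eq_mul,
    rm_pdiff_q0]

theorem sscm_Th_smooth (hG : rm_Met G U) (ho : rm_Orth G U)
    (hsm : ContDiffOn ℝ ∞ th (Set.Ioi 0)) :
    ContDiffOn ℝ ∞ (fun w => th (gradSqC G (rm_q0 d) w)) U :=
  hsm.comp (sscm_sq_smooth hG rm_q0_smooth.contDiffOn) fun _ hw => sscm_sq_q0_pos hG ho hw

theorem sscm_resc (hG : rm_Met G U) (ho : rm_Orth G U) (hsm : ContDiffOn ℝ ∞ th (Set.Ioi 0))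
    (hpos : ∀ σ, 0 < σ → 0 < th σ) (hlt : ∀ σ, 0 < σ → th σ < 1)
    (hkap : ∀ σ, 0 < σ → kap σ = th σ / ((1 - th σ) * σ)) :
    sscm_Resc G (ssHuC G kap (rm_q0 d)) U
      (fun w => Real.sqrt (1 - th (gradSqC G (rm_q0 d) w))) := by
  have hσ : ∀ w ∈ U, 0 < gradSqC G (rm_q0 d) w := fun w hw => sscm_sq_q0_pos hG ho hw
  have h1 : ∀ w ∈ U, 0 < 1 - th (gradSqC G (rm_q0 d) w) := fun w hw => by
    linarith [hlt _ (hσ w hw)]
  have hks : ContDiffOn ℝ ∞ kap (Set.Ioi 0) := by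
    have : ContDiffOn ℝ ∞ (fun σ => th σ / ((1 - th σ) * σ)) (Set.Ioi 0) :=
      hsm.div ((contDiffOn_const.sub hsm).mul contDiffOn_id) fun σ (hσ : 0 < σ) =>
        (mul_pos (by linarith [hlt σ hσ]) hσ).ne'
    exact this.congr hkap
  have hk0 : ∀ σ ∈ Set.Ioi (0 : ℝ), 0 ≤ kap σ := by
    intro σ (hσ : 0 < σ)
    rw [hkap σ hσ]
    exact (div_pos (hpos σ hσ) (mul_pos (by linarith [hlt σ hσ]) hσ)).le
  refine ⟨hG, ho, sscm_hu_met hG rm_q0_smooth.contDiffOn hG.opn subset_rfl hks hσ hk0, ?_, ?_,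
    ?_, fun w hw => Real.sqrt_pos.2 (h1 w hw), ?_⟩
  · intro w hw a
    rw [sscm_hu_q0, ho w hw a]
    simp [Fin.succ_ne_zero]
  · intro w hw
    ext a b
    show ssHuC G kap (rm_q0 d) w a.succ b.succ = G w a.succ b.succ
    rw [sscm_hu_q0]
    simp [Fin.succ_ne_zero]
  · exact (contDiffOn_const.sub (sscm_Th_smooth hG ho hsm)).sqrt fun w hw => (h1 w hw).ne'
  · intro w hw
    have hv := rm_lps_pos hG hw
    have hl := Real.sqrt_pos.2 (h1 w hw)
    have e : ssHuC G kap (rm_q0 d) w 0 0 =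
        (rm_lps G w / Real.sqrt (1 - th (gradSqC G (rm_q0 d) w))) ^ 2 := by
      rw [sscm_hu_q0, div_pow, Real.sq_sqrt (h1 w hw).le, hkap _ (hσ w hw), ← rm_lps_sq hG hw]
      have h2 := (h1 w hw).ne'
      have e2 := rm_dict_sq hG ho hw
      generalize th (gradSqC G (rm_q0 d) w) = θ at h2 ⊢
      rw [e2]
      simp only [if_true, mul_one]
      field_simp
      ring
    unfold rm_lps at hv ⊢
    rw [e]
    exact Real.sqrt_sq (div_pos hv hl).le

/-! ### calculus of `rm_e` -/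

variable {f g : E (d + 1) → ℝ}

theorem sscm_e_congr_on (hU : IsOpen U) (hw : w ∈ U) (h : ∀ x ∈ U, f x = g x) :
    rm_e G f w = rm_e G g w := by
  unfold rm_e
  rw [rm_pdiff_congr_on hU hw h]

theorem sscm_e_add (hf : DifferentiableAt ℝ f w) (hg : DifferentiableAt ℝ g w) :
    rm_e G (fun x => f x + g x) w = rm_e G f w + rm_e G g w := by
  unfold rm_e
  rw [rm_pdiff_add hf hg]; ring

theorem sscm_e_div (hf : DifferentiableAt ℝ f w) (hg : DifferentiableAt ℝ g w) (h0 : g w ≠ 0) :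
    rm_e G (fun x => f x / g x) w = (rm_e G f w * g w - f w * rm_e G g w) / g w ^ 2 := by
  have e : (fun x => f x / g x) = fun x => f x * (g x)⁻¹ := by
    funext x; rw [div_eq_mul_inv]
  have hgi : DifferentiableAt ℝ (fun x => (g x)⁻¹) w := hg.inv h0
  unfold rm_e
  rw [e, rm_pdiff_mul hf hgi, rm_pdiff_inv hg h0]
  field_simp
  ring

theorem sscm_e_cmul (c : ℝ) (hf : DifferentiableAt ℝ f w) :
    rm_e G (fun x => c * f x) w = c * rm_e G f w := by
  unfold rm_e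
  rw [rm_pdiff_const_mul c hf]; ring

theorem sscm_e_neg : rm_e G (fun x => - f x) w = - rm_e G f w := by
  unfold rm_e
  rw [rm_pdiff_neg]; ring

theorem sscm_e_one_sub (hf : DifferentiableAt ℝ f w) :
    rm_e G (fun x => 1 - f x) w = - rm_e G f w := by
  unfold rm_e
  rw [rm_pdiff_sub (differentiableAt_const 1) hf, rm_pdiff_const]; ring

/-- **S Lemma 3.5 in lapse coordinates.** -/
theorem sscm_cmp_lapse (hd : 1 ≤ d) (hG : rm_Met G U) (ho : rm_Orth G U)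
    (ht : ContDiffOn ℝ ∞ t U) (hsm : ContDiffOn ℝ ∞ th (Set.Ioi 0))
    (hpos : ∀ σ, 0 < σ → 0 < th σ) (hlt : ∀ σ, 0 < σ → th σ < 1)
    (hf0 : ∀ σ, 0 < σ → 0 ≤ σ * deriv th σ) (hf2 : ∀ σ, 0 < σ → σ * deriv th σ ≤ 2 * (1 - th σ))
    (hkap : ∀ σ, 0 < σ → kap σ = th σ / ((1 - th σ) * σ))
    (hbet : ∀ σ, 0 < σ → bet σ = Real.log (1 - th σ) / 2) (hy : y ∈ U) :
    th (gradSqC G (rm_q0 d) y) * (ssH G (rm_q0 d) y ^ 2 / (d : ℝ) + ssM1 G t (rm_q0 d) th y ^ 2
        + ssK G (rm_q0 d) th y ^ 2 / (1 - th (gradSqC G (rm_q0 d) y))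
        - 2 * ssM1 G t (rm_q0 d) th y * ssK G (rm_q0 d) th y
        + 2 * ssE G (rm_q0 d) (ssM1 G t (rm_q0 d) th) y)
      ≤ rm_DscC (ssHuC G kap (rm_q0 d)) (ssTuC G t bet (rm_q0 d)) y - rm_DscC G t y := by
  have hσ : ∀ w ∈ U, 0 < gradSqC G (rm_q0 d) w := fun w hw => sscm_sq_q0_pos hG ho hw
  have hR := sscm_resc hG ho hsm hpos hlt hkap
  have hΘs := sscm_Th_smooth hG ho hsm
  set Θ : E (d + 1) → ℝ := fun w => th (gradSqC G (rm_q0 d) w) with hΘ
  set l : E (d + 1) → ℝ := fun w => Real.sqrt (1 - Θ w) with hl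
  have hΘ0 : ∀ w ∈ U, 0 < Θ w := fun w hw => hpos _ (hσ w hw)
  have hΘ1 : ∀ w ∈ U, 0 < 1 - Θ w := fun w hw => by
    have := hlt _ (hσ w hw)
    simp only [hΘ]; linarith
  have hl2 : ∀ w ∈ U, l w ^ 2 = 1 - Θ w := fun w hw => Real.sq_sqrt (hΘ1 w hw).le
  have dΘ : ∀ w ∈ U, DifferentiableAt ℝ Θ w := fun w hw => rm_da hG.opn hΘs hw
  have d1Θ : ∀ w ∈ U, DifferentiableAt ℝ (fun x => 1 - Θ x) w := fun w hw =>
    (differentiableAt_const 1).sub (dΘ w hw)
  set x : E (d + 1) → ℝ := rm_e G Θ with hx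
  have hxs : ContDiffOn ℝ ∞ x U := rm_e_smooth hG hΘs
  have dx : ∀ w ∈ U, DifferentiableAt ℝ x w := fun w hw => rm_da hG.opn hxs hw
  have hAs : ContDiffOn ℝ ∞ (rm_S G t) U := (rm_H_smooth hG).sub (rm_e_smooth hG ht)
  -- `b = e (log l)`
  have hb : ∀ w ∈ U, rm_e G (fun w => Real.log (l w)) w = (fun w => - x w) w /
      (fun w => 2 * (1 - Θ w)) w := by
    intro w hw
    have h1 := hΘ1 w hw
    have e1 : rm_e G (fun w => Real.log (l w)) w =
        rm_e G (fun w => (1 / 2) * Real.log (1 - Θ w)) w :=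
      sscm_e_congr_on hG.opn hw fun z hz => by
        simp only [hl]
        rw [Real.log_sqrt (hΘ1 z hz).le]; ring
    rw [e1, sscm_e_cmul _ ((d1Θ w hw).log h1.ne')]
    have e2 : rm_e G (fun w => Real.log (1 - Θ w)) w = - x w / (1 - Θ w) := by
      have := sscm_e_one_sub (G := G) (dΘ w hw)
      unfold rm_e at this ⊢
      rw [rm_pdiff_log (d1Θ w hw) h1.ne', mul_div_assoc', this]
      simp only [hx, rm_e]
    rw [e2]
    field_simp
  -- `K`
  have hK : ∀ w ∈ U, ssK G (rm_q0 d) th w = - (x w / (2 * Θ w)) := by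
    intro w hw
    have h0 := hΘ0 w hw
    unfold ssK
    rw [sscm_E_q0 hG ho hw]
    have e1 : (fun w => Real.log (th (gradSqC G (rm_q0 d) w)) / 2) =
        fun w => (1 / 2) * Real.log (Θ w) := by
      funext z; simp only [hΘ]; ring
    rw [e1, sscm_e_cmul _ ((dΘ w hw).log h0.ne')]
    have e2 : rm_e G (fun w => Real.log (Θ w)) w = x w / Θ w := by
      simp only [hx]
      unfold rm_e
      rw [rm_pdiff_log (dΘ w hw) h0.ne', mul_div_assoc']
    rw [e2]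
    field_simp
  have hM : ∀ w ∈ U, ssM1 G t (rm_q0 d) th w = rm_S G t w + x w / (fun w => 2 * Θ w) w := by
    intro w hw
    unfold ssM1
    rw [sscm_H_q0 hG ho hw, sscm_E_q0 hG ho hw, hK w hw]
    unfold rm_S
    ring
  have h0 := hΘ0 y hy
  have h1 := hΘ1 y hy
  have heb : rm_e G (rm_e G (fun w => Real.log (l w))) y =
      (- rm_e G x y * (2 * (1 - Θ y)) - (- x y) * (2 * - x y)) / (2 * (1 - Θ y)) ^ 2 := by
    have dn : DifferentiableAt ℝ (fun w => - x w) y := (dx y hy).neg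
    have d2 : DifferentiableAt ℝ (fun w => 2 * (1 - Θ w)) y := (d1Θ y hy).const_mul 2
    rw [sscm_e_congr_on hG.opn hy hb, sscm_e_div (f := fun w => - x w)
      (g := fun w => 2 * (1 - Θ w)) dn d2 (by positivity), sscm_e_neg,
      sscm_e_cmul _ (d1Θ y hy), sscm_e_one_sub (dΘ y hy)]
  have heM : ssE G (rm_q0 d) (ssM1 G t (rm_q0 d) th) y = rm_e G (rm_S G t) y +
      (rm_e G x y * (2 * Θ y) - x y * (2 * x y)) / (2 * Θ y) ^ 2 := by
    have d2 : DifferentiableAt ℝ (fun w => 2 * Θ w) y := (dΘ y hy).const_mul 2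
    have h20 : (fun w => 2 * Θ w) y ≠ 0 := by
      show 2 * Θ y ≠ 0
      positivity
    have d3 : DifferentiableAt ℝ (fun w => x w / (fun w => 2 * Θ w) w) y :=
      rm_da hG.opn (hxs.div (contDiffOn_const.mul hΘs) fun w hw => by
        have := hΘ0 w hw
        positivity) hy
    rw [sscm_E_q0 hG ho hy, sscm_e_congr_on hG.opn hy hM,
      sscm_e_add (f := rm_S G t) (g := fun w => x w / (fun w => 2 * Θ w) w)
        (rm_da hG.opn hAs hy) d3,
      sscm_e_div (f := x) (g := fun w => 2 * Θ w) (dx y hy) d2 h20, sscm_e_cmul _ (dΘ y hy)]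
  -- the drift
  have htu : ssTuC G t bet (rm_q0 d) =ᶠ[𝓝 y] fun w => t w - Real.log (l w) := by
    filter_upwards [hG.opn.mem_nhds hy] with w hw
    simp only [ssTuC, hl]
    rw [hbet _ (hσ w hw), Real.log_sqrt (hΘ1 w hw).le]
  -- derivatives of `l`
  have hvp := rm_lps_pos hG hy
  have dv := rm_da hG.opn (rm_lps_smooth hG) hy
  have hl0 : 0 < l y := hR.lpos y hy
  have dl := rm_da hG.opn hR.lsm hy
  have hσv : gradSqC G (rm_q0 d) y = (rm_lps G y ^ 2)⁻¹ := rm_dict_sq hG ho hy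
  have hpl : ∀ i, pdiff l i y = (gradSqC G (rm_q0 d) y * deriv th (gradSqC G (rm_q0 d) y) /
      (l y * rm_lps G y)) * pdiff (rm_lps G) i y := by
    intro i
    have e1 : pdiff l i y = pdiff (fun w => 1 - Θ w) i y / (2 * l y) :=
      rm_pdiff_sqrt (d1Θ y hy) h1.ne'
    have e2 : pdiff (fun w => 1 - Θ w) i y = - pdiff Θ i y := by
      rw [rm_pdiff_sub (differentiableAt_const 1) (dΘ y hy), rm_pdiff_const]; ring
    have e3 : pdiff Θ i y = deriv th (gradSqC G (rm_q0 d) y) *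
        pdiff (gradSqC G (rm_q0 d)) i y :=
      rm_pdiff_comp ((hsm.contDiffAt (isOpen_Ioi.mem_nhds (hσ y hy))).differentiableAt (by simp))
        (rm_da hG.opn (sscm_sq_smooth hG rm_q0_smooth.contDiffOn) hy)
    have e4 : pdiff (gradSqC G (rm_q0 d)) i y =
        - (2 * rm_lps G y * pdiff (rm_lps G) i y) / (rm_lps G y ^ 2) ^ 2 := by
      have d2 : DifferentiableAt ℝ (fun w => rm_lps G w ^ 2) y := dv.pow 2
      have e5 : pdiff (fun w => rm_lps G w ^ 2) i y = 2 * rm_lps G y * pdiff (rm_lps G) i y := by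
        have : (fun w => rm_lps G w ^ 2) = fun w => rm_lps G w * rm_lps G w := by
          funext w; ring
        rw [this, rm_pdiff_mul dv dv]; ring
      rw [rm_pdiff_congr_on hG.opn hy (fun w hw => rm_dict_sq hG ho hw),
        rm_pdiff_inv d2 (by positivity), e5]
    rw [e1, e2, e3, e4, hσv]
    field_simp
  have hF0 := hf0 _ (hσ y hy)
  have hF2 := hf2 _ (hσ y hy)
  generalize gradSqC G (rm_q0 d) y * deriv th (gradSqC G (rm_q0 d) y) = F at hpl hF0 hF2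
  have i1 : rm_ipS G (rm_lps G) l y =
      F / (l y * rm_lps G y) * rm_ipS G (rm_lps G) (rm_lps G) y := by
    rw [rm_ipS_eq dv dl, rm_ipS_eq dv dv, Finset.mul_sum]
    refine Finset.sum_congr rfl fun a _ => ?_
    rw [Finset.mul_sum]
    refine Finset.sum_congr rfl fun b _ => ?_
    rw [hpl]; ring
  have i2 : rm_ipS G l l y =
      (F / (l y * rm_lps G y)) ^ 2 * rm_ipS G (rm_lps G) (rm_lps G) y := by
    rw [rm_ipS_eq dl dl, rm_ipS_eq dv dv, Finset.mul_sum]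
    refine Finset.sum_congr rfl fun a _ => ?_
    rw [Finset.mul_sum]
    refine Finset.sum_congr rfl fun b _ => ?_
    rw [hpl, hpl]; ring
  have hQ : 0 ≤ rm_ipS G (rm_lps G) (rm_lps G) y :=
    rm_sq_nonneg (rm_sl_met hG (y 0)) (rm_mem_Us hy) _
  have hJ : rm_H G y ^ 2 ≤ d * rm_Jsq G y := rm_H_sq_le hG hy
  have hL2 := hl2 y hy
  have hθ : th (gradSqC G (rm_q0 d) y) = Θ y := rfl
  rw [rm_Dsc_congr htu, hR.Dsc hy ht, hb y hy, heb, heM, hM y hy, hK y hy, sscm_H_q0 hG ho hy,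
    i1, i2, hθ]
  rw [hθ] at hF2
  simp only []
  generalize rm_ipS G (rm_lps G) (rm_lps G) y = Q at hQ ⊢
  generalize rm_S G t y = A
  generalize rm_e G (rm_S G t) y = eA
  generalize rm_e G x y = XX
  generalize x y = X
  generalize rm_Jsq G y = J at hJ ⊢
  generalize rm_H G y = H at hJ ⊢
  generalize rm_lps G y = V at hvp ⊢
  generalize l y = L at hl0 hL2 ⊢
  generalize Θ y = θ at h0 h1 hL2 hF2 ⊢
  have hdp : (0 : ℝ) < d := by exact_mod_cast hd
  have hR0 : 0 ≤ 2 * (F / (L * V) * Q) / (V * L) - (F / (L * V)) ^ 2 * Q / L ^ 2 := by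
    have e : 2 * (F / (L * V) * Q) / (V * L) - (F / (L * V)) ^ 2 * Q / L ^ 2 =
        F * Q * (2 * L ^ 2 - F) / (V ^ 2 * (L ^ 2) ^ 2) := by
      field_simp
    rw [e, hL2]
    exact div_nonneg (mul_nonneg (mul_nonneg hF0 hQ) (by linarith)) (by positivity)
  have hHJ : H ^ 2 / d ≤ J := by
    rw [div_le_iff₀ hdp]; linarith
  have key : (1 - L ^ 2) * J + A ^ 2 - L ^ 2 * (A + -X / (2 * (1 - θ))) ^ 2 + 2 * eA -
      2 * L ^ 2 * (-X / (2 * (1 - θ))) * (A + -X / (2 * (1 - θ))) -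
      2 * L ^ 2 * (eA + (-XX * (2 * (1 - θ)) - -X * (2 * -X)) / (2 * (1 - θ)) ^ 2) =
      θ * (J + (A + X / (2 * θ)) ^ 2 + (-(X / (2 * θ))) ^ 2 / (1 - θ) -
        2 * (A + X / (2 * θ)) * -(X / (2 * θ)) +
        2 * (eA + (XX * (2 * θ) - X * (2 * X)) / (2 * θ) ^ 2)) := by
    rw [hL2]
    field_simp
    ring
  have hfin : θ * (H ^ 2 / d) ≤ θ * J := mul_le_mul_of_nonneg_left hHJ h0.le
  linarith

end lcase

end Claimed.Agent.R315
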