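import Claimed.Agent.R315.Ss.CptA

/-!
# Row 315, paper S: package SS-CPT (#6752), part B: the manifold part (prefix `sscp_`)

Diagonal sequence on a countable dense subset of `M` (Tychonoff), equicontinuity in the good charts, transfer
of the bounds to arbitrary charts (`norm_iteratedFDerivWithin_comp_le`), then `sscp_euclid` in every chart.
-/

set_option autoImplicit false
open scoped ContDiff Topology
open Filter Set

namespace Claimed.Agent.R315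

variable {V : Type} [NormedAddCommGroup V] [NormedSpace ℝ V]

/-- diagonal sequence. -/
theorem sscp_diag {α : Type*} [Countable α] (a : ℕ → α → ℝ) (hb : ∀ x, ∃ C, ∀ k, |a k x| ≤ C) :
    ∃ (ν : ℕ → ℕ) (l : α → ℝ), StrictMono ν ∧ ∀ x, Tendsto (fun k => a (ν k) x) atTop (𝓝 (l x)) := by
  choose C hC using hb
  have hK : IsCompact (Set.pi Set.univ fun x => Set.Icc (-(C x)) (C x)) :=
    isCompact_univ_pi fun x => isCompact_Icc
  obtain ⟨l, -, ν, hν, hl⟩ := hK.tendsto_subseq (x := a) (fun k x _ => abs_le.1 (hC x k))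
  exact ⟨ν, l, hν, fun x => (tendsto_pi_nhds.1 hl) x⟩

theorem sscp_bdd_of_eventually {a : ℕ → ℝ} {C : ℝ} {k0 : ℕ} (h : ∀ k ≥ k0, |a k| ≤ C) :
    ∃ C', ∀ k, |a k| ≤ C' := by
  refine ⟨|C| + ∑ i ∈ Finset.range k0, |a i|, fun k => ?_⟩
  have h0 : 0 ≤ ∑ i ∈ Finset.range k0, |a i| := Finset.sum_nonneg fun _ _ => abs_nonneg _
  by_cases hk : k0 ≤ k
  · have := (h k hk).trans (le_abs_self C)
    linarith
  · have h1 : |a k| ≤ ∑ i ∈ Finset.range k0, |a i| :=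
      Finset.single_le_sum (f := fun i => |a i|) (fun _ _ => abs_nonneg _)
        (Finset.mem_range.2 (not_le.1 hk))
    have := abs_nonneg C
    linarith

theorem sscp_unif {α : Type*} {P : ℕ → ℕ → α → ℝ} {S : Set α}
    (h : ∀ j, ∃ (C : ℝ) (k0 : ℕ), ∀ k ≥ k0, ∀ y ∈ S, P j k y ≤ C) (n : ℕ) :
    ∃ (C : ℝ) (k0 : ℕ), ∀ k ≥ k0, ∀ y ∈ S, ∀ i ≤ n, P i k y ≤ C := by
  induction n with
  | zero =>
    obtain ⟨C, k0, hC⟩ := h 0
    exact ⟨C, k0, fun k hk y hy i hi => by rw [Nat.le_zero.1 hi]; exact hC k hk y hy⟩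
  | succ n ih =>
    obtain ⟨C1, k1, h1⟩ := ih
    obtain ⟨C2, k2, h2⟩ := h (n + 1)
    refine ⟨max C1 C2, max k1 k2, fun k hk y hy i hi => ?_⟩
    rcases Nat.le_succ_iff.1 hi with hi | hi
    · exact (h1 k (le_trans (le_max_left _ _) hk) y hy i hi).trans (le_max_left _ _)
    · rw [hi]
      exact (h2 k (le_trans (le_max_right _ _) hk) y hy).trans (le_max_right _ _)

/-- a chart with bounds of all orders, uniform in `k` (from some index on). -/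
def sscpGood {d : ℕ} (M : Set V) (f : ℕ → V → ℝ) (ψ : E d → V) (O : Set (E d)) : Prop :=
  IsParam M ψ O ∧ ∀ j : ℕ, ∃ (C : ℝ) (k0 : ℕ), ∀ k ≥ k0, ∀ y ∈ O,
    ‖iteratedFDeriv ℝ j (f k ∘ ψ) y‖ ≤ C

theorem sscpGood.subseq {d : ℕ} {M : Set V} {f : ℕ → V → ℝ} {ψ : E d → V} {O : Set (E d)}
    (h : sscpGood M f ψ O) {ν : ℕ → ℕ} (hν : StrictMono ν) : sscpGood M (fun k => f (ν k)) ψ O := by
  refine ⟨h.1, fun j => ?_⟩
  obtain ⟨C, k0, hC⟩ := h.2 j
  exact ⟨C, k0, fun k hk y hy => hC (ν k) (le_trans hk hν.le_apply) y hy⟩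

/-- convergence on a dense subset gives convergence everywhere. -/
theorem sscp_pointwise {d : ℕ} {M : Set V} {f : ℕ → V → ℝ} (hf : ∀ k, SmoothAlong d M (f k))
    {D : Set V} (hDM : D ⊆ M) (hD : M ⊆ closure D)
    (hconv : ∀ x ∈ D, ∃ l, Tendsto (fun k => f k x) atTop (𝓝 l))
    {ψ : E d → V} {O : Set (E d)} (hg : sscpGood M f ψ O) {y0 : E d} (hy0 : y0 ∈ O) :
    ∃ l, Tendsto (fun k => f k (ψ y0)) atTop (𝓝 l) := by
  refine sscp_tendsto_of_approx fun ε hε => ?_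
  obtain ⟨C, k0, hC⟩ := hg.2 1
  obtain ⟨r, hr, hrO⟩ := Metric.isOpen_iff.1 (if_open hg.1) y0 hy0
  set δ : ℝ := min r (ε / (|C| + 1)) with hδ
  have hC1 : 0 < |C| + 1 := by positivity
  have hδ0 : 0 < δ := lt_min hr (by positivity)
  have hδO : Metric.ball y0 δ ⊆ O := (Metric.ball_subset_ball (min_le_left _ _)).trans hrO
  obtain ⟨O', hO', hO'e⟩ := if_image_open hg.1 Metric.isOpen_ball hδO
  have hx : ψ y0 ∈ M ∩ O' := hO'e ▸ mem_image_of_mem ψ (Metric.mem_ball_self hδ0)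
  obtain ⟨x', hx'O, hx'D⟩ := mem_closure_iff.1 (hD hx.1) O' hO' hx.2
  have hx'2 : x' ∈ ψ '' Metric.ball y0 δ := hO'e ▸ ⟨hDM hx'D, hx'O⟩
  obtain ⟨y', hy', rfl⟩ := hx'2
  obtain ⟨l', hl'⟩ := hconv _ hx'D
  refine ⟨fun k => f k (ψ y'), l', hl', ?_⟩
  filter_upwards [eventually_ge_atTop k0] with k hk
  have hsm : ContDiffOn ℝ ∞ (f k ∘ ψ) O := hf k ψ O hg.1
  have hlip : ‖(f k ∘ ψ) y0 - (f k ∘ ψ) y'‖ ≤ |C| * ‖y0 - y'‖ := by
    refine (convex_ball y0 δ).norm_image_sub_le_of_norm_fderiv_le (𝕜 := ℝ) (fun w hw => ?_)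
      (fun w hw => ?_) hy' (Metric.mem_ball_self hδ0)
    · exact (hsm.contDiffAt ((if_open hg.1).mem_nhds (hδO hw))).differentiableAt (by simp)
    · rw [← norm_iteratedFDeriv_one]
      exact (hC k hk w (hδO hw)).trans (le_abs_self C)
  have h1 : ‖y0 - y'‖ ≤ ε / (|C| + 1) := by
    have : dist y' y0 < δ := hy'
    rw [dist_comm, dist_eq_norm] at this
    exact this.le.trans (min_le_right _ _)
  calc ‖f k (ψ y0) - f k (ψ y')‖ ≤ |C| * ‖y0 - y'‖ := hlip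
    _ ≤ |C| * (ε / (|C| + 1)) := by gcongr
    _ ≤ (|C| + 1) * (ε / (|C| + 1)) := by
        have : 0 ≤ ε / (|C| + 1) := by positivity
        nlinarith
    _ = ε := by field_simp

/-- the bounds pass to every other chart, locally. -/
theorem sscp_transfer [FiniteDimensional ℝ V] {d : ℕ} {M : Set V} {f : ℕ → V → ℝ}
    (hf : ∀ k, SmoothAlong d M (f k)) {ψ : E d → V} {O : Set (E d)} (hg : sscpGood M f ψ O)
    {φ : E d → V} {W : Set (E d)} (hφ : IsParam M φ W) {y : E d} (hy : y ∈ W)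
    (hyx : φ y ∈ ψ '' O) :
    ∃ N : Set (E d), IsOpen N ∧ N ⊆ W ∧ y ∈ N ∧ sscpGood M f φ N := by
  set T := if_trDom φ W ψ O with hTdef
  set τ := if_tr ψ O φ with hτdef
  have hT : IsOpen T := if_isOpen_trDom hφ hg.1
  have hO : IsOpen O := if_open hg.1
  have hyT : y ∈ T := ⟨hy, hyx⟩
  have hτ : ContDiffOn ℝ ∞ τ T := if_tr_contDiffOn hφ hg.1
  have hmaps : MapsTo τ T O := fun z hz => if_tr_mem hz
  obtain ⟨r, hr, hrT⟩ := Metric.nhds_basis_closedBall.mem_iff.1 (hT.mem_nhds hyT)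
  have hNT : Metric.ball y r ⊆ T := Metric.ball_subset_closedBall.trans hrT
  have hNW : Metric.ball y r ⊆ W := hNT.trans if_trDom_subset
  refine ⟨Metric.ball y r, Metric.isOpen_ball, hNW, Metric.mem_ball_self hr,
    if_mono hφ Metric.isOpen_ball hNW, fun n => ?_⟩
  obtain ⟨C, k0, hC⟩ := sscp_unif (P := fun j k z => ‖iteratedFDeriv ℝ j (f k ∘ ψ) z‖) hg.2 n
  obtain ⟨D, kD, hD⟩ := sscp_unif (P := fun j _ z => ‖iteratedFDerivWithin ℝ j τ T z‖)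
    (S := Metric.closedBall y r) (fun j => by
      obtain ⟨Cj, hCj⟩ := (isCompact_closedBall y r).exists_bound_of_continuousOn
        ((hτ.continuousOn_iteratedFDerivWithin (m := j) (by exact_mod_cast le_top)
          hT.uniqueDiffOn).mono hrT)
      exact ⟨Cj, 0, fun _ _ z hz => hCj z hz⟩) n
  refine ⟨(n.factorial : ℝ) * C * (max D 1) ^ n, k0, fun k hk z hz => ?_⟩
  have hzT : z ∈ T := hNT hz
  have e1 : EqOn (f k ∘ φ) ((f k ∘ ψ) ∘ τ) T := fun w hw => by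
    simp only [Function.comp]
    rw [hτdef, if_tr_spec hw]
  rw [← iteratedFDerivWithin_of_isOpen n hT hzT, iteratedFDerivWithin_congr e1 hzT n]
  refine norm_iteratedFDerivWithin_comp_le (N := ∞) (hf k ψ O hg.1) hτ (by exact_mod_cast le_top)
    hO.uniqueDiffOn hT.uniqueDiffOn hmaps hzT (fun i hi => ?_) (fun i hi1 hi => ?_)
  · rw [iteratedFDerivWithin_of_isOpen i hO (hmaps hzT)]
    exact hC k hk _ (hmaps hzT) i hi
  · refine (hD kD le_rfl z (Metric.ball_subset_closedBall hz) i hi).trans ?_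
    exact (le_max_left D 1).trans (le_self_pow₀ (le_max_right D 1) (by omega))

/-- **SS-CPT**. -/
theorem sscp_main [FiniteDimensional ℝ V] {d : ℕ} (M : Set V) (f : ℕ → V → ℝ)
    (hf : ∀ k, SmoothAlong d M (f k))
    (hbd : ∀ x ∈ M, ∃ (ψ : E d → V) (U : Set (E d)) (O : Set (E d)), IsParam M ψ U ∧ IsOpen O ∧
      O ⊆ U ∧ x ∈ ψ '' O ∧ ∀ j : ℕ, ∃ (C : ℝ) (k0 : ℕ), ∀ k ≥ k0, ∀ y ∈ O,
        ‖iteratedFDeriv ℝ j (f k ∘ ψ) y‖ ≤ C) :
    ∃ (ν : ℕ → ℕ) (g : V → ℝ), StrictMono ν ∧ SmoothAlong d M g ∧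
      ∀ (ψ : E d → V) (U : Set (E d)), IsParam M ψ U → ∀ y ∈ U, ∀ j : ℕ,
        Filter.Tendsto (fun k => iteratedFDeriv ℝ j (f (ν k) ∘ ψ) y) Filter.atTop
          (nhds (iteratedFDeriv ℝ j (g ∘ ψ) y)) := by
  have hgood : ∀ x ∈ M, ∃ (ψ : E d → V) (O : Set (E d)), sscpGood M f ψ O ∧ x ∈ ψ '' O := by
    intro x hx
    obtain ⟨ψ, U, O, hψ, hO, hOU, hxO, hb⟩ := hbd x hx
    exact ⟨ψ, O, ⟨if_mono hψ hO hOU, hb⟩, hxO⟩
  have : ProperSpace V := FiniteDimensional.proper_real V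
  obtain ⟨D, hDM, hDc, hDd⟩ :=
    (TopologicalSpace.IsSeparable.of_separableSpace M).exists_countable_dense_subset
  have : Countable D := hDc.to_subtype
  have hbdd : ∀ x : D, ∃ C, ∀ k, |f k x| ≤ C := by
    intro x
    obtain ⟨ψ, O, hg, y, hy, hyx⟩ := hgood x (hDM x.2)
    obtain ⟨C, k0, hC⟩ := hg.2 0
    refine sscp_bdd_of_eventually (C := C) (k0 := k0) fun k hk => ?_
    have := hC k hk y hy
    rwa [norm_iteratedFDeriv_zero, Function.comp, hyx, Real.norm_eq_abs] at this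
  obtain ⟨ν, l, hν, hl⟩ := sscp_diag (fun k (x : D) => f k x) hbdd
  have hf' : ∀ k, SmoothAlong d M (f (ν k)) := fun k => hf (ν k)
  have hpt : ∀ x ∈ M, ∃ a, Tendsto (fun k => f (ν k) x) atTop (𝓝 a) := by
    intro x hx
    obtain ⟨ψ, O, hg, y, hy, rfl⟩ := hgood x hx
    exact sscp_pointwise hf' hDM hDd (fun x hx => ⟨l ⟨x, hx⟩, hl ⟨x, hx⟩⟩) (hg.subseq hν) hy
  set g : V → ℝ := fun x => limUnder atTop (fun k => f (ν k) x) with hgdef
  have hgl : ∀ x ∈ M, Tendsto (fun k => f (ν k) x) atTop (𝓝 (g x)) := fun x hx =>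
    tendsto_nhds_limUnder (hpt x hx)
  have hloc : ∀ (φ : E d → V) (W : Set (E d)), IsParam M φ W → ∀ y ∈ W,
      ContDiffAt ℝ ∞ (g ∘ φ) y ∧ ∀ j : ℕ,
        Tendsto (fun k => iteratedFDeriv ℝ j (f (ν k) ∘ φ) y) atTop
          (𝓝 (iteratedFDeriv ℝ j (g ∘ φ) y)) := by
    intro φ W hφ y hy
    obtain ⟨ψ, O, hg, hyx⟩ := hgood (φ y) (if_mem hφ hy)
    obtain ⟨N, hN, hNW, hyN, hgN⟩ := sscp_transfer hf' (hg.subseq hν) hφ hy hyx
    obtain ⟨h1, h2⟩ := sscp_euclid hN (F := fun k => f (ν k) ∘ φ) (fun k => hf' k φ N hgN.1) hgN.2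
      (G := g ∘ φ) (fun z hz => hgl (φ z) (if_mem hφ (hNW hz)))
    exact ⟨h1.contDiffAt (hN.mem_nhds hyN), fun j => h2 j y hyN⟩
  exact ⟨ν, g, hν, fun φ W hφ y hy => (hloc φ W hφ y hy).1.contDiffWithinAt,
    fun φ W hφ y hy j => (hloc φ W hφ y hy).2 j⟩

end Claimed.Agent.R315
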