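import Claimed.Agent.R315.Pack011
import Claimed.Agent.R315.Ss.CptB

/-!
# Row 315, paper S: package SS-CPT (#6752) `ss_cpt`

Proof in `Ss/CptA.lean` (Euclidean lemmas) and `Ss/CptB.lean` (diagonal sequence, charts).
-/

set_option autoImplicit false
open scoped ContDiff
open Claims.C0499

namespace Claimed.Agent.R315

variable {V : Type} [NormedAddCommGroup V] [NormedSpace ℝ V]

/-- compactness: a sequence of functions, smooth along `M`, with locally uniform bounds of every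
order (in suitable charts, from some index on) has a subsequence which converges with all
derivatives to a function which is smooth along `M`. -/
theorem ss_cpt [FiniteDimensional ℝ V] {d : ℕ} (M : Set V) (hM : IsMfd d M) (f : ℕ → V → ℝ)
    (hf : ∀ k, SmoothAlong d M (f k))
    (hbd : ∀ x ∈ M, ∃ (ψ : E d → V) (U : Set (E d)) (O : Set (E d)), IsParam M ψ U ∧ IsOpen O ∧
      O ⊆ U ∧ x ∈ ψ '' O ∧ ∀ j : ℕ, ∃ (C : ℝ) (k0 : ℕ), ∀ k ≥ k0, ∀ y ∈ O,
        ‖iteratedFDeriv ℝ j (f k ∘ ψ) y‖ ≤ C) :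
    ∃ (ν : ℕ → ℕ) (g : V → ℝ), StrictMono ν ∧ SmoothAlong d M g ∧
      ∀ (ψ : E d → V) (U : Set (E d)), IsParam M ψ U → ∀ y ∈ U, ∀ j : ℕ,
        Filter.Tendsto (fun k => iteratedFDeriv ℝ j (f (ν k) ∘ ψ) y) Filter.atTop
          (nhds (iteratedFDeriv ℝ j (g ∘ ψ) y)) :=
  sscp_main M f hf hbd

end Claimed.Agent.R315
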