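import Claimed.Agent.R315.Pack001

/-!
# Row 315, paper S: package SS-CPT (#6752), part A: the Euclidean lemmas (prefix `sscp_`)

No Arzela-Ascoli is needed: pointwise convergence of `F k` on an open set together with bounds of all
derivatives (uniform in `k`) gives pointwise convergence of all derivatives (difference quotients + Taylor
remainder), and the limits form a Taylor series of the limit function (limit of the Taylor estimate).
-/

set_option autoImplicit false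
open scoped ContDiff Topology
open Filter Set

namespace Claimed.Agent.R315

/-- a sequence which is approximated up to every `ε` by convergent sequences converges. -/
theorem sscp_tendsto_of_approx {Y : Type*} [NormedAddCommGroup Y] [CompleteSpace Y] {x : ℕ → Y}
    (h : ∀ ε > 0, ∃ (w : ℕ → Y) (b : Y), Tendsto w atTop (𝓝 b) ∧ ∀ᶠ k in atTop, ‖x k - w k‖ ≤ ε) :
    ∃ a, Tendsto x atTop (𝓝 a) := by
  refine cauchySeq_tendsto_of_complete (Metric.cauchySeq_iff'.2 fun ε hε => ?_)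
  obtain ⟨w, b, hw, hx⟩ := h (ε / 5) (by positivity)
  have hw' : ∀ᶠ k in atTop, ‖w k - b‖ < ε / 5 := by
    have := (Metric.tendsto_nhds.1 hw) (ε / 5) (by positivity)
    simpa [dist_eq_norm] using this
  obtain ⟨N, hN⟩ := eventually_atTop.1 (hx.and hw')
  refine ⟨N, fun n hn => ?_⟩
  have h1 := hN n hn
  have h2 := hN N le_rfl
  rw [dist_eq_norm]
  have e : x n - x N = (x n - w n) + (w n - b) - (w N - b) - (x N - w N) := by abel
  rw [e]
  calc ‖(x n - w n) + (w n - b) - (w N - b) - (x N - w N)‖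
      ≤ ‖x n - w n‖ + ‖w n - b‖ + ‖w N - b‖ + ‖x N - w N‖ := by
        refine (norm_sub_le _ _).trans (add_le_add ((norm_sub_le _ _).trans
          (add_le_add (norm_add_le _ _) le_rfl)) le_rfl)
    _ < ε := by linarith [h1.1, h1.2, h2.1, h2.2]

/-- second order Taylor estimate from a Lipschitz bound of the derivative. -/
theorem sscp_taylor {X Y : Type*} [NormedAddCommGroup X] [NormedSpace ℝ X] [NormedAddCommGroup Y]
    [NormedSpace ℝ Y] {B : Set X} (hB : Convex ℝ B) {u : X → Y} {u' : X → X →L[ℝ] Y} {C : ℝ}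
    (hC : 0 ≤ C) (h1 : ∀ y ∈ B, HasFDerivAt u (u' y) y)
    (h2 : ∀ y ∈ B, ∀ z ∈ B, ‖u' y - u' z‖ ≤ C * ‖y - z‖) {y z : X} (hy : y ∈ B) (hz : z ∈ B) :
    ‖u z - u y - u' y (z - y)‖ ≤ C * ‖z - y‖ * ‖z - y‖ := by
  have hs : Convex ℝ (B ∩ Metric.closedBall y ‖z - y‖) := hB.inter (convex_closedBall _ _)
  refine hs.norm_image_sub_le_of_norm_hasFDerivWithin_le' (f' := u')
    (fun w hw => (h1 w hw.1).hasFDerivWithinAt) (fun w hw => ?_) ⟨hy, by simp⟩
    ⟨hz, by simp [dist_eq_norm]⟩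
  have hw2 : ‖w - y‖ ≤ ‖z - y‖ := by
    have := hw.2
    rwa [Metric.mem_closedBall, dist_eq_norm] at this
  exact (h2 w hw.1 y hy).trans (mul_le_mul_of_nonneg_left hw2 hC)

/-- pointwise convergence on the basis vectors gives norm convergence. -/
theorem sscp_clm_tendsto {d : ℕ} {Y : Type*} [NormedAddCommGroup Y] [NormedSpace ℝ Y]
    {T : ℕ → E d →L[ℝ] Y} {l : Fin d → Y}
    (h : ∀ i, Tendsto (fun k => T k (eb i)) atTop (𝓝 (l i))) :
    Tendsto T atTop (𝓝 (∑ i, (EuclideanSpace.proj i : E d →L[ℝ] ℝ).smulRight (l i))) := by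
  have e : ∀ k, T k = ∑ i, (EuclideanSpace.proj i : E d →L[ℝ] ℝ).smulRight (T k (eb i)) := by
    intro k
    ext v
    conv_lhs => rw [← if_sum_eb v]
    simp [map_sum]
  have h2 : Tendsto (fun k => ∑ i, (EuclideanSpace.proj i : E d →L[ℝ] ℝ).smulRight (T k (eb i))) atTop
      (𝓝 (∑ i, (EuclideanSpace.proj i : E d →L[ℝ] ℝ).smulRight (l i))) := by
    refine tendsto_finsetSum _ fun i _ => ?_
    exact ((ContinuousLinearMap.smulRightL ℝ (E d) Y
      (EuclideanSpace.proj i : E d →L[ℝ] ℝ)).continuous.tendsto (l i)).comp (h i)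
  exact h2.congr fun k => (e k).symm

/-- **one step**: pointwise convergence of `u k`, equi-Lipschitz derivatives `u' k` ⇒ the derivatives converge
pointwise and the limit is the derivative of the limit. -/
theorem sscp_step {d : ℕ} {Y : Type*} [NormedAddCommGroup Y] [NormedSpace ℝ Y] [CompleteSpace Y]
    {B : Set (E d)} (hBo : IsOpen B) (hBc : Convex ℝ B) {u : ℕ → E d → Y}
    {u' : ℕ → E d → E d →L[ℝ] Y} {a : E d → Y} {C : ℝ} (hC : 0 ≤ C) {k0 : ℕ}
    (h1 : ∀ k, ∀ y ∈ B, HasFDerivAt (u k) (u' k y) y)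
    (h2 : ∀ k ≥ k0, ∀ y ∈ B, ∀ z ∈ B, ‖u' k y - u' k z‖ ≤ C * ‖y - z‖)
    (h3 : ∀ y ∈ B, Tendsto (fun k => u k y) atTop (𝓝 (a y))) {y : E d} (hy : y ∈ B) :
    ∃ L : E d →L[ℝ] Y, Tendsto (fun k => u' k y) atTop (𝓝 L) ∧ HasFDerivAt a L y := by
  have hT : ∀ k ≥ k0, ∀ z ∈ B, ‖u k z - u k y - u' k y (z - y)‖ ≤ C * ‖z - y‖ * ‖z - y‖ :=
    fun k hk z hz => sscp_taylor hBc hC (h1 k) (h2 k hk) hy hz
  -- convergence on vectors
  have hv : ∀ v : E d, ∃ l, Tendsto (fun k => u' k y v) atTop (𝓝 l) := by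
    intro v
    refine sscp_tendsto_of_approx fun ε hε => ?_
    have c1 : Tendsto (fun t : ℝ => y + t • v) (𝓝[>] 0) (𝓝 y) := by
      have : Tendsto (fun t : ℝ => y + t • v) (𝓝 0) (𝓝 (y + (0 : ℝ) • v)) :=
        (continuous_const.add (continuous_id.smul continuous_const)).tendsto 0
      rw [zero_smul, add_zero] at this
      exact this.mono_left nhdsWithin_le_nhds
    have c2 : Tendsto (fun t : ℝ => C * t * ‖v‖ ^ 2) (𝓝[>] 0) (𝓝 0) := by
      have : Tendsto (fun t : ℝ => C * t * ‖v‖ ^ 2) (𝓝 0) (𝓝 (C * 0 * ‖v‖ ^ 2)) :=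
        ((continuous_const.mul continuous_id).mul continuous_const).tendsto 0
      rw [mul_zero, zero_mul] at this
      exact this.mono_left nhdsWithin_le_nhds
    obtain ⟨t, ⟨ht1, ht2⟩, ht0⟩ := ((c1.eventually (hBo.mem_nhds hy)).and
      (c2.eventually (gt_mem_nhds hε))).and self_mem_nhdsWithin |>.exists
    have ht0' : (0 : ℝ) < t := ht0
    refine ⟨fun k => t⁻¹ • (u k (y + t • v) - u k y), t⁻¹ • (a (y + t • v) - a y),
      ((h3 _ ht1).sub (h3 y hy)).const_smul t⁻¹, ?_⟩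
    filter_upwards [eventually_ge_atTop k0] with k hk
    have h4 := hT k hk _ ht1
    rw [add_sub_cancel_left, map_smul, norm_smul, Real.norm_of_nonneg ht0'.le] at h4
    have e : u' k y v - t⁻¹ • (u k (y + t • v) - u k y)
        = -(t⁻¹ • (u k (y + t • v) - u k y - t • u' k y v)) := by
      rw [smul_sub t⁻¹ _ (t • _), smul_smul, inv_mul_cancel₀ ht0'.ne', one_smul]
      abel
    rw [e, norm_neg, norm_smul, norm_inv, Real.norm_of_nonneg ht0'.le]
    calc t⁻¹ * ‖u k (y + t • v) - u k y - t • u' k y v‖ ≤ t⁻¹ * (C * (t * ‖v‖) * (t * ‖v‖)) := by gcongr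
      _ = C * t * ‖v‖ ^ 2 := by field_simp
      _ ≤ ε := ht2.le
  choose l hl using hv
  refine ⟨_, sscp_clm_tendsto fun i => hl (eb i), ?_⟩
  set L : E d →L[ℝ] Y := ∑ i, (EuclideanSpace.proj i : E d →L[ℝ] ℝ).smulRight (l (eb i)) with hL
  have hLt : Tendsto (fun k => u' k y) atTop (𝓝 L) := sscp_clm_tendsto fun i => hl (eb i)
  have hlim : ∀ z ∈ B, ‖a z - a y - L (z - y)‖ ≤ C * ‖z - y‖ * ‖z - y‖ := by
    intro z hz
    have t1 : Tendsto (fun k => ‖u k z - u k y - u' k y (z - y)‖) atTop (𝓝 ‖a z - a y - L (z - y)‖) :=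
      (((h3 z hz).sub (h3 y hy)).sub
        (((ContinuousLinearMap.apply ℝ Y (z - y)).continuous.tendsto L).comp hLt)).norm
    exact le_of_tendsto t1 ((eventually_ge_atTop k0).mono fun k hk => hT k hk z hz)
  rw [hasFDerivAt_iff_isLittleO, Asymptotics.isLittleO_iff]
  intro c hc
  have c3 : Tendsto (fun z : E d => C * ‖z - y‖) (𝓝 y) (𝓝 0) := by
    have : Tendsto (fun z : E d => C * ‖z - y‖) (𝓝 y) (𝓝 (C * ‖y - y‖)) :=
      (continuous_const.mul (continuous_id.sub continuous_const).norm).tendsto y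
    rwa [sub_self, norm_zero, mul_zero] at this
  filter_upwards [hBo.mem_nhds hy, c3.eventually (gt_mem_nhds hc)] with z hz hz2
  exact (hlim z hz).trans (mul_le_mul_of_nonneg_right hz2.le (norm_nonneg _))

/-- Lipschitz bound of the `j`-th derivative from a bound of the `(j+1)`-th derivative. -/
theorem sscp_lip {d : ℕ} {B : Set (E d)} (hBo : IsOpen B) (hBc : Convex ℝ B) {F : E d → ℝ}
    (hF : ContDiffOn ℝ ∞ F B) {j : ℕ} {C : ℝ} (hb : ∀ y ∈ B, ‖iteratedFDeriv ℝ (j + 1) F y‖ ≤ C)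
    {y z : E d} (hy : y ∈ B) (hz : z ∈ B) :
    ‖iteratedFDeriv ℝ j F y - iteratedFDeriv ℝ j F z‖ ≤ C * ‖y - z‖ := by
  refine hBc.norm_image_sub_le_of_norm_fderiv_le (𝕜 := ℝ) (fun w hw => ?_) (fun w hw => ?_) hz hy
  · exact (hF.contDiffAt (hBo.mem_nhds hw)).differentiableAt_iteratedFDeriv
      (by exact_mod_cast ENat.natCast_lt_top j)
  · rw [norm_fderiv_iteratedFDeriv]
    exact hb w hw

/-- **the Euclidean lemma**: pointwise convergence + bounds of all derivatives ⇒ smooth limit and convergence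
of all derivatives. -/
theorem sscp_euclid {d : ℕ} {O : Set (E d)} (hO : IsOpen O) {F : ℕ → E d → ℝ}
    (hF : ∀ k, ContDiffOn ℝ ∞ (F k) O)
    (hb : ∀ j : ℕ, ∃ (C : ℝ) (k0 : ℕ), ∀ k ≥ k0, ∀ y ∈ O, ‖iteratedFDeriv ℝ j (F k) y‖ ≤ C)
    {G : E d → ℝ} (hG : ∀ y ∈ O, Tendsto (fun k => F k y) atTop (𝓝 (G y))) :
    ContDiffOn ℝ ∞ G O ∧ ∀ j : ℕ, ∀ y ∈ O,
      Tendsto (fun k => iteratedFDeriv ℝ j (F k) y) atTop (𝓝 (iteratedFDeriv ℝ j G y)) := by
  set p : E d → FormalMultilinearSeries ℝ (E d) ℝ :=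
    fun y j => limUnder atTop (fun k => iteratedFDeriv ℝ j (F k) y) with hp
  have hdiff : ∀ k j, ∀ z ∈ O, DifferentiableAt ℝ (iteratedFDeriv ℝ j (F k)) z := fun k j z hz =>
    ((hF k).contDiffAt (hO.mem_nhds hz)).differentiableAt_iteratedFDeriv
      (by exact_mod_cast ENat.natCast_lt_top j)
  have step : ∀ j : ℕ, (∀ y ∈ O, Tendsto (fun k => iteratedFDeriv ℝ j (F k) y) atTop (𝓝 (p y j))) →
      ∀ y ∈ O, Tendsto (fun k => iteratedFDeriv ℝ (j + 1) (F k) y) atTop (𝓝 (p y (j + 1))) ∧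
        HasFDerivAt (fun z => p z j) (p y (j + 1)).curryLeft y := by
    intro j ih y hy
    obtain ⟨r, hr, hrO⟩ := Metric.isOpen_iff.1 hO y hy
    obtain ⟨C, k0, hC⟩ := hb (j + 2)
    obtain ⟨L, hL1, hL2⟩ := sscp_step (Y := E d [×j]→L[ℝ] ℝ) (B := Metric.ball y r) Metric.isOpen_ball
      (convex_ball y r) (u := fun k => iteratedFDeriv ℝ j (F k))
      (u' := fun k z => fderiv ℝ (iteratedFDeriv ℝ j (F k)) z) (a := fun z => p z j) (C := |C|)
      (abs_nonneg C) (k0 := k0) (fun k z hz => (hdiff k j z (hrO hz)).hasFDerivAt)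
      (fun k hk z hz w hw => by
        rw [fderiv_iteratedFDeriv]
        simp only [Function.comp]
        rw [← LinearIsometryEquiv.map_sub, LinearIsometryEquiv.norm_map]
        exact sscp_lip Metric.isOpen_ball (convex_ball y r) ((hF k).mono hrO)
          (fun v hv => (hC k hk v (hrO hv)).trans (le_abs_self C)) hz hw)
      (fun z hz => ih z (hrO hz)) (Metric.mem_ball_self hr)
    have h3 : Tendsto (fun k => iteratedFDeriv ℝ (j + 1) (F k) y) atTop
        (𝓝 ((continuousMultilinearCurryLeftEquiv ℝ (fun _ : Fin (j + 1) => E d) ℝ).symm L)) :=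
      ((continuousMultilinearCurryLeftEquiv ℝ (fun _ : Fin (j + 1) => E d) ℝ).symm.continuous.tendsto
        L).comp hL1
    have h4 : p y (j + 1) = (continuousMultilinearCurryLeftEquiv ℝ (fun _ : Fin (j + 1) => E d) ℝ).symm L :=
      h3.limUnder_eq
    refine ⟨h4 ▸ h3, ?_⟩
    have h5 : (p y (j + 1)).curryLeft = L := by
      rw [h4]
      exact (continuousMultilinearCurryLeftEquiv ℝ (fun _ : Fin (j + 1) => E d) ℝ).apply_symm_apply L
    rw [h5]
    exact hL2
  have h0 : ∀ y ∈ O, Tendsto (fun k => iteratedFDeriv ℝ 0 (F k) y) atTop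
      (𝓝 ((continuousMultilinearCurryFin0 ℝ (E d) ℝ).symm (G y))) := fun y hy =>
    ((continuousMultilinearCurryFin0 ℝ (E d) ℝ).symm.continuous.tendsto (G y)).comp (hG y hy)
  have hp0 : ∀ y ∈ O, p y 0 = (continuousMultilinearCurryFin0 ℝ (E d) ℝ).symm (G y) := fun y hy =>
    (h0 y hy).limUnder_eq
  have hall : ∀ j : ℕ, ∀ y ∈ O, Tendsto (fun k => iteratedFDeriv ℝ j (F k) y) atTop (𝓝 (p y j)) := by
    intro j
    induction j with
    | zero => exact fun y hy => hp0 y hy ▸ h0 y hy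
    | succ j ih => exact fun y hy => (step j ih y hy).1
  have hT : HasFTaylorSeriesUpToOn ((⊤ : ℕ∞) : WithTop ℕ∞) G p O := by
    refine ⟨fun y hy => ?_, fun m _ y hy => (step m (hall m) y hy).2.hasFDerivWithinAt,
      fun m _ y hy => (step m (hall m) y hy).2.continuousAt.continuousWithinAt⟩
    rw [hp0 y hy]
    rfl
  refine ⟨hT.contDiffOn, fun j y hy => ?_⟩
  have h6 := hT.eq_iteratedFDerivWithin_of_uniqueDiffOn (m := j)
    (by exact_mod_cast le_top) hO.uniqueDiffOn hy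
  rw [iteratedFDerivWithin_of_isOpen j hO hy] at h6
  exact h6 ▸ hall j y hy

end Claimed.Agent.R315
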