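import Claimed.Agent.R315.Pack011

/-!
# Row 315, paper S: package SS-EXT-2  `sse_compact`, `sse_mfd`, `sse_param`: the double is a compact manifold   (~500 lines)

* `sse_compact`: `sseP` is closed (`M` closed, continuity) and bounded (`|x-a| ≤ R`, `|y| ≤ R`) in the finite dimensional `E N × ℝ` (`Metric.isCompact_of_isClosed_isBounded`).
* `sse_mfd`: `pk_mfd_level` with `Y = Prod.fst ⁻¹' M`, `G z = ‖z.1 - a‖² + z.2² - R²`: at `z = (x,y) ∈ Y`, `G z = 0`, take `(ψ,U)` at `x` and the product parametrisation `pk_param_prod`: `b ↦ (ψ (rm_tl n b), b 0)`.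
  `G ∘ Ψ (b) = ‖ψ(rm_tl n b) - a‖² + (b 0)² - R²` is smooth; its derivative in the direction of the `0`-th coordinate is `2y`; if `y = 0` then `‖x-a‖² = R²` and by `SseReg` the derivative in some direction `rm_in`/`rm_J 0 v` is `≠ 0`.
  (`{z | z ∈ Y ∧ G z = 0} = sseP M a R`.)
* `sse_param`: `Ψ = sseI a R ∘ ψ` on `U`, `ψ '' U ⊆ ball a R`: smooth (`Real.sqrt` of a positive smooth function), `fst ∘ Ψ = ψ` ⇒ `dΨ` injective, `Ψ` injective; image `= P ∩ {z | z.1 ∈ O' ∧ 0 < z.2}` where `ψ '' U = M ∩ O'`; the inverse is `invFunOn ψ U ∘ fst` on the image (continuous).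
-/

set_option autoImplicit false
open scoped ContDiff
open Claims.C0499

namespace Claimed.Agent.R315

variable {n N : ℕ}

theorem sse_compact {M : Set (E N)} (hcl : IsClosed M) (a : E N) (R : ℝ) :
    IsCompact (sseP M a R) := by
  have hc : IsClosed (sseP M a R) := by
    have h1 : IsClosed {z : E N × ℝ | z.1 ∈ M} := hcl.preimage continuous_fst
    have h2 : IsClosed {z : E N × ℝ | ‖z.1 - a‖ ^ 2 + z.2 ^ 2 = R ^ 2} :=
      isClosed_eq (by fun_prop) continuous_const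
    exact h1.inter h2
  refine Metric.isCompact_of_isClosed_isBounded hc ?_
  refine (Metric.isBounded_closedBall (x := ((a, 0) : E N × ℝ)) (r := |R|)).subset ?_
  rintro ⟨x, y⟩ ⟨-, h⟩
  simp only at h
  rw [Metric.mem_closedBall, Prod.dist_eq, max_le_iff, dist_eq_norm, Real.dist_eq, sub_zero]
  constructor
  · have h1 : ‖x - a‖ ^ 2 ≤ R ^ 2 := by nlinarith [sq_nonneg y]
    have := sq_le_sq.1 h1
    rwa [abs_of_nonneg (norm_nonneg _)] at this
  · have h1 : y ^ 2 ≤ R ^ 2 := by nlinarith [sq_nonneg ‖x - a‖]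
    exact sq_le_sq.1 h1

theorem sse_aux_tl_in (v : E n) : rm_tl n (rm_in n v) = v := by
  ext i
  rw [rm_tl_apply, rm_in_succ]

theorem sse_mfd {M : Set (E N)} (hM : IsMfd n M) {a : E N} {R : ℝ} (hR : 0 < R)
    (hreg : SseReg n M a (R ^ 2)) : IsMfd n (sseP M a R) := by
  have hset : sseP M a R = {z : E N × ℝ | z ∈ (Prod.fst ⁻¹' M : Set (E N × ℝ)) ∧
      (fun z : E N × ℝ => ‖z.1 - a‖ ^ 2 + z.2 ^ 2 - R ^ 2) z = 0} := by
    ext z
    constructor
    · rintro ⟨h1, h2⟩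
      exact ⟨h1, by show ‖z.1 - a‖ ^ 2 + z.2 ^ 2 - R ^ 2 = 0; rw [h2, sub_self]⟩
    · rintro ⟨h1, h2⟩
      exact ⟨h1, sub_eq_zero.1 h2⟩
  rw [hset]
  apply pk_mfd_level
  rintro ⟨x, y⟩ hx hG
  simp only at hG
  obtain ⟨ψ, U, hψ, u, hu, rfl⟩ := hM x hx
  have hmemU : rm_tl n (rm_J y u) ∈ U := by rw [rm_tl_J]; exact hu
  refine ⟨_, _, rm_J y u, pk_param_prod hψ, hmemU, ?_, ?_, ?_⟩
  · show (ψ (rm_tl n (rm_J y u)), rm_J y u 0) = (ψ u, y)
    rw [rm_tl_J, rm_J_zero]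
  · show ContDiffOn ℝ ∞ (fun b : E (n + 1) => ‖ψ (rm_tl n b) - a‖ ^ 2 + (b 0) ^ 2 - R ^ 2)
      {b | rm_tl n b ∈ U}
    have h1 : ContDiffOn ℝ ∞ (fun b : E (n + 1) => ψ (rm_tl n b)) {b | rm_tl n b ∈ U} :=
      (if_smooth hψ).comp (rm_tl n).contDiff.contDiffOn fun b hb => hb
    have h2 : ContDiffOn ℝ ∞ (fun b : E (n + 1) => b 0) {b | rm_tl n b ∈ U} :=
      (if_pr (0 : Fin (n + 1))).contDiff.contDiffOn
    exact (((h1.sub contDiffOn_const).norm_sq ℝ).add (h2.pow 2)).sub contDiffOn_const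
  · set f : E n → ℝ := fun v => ‖ψ v - a‖ ^ 2 with hf
    have hfd : DifferentiableAt ℝ f u :=
      (((if_contDiffAt hψ hu).sub contDiffAt_const).norm_sq ℝ).differentiableAt (by simp)
    have hder : HasFDerivAt (fun b : E (n + 1) => f (rm_tl n b) + (b 0) ^ 2 - R ^ 2)
        ((fderiv ℝ f u).comp (rm_tl n) + (2 * y) • if_pr (0 : Fin (n + 1))) (rm_J y u) := by
      have h1 : HasFDerivAt (fun b : E (n + 1) => f (rm_tl n b))
          ((fderiv ℝ f u).comp (rm_tl n)) (rm_J y u) := by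
        have h0 : HasFDerivAt f (fderiv ℝ f u) (rm_tl n (rm_J y u)) := by
          rw [rm_tl_J]; exact hfd.hasFDerivAt
        exact h0.comp (rm_J y u) (rm_tl n).hasFDerivAt
      have h2 : HasFDerivAt (fun b : E (n + 1) => (b 0) ^ 2)
          ((2 * y) • if_pr (0 : Fin (n + 1))) (rm_J y u) := by
        have := ((if_pr (0 : Fin (n + 1))).hasFDerivAt (x := rm_J y u)).pow 2
        simp only [if_pr_apply, rm_J_zero] at this
        have e : (2 * y) • if_pr (0 : Fin (n + 1)) = (2 • y ^ (2 - 1)) • if_pr (0 : Fin (n + 1)) := by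
          simp
        rw [e]
        exact this
      exact (h1.add h2).sub_const _
    have he : ((fun z : E N × ℝ => ‖z.1 - a‖ ^ 2 + z.2 ^ 2 - R ^ 2) ∘
        fun b : E (n + 1) => (ψ (rm_tl n b), b 0)) =
        fun b : E (n + 1) => f (rm_tl n b) + (b 0) ^ 2 - R ^ 2 := rfl
    rw [he, hder.fderiv]
    intro h0
    by_cases hy : y = 0
    · subst hy
      have h1 : ‖ψ u - a‖ ^ 2 = R ^ 2 := by
        have : ‖ψ u - a‖ ^ 2 + (0 : ℝ) ^ 2 - R ^ 2 = 0 := hG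
        linarith
      apply hreg ψ U hψ u hu h1
      ext v
      have := congrArg (fun L : E (n + 1) →L[ℝ] ℝ => L (rm_in n v)) h0
      simpa [sse_aux_tl_in] using this
    · have := congrArg (fun L : E (n + 1) →L[ℝ] ℝ => L (eb 0)) h0
      simp [rm_tl_eb0] at this
      exact hy this

theorem sse_mem {M : Set (E N)} {a : E N} {R : ℝ} {x : E N} (hx : x ∈ M)
    (hxa : x ∈ Metric.ball a R) : sseI a R x ∈ sseP M a R := by
  refine ⟨hx, ?_⟩
  show ‖x - a‖ ^ 2 + (Real.sqrt (R ^ 2 - ‖x - a‖ ^ 2)) ^ 2 = R ^ 2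
  rw [Metric.mem_ball, dist_eq_norm] at hxa
  have h0 : 0 ≤ R ^ 2 - ‖x - a‖ ^ 2 := by nlinarith [norm_nonneg (x - a)]
  rw [Real.sq_sqrt h0]
  ring

theorem sse_param {M : Set (E N)} {a : E N} {R : ℝ} {ψ : E n → E N} {U : Set (E n)}
    (hψ : IsParam M ψ U) (hsub : ψ '' U ⊆ Metric.ball a R) :
    IsParam (sseP M a R) (sseI a R ∘ ψ) U := by
  obtain ⟨O', hO', hOe⟩ := if_image hψ
  have hpos : ∀ u ∈ U, 0 < R ^ 2 - ‖ψ u - a‖ ^ 2 := by
    intro u hu
    have := hsub (Set.mem_image_of_mem ψ hu)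
    rw [Metric.mem_ball, dist_eq_norm] at this
    nlinarith [norm_nonneg (ψ u - a)]
  have hsq : ∀ u ∈ U, ContDiffAt ℝ ∞ (fun u => Real.sqrt (R ^ 2 - ‖ψ u - a‖ ^ 2)) u := by
    intro u hu
    exact (contDiffAt_const.sub (((if_contDiffAt hψ hu).sub contDiffAt_const).norm_sq ℝ)).sqrt
      (hpos u hu).ne'
  have hder : ∀ u ∈ U, HasFDerivAt (sseI a R ∘ ψ) ((fderiv ℝ ψ u).prod
      (fderiv ℝ (fun u => Real.sqrt (R ^ 2 - ‖ψ u - a‖ ^ 2)) u)) u := by
    intro u hu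
    exact (if_differentiableAt hψ hu).hasFDerivAt.prodMk
      ((hsq u hu).differentiableAt (by simp)).hasFDerivAt
  refine pk_param_mk (O := {z : E N × ℝ | z.1 ∈ O' ∧ 0 < z.2})
    (g := fun z : E N × ℝ => Function.invFunOn ψ U z.1) (if_open hψ) ?_ ?_ ?_ ?_ ?_ ?_
  · intro u hu
    exact ((if_contDiffAt hψ hu).prodMk (hsq u hu)).contDiffWithinAt
  · intro u hu v w hvw
    rw [(hder u hu).fderiv] at hvw
    exact if_imm hψ hu (congrArg Prod.fst hvw)
  · exact (hO'.preimage continuous_fst).inter (isOpen_lt continuous_const continuous_snd)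
  · ext z
    constructor
    · rintro ⟨u, hu, rfl⟩
      have h1 : ψ u ∈ M ∩ O' := hOe ▸ Set.mem_image_of_mem ψ hu
      exact ⟨sse_mem h1.1 (hsub (Set.mem_image_of_mem ψ hu)), h1.2, Real.sqrt_pos.2 (hpos u hu)⟩
    · rintro ⟨⟨h1, h2⟩, h3, h4⟩
      have : z.1 ∈ ψ '' U := hOe ▸ (⟨h1, h3⟩ : z.1 ∈ M ∩ O')
      obtain ⟨u, hu, hue⟩ := this
      refine ⟨u, hu, Prod.ext hue ?_⟩
      show Real.sqrt (R ^ 2 - ‖ψ u - a‖ ^ 2) = z.2
      rw [hue, ← h2, add_sub_cancel_left, Real.sqrt_sq h4.le]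
  · refine (if_contInv hψ).comp continuous_fst.continuousOn ?_
    rintro _ ⟨u, hu, rfl⟩
    exact Set.mem_image_of_mem ψ hu
  · intro u hu
    exact if_leftInv hψ hu

end Claimed.Agent.R315
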