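import Claimed.Agent.R315.Pack010
import Claimed.Agent.R315.Pack009
import Claimed.Agent.R315.Pack003

/-!
# Row 315, paper S: transfer of the divergence operator along the closed extension (PROVED; uses `If/Iso.lean`, `If/Loc.lean`, `If/Germ.lean` of helper274)
-/

set_option autoImplicit false
open scoped ContDiff Topology
open Claims.C0499

namespace Claimed.Agent.R315

variable {V : Type} [NormedAddCommGroup V] [NormedSpace ℝ V] [FiniteDimensional ℝ V]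
variable {V' : Type} [NormedAddCommGroup V'] [NormedSpace ℝ V'] [FiniteDimensional ℝ V']

section
variable {n : ℕ} {M : Set V} {h : Ten V} {P : Set V'} {H : Ten V'} {ι : V → V'} {O : Set V}

theorem ss_tr_sq (hO : IsOpen O) (hι : if_LocIso n (M ∩ O) h P H ι) (hH : IsMetricOn n P H)
    {Uf : V' → ℝ} (hU : SmoothAlong n P Uf) {u : V → ℝ} (hu : ∀ y ∈ M ∩ O, u y = Uf (ι y))
    {x : V} (hx : x ∈ M ∩ O) : gradSq n M h u x = gradSq n P H Uf (ι x) := by
  rw [hι.gradSq hH hU hx, if_gradSq_inter' h _ hO hx.2]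
  exact if_gradSq_congr (hO.mem_nhds hx.2) (fun _ _ => rfl) hu

theorem ss_tr_ip (hO : IsOpen O) (hι : if_LocIso n (M ∩ O) h P H ι) (hH : IsMetricOn n P H)
    {Uf Kf : V' → ℝ} (hU : SmoothAlong n P Uf) (hK : SmoothAlong n P Kf) {u k : V → ℝ}
    (hu : ∀ y ∈ M ∩ O, u y = Uf (ι y)) (hk : ∀ y ∈ M ∩ O, k y = Kf (ι y))
    {x : V} (hx : x ∈ M ∩ O) : gradIp n M h u k x = gradIp n P H Uf Kf (ι x) := by
  rw [hι.gradIp hH hU hK hx, if_gradIp_inter' h _ _ hO hx.2]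
  exact if_gradIp_congr (hO.mem_nhds hx.2) (fun _ _ => rfl) hu hk

theorem ss_tr_lap (hO : IsOpen O) (hι : if_LocIso n (M ∩ O) h P H ι) (hH : IsMetricOn n P H)
    {Uf : V' → ℝ} (hU : SmoothAlong n P Uf) {u : V → ℝ} (hu : ∀ y ∈ M ∩ O, u y = Uf (ι y))
    {x : V} (hx : x ∈ M ∩ O) : lap n M h u x = lap n P H Uf (ι x) := by
  rw [hι.lap hH hU hx, if_lap_inter' h _ hO hx.2]
  exact if_lap_congr (hO.mem_nhds hx.2) (fun _ _ => rfl) hu

/-- transfer of `ssDiv`. -/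
theorem ss_tr_div (hO : IsOpen O) (hι : if_LocIso n (M ∩ O) h P H ι) (hH : IsMetricOn n P H)
    {T Uf : V' → ℝ} (hT : SmoothAlong n P T) (hU : SmoothAlong n P Uf) {t u : V → ℝ}
    (ht : ∀ y ∈ M ∩ O, t y = T (ι y)) (hu : ∀ y ∈ M ∩ O, u y = Uf (ι y)) (fl : ℝ → ℝ)
    {x : V} (hx : x ∈ M ∩ O) : ssDiv n M h t fl u x = ssDiv n P H T fl Uf (ι x) := by
  unfold ssDiv
  rw [ss_tr_sq hO hι hH hU hu hx, ss_tr_lap hO hι hH hU hu hx, ss_tr_ip hO hι hH hT hU ht hu hx,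
    ss_tr_ip hO hι hH (if_gradSq_smoothAlong hH hU) hU
      (fun y hy => ss_tr_sq hO hι hH hU hu hy) hu hx]

end

end Claimed.Agent.R315
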