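import Claimed.Agent.R315.Ss.LsLinDefs
import Claimed.Agent.R315.Pack008

/-!
# Row 315, paper S: package LS-FORM-A (#9783) `ls_lapC_form`, `ls_linC_form`

LEVEL 0 `ls_l0` (self-adjoint): `Δ_{ĥ,t̂} z - z = F` on a closed manifold, from `gs_solve` (`Gs/Solve.lean`, helper209).
LEVEL 1 `ls_l1` (general linear): `Δ_{ĥ,t̂} u + Y u - u = f`, `Y` any smooth first order operator (`LsFirst`), from `ls_main` with `T v = (Δ_{ĥ,t̂} - 1)⁻¹ (f - Y v)`.
LEVEL 2 `ss_ql` (`Ss/LsPf.lean`): `div_{h,t}(fl(σ)∇u) = b(x,u,σ)`, from `ls_main` with `T v = u`, `ssLin v u - u = b(x,v,σ_v) - v`,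
   `ssLin v u = fl(σ_v) Δu + 2 fl'(σ_v) Hess u(∇v,∇v) - fl(σ_v)⟨dt,du⟩`,  `Hess u(∇v,∇v) = ⟨d⟨dv,du⟩,dv⟩ - ½⟨dσ_v,du⟩` (checked numerically),  `ssLin u u = ssDiv u`.
   The frozen operator is `Δ_{ĥ_v} + Y_v`, `ĥ_v = lsHv = h/fl - 2fl'/(fl (fl+2σfl')) dv²` (Sherman-Morrison: `ĥ_v⁻¹ = a(dv) = fl h⁻¹ + 2fl' ∇v⊗∇v`), `Y_v u := ssLin v u - Δ_{ĥ_v} u` is of first order.

LS-FORM-A `ls_lapC_form`, `ls_linC_form`, `ls_divC_form` (~500 lines): chart formulas.  `rm_lapC_eq` (needs only `C²`: if the `Rm` version asks for `C^∞`, redo its proof or localise), `hessC`;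
  metric compatibility `∂_l ⟨df,dk⟩ = ∑ hessC f l i k^i + ∑ hessC k l i f^i` (from `∂_l G^{ij} = -G^{ia}Γ^j_{la} - G^{ja}Γ^i_{la}`; look for it in `Rm/Eng.lean`, `Rm/Low.lean`: `rm_pdiff_inv`-type lemmas).
-/

set_option autoImplicit false
open scoped ContDiff Topology
open Claims.C0499

namespace Claimed.Agent.R315

variable {V : Type} [NormedAddCommGroup V] [NormedSpace ℝ V]
variable {d m : ℕ}

/-- `A^{ij}∇_{ij}ξ - c⟨dt,dξ⟩ - ξ` in non-divergence form. -/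
theorem ls_op_form {G : rm_MF d} {U : Set (E d)} (hG : rm_Met G U) (t ξ : E d → ℝ)
    (A : Matrix (Fin d) (Fin d) ℝ) (c : ℝ) {y : E d} (hy : y ∈ U) :
    lsOp A (lsB G t A c y) ξ y =
      ∑ i, ∑ j, A i j * hessC G ξ y i j - c * gradIpC G t ξ y - ξ y := by
  unfold lsOp lsB hessC gradIpC
  simp only [mul_sub, sub_mul, neg_mul, Finset.sum_sub_distrib, Finset.sum_neg_distrib]
  have e1 : ∑ k, (∑ i, ∑ j, A i j * christoffel G y k i j) * pdiff ξ k y =
      ∑ i, ∑ j, A i j * ∑ k, christoffel G y k i j * pdiff ξ k y := by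
    simp only [Finset.sum_mul, Finset.mul_sum]
    rw [← rm_sum3_rot (fun i j k => A i j * christoffel G y k i j * pdiff ξ k y)]
    exact Finset.sum_congr rfl fun i _ => Finset.sum_congr rfl fun j _ =>
      Finset.sum_congr rfl fun k _ => by ring
  have e2 : ∑ k, c * (∑ i, (G y)⁻¹ k i * pdiff t i y) * pdiff ξ k y =
      c * ∑ i, ∑ j, (G y)⁻¹ i j * pdiff t i y * pdiff ξ j y := by
    simp only [Finset.sum_mul, Finset.mul_sum]
    rw [Finset.sum_comm]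
    exact Finset.sum_congr rfl fun i _ => Finset.sum_congr rfl fun k _ => by
      rw [rm_inv_symm hG hy k i]; ring
  rw [e1, e2]
  unfold rm_p2
  ring

/-- `Δ_{G,t} ξ` in non-divergence form (`ξ` of class `C²`). -/
theorem ls_lapC_form {G : rm_MF d} {U : Set (E d)} (hG : rm_Met G U) {t ξ : E d → ℝ}
    (ht : ContDiffOn ℝ ∞ t U) (hξ : ContDiffOn ℝ 2 ξ U) {y : E d} (hy : y ∈ U) :
    lapC G ξ y - gradIpC G t ξ y - ξ y = lsOp (G y)⁻¹ (lsB G t (G y)⁻¹ 1 y) ξ y := by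
  rw [ls_op_form hG t ξ _ 1 hy, rm_lapC_eq_pt hG hy (rm_d2 hG.opn hξ hy), one_mul]

/-- the frozen operator in non-divergence form. -/
theorem ls_linC_form {G : rm_MF d} {U : Set (E d)} (hG : rm_Met G U) {t v ξ : E d → ℝ}
    (ht : ContDiffOn ℝ ∞ t U) (hv : ContDiffOn ℝ 2 v U) (hξ : ContDiffOn ℝ 2 ξ U) (fl : ℝ → ℝ)
    {y : E d} (hy : y ∈ U) :
    ssLinC G t fl v ξ y - ξ y
      = lsOp (lsA G fl y fun i => pdiff v i y)
          (lsB G t (lsA G fl y fun i => pdiff v i y) (fl (gradSqC G v y)) y) ξ y := by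
  have hs : (fun i => pdiff v i y) ⬝ᵥ (G y)⁻¹.mulVec (fun i => pdiff v i y) = gradSqC G v y := by
    unfold gradSqC
    simp only [dotProduct, Matrix.mulVec, Finset.mul_sum]
    exact Finset.sum_congr rfl fun i _ => Finset.sum_congr rfl fun j _ => by ring
  have hup : (G y)⁻¹.mulVec (fun i => pdiff v i y) = rm_up G v y := rfl
  rw [ls_op_form hG t ξ _ _ hy]
  unfold ssLinC lsA
  rw [hs, hup, rm_lapC_eq_pt hG hy (rm_d2 hG.opn hξ hy),
    rm_ip_ip hG hy (rm_d2 hG.opn hv hy) (rm_d2 hG.opn hξ hy), rm_ip_sq hG hy (rm_d2 hG.opn hv hy),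
    rm_hs_comm hG hy hv (rm_up G v y) (rm_up G ξ y)]
  simp only [Matrix.add_apply, Matrix.smul_apply, Matrix.vecMulVec_apply, smul_eq_mul, add_mul,
    Finset.sum_add_distrib]
  have e1 : ∑ i, ∑ j, fl (gradSqC G v y) * (G y)⁻¹ i j * hessC G ξ y i j =
      fl (gradSqC G v y) * ∑ i, ∑ j, (G y)⁻¹ i j * hessC G ξ y i j := by
    simp only [Finset.mul_sum]
    exact Finset.sum_congr rfl fun i _ => Finset.sum_congr rfl fun j _ => by ring
  have e2 : ∑ i, ∑ j, 2 * deriv fl (gradSqC G v y) * (rm_up G v y i * rm_up G v y j) *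
      hessC G ξ y i j = 2 * deriv fl (gradSqC G v y) * rm_hs G ξ y (rm_up G v y) (rm_up G v y) := by
    unfold rm_hs
    simp only [Finset.mul_sum]
    exact Finset.sum_congr rfl fun i _ => Finset.sum_congr rfl fun j _ => by ring
  rw [e1, e2]
  ring

end Claimed.Agent.R315
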