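import Claimed.Agent.R315.Pack011
import Claimed.Agent.R315.Pack006

/-!
# Row 315, paper S: elementary calculus of `pdiff`, `rm_p2`, `lsOp` versus `iteratedFDeriv` (PROVED)
-/

set_option autoImplicit false
open scoped ContDiff Topology
open Claims.C0499

namespace Claimed.Agent.R315

variable {d : ℕ}

theorem ls_norm_eb (i : Fin d) : ‖(EuclideanSpace.single i (1 : ℝ) : E d)‖ = 1 := by
  simp

theorem ls_val_le (f : E d → ℝ) (y : E d) : |f y| = ‖iteratedFDeriv ℝ 0 f y‖ := by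
  rw [norm_iteratedFDeriv_zero, Real.norm_eq_abs]

theorem ls_pdiff_le (f : E d → ℝ) (i : Fin d) (y : E d) :
    |pdiff f i y| ≤ ‖iteratedFDeriv ℝ 1 f y‖ := by
  rw [norm_iteratedFDeriv_one]
  unfold pdiff
  have := (fderiv ℝ f y).le_opNorm (EuclideanSpace.single i (1 : ℝ))
  rwa [ls_norm_eb, mul_one, Real.norm_eq_abs] at this

theorem ls_p2_eq {f : E d → ℝ} {y : E d} (hf : ContDiffAt ℝ 2 f y) (i j : Fin d) :
    rm_p2 f i j y = fderiv ℝ (fderiv ℝ f) y (EuclideanSpace.single i 1)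
      (EuclideanSpace.single j 1) := by
  have h1 : DifferentiableAt ℝ (fderiv ℝ f) y :=
    (hf.fderiv_right (m := 1) (by norm_num)).differentiableAt (by norm_num)
  unfold rm_p2 pdiff
  have h2 : (fun w => fderiv ℝ f w (EuclideanSpace.single j (1 : ℝ)))
      = fun w => (ContinuousLinearMap.apply ℝ ℝ (EuclideanSpace.single j (1 : ℝ) : E d))
        (fderiv ℝ f w) := rfl
  rw [h2, fderiv_comp' y (ContinuousLinearMap.differentiableAt _) h1]
  simp

theorem ls_p2_le {f : E d → ℝ} {y : E d} (hf : ContDiffAt ℝ 2 f y) (i j : Fin d) :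
    |rm_p2 f i j y| ≤ ‖iteratedFDeriv ℝ 2 f y‖ := by
  have e : ‖iteratedFDeriv ℝ 2 f y‖ = ‖fderiv ℝ (fderiv ℝ f) y‖ := by
    rw [← norm_iteratedFDeriv_one, ← norm_iteratedFDeriv_fderiv]
  rw [e, ls_p2_eq hf]
  have h1 := (fderiv ℝ (fderiv ℝ f) y (EuclideanSpace.single i 1)).le_opNorm
    (EuclideanSpace.single j (1 : ℝ))
  have h2 := (fderiv ℝ (fderiv ℝ f) y).le_opNorm (EuclideanSpace.single i (1 : ℝ))
  rw [ls_norm_eb, mul_one] at h1 h2
  rw [← Real.norm_eq_abs]
  exact h1.trans h2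

theorem ls_p2_sub {f g : E d → ℝ} {y : E d} (hf : ContDiffAt ℝ 2 f y) (hg : ContDiffAt ℝ 2 g y)
    (i j : Fin d) : rm_p2 (fun z => f z - g z) i j y = rm_p2 f i j y - rm_p2 g i j y := by
  have hfd : ∀ᶠ z in 𝓝 y, DifferentiableAt ℝ f z :=
    (hf.eventually (by simp)).mono fun z hz => hz.differentiableAt (by norm_num)
  have hgd : ∀ᶠ z in 𝓝 y, DifferentiableAt ℝ g z :=
    (hg.eventually (by simp)).mono fun z hz => hz.differentiableAt (by norm_num)
  have e : (fun w => pdiff (fun z => f z - g z) j w) =ᶠ[𝓝 y]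
      fun w => pdiff f j w - pdiff g j w := by
    filter_upwards [hfd, hgd] with w h1 h2
    exact rm_pdiff_sub h1 h2
  have d1 : DifferentiableAt ℝ (fun w => pdiff f j w) y := by
    have h1 : DifferentiableAt ℝ (fderiv ℝ f) y :=
      (hf.fderiv_right (m := 1) (by norm_num)).differentiableAt (by norm_num)
    exact h1.clm_apply (differentiableAt_const _)
  have d2 : DifferentiableAt ℝ (fun w => pdiff g j w) y := by
    have h1 : DifferentiableAt ℝ (fderiv ℝ g) y :=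
      (hg.fderiv_right (m := 1) (by norm_num)).differentiableAt (by norm_num)
    exact h1.clm_apply (differentiableAt_const _)
  unfold rm_p2
  rw [rm_pdiff_congr e, rm_pdiff_sub d1 d2]

theorem lsOp_sub (A : Matrix (Fin d) (Fin d) ℝ) (B : Fin d → ℝ) {f g : E d → ℝ} {y : E d}
    (hf : ContDiffAt ℝ 2 f y) (hg : ContDiffAt ℝ 2 g y) :
    lsOp A B (fun z => f z - g z) y = lsOp A B f y - lsOp A B g y := by
  unfold lsOp
  simp only [ls_p2_sub hf hg, rm_pdiff_sub (hf.differentiableAt (by norm_num))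
    (hg.differentiableAt (by norm_num)), mul_sub, Finset.sum_sub_distrib]
  ring

/-- change of the coefficients. -/
theorem lsOp_coef_sub (A A' : Matrix (Fin d) (Fin d) ℝ) (B B' : Fin d → ℝ) (f : E d → ℝ) (y : E d) :
    lsOp A B f y - lsOp A' B' f y
      = ∑ i, ∑ j, (A i j - A' i j) * rm_p2 f i j y + ∑ i, (B i - B' i) * pdiff f i y := by
  unfold lsOp
  simp only [sub_mul, Finset.sum_sub_distrib]
  ring

theorem lsOp_coef_sub_le {A A' : Matrix (Fin d) (Fin d) ℝ} {B B' : Fin d → ℝ} {f : E d → ℝ}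
    {y : E d} {κ R : ℝ} (hκ : 0 ≤ κ) (hA : ∀ i j, |A i j - A' i j| ≤ κ)
    (hB : ∀ i, |B i - B' i| ≤ κ) (h2 : ∀ i j, |rm_p2 f i j y| ≤ R) (h1 : ∀ i, |pdiff f i y| ≤ R) :
    |lsOp A B f y - lsOp A' B' f y| ≤ ((d : ℝ) * d + d) * (κ * R) := by
  rw [lsOp_coef_sub]
  have e1 : |∑ i, ∑ j, (A i j - A' i j) * rm_p2 f i j y| ≤ (d : ℝ) * d * (κ * R) := by
    calc |∑ i, ∑ j, (A i j - A' i j) * rm_p2 f i j y|
        ≤ ∑ i : Fin d, ∑ j : Fin d, κ * R := by
          refine (Finset.abs_sum_le_sum_abs _ _).trans (Finset.sum_le_sum fun i _ => ?_)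
          refine (Finset.abs_sum_le_sum_abs _ _).trans (Finset.sum_le_sum fun j _ => ?_)
          rw [abs_mul]
          exact mul_le_mul (hA i j) (h2 i j) (abs_nonneg _) hκ
      _ = (d : ℝ) * d * (κ * R) := by simp; ring
  have e2 : |∑ i, (B i - B' i) * pdiff f i y| ≤ (d : ℝ) * (κ * R) := by
    calc |∑ i, (B i - B' i) * pdiff f i y| ≤ ∑ i : Fin d, κ * R := by
          refine (Finset.abs_sum_le_sum_abs _ _).trans (Finset.sum_le_sum fun i _ => ?_)
          rw [abs_mul]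
          exact mul_le_mul (hB i) (h1 i) (abs_nonneg _) hκ
      _ = (d : ℝ) * (κ * R) := by simp
  calc _ ≤ _ := abs_add_le _ _
    _ ≤ (d : ℝ) * d * (κ * R) + (d : ℝ) * (κ * R) := add_le_add e1 e2
    _ = _ := by ring

end Claimed.Agent.R315
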