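import Claimed.Agent.R315.Ss.LsNorm
import Claimed.Agent.R315.Ss.LsOpCalc

/-!
# Row 315, paper S: tools for LS-LIMIT (#9780): Cauchy subsequences, limits in `C^n`; NO sorry here
-/

set_option autoImplicit false
open scoped ContDiff Topology
open Claims.C0499 Filter

namespace Claimed.Agent.R315

/-- a copy of `ℕ` which carries an ad hoc pseudo-metric. -/
structure LsIdx where
  n : ℕ

/-- a sequence which is totally bounded for a pseudo-distance has a Cauchy subsequence. -/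
theorem ls_cauchy_subseq (D : ℕ → ℕ → ℝ) (h0 : ∀ i, D i i = 0) (hs : ∀ i j, D i j = D j i)
    (ht : ∀ i j k, D i k ≤ D i j + D j k)
    (htb : ∀ ε > 0, ∃ s : Finset ℕ, ∀ i, ∃ j ∈ s, D i j ≤ ε) :
    ∃ ν : ℕ → ℕ, StrictMono ν ∧ ∀ ε > 0, ∃ k0, ∀ k ≥ k0, ∀ l ≥ k0, D (ν k) (ν l) ≤ ε := by
  letI : PseudoMetricSpace LsIdx :=
    { dist := fun a b => D a.n b.n
      dist_self := fun a => h0 a.n
      dist_comm := fun a b => hs a.n b.n
      dist_triangle := fun a b c => ht a.n b.n c.n }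
  have htot : TotallyBounded (Set.univ : Set LsIdx) := by
    rw [Metric.totallyBounded_iff]
    intro ε hε
    obtain ⟨s, hs'⟩ := htb (ε / 2) (by positivity)
    refine ⟨(fun n => LsIdx.mk n) '' (s : Set ℕ), (s.finite_toSet).image _, fun a _ => ?_⟩
    obtain ⟨j, hj, hD⟩ := hs' a.n
    simp only [Set.mem_iUnion]
    refine ⟨⟨j⟩, ⟨j, hj, rfl⟩, ?_⟩
    show D a.n j < ε
    linarith
  have hcomp : IsCompact (Set.univ : Set (UniformSpace.Completion LsIdx)) := by
    have h1 : TotallyBounded (Set.range ((↑) : LsIdx → UniformSpace.Completion LsIdx)) := by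
      rw [← Set.image_univ]
      exact htot.image (UniformSpace.Completion.uniformContinuous_coe _)
    have h2 := h1.closure
    rw [UniformSpace.Completion.denseRange_coe.closure_range] at h2
    exact h2.isCompact_of_isClosed isClosed_univ
  obtain ⟨a, -, ν, hν, hlim⟩ := hcomp.tendsto_subseq
    (x := fun k => ((⟨k⟩ : LsIdx) : UniformSpace.Completion LsIdx)) (fun _ => Set.mem_univ _)
  have hcs : CauchySeq (fun k => (⟨ν k⟩ : LsIdx)) := by
    have h1 := hlim.cauchySeq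
    unfold CauchySeq at h1 ⊢
    rw [← (UniformSpace.Completion.isUniformInducing_coe LsIdx).cauchy_map_iff, Filter.map_map]
    exact h1
  refine ⟨ν, hν, fun ε hε => ?_⟩
  obtain ⟨N, hN⟩ := Metric.cauchySeq_iff.1 hcs ε hε
  exact ⟨N, fun k hk l hl => (hN k hk l hl).le⟩

variable {E' : Type*} [NormedAddCommGroup E'] [NormedSpace ℝ E']
variable {F : Type*} [NormedAddCommGroup F] [NormedSpace ℝ F]

/-- **limits in `C^n`** on an open set, uniform version. -/
theorem ls_ck_lim [CompleteSpace F] {U : Set E'} (hU : IsOpen U) {u : ℕ → E' → F}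
    {v : E' → F} (n : ℕ) (hu : ∀ k, ContDiffOn ℝ n (u k) U)
    (hlim : ∀ z ∈ U, Tendsto (fun k => u k z) atTop (𝓝 (v z)))
    (hC : ∀ j ≤ n, ∀ ε : ℝ, 0 < ε → ∃ N : ℕ, ∀ a b : ℕ, N ≤ a →
      N ≤ b → ∀ z ∈ U, ‖iteratedFDeriv ℝ j (u a) z - iteratedFDeriv ℝ j (u b) z‖ ≤ ε) :
    ContDiffOn ℝ n v U ∧ ∀ j ≤ n, ∀ ε : ℝ, 0 < ε → ∃ N : ℕ, ∀ a : ℕ, N ≤ a → ∀ z ∈ U,
      ‖iteratedFDeriv ℝ j (u a) z - iteratedFDeriv ℝ j v z‖ ≤ ε := by
  classical
  have hex : ∀ k : ℕ, k ≤ n → ∀ z ∈ U, ∃ L : E' [×k]→L[ℝ] F,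
      Tendsto (fun i => iteratedFDeriv ℝ k (u i) z) atTop (𝓝 L) := by
    intro k hk z hz
    refine cauchySeq_tendsto_of_complete ?_
    rw [Metric.cauchySeq_iff]
    intro ε hε
    obtain ⟨N, hN⟩ := hC k hk (ε / 2) (by positivity)
    exact ⟨N, fun a ha b hb => by
      rw [dist_eq_norm]; exact (hN a b ha hb z hz).trans_lt (by linarith)⟩
  let P : E' → FormalMultilinearSeries ℝ E' F := fun z k =>
    if h : k ≤ n ∧ z ∈ U then Classical.choose (hex k h.1 z h.2) else 0
  have hP : ∀ k : ℕ, k ≤ n → ∀ z ∈ U,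
      Tendsto (fun i => iteratedFDeriv ℝ k (u i) z) atTop (𝓝 (P z k)) := by
    intro k hk z hz
    simp only [P, dif_pos (And.intro hk hz)]
    exact Classical.choose_spec (hex k hk z hz)
  have hunif : ∀ k : ℕ, k ≤ n → ∀ ε : ℝ, 0 < ε → ∃ N : ℕ, ∀ a : ℕ,
      N ≤ a → ∀ z ∈ U, ‖iteratedFDeriv ℝ k (u a) z - P z k‖ ≤ ε := by
    intro k hk ε hε
    obtain ⟨N, hN⟩ := hC k hk ε hε
    refine ⟨N, fun a ha z hz => ?_⟩
    have h1 : Tendsto (fun b => ‖iteratedFDeriv ℝ k (u a) z - iteratedFDeriv ℝ k (u b) z‖) atTop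
        (𝓝 ‖iteratedFDeriv ℝ k (u a) z - P z k‖) :=
      (tendsto_const_nhds.sub (hP k hk z hz)).norm
    refine le_of_tendsto h1 ?_
    filter_upwards [eventually_ge_atTop N] with b hb using hN a b ha hb z hz
  have htu : ∀ k : ℕ, k ≤ n →
      TendstoUniformlyOn (fun i => iteratedFDeriv ℝ k (u i)) (fun y => P y k) atTop U := by
    intro k hk
    rw [Metric.tendstoUniformlyOn_iff]
    intro ε hε
    obtain ⟨N, hN⟩ := hunif k hk (ε / 2) (by positivity)
    filter_upwards [eventually_ge_atTop N] with a ha y hy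
    rw [dist_comm, dist_eq_norm]
    exact (hN a ha y hy).trans_lt (by linarith)
  have hder : ∀ k : ℕ, k < n → ∀ z ∈ U, HasFDerivAt (fun y => P y k) (P z (k + 1)).curryLeft z := by
    intro k hk z hz
    refine hasFDerivAt_of_tendstoUniformlyOn (l := atTop)
      (f := fun i => iteratedFDeriv ℝ k (u i))
      (f' := fun i y => (iteratedFDeriv ℝ (k + 1) (u i) y).curryLeft)
      (g' := fun y => (P y (k + 1)).curryLeft) hU ?_ ?_ (fun y hy => hP k hk.le y hy) hz
    · rw [Metric.tendstoUniformlyOn_iff]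
      intro ε hε
      obtain ⟨N, hN⟩ := hunif (k + 1) hk (ε / 2) (by positivity)
      filter_upwards [eventually_ge_atTop N] with a ha y hy
      rw [dist_comm, dist_eq_norm]
      have e : (iteratedFDeriv ℝ (k + 1) (u a) y).curryLeft - (P y (k + 1)).curryLeft
          = (continuousMultilinearCurryLeftEquiv ℝ (fun _ : Fin (k + 1) => E') F)
            (iteratedFDeriv ℝ (k + 1) (u a) y - P y (k + 1)) :=
        ((continuousMultilinearCurryLeftEquiv ℝ (fun _ : Fin (k + 1) => E') F).map_sub _ _).symm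
      rw [e, LinearIsometryEquiv.norm_map]
      exact (hN a ha y hy).trans_lt (by linarith)
    · intro i y hy
      have h1 := ((hu i).contDiffAt (hU.mem_nhds hy)).differentiableAt_iteratedFDeriv (m := k)
        (by exact_mod_cast hk)
      have h2 := h1.hasFDerivAt
      rw [fderiv_iteratedFDeriv] at h2
      exact h2
  have hT : HasFTaylorSeriesUpToOn (n : ℕ∞) v P U := by
    refine ⟨fun z hz => ?_, fun k hk z hz =>
      (hder k (by exact_mod_cast hk) z hz).hasFDerivWithinAt, fun k hk => ?_⟩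
    · have h1 := ((ContinuousMultilinearMap.apply ℝ (fun _ : Fin 0 => E') F 0).continuous.tendsto
        _).comp (hP 0 (Nat.zero_le _) z hz)
      have h2 : Tendsto (fun i => u i z) atTop (𝓝 (P z 0 0)) := by
        refine h1.congr fun i => ?_
        simp [iteratedFDeriv_zero_apply]
      exact tendsto_nhds_unique h2 (hlim z hz)
    · have hk' : k ≤ n := by exact_mod_cast hk
      refine (htu k hk').continuousOn (Frequently.of_forall fun i => ?_)
      have := (hu i).continuousOn_iteratedFDerivWithin (m := k) (by exact_mod_cast hk')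
        hU.uniqueDiffOn
      exact this.congr fun y hy => (iteratedFDerivWithin_of_isOpen k hU hy).symm
  refine ⟨by exact_mod_cast hT.contDiffOn, fun j hj ε hε => ?_⟩
  obtain ⟨N, hN⟩ := hunif j hj ε hε
  refine ⟨N, fun a ha z hz => ?_⟩
  have h1 := hT.eq_iteratedFDerivWithin_of_uniqueDiffOn (m := j)
    (by exact_mod_cast hj) hU.uniqueDiffOn hz
  rw [iteratedFDerivWithin_of_isOpen j hU hz] at h1
  rw [← h1]
  exact hN a ha z hz

variable {d : ℕ}

theorem ls_pdiff_it (f : E d → ℝ) (i : Fin d) (y : E d) :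
    pdiff f i y = iteratedFDeriv ℝ 1 f y (fun _ => EuclideanSpace.single i (1 : ℝ)) := by
  rw [iteratedFDeriv_one_apply]
  rfl

theorem ls_p2_it {f : E d → ℝ} {y : E d} (hf : ContDiffAt ℝ 2 f y) (i j : Fin d) :
    rm_p2 f i j y = iteratedFDeriv ℝ 2 f y
      ![EuclideanSpace.single i (1 : ℝ), EuclideanSpace.single j (1 : ℝ)] := by
  rw [iteratedFDeriv_two_apply, ls_p2_eq hf]
  rfl

theorem ls_val_it (f : E d → ℝ) (y : E d) : f y = iteratedFDeriv ℝ 0 f y 0 := by
  rw [iteratedFDeriv_zero_apply]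

theorem ls_tendsto_val {f : ℕ → E d → ℝ} {g : E d → ℝ} {y : E d}
    (h : Tendsto (fun k => iteratedFDeriv ℝ 0 (f k) y) atTop (𝓝 (iteratedFDeriv ℝ 0 g y))) :
    Tendsto (fun k => f k y) atTop (𝓝 (g y)) := by
  have h1 := ((ContinuousMultilinearMap.apply ℝ (fun _ : Fin 0 => E d) ℝ 0).continuous.tendsto
    _).comp h
  rw [ls_val_it g y]
  exact h1.congr fun k => (ls_val_it (f k) y).symm

theorem ls_tendsto_pdiff {f : ℕ → E d → ℝ} {g : E d → ℝ} {y : E d}
    (h : Tendsto (fun k => iteratedFDeriv ℝ 1 (f k) y) atTop (𝓝 (iteratedFDeriv ℝ 1 g y)))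
    (i : Fin d) : Tendsto (fun k => pdiff (f k) i y) atTop (𝓝 (pdiff g i y)) := by
  have h1 := ((ContinuousMultilinearMap.apply ℝ (fun _ : Fin 1 => E d) ℝ
    (fun _ => EuclideanSpace.single i (1 : ℝ))).continuous.tendsto _).comp h
  rw [ls_pdiff_it g i y]
  exact h1.congr fun k => (ls_pdiff_it (f k) i y).symm

theorem ls_tendsto_p2 {f : ℕ → E d → ℝ} {g : E d → ℝ} {y : E d}
    (hf : ∀ k, ContDiffAt ℝ 2 (f k) y) (hg : ContDiffAt ℝ 2 g y)
    (h : Tendsto (fun k => iteratedFDeriv ℝ 2 (f k) y) atTop (𝓝 (iteratedFDeriv ℝ 2 g y)))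
    (i j : Fin d) : Tendsto (fun k => rm_p2 (f k) i j y) atTop (𝓝 (rm_p2 g i j y)) := by
  have h1 := ((ContinuousMultilinearMap.apply ℝ (fun _ : Fin 2 => E d) ℝ
    ![EuclideanSpace.single i (1 : ℝ), EuclideanSpace.single j (1 : ℝ)]).continuous.tendsto
    _).comp h
  rw [ls_p2_it hg i j]
  exact h1.congr fun k => (ls_p2_it (hf k) i j).symm

theorem lsOp_smul_of_jet (A : Matrix (Fin d) (Fin d) ℝ) (B : Fin d → ℝ) {f g : E d → ℝ} {y : E d}
    {c : ℝ} (hf : ContDiffAt ℝ 2 f y) (hg : ContDiffAt ℝ 2 g y)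
    (h : ∀ j ≤ 2, iteratedFDeriv ℝ j g y = c • iteratedFDeriv ℝ j f y) :
    lsOp A B g y = c * lsOp A B f y := by
  unfold lsOp
  have e0 : g y = c * f y := by
    rw [ls_val_it g y, h 0 (by norm_num), ls_val_it f y]
    rfl
  have e1 : ∀ i, pdiff g i y = c * pdiff f i y := fun i => by
    rw [ls_pdiff_it g i y, h 1 (by norm_num), ls_pdiff_it f i y]
    rfl
  have e2 : ∀ i j, rm_p2 g i j y = c * rm_p2 f i j y := fun i j => by
    rw [ls_p2_it hg i j, h 2 le_rfl, ls_p2_it hf i j]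
    rfl
  simp only [e0, e1, e2, mul_sub, mul_add, Finset.mul_sum]
  congr 1
  congr 1
  · exact Finset.sum_congr rfl fun i _ => Finset.sum_congr rfl fun j _ => by ring
  · exact Finset.sum_congr rfl fun i _ => by ring

end Claimed.Agent.R315
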