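import Claimed.Agent.R315.Pack011
import Claimed.Agent.R315.Pack010
import Claimed.Agent.R315.Ss.LsFormA
import Claimed.Agent.R315.Ss.LsLimA

/-!
# Row 315, paper S: package SS-GG-AUX  `ss_div_lim`, `ssn_chart_at`   (~350 lines)

* `ss_div_lim`: `pdiff f i y = iteratedFDeriv ℝ 1 f y ![eb i]` (`iteratedFDeriv_one_apply`), `rm_p2 f i j y = iteratedFDeriv ℝ 2 f y ![eb i, eb j]` (`iteratedFDeriv_two_apply`; smoothness), evaluation is continuous, so all `pdiff (f k) i y → pdiff g i y`, `rm_p2 (f k) i j y → rm_p2 g i j y`.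
  Write `ssDivC G t fl u y` as a CONTINUOUS function of `(∂u(y), ∂²u(y))`: non-divergence form `ls_linC_form` + `ls_linC_self` (`LsFormA`, `LsLinDefs`): `ssDivC G t fl u y = ∑ A i j * rm_p2 u i j y + ∑ B k * pdiff u k y`, `A = lsA G fl y (∂u)`, `B = lsB G t A (fl σ) y`
  (then import `Ss/LsFormA.lean`); `fl`, `deriv fl` are continuous at `σ ≥ 0 > -1` (`IsFlux.smooth`).
* `ssn_chart_at`: a parametrisation `(ψ₀,U₀)` at `x = ψ₀ u₀`, `closedBall u₀ r ⊆ U₀`; `ψ z := ψ₀ (u₀ + (r/4) • z)`, `U := {z | u₀ + (r/4) • z ∈ U₀}` (composition of a parametrisation with an affine isomorphism: look for `if_param_comp`-type lemmas in `If/Coord.lean`, `If/Sub.lean`, `T3/Gw.lean` (`t3_gw_chart`), `Pk/`; otherwise unfold `IsParam`).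
-/

set_option autoImplicit false
open scoped ContDiff Topology
open Claims.C0499

namespace Claimed.Agent.R315

variable {V : Type} [NormedAddCommGroup V] [NormedSpace ℝ V]
variable {d : ℕ}

/-- the non-divergence form of `ssDivC` as a polynomial in `(∂u, ∂²u, fl σ, fl' σ)`. -/
noncomputable def ssGgPhi (Gi : Matrix (Fin d) (Fin d) ℝ) (Γ : Fin d → Fin d → Fin d → ℝ)
    (τ : Fin d → ℝ) (z : (Fin d → ℝ) × (Fin d → Fin d → ℝ) × ℝ × ℝ) : ℝ :=
  ∑ i, ∑ j, (z.2.2.1 * Gi i j +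
      2 * z.2.2.2 * ((∑ l, Gi i l * z.1 l) * (∑ l, Gi j l * z.1 l))) * z.2.1 i j
    + ∑ k, (-(∑ i, ∑ j, (z.2.2.1 * Gi i j +
      2 * z.2.2.2 * ((∑ l, Gi i l * z.1 l) * (∑ l, Gi j l * z.1 l))) * Γ k i j)
      - z.2.2.1 * ∑ i, Gi k i * τ i) * z.1 k

theorem ssGgPhi_continuous (Gi : Matrix (Fin d) (Fin d) ℝ) (Γ : Fin d → Fin d → Fin d → ℝ)
    (τ : Fin d → ℝ) : Continuous (ssGgPhi Gi Γ τ) := by
  unfold ssGgPhi
  fun_prop

theorem ssGg_div_eq {G : rm_MF d} {U : Set (E d)} (hG : rm_Met G U) {t u : E d → ℝ}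
    (ht : ContDiffOn ℝ ∞ t U) (hu : ContDiffOn ℝ ∞ u U) (fl : ℝ → ℝ) {y : E d} (hy : y ∈ U) :
    ssDivC G t fl u y = ssGgPhi (G y)⁻¹ (fun k i j => christoffel G y k i j)
      (fun i => pdiff t i y)
      (fun i => pdiff u i y, fun i j => rm_p2 u i j y, fl (gradSqC G u y),
        deriv fl (gradSqC G u y)) := by
  have hu2 : ContDiffOn ℝ 2 u U := hu.of_le (by norm_cast)
  have h1 := ls_linC_form hG ht hu2 hu2 fl hy
  rw [ls_linC_self] at h1
  have hs : (fun i => pdiff u i y) ⬝ᵥ (G y)⁻¹.mulVec (fun i => pdiff u i y) = gradSqC G u y := by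
    unfold gradSqC
    simp only [dotProduct, Matrix.mulVec, Finset.mul_sum]
    exact Finset.sum_congr rfl fun i _ => Finset.sum_congr rfl fun j _ => by ring
  have h2 : ssDivC G t fl u y = lsOp (lsA G fl y fun i => pdiff u i y)
      (lsB G t (lsA G fl y fun i => pdiff u i y) (fl (gradSqC G u y)) y) u y + u y := by
    linarith
  rw [h2]
  unfold lsOp lsB lsA ssGgPhi
  rw [hs]
  simp only [Matrix.add_apply, Matrix.smul_apply, Matrix.vecMulVec_apply, Matrix.mulVec,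
    dotProduct, smul_eq_mul]
  ring

/-- `ssDivC` is continuous in the 2-jet of `u`. -/
theorem ss_div_lim {G : rm_MF d} {U : Set (E d)} (hG : rm_Met G U) {t : E d → ℝ}
    (ht : ContDiffOn ℝ ∞ t U) {fl : ℝ → ℝ} (hfl : IsFlux fl) {f : ℕ → E d → ℝ} {g : E d → ℝ}
    (hf : ∀ k, ContDiffOn ℝ ∞ (f k) U) (hg : ContDiffOn ℝ ∞ g U) {y : E d} (hy : y ∈ U)
    (hlim : ∀ j ≤ 2, Filter.Tendsto (fun k => iteratedFDeriv ℝ j (f k) y) Filter.atTop
      (𝓝 (iteratedFDeriv ℝ j g y))) :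
    Filter.Tendsto (fun k => ssDivC G t fl (f k) y) Filter.atTop (𝓝 (ssDivC G t fl g y)) := by
  have hfy : ∀ k, ContDiffAt ℝ 2 (f k) y := fun k =>
    ((hf k).contDiffAt (hG.opn.mem_nhds hy)).of_le (by norm_cast)
  have hgy : ContDiffAt ℝ 2 g y := (hg.contDiffAt (hG.opn.mem_nhds hy)).of_le (by norm_cast)
  have hp := fun i => ls_tendsto_pdiff (hlim 1 (by norm_num)) i
  have hq := fun i j => ls_tendsto_p2 hfy hgy (hlim 2 le_rfl) i j
  have hs : Filter.Tendsto (fun k => gradSqC G (f k) y) Filter.atTop (𝓝 (gradSqC G g y)) := by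
    unfold gradSqC
    exact tendsto_finsetSum _ fun i _ => tendsto_finsetSum _ fun j _ =>
      (tendsto_const_nhds.mul (hp i)).mul (hp j)
  have hσ : (-1 : ℝ) < gradSqC G g y := by
    have := rm_sq_nonneg hG hy g
    linarith
  have hc1 : ContinuousAt fl (gradSqC G g y) :=
    hfl.smooth.continuousOn.continuousAt (Ioi_mem_nhds hσ)
  have hc2 : ContinuousAt (deriv fl) (gradSqC G g y) :=
    (hfl.smooth.continuousOn_deriv_of_isOpen isOpen_Ioi (by simp)).continuousAt (Ioi_mem_nhds hσ)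
  simp only [ssGg_div_eq hG ht (hf _) fl hy, ssGg_div_eq hG ht hg fl hy]
  refine ((ssGgPhi_continuous _ _ _).tendsto _).comp ?_
  exact Filter.Tendsto.prodMk_nhds (tendsto_pi_nhds.2 hp)
    (Filter.Tendsto.prodMk_nhds (tendsto_pi_nhds.2 fun i => tendsto_pi_nhds.2 (hq i))
      (Filter.Tendsto.prodMk_nhds (hc1.tendsto.comp hs) (hc2.tendsto.comp hs)))

/-- a parametrisation centred at `x` whose domain contains `closedBall 0 4`. -/
theorem ssn_chart_at [FiniteDimensional ℝ V] {n : ℕ} {M : Set V} (hM : IsMfd n M) {x : V}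
    (hx : x ∈ M) :
    ∃ (ψ : E n → V) (U : Set (E n)), IsParam M ψ U ∧ Metric.closedBall 0 4 ⊆ U ∧ ψ 0 = x := by
  obtain ⟨ψ₀, U₀, hψ₀, u₀, hu₀, rfl⟩ := hM x hx
  obtain ⟨r, hr, hball⟩ := Metric.nhds_basis_closedBall.mem_iff.1 ((if_open hψ₀).mem_nhds hu₀)
  set τ : E n → E n := fun z => u₀ + (r / 4) • z with hτ
  have hr4 : 0 < r / 4 := by positivity
  have hτc : ContDiff ℝ ∞ τ := contDiff_const.add (contDiff_id.const_smul (r / 4))
  have hW : IsOpen (τ ⁻¹' U₀) := (if_open hψ₀).preimage hτc.continuous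
  have hd : ∀ w, HasFDerivAt τ ((r / 4) • ContinuousLinearMap.id ℝ (E n)) w := fun w =>
    ((hasFDerivAt_id w).const_smul (r / 4)).const_add u₀
  refine ⟨ψ₀ ∘ τ, τ ⁻¹' U₀, if_comp hψ₀ hW hτc.contDiffOn ?_ ?_ (fun w hw => hw), ?_, ?_⟩
  · intro a _ b _ hab
    simp only [hτ, add_right_inj] at hab
    exact smul_right_injective _ hr4.ne' hab
  · intro w _ a b hab
    rw [(hd w).fderiv] at hab
    simp only [ContinuousLinearMap.coe_smul', ContinuousLinearMap.coe_id', Pi.smul_apply,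
      id_eq] at hab
    exact smul_right_injective _ hr4.ne' hab
  · intro z hz
    apply hball
    rw [Metric.mem_closedBall, dist_zero_right] at hz
    rw [Metric.mem_closedBall, dist_eq_norm]
    simp only [hτ, add_sub_cancel_left]
    rw [norm_smul, Real.norm_of_nonneg hr4.le]
    nlinarith
  · simp [hτ]

end Claimed.Agent.R315
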