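import Claimed.Agent.R315.Ss.GgGrA

/-!
# Row 315, paper S, package SS-GG-GR, part B: the interior gradient bound (prefix `ssgr_`)
Owner: helper39.
-/

set_option autoImplicit false
open scoped ContDiff Topology
open Claims.C0499

namespace Claimed.Agent.R315

variable {d : ℕ}

theorem ssgr_bound {Kc : Set (E d)} (hK : IsCompact Kc) {f : E d → ℝ} (hf : ContinuousOn f Kc) :
    ∃ C : ℝ, 0 ≤ C ∧ ∀ y ∈ Kc, |f y| ≤ C := by
  obtain ⟨C, hC⟩ := hK.exists_bound_of_continuousOn hf
  exact ⟨max C 0, le_max_right _ _, fun y hy => (hC y hy).trans (le_max_left _ _)⟩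

/-- = `ss_gg_grad`. -/
theorem ssgr_grad {G : rm_MF d} {U : Set (E d)} (hG : rm_Met G U) {w : E d → ℝ}
    (hw : ContDiffOn ℝ ∞ w U) {y0 : E d} {R : ℝ} (hR : 0 < R)
    (hB : Metric.closedBall y0 R ⊆ U) (K : ℝ) :
    ∃ C : ℝ, ∀ u : E d → ℝ, ContDiffOn ℝ ∞ u (Metric.ball y0 R) →
      (∀ y ∈ Metric.ball y0 R, |u y| ≤ K) →
      (∀ y ∈ Metric.ball y0 R, ssDivC G w ssG0 u y = 10 * (u y - w y)) →
      ∀ y ∈ Metric.ball y0 (R / 2), gradSqC G u y ≤ C := by
  classical
  let bump : ContDiffBump y0 := ⟨R / 2, 3 * R / 4, by positivity, by linarith⟩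
  set ζ : E d → ℝ := fun z => bump z with hζdef
  have hζs : ContDiff ℝ ∞ ζ := bump.contDiff
  have hKc : IsCompact (Metric.closedBall y0 (3 * R / 4)) := isCompact_closedBall _ _
  have hKB : Metric.closedBall y0 (3 * R / 4) ⊆ Metric.ball y0 R :=
    Metric.closedBall_subset_ball (by linarith)
  have hBU : Metric.ball y0 R ⊆ U := Metric.ball_subset_closedBall.trans hB
  have hKU : Metric.closedBall y0 (3 * R / 4) ⊆ U := hKB.trans hBU
  have hζU : ContDiffOn ℝ ∞ ζ U := hζs.contDiffOn
  obtain ⟨C1, hC1, H1⟩ := rm_bd_chart hG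
    (B := fun z => Matrix.of fun i j => ricciCoord G z i j + hessC G w z i j)
    (fun i j => ((rm_ricci_smooth hG i j).add (rm_hessC_smooth hG hw i j)).continuousOn) hKc hKU
  obtain ⟨CH, hCH, H2⟩ := rm_bd_chart hG (B := fun z => Matrix.of fun i j => hessC G ζ z i j)
    (fun i j => (rm_hessC_smooth hG hζU i j).continuousOn) hKc hKU
  obtain ⟨L1, hL1, H3⟩ := ssgr_bound hKc ((rm_lapC_smooth hG hζU).continuousOn.mono hKU)
  obtain ⟨L2, hL2, H4⟩ := ssgr_bound hKc ((rm_gradIpC_smooth hG hw hζU).continuousOn.mono hKU)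
  obtain ⟨Mw, hMw, H5⟩ := ssgr_bound hKc ((sscm_sq_smooth hG hw).continuousOn.mono hKU)
  obtain ⟨Mζ, hMζ, H6⟩ := ssgr_bound hKc ((sscm_sq_smooth hG hζU).continuousOn.mono hKU)
  obtain ⟨Kw, hKw, H7⟩ := ssgr_bound hKc (hw.continuousOn.mono hKU)
  set A0 : ℝ := (10 + 10 * Real.sqrt Mw + C1 +
    (L1 + L2 + CH + 10 * (K + Kw) * Real.sqrt Mζ)) / 10 with hA0
  refine ⟨(max 1 A0) ^ 2, fun u hu hbd hpde y hy => ?_⟩
  have hGB : rm_Met G (Metric.ball y0 R) :=
    ⟨Metric.isOpen_ball, fun i j => (hG.smooth i j).mono hBU, fun z hz => hG.pos z (hBU hz)⟩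
  have hσs := sscm_sq_smooth hGB hu
  have hσ0 : ∀ z ∈ Metric.ball y0 R, 0 < 1 + gradSqC G u z := fun z hz =>
    ssan_one_add_pos hGB hz u
  -- the maximum of `Φ = ζ √(1+σ)`
  have hΦc : ContinuousOn (fun z => ζ z * Real.sqrt (1 + gradSqC G u z))
      (Metric.closedBall y0 (3 * R / 4)) :=
    hζs.continuous.continuousOn.mul
      (((continuousOn_const.add hσs.continuousOn).mono hKB).sqrt)
  have hne : (Metric.closedBall y0 (3 * R / 4)).Nonempty :=
    ⟨y0, Metric.mem_closedBall_self (by positivity)⟩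
  obtain ⟨y1, hy1, hmax⟩ := hKc.exists_isMaxOn hne hΦc
  set A : ℝ := ζ y1 * Real.sqrt (1 + gradSqC G u y1) with hAdef
  have hmax' : ∀ z ∈ Metric.closedBall y0 (3 * R / 4),
      ζ z * Real.sqrt (1 + gradSqC G u z) ≤ A := fun z hz => hmax hz
  have hone : ∀ z ∈ Metric.closedBall y0 (R / 2), ζ z = 1 := fun z hz =>
    bump.one_of_mem_closedBall hz
  have hsub2 : Metric.closedBall y0 (R / 2) ⊆ Metric.closedBall y0 (3 * R / 4) :=
    Metric.closedBall_subset_closedBall (by linarith)
  have hsq1 : ∀ z ∈ Metric.ball y0 R, 1 ≤ Real.sqrt (1 + gradSqC G u z) := fun z hz => by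
    rw [Real.one_le_sqrt]
    have := rm_sq_nonneg hGB hz u
    linarith
  have hA1 : 1 ≤ A := by
    have h1 := hmax' y0 (Metric.mem_closedBall_self (by positivity))
    rw [hone y0 (Metric.mem_closedBall_self (by positivity)), one_mul] at h1
    exact (hsq1 y0 (Metric.mem_ball_self hR)).trans h1
  have hA0' : 0 < A := by linarith
  have hy1B := hKB hy1
  have hr1 : 0 < Real.sqrt (1 + gradSqC G u y1) := Real.sqrt_pos.2 (hσ0 y1 hy1B)
  have hζ1pos : 0 < ζ y1 := by
    by_contra h
    have h2 : ζ y1 = 0 := le_antisymm (not_lt.1 h) bump.nonneg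
    rw [hAdef, h2, zero_mul] at hA0'
    exact lt_irrefl _ hA0'
  have hy1b : y1 ∈ Metric.ball y0 (3 * R / 4) := by
    have : y1 ∈ Function.support bump := hζ1pos.ne'
    rwa [bump.support_eq] at this
  -- the bound of `A`
  have hAle : A ≤ max 1 A0 := by
    rcases (rm_sq_nonneg hGB hy1B u).eq_or_lt with h0 | hs
    · refine le_trans ?_ (le_max_left _ _)
      rw [hAdef, ← h0, add_zero, Real.sqrt_one, mul_one]
      exact bump.le_one
    · refine le_trans ?_ (le_max_right _ _)
      have hmin : IsLocalMin (fun z => ssG0 (gradSqC G u z) + (-1 / A) * ζ z) y1 := by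
        have e1 : ssG0 (gradSqC G u y1) + (-1 / A) * ζ y1 = 0 := by
          unfold ssG0
          rw [hAdef]
          field_simp
          ring
        filter_upwards [Metric.isOpen_ball.mem_nhds hy1b] with z hz
        rw [e1]
        have hzK := Metric.ball_subset_closedBall hz
        have h1 := hmax' z hzK
        have h2 : 0 < Real.sqrt (1 + gradSqC G u z) := Real.sqrt_pos.2 (hσ0 z (hKB hzK))
        unfold ssG0
        have h3 : ζ z / A ≤ 1 / Real.sqrt (1 + gradSqC G u z) := by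
          rw [div_le_div_iff₀ hA0' h2]; linarith
        have h4 : -1 / A * ζ z = -(ζ z / A) := by ring
        rw [h4]; linarith
      have h00 : ssG0 (gradSqC G u y1) = ζ y1 / A := by
        unfold ssG0
        rw [hAdef]
        field_simp
      have hgr := ssbl_gr_sq hGB hy1B u
      have key := ssgr_point hGB (hw.mono hBU) hu (hζU.mono hBU) hpde hy1B hA0' hmin h00
        bump.le_one hs hC1 hCH (Real.sqrt_nonneg Mw) (Real.sqrt_nonneg Mζ)
        (L1 := L1) (L2 := L2) (Kp := 10 * (K + Kw)) ?_ ?_ (H3 y1 hy1) (H4 y1 hy1)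
        ?_ ?_ ?_
      · rw [hA0, le_div_iff₀ (by norm_num)]
        linarith
      · have := H1 y1 hy1 (ssanGr G u y1)
        rw [hgr] at this
        convert this using 2
        unfold ssRicUU ssHessUU
        rw [← ssan_UU_bil, ← Finset.sum_add_distrib]
        refine Finset.sum_congr rfl fun i _ => ?_
        rw [← Finset.sum_add_distrib]
        exact Finset.sum_congr rfl fun j _ => by ring
      · have := H2 y1 hy1 (ssanGr G u y1)
        rw [hgr] at this
        convert this using 2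
        unfold ssHessUU
        rw [← ssan_UU_bil]
      · rw [Real.sq_sqrt hMw]; exact (le_abs_self _).trans (H5 y1 hy1)
      · rw [Real.sq_sqrt hMζ]; exact (le_abs_self _).trans (H6 y1 hy1)
      · rw [abs_mul]
        have h1 : |u y1 - w y1| ≤ K + Kw :=
          (abs_sub _ _).trans (add_le_add (hbd y1 hy1B) (H7 y1 hy1))
        have : |(10 : ℝ)| = 10 := abs_of_pos (by norm_num)
        rw [this]; linarith
  -- conclusion
  have hyc : y ∈ Metric.closedBall y0 (R / 2) := Metric.ball_subset_closedBall hy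
  have h1 := hmax' y (hsub2 hyc)
  rw [hone y hyc, one_mul] at h1
  have h2 : Real.sqrt (1 + gradSqC G u y) ≤ max 1 A0 := h1.trans hAle
  have h3 : 1 + gradSqC G u y ≤ (max 1 A0) ^ 2 := by
    rw [← Real.sqrt_le_left (le_trans zero_le_one (le_max_left _ _))]
    exact h2
  linarith

end Claimed.Agent.R315
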