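import Claimed.Agent.R315.Ss.Angle
import Claimed.Agent.R315.Ss.GgGrB

/-!
# Row 315, paper S: package SS-GG-GR (#8739) `ss_gg_grad`

Equation (S (3.7)):  `div_{h,w}(∇u/√(1+σ)) = 10 (u - w)`,  flux `ssG0 σ = 1/√(1+σ)`, `ω = ssG0 σ`, `Ĝ = G + du² = ssHuC G (fun _ => 1) u`.

## SS-GG-GR `ss_gg_grad` (S (3.8); ~600 lines).  `ζ0` = `ContDiffBump` (`= 1` on `closedBall y0 (R/2)`, support in `ball y0 (3R/4)`).  `Φ = ζ0/ω` attains its maximum `A ≥ 1` over `closedBall y0 (3R/4)` at `y1`, `ζ0 y1 > 0`.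
 If `σ y1 = 0`: `A ≤ 1`.  Otherwise `f = ω - ζ0/A ≥ 0` near `y1`, `f y1 = 0`: `pdiff f = 0`, `∂²f ≥ 0`, so `Δ_Ĝ f - ⟨dw,df⟩_Ĝ ≥ 0` at `y1` (`rm_lapC_eq`).  `ss_angle` with `p = 10(u-w)` near `y1`:
 `-⟨dp,du⟩/(1+σ) = -10 + 10ω² + 10⟨dw,du⟩ω² ≤ -10 + 10ω² + 10|dw|ω`;  `-ω³(Ric+Hess w)(∇u,∇u) ≤ C₁ ω³σ ≤ C₁ω`;  `ss_graph_lap2` for `ζ0`: `|..| ≤ C₂ = sup(|Δζ0| + |dw||dζ0| + |Hess ζ0| + 10(K+|w|)|dζ0|)`.
 `ω(y1) = ζ0(y1)/A ≤ 1/A`:  `10 ≤ (10 + 10 sup|dw| + C₁ + C₂)/A`.  On `ball y0 (R/2)`: `√(1+σ) = Φ ≤ A`.  All sup's over the compact `closedBall y0 (3R/4)` in the fixed chart.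
-/

set_option autoImplicit false
open scoped ContDiff Topology
open Claims.C0499

namespace Claimed.Agent.R315

variable {V : Type} [NormedAddCommGroup V] [NormedSpace ℝ V]
variable {d : ℕ}

/-- interior gradient bound. -/
theorem ss_gg_grad {G : rm_MF d} {U : Set (E d)} (hG : rm_Met G U) {w : E d → ℝ}
    (hw : ContDiffOn ℝ ∞ w U) {y0 : E d} {R : ℝ} (hR : 0 < R)
    (hB : Metric.closedBall y0 R ⊆ U) (K : ℝ) :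
    ∃ C : ℝ, ∀ u : E d → ℝ, ContDiffOn ℝ ∞ u (Metric.ball y0 R) →
      (∀ y ∈ Metric.ball y0 R, |u y| ≤ K) →
      (∀ y ∈ Metric.ball y0 R, ssDivC G w ssG0 u y = 10 * (u y - w y)) →
      ∀ y ∈ Metric.ball y0 (R / 2), gradSqC G u y ≤ C :=
  ssgr_grad hG hw hR hB K

end Claimed.Agent.R315
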