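import Claimed.Agent.R315.Ss.GgHtA
import Claimed.Agent.R315.Ss.GgGrB

/-!
# Row 315, paper S, package SS-GG-HT, part B: the local height bound (prefix `ssht_`)
Owner: helper39.
-/

set_option autoImplicit false
open scoped ContDiff Topology
open Claims.C0499

namespace Claimed.Agent.R315

variable {d : ℕ}

/-- `ϱ(y) = r² - |y-y0|²`. -/
noncomputable def sshtRho (y0 : E d) (r : ℝ) (y : E d) : ℝ := r ^ 2 - ‖y - y0‖ ^ 2

theorem ssht_rho_smooth (y0 : E d) (r : ℝ) : ContDiff ℝ ∞ (sshtRho y0 r) := by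
  unfold sshtRho
  exact contDiff_const.sub ((contDiff_id.sub contDiff_const).norm_sq ℝ)

theorem ssht_rho_pos {y0 y : E d} {r : ℝ} (hy : y ∈ Metric.ball y0 r) : 0 < sshtRho y0 r y := by
  rw [mem_ball_iff_norm] at hy
  unfold sshtRho
  have := norm_nonneg (y - y0)
  nlinarith

theorem ssht_rho_mem {y0 y : E d} {r : ℝ} (hr : 0 < r) (hy : 0 < sshtRho y0 r y) :
    y ∈ Metric.ball y0 r := by
  rw [mem_ball_iff_norm]
  unfold sshtRho at hy
  have := norm_nonneg (y - y0)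
  nlinarith

theorem ssht_rho_fderiv (y0 : E d) (r : ℝ) (y : E d) :
    fderiv ℝ (sshtRho y0 r) y (y - y0) = -(2 * ‖y - y0‖ ^ 2) := by
  have h1 : HasFDerivAt (fun z : E d => z - y0) (ContinuousLinearMap.id ℝ (E d)) y :=
    (hasFDerivAt_id y).sub_const y0
  have h2 := (h1.norm_sq).const_sub (r ^ 2)
  have e : sshtRho y0 r = fun z => r ^ 2 - ‖z - y0‖ ^ 2 := rfl
  rw [e, h2.fderiv]
  simp only [neg_apply, smul_apply,
    ContinuousLinearMap.comp_apply, ContinuousLinearMap.id_apply, innerSL_apply_apply,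
    real_inner_self_eq_norm_sq]
  rw [two_smul, two_mul]

/-- `P = ϱ⁴ + |dϱ|² > 0`. -/
theorem ssht_P_pos {G : rm_MF d} {U : Set (E d)} (hG : rm_Met G U) {y0 y : E d} {r : ℝ}
    (hr : 0 < r) (hy : y ∈ U) : 0 < sshtRho y0 r y ^ 4 + gradSqC G (sshtRho y0 r) y := by
  have h1 := rm_sq_nonneg hG hy (sshtRho y0 r)
  rcases h1.eq_or_lt with h | h
  · have hp := (rm_sq_eq_zero hG hy (sshtRho y0 r)).1 h.symm
    have h2 : fderiv ℝ (sshtRho y0 r) y (y - y0) = 0 := by
      rw [if_clm_expand]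
      exact Finset.sum_eq_zero fun k _ => by
        have := hp k
        unfold pdiff at this
        rw [this, mul_zero]
    rw [ssht_rho_fderiv] at h2
    have h3 : ‖y - y0‖ ^ 2 = 0 := by linarith
    have h4 : sshtRho y0 r y = r ^ 2 := by unfold sshtRho; rw [h3, sub_zero]
    rw [h4, ← h]
    positivity
  · positivity

/-- the operator is bounded on the barriers. -/
theorem ssht_theta_bd {G : rm_MF d} {U : Set (E d)} (hG : rm_Met G U) {t : E d → ℝ}
    (ht : ContDiffOn ℝ ∞ t U) {y0 : E d} {r : ℝ} (hr : 0 < r) (hB : Metric.closedBall y0 r ⊆ U) :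
    ∃ C : ℝ, 0 ≤ C ∧ ∀ y ∈ Metric.closedBall y0 r, |sshtTheta G t (sshtRho y0 r) y| ≤ C := by
  have hϱ : ContDiffOn ℝ ∞ (sshtRho y0 r) U := (ssht_rho_smooth y0 r).contDiffOn
  have hτ := sscm_sq_smooth hG hϱ
  have hP : ContinuousOn (fun y => sshtRho y0 r y ^ 4 + gradSqC G (sshtRho y0 r) y) U :=
    (hϱ.continuousOn.pow 4).add hτ.continuousOn
  have hsP : ContinuousOn
      (fun y => Real.sqrt (sshtRho y0 r y ^ 4 + gradSqC G (sshtRho y0 r) y)) U := hP.sqrt
  have hc : ContinuousOn (sshtTheta G t (sshtRho y0 r)) U := by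
    unfold sshtTheta
    refine ContinuousOn.add (ContinuousOn.div ?_ hsP fun y hy =>
      (Real.sqrt_pos.2 (ssht_P_pos hG hr hy)).ne') (ContinuousOn.div ?_ (hP.mul hsP) fun y hy =>
      (mul_pos (ssht_P_pos hG hr hy) (Real.sqrt_pos.2 (ssht_P_pos hG hr hy))).ne')
    · exact ((rm_lapC_smooth hG hϱ).continuousOn.sub
        (rm_gradIpC_smooth hG ht hϱ).continuousOn).neg
    · exact ((continuousOn_const.mul (hϱ.continuousOn.pow 3)).mul hτ.continuousOn).add
        ((rm_gradIpC_smooth hG hτ hϱ).continuousOn.div_const 2)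
  exact ssgr_bound (isCompact_closedBall _ _) (hc.mono hB)

/-- one sided height bound; drift `t`, source `w`. -/
theorem ssht_upper {G : rm_MF d} {U : Set (E d)} (hG : rm_Met G U) {t w : E d → ℝ}
    (ht : ContDiffOn ℝ ∞ t U) (hw : ContinuousOn w U) {y0 : E d} {R : ℝ} (hR : 0 < R)
    (hB : Metric.closedBall y0 R ⊆ U) :
    ∃ C : ℝ, ∀ u : E d → ℝ, ContDiffOn ℝ ∞ u (Metric.ball y0 R) →
      (∀ y ∈ Metric.ball y0 R, ssDivC G t ssG0 u y = 10 * (u y - w y)) →
      ∀ y ∈ Metric.ball y0 (R / 2), u y ≤ C := by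
  have hr : 0 < 3 * R / 4 := by positivity
  have hKB : Metric.closedBall y0 (3 * R / 4) ⊆ Metric.ball y0 R :=
    Metric.closedBall_subset_ball (by linarith)
  have hBU : Metric.ball y0 R ⊆ U := Metric.ball_subset_closedBall.trans hB
  have hKU : Metric.closedBall y0 (3 * R / 4) ⊆ U := hKB.trans hBU
  have hKc : IsCompact (Metric.closedBall y0 (3 * R / 4)) := isCompact_closedBall _ _
  obtain ⟨Cb, hCb, H1⟩ := ssht_theta_bd hG ht hr hKU
  obtain ⟨Kw, hKw, H2⟩ := ssgr_bound hKc (hw.mono hKU)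
  set ϱ := sshtRho y0 (3 * R / 4) with hϱdef
  set C0 : ℝ := Kw + Cb / 10 + 1 with hC0
  have hϱs : ContDiff ℝ ∞ ϱ := ssht_rho_smooth _ _
  have hbb : Metric.ball y0 (3 * R / 4) ⊆ Metric.closedBall y0 (3 * R / 4) :=
    Metric.ball_subset_closedBall
  have hGb : rm_Met G (Metric.ball y0 (3 * R / 4)) :=
    ⟨Metric.isOpen_ball, fun i j => (hG.smooth i j).mono (hbb.trans hKU),
      fun z hz => hG.pos z (hKU (hbb hz))⟩
  have hpos : ∀ z ∈ Metric.ball y0 (3 * R / 4), 0 < ϱ z := fun z hz => ssht_rho_pos hz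
  refine ⟨C0 + 16 / (5 * R ^ 2), fun u hu hpde => ?_⟩
  -- the comparison on the ball of radius `3R/4`
  have key : ∀ y ∈ Metric.ball y0 (3 * R / 4), u y ≤ sshtPhi C0 (ϱ y) := by
    by_contra hcon
    simp only [not_forall, not_le] at hcon
    obtain ⟨y2, hy2, hgt⟩ := hcon
    obtain ⟨Mu, hMu, H3⟩ := ssgr_bound hKc (hu.continuousOn.mono hKB)
    set ε : ℝ := (Mu + |C0| + 1)⁻¹ with hε
    have hε0 : 0 < ε := by
      have := abs_nonneg C0
      rw [hε]; positivity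
    have hsmall : ∀ z ∈ Metric.ball y0 (3 * R / 4), ϱ z < ε → u z < sshtPhi C0 (ϱ z) := by
      intro z hz hlt
      have h1 := (le_abs_self _).trans (H3 z (hbb hz))
      have h2 : ε⁻¹ < (ϱ z)⁻¹ := (inv_lt_inv₀ hε0 (hpos z hz)).2 hlt
      rw [hε, inv_inv] at h2
      have h3 := neg_abs_le C0
      unfold sshtPhi
      linarith
    have hKε : IsCompact (Metric.closedBall y0 (3 * R / 4) ∩ {z | ε ≤ ϱ z}) :=
      hKc.inter_right (isClosed_le continuous_const hϱs.continuous)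
    have hgc : ContinuousOn (fun z => u z - sshtPhi C0 (ϱ z))
        (Metric.closedBall y0 (3 * R / 4) ∩ {z | ε ≤ ϱ z}) := by
      refine ((hu.continuousOn.mono hKB).mono Set.inter_subset_left).sub ?_
      unfold sshtPhi
      exact continuousOn_const.add (hϱs.continuous.continuousOn.inv₀ fun z hz =>
        (lt_of_lt_of_le hε0 hz.2).ne')
    have hy2K : y2 ∈ Metric.closedBall y0 (3 * R / 4) ∩ {z | ε ≤ ϱ z} := by
      refine ⟨hbb hy2, ?_⟩
      by_contra h
      exact absurd (hsmall y2 hy2 (not_le.1 h)) (not_lt.2 hgt.le)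
    obtain ⟨y1, hy1, hmax⟩ := hKε.exists_isMaxOn ⟨y2, hy2K⟩ hgc
    have hy1b : y1 ∈ Metric.ball y0 (3 * R / 4) := ssht_rho_mem hr (lt_of_lt_of_le hε0 hy1.2)
    have hg1 : 0 < u y1 - sshtPhi C0 (ϱ y1) := by
      have : u y2 - sshtPhi C0 (ϱ y2) ≤ u y1 - sshtPhi C0 (ϱ y1) := hmax hy2K
      linarith
    have hloc : IsLocalMax (fun z => u z - sshtPhi C0 (ϱ z)) y1 := by
      filter_upwards [Metric.isOpen_ball.mem_nhds hy1b] with z hz
      by_cases hzε : ε ≤ ϱ z
      · exact hmax ⟨hbb hz, hzε⟩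
      · have := hsmall z hz (not_le.1 hzε)
        linarith
    have hvs : ContDiffOn ℝ ∞ (fun z => sshtPhi C0 (ϱ z)) (Metric.ball y0 (3 * R / 4)) :=
      ssht_phi_smooth.comp hϱs.contDiffOn hpos
    have hcmp := (ssmp_chart (t := t) hGb (hu.mono (hbb.trans hKB)) hvs ssan_G0_flux hy1b hloc).2
    rw [ssht_barrier hGb hϱs.contDiffOn hpos hy1b, hpde y1 (hKB (hbb hy1b))] at hcmp
    have h4 := (le_abs_self _).trans (H1 y1 (hbb hy1b))
    have h5 := (le_abs_self _).trans (H2 y1 (hbb hy1b))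
    have h6 : 0 < (ϱ y1)⁻¹ := inv_pos.2 (hpos y1 hy1b)
    unfold sshtPhi at hg1
    linarith
  intro y hy
  have hyb : y ∈ Metric.ball y0 (3 * R / 4) := Metric.ball_subset_ball (by linarith) hy
  refine (key y hyb).trans ?_
  unfold sshtPhi
  have h1 : 5 * R ^ 2 / 16 ≤ ϱ y := by
    rw [mem_ball_iff_norm] at hy
    have := norm_nonneg (y - y0)
    rw [hϱdef]
    unfold sshtRho
    nlinarith
  have h2 : (ϱ y)⁻¹ ≤ (5 * R ^ 2 / 16)⁻¹ := inv_anti₀ (by positivity) h1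
  have h3 : (5 * R ^ 2 / 16)⁻¹ = 16 / (5 * R ^ 2) := by rw [inv_div]
  linarith

theorem ssht_div_neg {G : rm_MF d} {B : Set (E d)} (hG : rm_Met G B) {t u : E d → ℝ}
    (hu : ContDiffOn ℝ ∞ u B) {fl : ℝ → ℝ} {y : E d} (hy : y ∈ B) :
    ssDivC G t fl (fun z => (-1) * u z) y = - ssDivC G t fl u y := by
  have hsq : ∀ z ∈ B, gradSqC G (fun z => (-1) * u z) z = gradSqC G u z := fun z hz => by
    have du := rm_da hG.opn hu hz
    rw [if_gradSqC_eq, rm_ip_smul_left (-1) du, rm_ip_smul_right (-1) du, ← if_gradSqC_eq]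
    ring
  have e : gradSqC G (fun z => (-1) * u z) =ᶠ[𝓝 y] gradSqC G u :=
    Filter.eventuallyEq_of_mem (hG.opn.mem_nhds hy) hsq
  have du := rm_da hG.opn hu hy
  unfold ssDivC
  rw [hsq y hy, rm_lap_smul hG hy (-1) hu, rm_ip_congr e (Filter.EventuallyEq.refl _ _),
    rm_ip_smul_right (-1) du, rm_ip_smul_right (-1) du]
  ring

/-- = `ss_gg_height`. -/
theorem ssht_height {G : rm_MF d} {U : Set (E d)} (hG : rm_Met G U) {w : E d → ℝ}
    (hw : ContDiffOn ℝ ∞ w U) {y0 : E d} {R : ℝ} (hR : 0 < R)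
    (hB : Metric.closedBall y0 R ⊆ U) :
    ∃ C : ℝ, ∀ u : E d → ℝ, ContDiffOn ℝ ∞ u (Metric.ball y0 R) →
      (∀ y ∈ Metric.ball y0 R, ssDivC G w ssG0 u y = 10 * (u y - w y)) →
      ∀ y ∈ Metric.ball y0 (R / 2), |u y| ≤ C := by
  obtain ⟨C1, H1⟩ := ssht_upper hG hw hw.continuousOn hR hB
  obtain ⟨C2, H2⟩ := ssht_upper hG hw (w := fun z => - w z) hw.continuousOn.neg hR hB
  refine ⟨max C1 C2, fun u hu hpde y hy => ?_⟩
  have hBU : Metric.ball y0 R ⊆ U := Metric.ball_subset_closedBall.trans hB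
  have hGB : rm_Met G (Metric.ball y0 R) :=
    ⟨Metric.isOpen_ball, fun i j => (hG.smooth i j).mono hBU, fun z hz => hG.pos z (hBU hz)⟩
  have a := H1 u hu hpde y hy
  have b := H2 (fun z => (-1) * u z) (contDiffOn_const.mul hu)
    (fun z hz => by rw [ssht_div_neg hGB hu hz, hpde z hz]; ring) y hy
  rw [abs_le]
  constructor
  · have := le_max_right C1 C2
    linarith
  · exact a.trans (le_max_left _ _)

end Claimed.Agent.R315
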