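import Claimed.Agent.R315.Pack011
import Claimed.Agent.R315.Ss.Pde
import Claimed.Agent.R315.Ss.GgHtB

/-!
# Row 315, paper S: package SS-GG-HT (#8735) `ss_gg_height`

Equation (S (3.7)):  `div_{h,w}(∇u/√(1+σ)) = 10 (u - w)`,  flux `ssG0 σ = 1/√(1+σ)`, `ω = ssG0 σ`, `Ĝ = G + du² = ssHuC G (fun _ => 1) u`.

## SS-GG-HT `ss_gg_height` (S, barrier `C + b`; ~600 lines).  `R' = 3R/4`, `ϱ(y) = R'² - |y-y0|²`, `b = 1/ϱ` on `ball y0 R'`.  Non-divergence form (as in `ss_mp`):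
 `ssDivC G w ssG0 v = a^{ij} hessC_{ij} v - ω⟨dw,dv⟩`, `a^{ij} = ω (G^{ij} - v^i v^j/(1+σ_v))`, `0 ≤ a ≤ ω G⁻¹`.  For `v = b`: `hessC b = -hessC ϱ/ϱ² + 2 dϱ⊗dϱ/ϱ³`, `σ_b = τ/ϱ⁴`, `τ = |dϱ|²_G`;
 `a^{ij}ϱ_iϱ_j = τ(1+σ_b)^{-3/2} = ϱ⁴ σ_b (1+σ_b)^{-3/2} ≤ ϱ⁴`, so the second term is `≤ 2ϱ`;  `ω/ϱ² = (ϱ⁴+τ)^{-1/2}` is bounded on `closedBall y0 R'` (`ϱ⁴ + τ > 0` there: `τ = 0` only at `y0`);  `ω|⟨dw,db⟩| ≤ |dw|`.
 So `|ssDivC G w ssG0 b| ≤ C_b` on `ball y0 R'`.  Let `C := sup|w| + C_b/10 + 1`.  `u - C - b → -∞` at the boundary of `ball y0 R'` (`u` is bounded on `closedBall y0 R'`), so if it is positive somewhere it has a positive interior maximum `y1`: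
 chart version of `ss_mp`: `10(u - w)(y1) = ssDivC u ≤ ssDivC (C+b) = ssDivC b ≤ C_b`, but `u(y1) > C + b ≥ C`: contradiction.  On `ball y0 (R/2)`: `b ≤ 1/(R'² - R²/4)`.  Lower bound: `-u` solves the equation with `-w` and weight `w`... (argue directly with `-C-b`; `ssDivC (-v) = - ssDivC v`).
-/

set_option autoImplicit false
open scoped ContDiff Topology
open Claims.C0499

namespace Claimed.Agent.R315

variable {V : Type} [NormedAddCommGroup V] [NormedSpace ℝ V]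
variable {d : ℕ}

/-- local height bound (barrier). -/
theorem ss_gg_height {G : rm_MF d} {U : Set (E d)} (hG : rm_Met G U) {w : E d → ℝ}
    (hw : ContDiffOn ℝ ∞ w U) {y0 : E d} {R : ℝ} (hR : 0 < R)
    (hB : Metric.closedBall y0 R ⊆ U) :
    ∃ C : ℝ, ∀ u : E d → ℝ, ContDiffOn ℝ ∞ u (Metric.ball y0 R) →
      (∀ y ∈ Metric.ball y0 R, ssDivC G w ssG0 u y = 10 * (u y - w y)) →
      ∀ y ∈ Metric.ball y0 (R / 2), |u y| ≤ C :=
  ssht_height hG hw hR hB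

end Claimed.Agent.R315
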