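import Claimed.Agent.R315.Pack011

/-!
# Row 315, paper S: package SS-T1-CLS  `ss_class_of_compact`, `SsT1Data.combo`: membership in a class `SsT1Data` by compactness   (~350 lines; Mathlib + `rm_Met`)

* `ss_class_of_compact`: `closedBall 0 R ⊆ U`.  For every `j` the functions `y ↦ ‖iteratedFDeriv ℝ j (fun w => G w i k) y‖`, `‖iteratedFDeriv ℝ j t y‖` are continuous on the open set `U` (`ContDiffOn.continuousOn_iteratedFDerivWithin` + `iteratedFDerivWithin_of_isOpen`, `rm_Met.opn`),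
  hence bounded on the compact ball (`IsCompact.exists_bound_of_continuousOn`); the same for `b̂ p = b p.1 p.2.1 p.2.2` on the compact `closedBall 0 R ×ˢ Icc (-(K+1)) (K+1) ×ˢ Icc 0 (K+1)` inside the open set `U ×ˢ univ ×ˢ Ioi (-1)`.  `Λ j` := the maximum of the (finitely many) bounds (`choose`).
  `lam`: `(y,v) ↦ v ⬝ᵥ G y *ᵥ v` is continuous and positive on the compact `closedBall 0 R ×ˢ sphere 0 1` (in `E d × E d` or `Fin d → ℝ` with the euclidean sphere); minimum `lam > 0`; homogeneity.  If `d = 0` or the ball is empty take `lam = 1`.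
* `SsT1Data.combo`: `iteratedFDeriv` of `τ • b̂₁ + (1-τ) • b̂₂` at a point of the open set where both are smooth (`iteratedFDeriv_add_apply`, `iteratedFDeriv_const_smul_apply`), triangle inequality, `0 ≤ τ ≤ 1`; `Λ₁ j, Λ₂ j ≥ 0` where the class is nonempty (norms), so `Λ₁ j ≤ Λ₁ j + Λ₂ j`
  (the ball is nonempty or all statements are vacuous: use `le_trans (norm_nonneg _)` at the point under consideration; for the entries of `G` with `d = 0` nothing is to be shown).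
-/

set_option autoImplicit false
open scoped ContDiff
open Claims.C0499

namespace Claimed.Agent.R315

variable {d : ℕ}

/-- all derivatives of a smooth function are bounded on compact subsets of its open domain. -/
theorem ss_cls_bound {X : Type} [NormedAddCommGroup X] [NormedSpace ℝ X] {f : X → ℝ} {O C : Set X} (hO : IsOpen O)
    (hf : ContDiffOn ℝ ∞ f O) (hC : IsCompact C) (hCO : C ⊆ O) (j : ℕ) :
    ∃ B : ℝ, ∀ y ∈ C, ‖iteratedFDeriv ℝ j f y‖ ≤ B := by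
  have h1 : ContinuousOn (fun y => iteratedFDerivWithin ℝ j f O y) O :=
    hf.continuousOn_iteratedFDerivWithin (by exact_mod_cast le_top) hO.uniqueDiffOn
  obtain ⟨B, hB⟩ := hC.exists_bound_of_continuousOn (h1.mono hCO)
  refine ⟨B, fun y hy => ?_⟩
  rw [← iteratedFDerivWithin_of_isOpen j hO (hCO hy)]
  exact hB y hy

/-- the euclidean unit sphere of `Fin d → ℝ` is compact. -/
theorem ss_cls_sphere (d : ℕ) : IsCompact {v : Fin d → ℝ | v ⬝ᵥ v = 1} := by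
  apply Metric.isCompact_of_isClosed_isBounded
  · apply isClosed_eq _ continuous_const
    unfold dotProduct
    fun_prop
  · apply (Metric.isBounded_closedBall (x := (0 : Fin d → ℝ)) (r := 1)).subset
    intro v hv
    have hv' : v ⬝ᵥ v = 1 := hv
    rw [mem_closedBall_zero_iff, pi_norm_le_iff_of_nonneg zero_le_one]
    intro i
    have h1 : v i * v i ≤ v ⬝ᵥ v := by
      unfold dotProduct
      exact Finset.single_le_sum (f := fun i => v i * v i) (fun k _ => mul_self_nonneg (v k)) (Finset.mem_univ i)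
    rw [Real.norm_eq_abs]
    apply abs_le_of_sq_le_sq' _ zero_le_one |> abs_le.2
    nlinarith

/-- uniform lower bound of a metric on a compact set. -/
theorem ss_cls_lam {G : rm_MF d} {U : Set (E d)} (hG : rm_Met G U) {C : Set (E d)} (hC : IsCompact C) (hCU : C ⊆ U) :
    ∃ lam : ℝ, 0 < lam ∧ ∀ y ∈ C, ∀ v : Fin d → ℝ, lam * (v ⬝ᵥ v) ≤ v ⬝ᵥ (G y).mulVec v := by
  have hK : IsCompact (C ×ˢ {v : Fin d → ℝ | v ⬝ᵥ v = 1}) := hC.prod (ss_cls_sphere d)
  have hcont : ContinuousOn (fun p : E d × (Fin d → ℝ) => p.2 ⬝ᵥ (G p.1).mulVec p.2)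
      (C ×ˢ {v : Fin d → ℝ | v ⬝ᵥ v = 1}) := by
    unfold dotProduct Matrix.mulVec dotProduct
    refine continuousOn_finsetSum _ fun i _ => ContinuousOn.mul (by fun_prop) ?_
    refine continuousOn_finsetSum _ fun k _ => ContinuousOn.mul ?_ (by fun_prop)
    exact ((hG.smooth i k).continuousOn.mono hCU).comp continuousOn_fst (fun p hp => hp.1)
  have hex : ∃ lam : ℝ, 0 < lam ∧ ∀ p ∈ C ×ˢ {v : Fin d → ℝ | v ⬝ᵥ v = 1}, lam ≤ p.2 ⬝ᵥ (G p.1).mulVec p.2 := by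
    by_cases hne : (C ×ˢ {v : Fin d → ℝ | v ⬝ᵥ v = 1}).Nonempty
    · obtain ⟨p0, hp0, hmin⟩ := hK.exists_isMinOn hne hcont
      refine ⟨_, ?_, fun p hp => hmin hp⟩
      have hv0 : p0.2 ≠ 0 := by
        intro h0
        have h1 : p0.2 ⬝ᵥ p0.2 = 1 := hp0.2
        rw [h0] at h1
        simp at h1
      have := (hG.pos p0.1 (hCU hp0.1)).dotProduct_mulVec_pos hv0
      simpa using this
    · exact ⟨1, one_pos, fun p hp => absurd ⟨p, hp⟩ hne⟩
  obtain ⟨lam, hlam, hle⟩ := hex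
  refine ⟨lam, hlam, fun y hy v => ?_⟩
  by_cases hv : v = 0
  · subst hv
    simp
  · have hs : 0 < v ⬝ᵥ v := by
      have h1 : 0 ≤ v ⬝ᵥ v := Finset.sum_nonneg fun i _ => mul_self_nonneg (v i)
      have h2 : v ⬝ᵥ v ≠ 0 := fun h => hv (dotProduct_self_eq_zero.1 h)
      exact lt_of_le_of_ne h1 h2.symm
    have hq : 0 < Real.sqrt (v ⬝ᵥ v) := Real.sqrt_pos.2 hs
    have hq2 : Real.sqrt (v ⬝ᵥ v) * Real.sqrt (v ⬝ᵥ v) = v ⬝ᵥ v := Real.mul_self_sqrt hs.le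
    have h1 := hle (y, (Real.sqrt (v ⬝ᵥ v))⁻¹ • v) ⟨hy, by
      show ((Real.sqrt (v ⬝ᵥ v))⁻¹ • v) ⬝ᵥ ((Real.sqrt (v ⬝ᵥ v))⁻¹ • v) = 1
      rw [smul_dotProduct, dotProduct_smul, smul_eq_mul, smul_eq_mul, ← mul_assoc, ← mul_inv, hq2,
        inv_mul_cancel₀ hs.ne']⟩
    simp only [Matrix.mulVec_smul, smul_dotProduct, dotProduct_smul, smul_eq_mul] at h1
    rw [← mul_assoc, ← mul_inv, hq2, ← div_eq_inv_mul, le_div_iff₀ hs] at h1
    exact h1

theorem ss_class_of_compact {G : rm_MF d} {U : Set (E d)} (hG : rm_Met G U) {t : E d → ℝ}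
    (ht : ContDiffOn ℝ ∞ t U) {b : E d → ℝ → ℝ → ℝ}
    (hb : ContDiffOn ℝ ∞ (fun p : E d × ℝ × ℝ => b p.1 p.2.1 p.2.2)
      (U ×ˢ (Set.univ ×ˢ Set.Ioi (-1 : ℝ)))) {R : ℝ} (hB : Metric.closedBall (0 : E d) R ⊆ U)
    (K : ℝ) :
    ∃ (lam : ℝ) (Λ : ℕ → ℝ), 0 < lam ∧ SsT1Data d R lam K Λ G t b := by
  have hC : IsCompact (Metric.closedBall (0 : E d) R) := isCompact_closedBall 0 R
  have hbB : Metric.ball (0 : E d) R ⊆ Metric.closedBall 0 R := Metric.ball_subset_closedBall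
  have hbU : Metric.ball (0 : E d) R ⊆ U := hbB.trans hB
  obtain ⟨lam, hlam, hell⟩ := ss_cls_lam hG hC hB
  have h1 : ∀ (j : ℕ) (i k : Fin d), ∃ B : ℝ, ∀ y ∈ Metric.closedBall (0 : E d) R,
      ‖iteratedFDeriv ℝ j (fun w => G w i k) y‖ ≤ B := fun j i k => ss_cls_bound hG.opn (hG.smooth i k) hC hB j
  have h2 : ∀ j : ℕ, ∃ B : ℝ, ∀ y ∈ Metric.closedBall (0 : E d) R, ‖iteratedFDeriv ℝ j t y‖ ≤ B :=
    fun j => ss_cls_bound hG.opn ht hC hB j
  have h3 : ∀ j : ℕ, ∃ B : ℝ, ∀ p ∈ Metric.closedBall (0 : E d) R ×ˢ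
      (Set.Icc (-(K + 1)) (K + 1) ×ˢ Set.Icc (0 : ℝ) (K + 1)),
      ‖iteratedFDeriv ℝ j (fun p : E d × ℝ × ℝ => b p.1 p.2.1 p.2.2) p‖ ≤ B := fun j =>
    ss_cls_bound (hG.opn.prod (isOpen_univ.prod isOpen_Ioi)) hb (hC.prod (isCompact_Icc.prod isCompact_Icc))
      (Set.prod_mono hB (Set.prod_mono (Set.subset_univ _)
        (fun x hx => lt_of_lt_of_le (by norm_num) hx.1))) j
  choose BG hBG using h1
  choose Bt hBt using h2
  choose Bb hBb using h3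
  refine ⟨lam, fun j => (∑ i, ∑ k, |BG j i k|) + |Bt j| + |Bb j|, hlam, ?_, ?_, ?_, ?_, ?_, ?_, ?_⟩
  · exact ⟨Metric.isOpen_ball, fun i k => (hG.smooth i k).mono hbU, fun u hu => hG.pos u (hbU hu)⟩
  · exact fun y hy v => hell y (hbB hy) v
  · intro j y hy i k
    have h4 : |BG j i k| ≤ ∑ i, ∑ k, |BG j i k| :=
      le_trans (Finset.single_le_sum (f := fun k => |BG j i k|) (fun _ _ => abs_nonneg _) (Finset.mem_univ k))
        (Finset.single_le_sum (f := fun i => ∑ k, |BG j i k|)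
          (fun _ _ => Finset.sum_nonneg fun _ _ => abs_nonneg _) (Finset.mem_univ i))
    have h5 := hBG j i k y (hbB hy)
    have h6 := le_abs_self (BG j i k)
    have h7 := abs_nonneg (Bt j)
    have h8 := abs_nonneg (Bb j)
    linarith
  · exact ht.mono hbU
  · intro j y hy
    have h4 : 0 ≤ ∑ i, ∑ k, |BG j i k| := Finset.sum_nonneg fun _ _ => Finset.sum_nonneg fun _ _ => abs_nonneg _
    have h5 := hBt j y (hbB hy)
    have h6 := le_abs_self (Bt j)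
    have h8 := abs_nonneg (Bb j)
    linarith
  · exact hb.mono (Set.prod_mono hbU subset_rfl)
  · intro j p hp
    have h4 : 0 ≤ ∑ i, ∑ k, |BG j i k| := Finset.sum_nonneg fun _ _ => Finset.sum_nonneg fun _ _ => abs_nonneg _
    have h5 := hBb j p ⟨hbB hp.1, hp.2⟩
    have h6 := le_abs_self (Bb j)
    have h7 := abs_nonneg (Bt j)
    linarith

theorem SsT1Data.combo {R lam K : ℝ} {Λ₁ Λ₂ : ℕ → ℝ} {G : rm_MF d} {t : E d → ℝ}
    {b₁ b₂ : E d → ℝ → ℝ → ℝ} (h₁ : SsT1Data d R lam K Λ₁ G t b₁)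
    (h₂ : SsT1Data d R lam K Λ₂ G t b₂) {τ : ℝ} (hτ : τ ∈ Set.Icc (0 : ℝ) 1) :
    SsT1Data d R lam K (fun j => Λ₁ j + Λ₂ j) G t
      (fun y z σ => τ * b₁ y z σ + (1 - τ) * b₂ y z σ) := by
  refine ⟨h₁.met, h₁.ell, ?_, h₁.t_smooth, ?_, ?_, ?_⟩
  · intro j y hy i k
    have h3 := h₁.G_bd j y hy i k
    have h4 := le_trans (norm_nonneg _) (h₂.G_bd j y hy i k)
    linarith
  · intro j y hy
    have h3 := h₁.t_bd j y hy
    have h4 := le_trans (norm_nonneg _) (h₂.t_bd j y hy)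
    linarith
  · exact (contDiffOn_const.mul h₁.b_smooth).add (contDiffOn_const.mul h₂.b_smooth)
  · intro j p hp
    have hO : IsOpen (Metric.ball (0 : E d) R ×ˢ ((Set.univ : Set ℝ) ×ˢ Set.Ioi (-1 : ℝ))) :=
      Metric.isOpen_ball.prod (isOpen_univ.prod isOpen_Ioi)
    have hpO : p ∈ Metric.ball (0 : E d) R ×ˢ ((Set.univ : Set ℝ) ×ˢ Set.Ioi (-1 : ℝ)) :=
      ⟨hp.1, Set.mem_univ _, lt_of_lt_of_le (by norm_num) hp.2.2.1⟩
    have hc1 : ContDiffAt ℝ j (fun p : E d × ℝ × ℝ => b₁ p.1 p.2.1 p.2.2) p :=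
      (h₁.b_smooth.contDiffAt (hO.mem_nhds hpO)).of_le (by exact_mod_cast le_top)
    have hc2 : ContDiffAt ℝ j (fun p : E d × ℝ × ℝ => b₂ p.1 p.2.1 p.2.2) p :=
      (h₂.b_smooth.contDiffAt (hO.mem_nhds hpO)).of_le (by exact_mod_cast le_top)
    have heq : (fun p : E d × ℝ × ℝ => τ * b₁ p.1 p.2.1 p.2.2 + (1 - τ) * b₂ p.1 p.2.1 p.2.2) =
        τ • (fun p : E d × ℝ × ℝ => b₁ p.1 p.2.1 p.2.2) + (1 - τ) • (fun p : E d × ℝ × ℝ => b₂ p.1 p.2.1 p.2.2) := by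
      funext q
      simp
    have hs1 : ContDiffAt ℝ j (τ • (fun p : E d × ℝ × ℝ => b₁ p.1 p.2.1 p.2.2)) p := hc1.const_smul τ
    have hs2 : ContDiffAt ℝ j ((1 - τ) • (fun p : E d × ℝ × ℝ => b₂ p.1 p.2.1 p.2.2)) p := hc2.const_smul (1 - τ)
    rw [heq, iteratedFDeriv_add_apply hs1 hs2, iteratedFDeriv_const_smul_apply hc1,
      iteratedFDeriv_const_smul_apply hc2]
    have h3 := h₁.b_bd j p hp
    have h4 := h₂.b_bd j p hp
    have h5 := norm_nonneg (iteratedFDeriv ℝ j (fun p : E d × ℝ × ℝ => b₁ p.1 p.2.1 p.2.2) p)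
    have h6 := norm_nonneg (iteratedFDeriv ℝ j (fun p : E d × ℝ × ℝ => b₂ p.1 p.2.1 p.2.2) p)
    refine le_trans (norm_add_le _ _) ?_
    rw [norm_smul, norm_smul, Real.norm_eq_abs, Real.norm_eq_abs, abs_of_nonneg hτ.1,
      abs_of_nonneg (by linarith [hτ.2] : (0 : ℝ) ≤ 1 - τ)]
    have h7 : τ * ‖iteratedFDeriv ℝ j (fun p : E d × ℝ × ℝ => b₁ p.1 p.2.1 p.2.2) p‖ ≤ 1 * Λ₁ j :=
      mul_le_mul hτ.2 h3 h5 zero_le_one
    have h8 : (1 - τ) * ‖iteratedFDeriv ℝ j (fun p : E d × ℝ × ℝ => b₂ p.1 p.2.1 p.2.2) p‖ ≤ 1 * Λ₂ j :=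
      mul_le_mul (by linarith [hτ.1]) h4 h6 zero_le_one
    linarith

end Claimed.Agent.R315
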