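import Claimed.Agent.R315.Ss.GgCl
import Claimed.Agent.R315.Ss.GgHt
import Claimed.Agent.R315.Ss.GgGr
import Claimed.Agent.R315.Ss.GgAux
import Claimed.Agent.R315.Ss.T1Class
import Claimed.Agent.R315.Ss.ExtTr
import Claimed.Agent.R315.Pack011
import Claimed.Agent.R315.Ss.Pde

/-!
# Row 315, paper S: package SS-GG (#8741) `ss_gg` (S Lemma 3.4, global prescribed graph): GLUE PROVED

Equation (S (3.7)):  `div_{h,w}(∇u/√(1+σ)) = 10 (u - w)`,  flux `ssG0 σ = 1/√(1+σ)`.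
Exhaustion `K_k = {rdist x0 · ≤ k}`; `ss_ext` + `ss_gg_closed` + `ss_tr_div` give `f_k`, smooth along `M`, solving the equation on `K_k`;
local bounds: `ss_gg_height`, `ss_gg_grad`, `ss_class_of_compact`, `ss_T1`; `ss_cpt`; `ss_div_lim`.
-/

set_option autoImplicit false
open scoped ContDiff Topology
open Claims.C0499

namespace Claimed.Agent.R315

/-- solutions on the members of the exhaustion. -/
theorem ss_gg_exh {n N : ℕ} (M : Set (E N)) (h : Ten (E N)) (w : E N → ℝ) (hn : 2 ≤ n)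
    (hM : Carrier n M) (hh : IsMetricOn n M h) (hw : SmoothAlong n M w) (K : Set (E N))
    (hK : IsCompact K) (hKM : K ⊆ M) :
    ∃ f : E N → ℝ, SmoothAlong n M f ∧
      ∀ x ∈ K, ssDiv n M h w ssG0 f x = 10 * (f x - w x) := by
  obtain ⟨P, ι, O, χ, hPm, hPc, hP1, hO, hKO, hι, hpar, hχ01, hχ1, hpush, hmet, hpull⟩ :=
    ss_ext M hM.mfd hM.closed K hK hKM
  obtain ⟨H, hH, hcm⟩ := hmet h hh
  have hiso : if_LocIso n (M ∩ O) h P H ι := if_locIso_of_open hM.mfd hO hpar hcm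
  obtain ⟨Uf, hU, hE⟩ := ss_gg_closed hn hPm hPc hH (hpush w hw)
  obtain ⟨f, hf, hfe⟩ := hpull Uf hU
  have e1 : ∀ y ∈ M ∩ O, w y = χ (ι y).1 * w (ι y).1 := by
    intro y hy
    rw [(hι y hy).2, hχ1 y hy.2, one_mul]
  refine ⟨f, hf, fun x hx => ?_⟩
  have hx' : x ∈ M ∩ O := ⟨hKM hx, hKO hx⟩
  rw [ss_tr_div hO hiso hH (hpush w hw) hU e1 hfe _ hx', hE _ (hι x hx').1, hfe x hx', ← e1 x hx']

/-- S Lemma 3.4 (global prescribed graph). -/
theorem ss_gg {n N : ℕ} (M : Set (E N)) (h : Ten (E N)) (w : E N → ℝ) (hn : 2 ≤ n) (hM : Carrier n M)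
    (hh : IsMetricOn n M h) (hp : IsProperOn M h) (hw : SmoothAlong n M w) :
    ∃ u : E N → ℝ, SmoothAlong n M u ∧ ∀ x ∈ M, ssDiv n M h w ssG0 u x = 10 * (u x - w x) := by
  obtain ⟨x0, hx0⟩ := hM.conn.nonempty
  have hex : ∀ k : ℕ, ∃ f : E N → ℝ, SmoothAlong n M f ∧
      ∀ x ∈ M, rdist M h x0 x ≤ k → ssDiv n M h w ssG0 f x = 10 * (f x - w x) := by
    intro k
    obtain ⟨f, hf, he⟩ := ss_gg_exh M h w hn hM hh hw {y | y ∈ M ∧ rdist M h x0 y ≤ k}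
      (hp x0 hx0 k) (fun y hy => hy.1)
    exact ⟨f, hf, fun x hx hk => he x ⟨hx, hk⟩⟩
  choose f hf hfe using hex
  -- chart form of the equation
  have hchart : ∀ (ψ : E n → E N) (U : Set (E n)), IsParam M ψ U → ∀ y ∈ U, ∀ k : ℕ,
      rdist M h x0 (ψ y) ≤ k →
      ssDivC (cm h ψ) (w ∘ ψ) ssG0 (f k ∘ ψ) y = 10 * ((f k ∘ ψ) y - (w ∘ ψ) y) := by
    intro ψ U hψ y hy k hk
    rw [← ssb_div hh hw (hf k) _ hψ hy]
    exact hfe k _ (if_mem hψ hy) hk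
  -- local bounds
  have hbd : ∀ x ∈ M, ∃ (ψ : E n → E N) (U : Set (E n)) (O : Set (E n)), IsParam M ψ U ∧ IsOpen O ∧
      O ⊆ U ∧ x ∈ ψ '' O ∧ ∀ j : ℕ, ∃ (C : ℝ) (k0 : ℕ), ∀ k ≥ k0, ∀ y ∈ O,
        ‖iteratedFDeriv ℝ j (f k ∘ ψ) y‖ ≤ C := by
    intro x hx
    obtain ⟨ψ, U, hψ, hB4, hψ0⟩ := ssn_chart_at hM.mfd hx
    have hG := ssb_met hh hψ
    have hwψ := hw ψ U hψ
    have hb4 : Metric.ball (0 : E n) 4 ⊆ U := Metric.ball_subset_closedBall.trans hB4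
    have hB2 : Metric.closedBall (0 : E n) 2 ⊆ U :=
      (Metric.closedBall_subset_closedBall (by norm_num)).trans hB4
    have hB1 : Metric.closedBall (0 : E n) 1 ⊆ U :=
      (Metric.closedBall_subset_closedBall (by norm_num)).trans hB4
    -- the index from which the equation holds on `ball 0 4`
    have hcont : ContinuousOn (fun y => rdist M h x0 (ψ y)) (Metric.closedBall (0 : E n) 4) := by
      have h1 : ContinuousOn (fun y => ((x0, ψ y) : E N × E N)) (Metric.closedBall (0 : E n) 4) :=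
        continuousOn_const.prodMk ((if_continuousOn hψ).mono hB4)
      exact (ssn_rdist_continuousOn hM hh).comp h1 fun y hy => ⟨hx0, if_mem hψ (hB4 hy)⟩
    obtain ⟨B, hBd⟩ := (isCompact_closedBall (0 : E n) 4).exists_bound_of_continuousOn hcont
    obtain ⟨k0, hk0⟩ := exists_nat_ge B
    have heq4 : ∀ k ≥ k0, ∀ y ∈ Metric.ball (0 : E n) 4,
        ssDivC (cm h ψ) (w ∘ ψ) ssG0 (f k ∘ ψ) y = 10 * ((f k ∘ ψ) y - (w ∘ ψ) y) := by
      intro k hk y hy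
      refine hchart ψ U hψ y (hb4 hy) k ?_
      have h1 := hBd y (Metric.ball_subset_closedBall hy)
      have h2 : (k0 : ℝ) ≤ k := by exact_mod_cast hk
      exact (le_abs_self _).trans (h1.trans (hk0.trans h2))
    obtain ⟨C1, hC1⟩ := ss_gg_height hG hwψ (y0 := 0) (R := 4) (by norm_num) hB4
    obtain ⟨C2, hC2⟩ := ss_gg_grad hG hwψ (y0 := 0) (R := 2) (by norm_num) hB2 C1
    set K : ℝ := max C1 C2 with hK
    have hbs : ContDiffOn ℝ ∞ (fun p : E n × ℝ × ℝ => 10 * (p.2.1 - (w ∘ ψ) p.1))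
        (U ×ˢ (Set.univ ×ˢ Set.Ioi (-1 : ℝ))) :=
      contDiffOn_const.mul ((contDiff_fst.comp contDiff_snd).contDiffOn.sub
        (hwψ.comp contDiff_fst.contDiffOn fun p hp => hp.1))
    obtain ⟨lam, Λ, hlam, hD⟩ := ss_class_of_compact hG hwψ
      (b := fun y z _ => 10 * (z - (w ∘ ψ) y)) hbs hB1 K
    refine ⟨ψ, U, Metric.ball 0 (1 / 2), hψ, Metric.isOpen_ball,
      (Metric.ball_subset_ball (by norm_num)).trans hb4,
      ⟨0, Metric.mem_ball_self (by norm_num), hψ0⟩, fun j => ?_⟩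
    obtain ⟨C, hC⟩ := ss_T1 n hn (1 / 2) 1 lam K (by norm_num) (by norm_num) hlam Λ ssG0
      ss_g0_flux j
    refine ⟨C, k0, fun k hk y hy => ?_⟩
    have hs := hf k ψ U hψ
    have h42 : Metric.ball (0 : E n) (4 / 2) = Metric.ball (0 : E n) 2 := by norm_num
    have h21 : Metric.ball (0 : E n) (2 / 2) = Metric.ball (0 : E n) 1 := by norm_num
    have b24 : Metric.ball (0 : E n) 2 ⊆ Metric.ball (0 : E n) 4 :=
      Metric.ball_subset_ball (by norm_num)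
    have b12 : Metric.ball (0 : E n) 1 ⊆ Metric.ball (0 : E n) 2 :=
      Metric.ball_subset_ball (by norm_num)
    have hh1 := hC1 (f k ∘ ψ) (hs.mono hb4) (heq4 k hk)
    rw [h42] at hh1
    have hh2 := hC2 (f k ∘ ψ) (hs.mono (b24.trans hb4)) hh1 (fun y hy => heq4 k hk y (b24 hy))
    rw [h21] at hh2
    exact hC (cm h ψ) (w ∘ ψ) (f k ∘ ψ) _ hD (hs.mono ((b12.trans b24).trans hb4))
      (fun y hy => ⟨(hh1 y (b12 hy)).trans (le_max_left _ _), (hh2 y hy).trans (le_max_right _ _)⟩)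
      (fun y hy => heq4 k hk y (b24 (b12 hy))) y hy
  obtain ⟨ν, g, hν, hg, hconv⟩ := ss_cpt M hM.mfd f hf hbd
  refine ⟨g, hg, fun x hx => ?_⟩
  obtain ⟨ψ, U, hψ, y, hy, rfl⟩ := hM.mfd x hx
  rw [ssb_div hh hw hg _ hψ hy]
  have hG := ssb_met hh hψ
  have hL := ss_div_lim hG (hw ψ U hψ) ss_g0_flux (f := fun k => f (ν k) ∘ ψ) (g := g ∘ ψ)
    (fun k => hf (ν k) ψ U hψ) (hg ψ U hψ) hy (fun j _ => hconv ψ U hψ y hy j)
  have h0 : Filter.Tendsto (fun k => (f (ν k) ∘ ψ) y) Filter.atTop (𝓝 ((g ∘ ψ) y)) := by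
    have := hconv ψ U hψ y hy 0
    have h2 := ((ContinuousMultilinearMap.apply ℝ (fun _ : Fin 0 => E n) ℝ 0).continuous.tendsto
      _).comp this
    refine (h2.congr fun k => ?_).trans_eq ?_ <;> simp
  have hR : Filter.Tendsto (fun k => 10 * ((f (ν k) ∘ ψ) y - (w ∘ ψ) y)) Filter.atTop
      (𝓝 (10 * ((g ∘ ψ) y - (w ∘ ψ) y))) := (h0.sub_const _).const_mul _
  obtain ⟨k1, hk1⟩ := exists_nat_ge (rdist M h x0 (ψ y))
  have hev : (fun k => ssDivC (cm h ψ) (w ∘ ψ) ssG0 (f (ν k) ∘ ψ) y) =ᶠ[Filter.atTop]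
      fun k => 10 * ((f (ν k) ∘ ψ) y - (w ∘ ψ) y) := by
    filter_upwards [Filter.eventually_ge_atTop k1] with k hk
    refine hchart ψ U hψ y hy (ν k) (hk1.trans ?_)
    exact_mod_cast hk.trans (hν.id_le k)
  exact tendsto_nhds_unique (hL.congr' hev) hR

end Claimed.Agent.R315
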