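import Claimed.Agent.R315.Ss.LsLinDefs

/-!
# Row 315, paper S: package LS-L2OK `lsS`, `ls_sq_eq`, `lsQ`, `ls_l2_ok`, `ls_b_smooth`

* `ls_sq_eq`   : `gradSqC G ξ y = p ⬝ᵥ G⁻¹ p`, `p = ∂ξ(y)` (unfold, `Matrix.mulVec`, `dotProduct`, `Finset.mul_sum`);
* `ls_l2_ok`   : the structure functions are smooth, `lsA` is positive definite (`s = pᵀG⁻¹p ≥ 0 > -1`; `fl, fl'` smooth on `(-1,∞)`; `SmoothAlong3` for `b`);
* `ls_b_smooth`: `x ↦ b x (v x) (σ_v x)` is smooth along `P`.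
-/

set_option autoImplicit false
open scoped ContDiff Topology
open Claims.C0499

namespace Claimed.Agent.R315

variable {V : Type} [NormedAddCommGroup V] [NormedSpace ℝ V]
variable {d m : ℕ}

/-- `s = pᵀ G⁻¹ p`. -/
noncomputable def lsS (G : rm_MF d) (y : E d) (p : Fin d → ℝ) : ℝ := p ⬝ᵥ (G y)⁻¹.mulVec p

theorem ls_sq_eq (G : rm_MF d) (ξ : E d → ℝ) (y : E d) :
    gradSqC G ξ y = lsS G y fun i => pdiff ξ i y := by
  unfold gradSqC lsS
  simp only [dotProduct, Matrix.mulVec, Finset.mul_sum]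
  exact Finset.sum_congr rfl fun i _ => Finset.sum_congr rfl fun j _ => by ring

/-- the structure of the quasilinear problem. -/
noncomputable def lsQ (h : Ten V) (t : V → ℝ) (fl : ℝ → ℝ) (b : V → ℝ → ℝ → ℝ)
    (ψ : Fin m → E d → V) : LsStr d m where
  a := fun α q => lsA (cm h (ψ α)) fl q.1 q.2.2
  b := fun α q => lsB (cm h (ψ α)) (t ∘ ψ α) (lsA (cm h (ψ α)) fl q.1 q.2.2)
    (fl (lsS (cm h (ψ α)) q.1 q.2.2)) q.1
  F := fun α q => b (ψ α q.1) q.2.1 (lsS (cm h (ψ α)) q.1 q.2.2) - q.2.1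

theorem lsL2_symm {Q : Matrix (Fin d) (Fin d) ℝ} (hQ : Q.IsHermitian) (v p : Fin d → ℝ) :
    p ⬝ᵥ Q.mulVec v = v ⬝ᵥ Q.mulVec p := by
  have hT : Q.transpose = Q := by
    have := hQ.eq
    rwa [Matrix.conjTranspose_eq_transpose_of_trivial] at this
  rw [Matrix.dotProduct_mulVec, ← Matrix.mulVec_transpose, hT, dotProduct_comm]

/-- Cauchy-Schwarz for a positive semidefinite matrix. -/
theorem lsL2_cs {Q : Matrix (Fin d) (Fin d) ℝ} (hQ : Q.PosSemidef) (v p : Fin d → ℝ) :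
    (v ⬝ᵥ Q.mulVec p) ^ 2 ≤ (v ⬝ᵥ Q.mulVec v) * (p ⬝ᵥ Q.mulVec p) := by
  have key : ∀ lam : ℝ, 0 ≤ (p ⬝ᵥ Q.mulVec p) * (lam * lam) + 2 * (v ⬝ᵥ Q.mulVec p) * lam +
      v ⬝ᵥ Q.mulVec v := by
    intro lam
    have h1 := hQ.dotProduct_mulVec_nonneg (v + lam • p)
    simp only [star_trivial, Matrix.mulVec_add, Matrix.mulVec_smul, add_dotProduct,
      dotProduct_add, smul_dotProduct, dotProduct_smul, smul_eq_mul] at h1
    rw [lsL2_symm hQ.isHermitian v p] at h1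
    linarith
  have := discrim_le_zero key
  unfold discrim at this
  nlinarith [this]

theorem lsS_nonneg {G : rm_MF d} {U : Set (E d)} (hG : rm_Met G U) {y : E d} (hy : y ∈ U)
    (p : Fin d → ℝ) : 0 ≤ lsS G y p := by
  have := (rm_inv_pos hG hy).posSemidef.dotProduct_mulVec_nonneg p
  simpa [lsS] using this

theorem lsA_posDef {G : rm_MF d} {U : Set (E d)} (hG : rm_Met G U) {fl : ℝ → ℝ} (hfl : IsFlux fl)
    {y : E d} (hy : y ∈ U) (p : Fin d → ℝ) : (lsA G fl y p).PosDef := by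
  have hQ := rm_inv_pos hG hy
  set Q := (G y)⁻¹ with hQdef
  have hs : 0 ≤ p ⬝ᵥ Q.mulVec p := lsS_nonneg hG hy p
  set s := p ⬝ᵥ Q.mulVec p with hsdef
  have ha := hfl.pos s hs
  have hab := hfl.ell s hs
  have hherm : (lsA G fl y p).IsHermitian := by
    unfold lsA
    rw [← hQdef, ← hsdef]
    refine (hQ.isHermitian.smul (k := fl s) (IsSelfAdjoint.all _)).add ?_
    refine Matrix.IsHermitian.smul (k := 2 * deriv fl s) ?_ (IsSelfAdjoint.all _)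
    ext i j
    simp [Matrix.vecMulVec_apply, mul_comm]
  refine Matrix.PosDef.of_dotProduct_mulVec_pos hherm fun v hv => ?_
  have hvv : 0 < v ⬝ᵥ Q.mulVec v := by
    have := hQ.dotProduct_mulVec_pos hv
    simpa using this
  have hcs := lsL2_cs hQ.posSemidef v p
  have e : star v ⬝ᵥ (lsA G fl y p).mulVec v =
      fl s * (v ⬝ᵥ Q.mulVec v) + 2 * deriv fl s * (v ⬝ᵥ Q.mulVec p) ^ 2 := by
    unfold lsA
    rw [← hQdef, ← hsdef]
    simp only [star_trivial, Matrix.add_mulVec, Matrix.smul_mulVec, dotProduct_add,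
      dotProduct_smul, smul_eq_mul, Matrix.vecMulVec_mulVec]
    rw [dotProduct_comm (Q.mulVec p) v, op_smul_eq_smul, smul_eq_mul]
    ring
  rw [e]
  rcases le_or_gt 0 (deriv fl s) with hb | hb
  · have : 0 ≤ 2 * deriv fl s * (v ⬝ᵥ Q.mulVec p) ^ 2 := by positivity
    have := mul_pos ha hvv
    linarith
  · have h1 : 2 * deriv fl s * ((v ⬝ᵥ Q.mulVec v) * s) ≤
        2 * deriv fl s * (v ⬝ᵥ Q.mulVec p) ^ 2 :=
      mul_le_mul_of_nonpos_left hcs (by linarith)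
    have h2 := mul_pos hab hvv
    nlinarith

section smooth

variable {G : rm_MF d} {U : Set (E d)}

theorem lsL2_fst_smooth {f : E d → ℝ} (hf : ContDiffOn ℝ ∞ f U) :
    ContDiffOn ℝ ∞ (fun q : E d × ℝ × (Fin d → ℝ) => f q.1) (U ×ˢ Set.univ) :=
  hf.comp contDiff_fst.contDiffOn fun _ hq => hq.1

theorem lsL2_p_smooth (i : Fin d) :
    ContDiffOn ℝ ∞ (fun q : E d × ℝ × (Fin d → ℝ) => q.2.2 i) (U ×ˢ Set.univ) := by
  have : ContDiff ℝ ∞ (fun q : E d × ℝ × (Fin d → ℝ) => q.2.2 i) := by fun_prop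
  exact this.contDiffOn

theorem lsL2_X_smooth (hG : rm_Met G U) (i : Fin d) :
    ContDiffOn ℝ ∞ (fun q : E d × ℝ × (Fin d → ℝ) => ((G q.1)⁻¹.mulVec q.2.2) i)
      (U ×ˢ Set.univ) := by
  simp only [Matrix.mulVec, dotProduct]
  exact ContDiffOn.sum fun l _ => (lsL2_fst_smooth (rm_inv_smooth hG i l)).mul (lsL2_p_smooth l)

theorem lsL2_S_smooth (hG : rm_Met G U) :
    ContDiffOn ℝ ∞ (fun q : E d × ℝ × (Fin d → ℝ) => lsS G q.1 q.2.2) (U ×ˢ Set.univ) := by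
  unfold lsS
  simp only [dotProduct]
  exact ContDiffOn.sum fun i _ => (lsL2_p_smooth i).mul (lsL2_X_smooth hG i)

theorem lsL2_comp_S {f : ℝ → ℝ} (hf : ContDiffOn ℝ ∞ f (Set.Ioi (-1))) (hG : rm_Met G U) :
    ContDiffOn ℝ ∞ (fun q : E d × ℝ × (Fin d → ℝ) => f (lsS G q.1 q.2.2)) (U ×ˢ Set.univ) := by
  refine hf.comp (lsL2_S_smooth hG) fun q hq => ?_
  have := lsS_nonneg hG hq.1 q.2.2
  simp only [Set.mem_Ioi]
  linarith

theorem lsL2_A_smooth (hG : rm_Met G U) {fl : ℝ → ℝ} (hfl : IsFlux fl) (i j : Fin d) :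
    ContDiffOn ℝ ∞ (fun q : E d × ℝ × (Fin d → ℝ) => lsA G fl q.1 q.2.2 i j)
      (U ×ˢ Set.univ) := by
  have h1 := lsL2_comp_S hfl.smooth hG
  have h2 := lsL2_comp_S (hfl.smooth.deriv_of_isOpen isOpen_Ioi (m := ∞) (by simp)) hG
  have h3 : ContDiffOn ℝ ∞ (fun q : E d × ℝ × (Fin d → ℝ) =>
      fl (lsS G q.1 q.2.2) * (G q.1)⁻¹ i j + 2 * deriv fl (lsS G q.1 q.2.2) *
        (((G q.1)⁻¹.mulVec q.2.2) i * ((G q.1)⁻¹.mulVec q.2.2) j)) (U ×ˢ Set.univ) :=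
    (h1.mul (lsL2_fst_smooth (rm_inv_smooth hG i j))).add
      ((contDiffOn_const.mul h2).mul ((lsL2_X_smooth hG i).mul (lsL2_X_smooth hG j)))
  refine h3.congr fun q _ => ?_
  simp [lsA, lsS, Matrix.vecMulVec_apply]

end smooth

theorem ls_l2_ok [FiniteDimensional ℝ V] {P : Set V} {h : Ten V} {t : V → ℝ} {fl : ℝ → ℝ}
    {b : V → ℝ → ℝ → ℝ} {ψ : Fin m → E d → V} {U : Fin m → Set (E d)}
    (hA : LsAtlas d P ψ U) (hh : IsMetricOn d P h) (ht : SmoothAlong d P t) (hfl : IsFlux fl)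
    (hb : SmoothAlong3 d P b) : (lsQ h t fl b ψ).Ok U := by
  have hG : ∀ α, rm_Met (cm h (ψ α)) (U α) := fun α => ssb_met hh (hA.par α)
  refine ⟨fun α i j => lsL2_A_smooth (hG α) hfl i j, fun α k => ?_, fun α => ?_, fun α q hq => ?_⟩
  · simp only [lsQ, lsB]
    refine (ContDiffOn.sum fun i _ => ContDiffOn.sum fun j _ =>
      (lsL2_A_smooth (hG α) hfl i j).mul
        (lsL2_fst_smooth (rm_christoffel_smooth (hG α) k i j))).neg.sub ?_
    refine (lsL2_comp_S hfl.smooth (hG α)).mul (ContDiffOn.sum fun i _ =>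
      (lsL2_fst_smooth (rm_inv_smooth (hG α) k i)).mul
        (lsL2_fst_smooth (if_pdiff_contDiffOn (hG α).opn (ht _ _ (hA.par α)) i)))
  · simp only [lsQ]
    have h1 := hb _ _ (hA.par α)
    have h2 : ContDiffOn ℝ ∞ (fun q : E d × ℝ × (Fin d → ℝ) =>
        ((q.1, q.2.1, lsS (cm h (ψ α)) q.1 q.2.2) : E d × ℝ × ℝ)) (U α ×ˢ Set.univ) :=
      contDiff_fst.contDiffOn.prodMk
        ((contDiff_fst.comp contDiff_snd).contDiffOn.prodMk (lsL2_S_smooth (hG α)))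
    have h3 := h1.comp h2 fun q hq => by
      refine ⟨hq.1, Set.mem_univ _, ?_⟩
      have := lsS_nonneg (hG α) hq.1 q.2.2
      simp only [Set.mem_Ioi]
      linarith
    exact h3.sub (contDiff_fst.comp contDiff_snd).contDiffOn
  · exact lsA_posDef (hG α) hfl hq.1 q.2.2

theorem ls_b_smooth [FiniteDimensional ℝ V] {P : Set V} {h : Ten V} {b : V → ℝ → ℝ → ℝ}
    (hh : IsMetricOn d P h) (hb : SmoothAlong3 d P b) {v : V → ℝ} (hv : SmoothAlong d P v) :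
    SmoothAlong d P fun x => b x (v x) (gradSq d P h v x) := by
  intro ψ U hψ
  have h1 := hb ψ U hψ
  have hσ : ContDiffOn ℝ ∞ (gradSq d P h v ∘ ψ) U := if_gradSq_smoothAlong hh hv ψ U hψ
  have h2 : ContDiffOn ℝ ∞ (fun y : E d => ((y, v (ψ y), gradSq d P h v (ψ y)) : E d × ℝ × ℝ)) U :=
    contDiffOn_id.prodMk ((hv ψ U hψ).prodMk hσ)
  refine h1.comp h2 fun y hy => ⟨hy, Set.mem_univ _, ?_⟩
  have : 0 ≤ gradSq d P h v (ψ y) := by
    rw [if_gradSq_eq hh hv hψ hy]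
    exact rm_sq_nonneg (ssb_met hh hψ) hy _
  simp only [Set.mem_Ioi]
  linarith

end Claimed.Agent.R315
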