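import Claimed.Agent.R315.Ss.LsLin
import Claimed.Agent.R315.Ss.LsL2Ok

/-!
# Row 315, paper S: existence on closed manifolds, the final glue `ss_ql` (PROVED; command post SC-QL)

`ss_ql` is PROVED here from `ls_main` (`Ss/Ls.lean`), `ls_l2_sol`, `ls_l2_ap`, `ls_reg`, the chart formulas (`Ss/LsLin.lean`) and the small leaves of this file (package LS-L2OK):
-/

set_option autoImplicit false
open scoped ContDiff Topology
open Claims.C0499

namespace Claimed.Agent.R315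

variable {V : Type} [NormedAddCommGroup V] [NormedSpace ℝ V]
variable {d m : ℕ}

/-- the chart equation of `lsQ` in terms of `ssLinC`. -/
theorem ls_l2_eqC {h : Ten V} {t : V → ℝ} {fl : ℝ → ℝ} {b : V → ℝ → ℝ → ℝ}
    {ψ : Fin m → E d → V} {U : Set (E d)} (α : Fin m) (hG : rm_Met (cm h (ψ α)) U)
    (ht : ContDiffOn ℝ ∞ (t ∘ ψ α) U) {η ξ : E d → ℝ} (hη : ContDiffOn ℝ 2 η U)
    (hξ : ContDiffOn ℝ 2 ξ U) {y : E d} (hy : y ∈ U) (σ : ℝ) :
    lsOp ((lsQ h t fl b ψ).a α (lsJ η y)) ((lsQ h t fl b ψ).b α (lsJ η y)) ξ y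
        = σ * (lsQ h t fl b ψ).F α (lsJ η y) ↔
      ssLinC (cm h (ψ α)) (t ∘ ψ α) fl η ξ y - ξ y
        = σ * (b (ψ α y) (η y) (gradSqC (cm h (ψ α)) η y) - η y) := by
  rw [ls_linC_form hG ht hη hξ fl hy, ls_sq_eq]
  rfl

/-- **existence on a closed manifold** from a priori `C¹` bounds for the Leray-Schauder family
`div_{h,t}(fl ∇u) = τ b(x, u, σ) + (1-τ) u`, `0 ≤ τ ≤ 1`. -/
theorem ss_ql [FiniteDimensional ℝ V] (P : Set V) (h : Ten V) (t : V → ℝ) (fl : ℝ → ℝ)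
    (b : V → ℝ → ℝ → ℝ) (K : ℝ) (hd : 2 ≤ d) (hP : IsMfd d P) (hc : IsCompact P) (hh : IsMetricOn d P h)
    (ht : SmoothAlong d P t) (hfl : IsFlux fl) (hb : SmoothAlong3 d P b)
    (hap : ∀ τ ∈ Set.Icc (0 : ℝ) 1, ∀ u : V → ℝ, SmoothAlong d P u →
      (∀ x ∈ P, ssDiv d P h t fl u x = τ * b x (u x) (gradSq d P h u x) + (1 - τ) * u x) →
      ∀ x ∈ P, |u x| ≤ K ∧ gradSq d P h u x ≤ K) :
    ∃ u : V → ℝ, SmoothAlong d P u ∧
      ∀ x ∈ P, ssDiv d P h t fl u x = b x (u x) (gradSq d P h u x) := by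
  obtain ⟨m, ψ, U, hA⟩ := ls_atlas hP hc
  have hS := ls_l2_ok hA hh ht hfl hb
  have hmet : ∀ α, rm_Met (cm h (ψ α)) (U α) := fun α => ssb_met hh (hA.par α)
  have hb4 : ∀ α, Metric.ball (0 : E d) 4 ⊆ U α := fun α =>
    Metric.ball_subset_closedBall.trans (hA.big α)
  have two : (2 : WithTop ℕ∞) ≤ ∞ := rm_two_le
  -- translation of `LsEq` for smooth functions
  have key : ∀ (σ : ℝ) (v u : V → ℝ), SmoothAlong d P v → SmoothAlong d P u → ∀ α,
      ∀ y ∈ U α, (lsOp ((lsQ h t fl b ψ).a α (lsJ (v ∘ ψ α) y))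
        ((lsQ h t fl b ψ).b α (lsJ (v ∘ ψ α) y)) (u ∘ ψ α) y
          = σ * (lsQ h t fl b ψ).F α (lsJ (v ∘ ψ α) y) ↔
        ssLin d P h t fl v u (ψ α y) - u (ψ α y)
          = σ * (b (ψ α y) (v (ψ α y)) (gradSq d P h v (ψ α y)) - v (ψ α y))) := by
    intro σ v u hv hu α y hy
    rw [ls_l2_eqC α (hmet α) (ht _ _ (hA.par α)) ((hv _ _ (hA.par α)).of_le two)
      ((hu _ _ (hA.par α)).of_le two) hy σ, ls_lin_chart hh ht hv hu fl (hA.par α) hy,
      if_gradSq_eq hh hv (hA.par α) hy]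
    rfl
  -- `ssLin u u = ssDiv u`
  have hself : ∀ (u : V → ℝ) (x : V), ssLin d P h t fl u u x = ssDiv d P h t fl u x := by
    intro u x
    unfold ssLin ssDiv
    have : gradIp d P h u u = gradSq d P h u := rfl
    rw [this]; ring
  obtain ⟨M0, hM0⟩ := ls_l2_ap hd hP hc hA hh ht hfl hb K
  have hcover : ∀ x ∈ P, ∃ α, ∃ y ∈ Metric.ball (0 : E d) 1, ψ α y = x := by
    intro x hx
    obtain ⟨α, y, hy, rfl⟩ := Set.mem_iUnion.1 (hA.cov hx)
    exact ⟨α, y, hy, rfl⟩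
  have h14 : Metric.ball (0 : E d) 1 ⊆ Metric.ball (0 : E d) 4 :=
    Metric.ball_subset_ball (by norm_num)
  -- from `LsEq` to the equation on `P`
  have hglob : ∀ (σ : ℝ) (x : V → ℝ), SmoothAlong d P x → LsEq (lsQ h t fl b ψ) ψ σ x x →
      ∀ z ∈ P, ssDiv d P h t fl x z = σ * b z (x z) (gradSq d P h x z) + (1 - σ) * x z := by
    intro σ x hx hE z hz
    obtain ⟨α, y, hy, rfl⟩ := hcover z hz
    have := (key σ x x hx hx α y (hb4 α (h14 hy))).1 (hE α y (h14 hy))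
    rw [hself] at this
    linarith
  obtain ⟨x, hx, hE⟩ := ls_main hP hc hA (lsQ h t fl b ψ) hS
    (by
      intro v hv
      have hg : SmoothAlong d P fun x => b x (v x) (gradSq d P h v x) - v x := by
        intro φ W hφ
        exact (ls_b_smooth hh hb hv φ W hφ).sub (hv φ W hφ)
      obtain ⟨u, hu, he⟩ := ls_l2_sol hP hc hh ht hfl hv hg
      refine ⟨u, hu, fun α y hy => ?_⟩
      rw [key 1 v u hv hu α y (hb4 α hy), one_mul]
      exact he _ (if_mem (hA.par α) (hb4 α hy)))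
    M0
    (by
      intro σ hσ x hx hE
      have h1 := hglob σ x hx hE
      exact hM0 σ hσ x hx h1 (hap σ hσ x hx h1))
    (by
      intro σ _ α ξ hξ hH hE
      have hb3 : Metric.ball (0 : E d) 3 ⊆ U α :=
        (Metric.ball_subset_ball (by norm_num)).trans (hb4 α)
      have hG3 : rm_Met (cm h (ψ α)) (Metric.ball 0 3) :=
        ⟨Metric.isOpen_ball, fun i j => ((hmet α).smooth i j).mono hb3,
          fun u hu => (hmet α).pos u (hb3 hu)⟩
      refine ls_reg (hmet α) (ht _ _ (hA.par α)) hfl hb3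
        (B := fun q => q.2.1 + σ * (lsQ h t fl b ψ).F α q) ?_ hξ hH ?_
      · exact (contDiff_fst.comp contDiff_snd).contDiffOn.add (contDiffOn_const.mul (hS.F_s α))
      · intro y hy
        have := (ls_l2_eqC (h := h) (t := t) (fl := fl) (b := b) α hG3
          ((ht _ _ (hA.par α)).mono hb3) hξ hξ hy σ).1 (hE y hy)
        rw [ls_linC_self] at this
        have e : (lsQ h t fl b ψ).F α (lsJ ξ y)
            = b (ψ α y) (ξ y) (gradSqC (cm h (ψ α)) ξ y) - ξ y := by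
          rw [ls_sq_eq]; rfl
        show _ = ξ y + σ * (lsQ h t fl b ψ).F α (lsJ ξ y)
        rw [e]; linarith)
  refine ⟨x, hx, fun z hz => ?_⟩
  have := hglob 1 x hx hE z hz
  simpa using this

end Claimed.Agent.R315
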