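import Claimed.Agent.R315.Ss.BernB

/-!
# Row 315, paper S, package SS-MP: comparison at a local maximum of `u - v` (prefix `ssmp_`)

At a local maximum `y` of `W = u - v`: `du = dv`, and
`div(fl ∇u) - div(fl ∇v) = a^{ij} ∂_i∂_j W`, `a = fl G⁻¹ + 2 fl' X Xᵀ`, `X = ∇u`:
`σ_u - σ_v = ⟨dW, d(u+v)⟩`, so `∂_i(σ_u - σ_v)(y) = 2 X^k ∂_i∂_k W`.  `a` is positive semidefinite
by Cauchy-Schwarz and `fl + 2σ fl' > 0`.  Owner: helper39.
-/

set_option autoImplicit false
set_option linter.unusedSectionVars false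
open scoped ContDiff Topology
open Claims.C0499

namespace Claimed.Agent.R315

section alg

variable {d : ℕ}

/-- Cauchy-Schwarz for a positive semidefinite matrix. -/
theorem ssmp_cs {A : Matrix (Fin d) (Fin d) ℝ} (hA : A.PosSemidef) (p ξ : Fin d → ℝ) :
    (∑ i, ∑ j, A i j * (ξ i * p j)) ^ 2 ≤
      (∑ i, ∑ j, A i j * (ξ i * ξ j)) * (∑ i, ∑ j, A i j * (p i * p j)) := by
  set P : E d := ∑ i, p i • (eb i : E d) with hP
  set X : E d := ∑ i, ξ i • (eb i : E d) with hX
  have hPi : ∀ i, P i = p i := by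
    intro i
    simp [hP, Finset.sum_apply, Pi.single_apply]
  have hXi : ∀ i, X i = ξ i := by
    intro i
    simp [hX, Finset.sum_apply, Pi.single_apply]
  have := if_bil_cs hA X P
  simp only [if_bil_apply, hPi, hXi] at this
  exact this

/-- the principal symbol `fl G⁻¹ + 2 fl' X Xᵀ` is positive semidefinite. -/
theorem ssmp_psd {A : Matrix (Fin d) (Fin d) ℝ} (hA : A.PosDef) (p : Fin d → ℝ) {f0 f1 : ℝ}
    (h0 : 0 < f0) (h1 : 0 < f0 + 2 * sscm_sg A p * f1) :
    (f0 • A⁻¹ + (2 * f1) • sscm_pp (sscm_up A p)).PosSemidef := by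
  have hI : A⁻¹.PosDef := hA.inv
  have hsym : ∀ i j, A⁻¹ i j = A⁻¹ j i := by
    intro i j
    have := hI.isHermitian.apply i j
    simpa using this.symm
  refine Matrix.PosSemidef.of_dotProduct_mulVec_nonneg ?_ fun ξ => ?_
  · ext i j
    simp only [Matrix.conjTranspose_apply, Matrix.add_apply, Matrix.smul_apply, sscm_pp,
      Matrix.of_apply, smul_eq_mul, star_trivial]
    rw [hsym j i]; ring
  · have e : star ξ ⬝ᵥ (f0 • A⁻¹ + (2 * f1) • sscm_pp (sscm_up A p)).mulVec ξ =
        f0 * (∑ i, ∑ j, A⁻¹ i j * (ξ i * ξ j)) + 2 * f1 * (∑ i, ∑ j, A⁻¹ i j * (ξ i * p j)) ^ 2 := by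
      have e1 : ∑ i, ∑ j, A⁻¹ i j * (ξ i * p j) = ∑ i, ξ i * sscm_up A p i := by
        unfold sscm_up
        refine Finset.sum_congr rfl fun i _ => ?_
        rw [Finset.mul_sum]
        exact Finset.sum_congr rfl fun j _ => by ring
      rw [e1, sq, Finset.sum_mul_sum]
      simp only [dotProduct, Matrix.mulVec, star_trivial, Matrix.add_apply, Matrix.smul_apply,
        sscm_pp, Matrix.of_apply, smul_eq_mul, Finset.mul_sum, ← Finset.sum_add_distrib]
      exact Finset.sum_congr rfl fun i _ => Finset.sum_congr rfl fun j _ => by ring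
    rw [e]
    have hcs := ssmp_cs hI.posSemidef p ξ
    have hσ : ∑ i, ∑ j, A⁻¹ i j * (p i * p j) = sscm_sg A p := by
      unfold sscm_sg
      exact Finset.sum_congr rfl fun i _ => Finset.sum_congr rfl fun j _ => by ring
    rw [hσ] at hcs
    have hb : 0 ≤ ∑ i, ∑ j, A⁻¹ i j * (ξ i * ξ j) := by
      have := hI.posSemidef.dotProduct_mulVec_nonneg ξ
      simp only [dotProduct, Matrix.mulVec, star_trivial, Finset.mul_sum] at this
      refine this.trans_eq ?_
      exact Finset.sum_congr rfl fun i _ => Finset.sum_congr rfl fun j _ => by ring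
    generalize (∑ i, ∑ j, A⁻¹ i j * (ξ i * ξ j)) = b at hcs hb ⊢
    generalize (∑ i, ∑ j, A⁻¹ i j * (ξ i * p j)) = c at hcs ⊢
    generalize sscm_sg A p = σ at hcs h1 ⊢
    by_cases hf : 0 ≤ f1
    · positivity
    · rw [not_le] at hf
      have h2 : 2 * f1 * (b * σ) ≤ 2 * f1 * c ^ 2 :=
        mul_le_mul_of_nonpos_left hcs (by linarith)
      have h3 : 0 ≤ (f0 + 2 * σ * f1) * b := mul_nonneg h1.le hb
      nlinarith

end alg

section chart

variable {d : ℕ} {G : rm_MF d} {U : Set (E d)} {t u v W S : E d → ℝ} {fl : ℝ → ℝ} {y : E d}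

/-- derivative of `⟨dW,dS⟩` at a critical point of `W`. -/
theorem ssmp_pdiff_ip (hG : rm_Met G U) (hy : y ∈ U) (hW : ContDiffOn ℝ ∞ W U)
    (hS : ContDiffOn ℝ ∞ S U) (hcrit : ∀ i, pdiff W i y = 0) (i : Fin d) :
    pdiff (gradIpC G W S) i y =
      ∑ k, ∑ l, rm_p2 W i k y * ((G y)⁻¹ k l * pdiff S l y) := by
  have hg : ∀ k l, ContDiffOn ℝ ∞ (fun w => (G w)⁻¹ k l * pdiff S l w) U := fun k l =>
    (rm_inv_smooth hG k l).mul (rm_pdiff_smooth hG.opn hS l)
  have hf : ∀ k, ContDiffOn ℝ ∞ (fun w => pdiff W k w) U := fun k => rm_pdiff_smooth hG.opn hW k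
  have e : gradIpC G W S = fun w => ∑ k, ∑ l, pdiff W k w * ((G w)⁻¹ k l * pdiff S l w) := by
    funext w
    unfold gradIpC
    exact Finset.sum_congr rfl fun k _ => Finset.sum_congr rfl fun l _ => by ring
  rw [e, rm_pdiff_sum (F := fun k w => ∑ l, pdiff W k w * ((G w)⁻¹ k l * pdiff S l w))
    Finset.univ (fun k _ => rm_da_sum _ fun l _ =>
      rm_da_mul (rm_da hG.opn (hf k) hy) (rm_da hG.opn (hg k l) hy))]
  refine Finset.sum_congr rfl fun k _ => ?_
  rw [rm_pdiff_sum (F := fun l w => pdiff W k w * ((G w)⁻¹ k l * pdiff S l w))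
    Finset.univ (fun l _ => rm_da_mul (rm_da hG.opn (hf k) hy) (rm_da hG.opn (hg k l) hy))]
  refine Finset.sum_congr rfl fun l _ => ?_
  rw [rm_pdiff_mul (rm_da hG.opn (hf k) hy) (rm_da hG.opn (hg k l) hy), hcrit k, zero_mul,
    add_zero]
  rfl

/-- `|du|² - |dv|² = ⟨d(u-v), d(u+v)⟩`. -/
theorem ssmp_sq_sub (hG : rm_Met G U) (hy : y ∈ U) (hu : DifferentiableAt ℝ u y)
    (hv : DifferentiableAt ℝ v y) :
    gradSqC G u y - gradSqC G v y =
      gradIpC G (fun w => u w + (-1) * v w) (fun w => u w + v w) y := by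
  have hv' : DifferentiableAt ℝ (fun w => (-1) * v w) y := hv.const_mul (-1)
  rw [rm_ip_add_left hu hv', rm_ip_smul_left (-1) hv, rm_ip_add_right hu hv,
    rm_ip_add_right hu hv, rm_ip_comm hG hy v u, if_gradSqC_eq, if_gradSqC_eq]
  ring

/-- comparison at a local maximum of `u - v`, chart level. -/
theorem ssmp_chart (hG : rm_Met G U) (hu : ContDiffOn ℝ ∞ u U)
    (hv : ContDiffOn ℝ ∞ v U) (hfl : IsFlux fl) (hy : y ∈ U)
    (hmax : IsLocalMax (fun w => u w - v w) y) :
    gradSqC G u y = gradSqC G v y ∧ ssDivC G t fl u y ≤ ssDivC G t fl v y := by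
  have eW : (fun w => u w - v w) = fun w => u w + (-1) * v w := by
    funext w; ring
  rw [eW] at hmax
  have hWs : ContDiffOn ℝ ∞ (fun w => u w + (-1) * v w) U := hu.add (contDiffOn_const.mul hv)
  have hSs : ContDiffOn ℝ ∞ (fun w => u w + v w) U := hu.add hv
  have du := rm_da hG.opn hu hy
  have dv := rm_da hG.opn hv hy
  have dv' : DifferentiableAt ℝ (fun w => (-1) * v w) y := dv.const_mul (-1)
  have hcrit : ∀ i, pdiff (fun w => u w + (-1) * v w) i y = 0 := rm_max_pdiff hmax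
  have hp : ∀ i, pdiff u i y = pdiff v i y := by
    intro i
    have := hcrit i
    rw [rm_pdiff_add du dv', rm_pdiff_const_mul (-1) dv] at this
    linarith
  have hσ : gradSqC G u y = gradSqC G v y := by
    unfold gradSqC
    simp only [hp]
  refine ⟨hσ, ?_⟩
  have hσu := sscm_sq_smooth hG hu
  have hσv := sscm_sq_smooth hG hv
  -- the Laplacians
  have hlap : lapC G u y = lapC G v y +
      ∑ i, ∑ j, (G y)⁻¹ i j * hessC G (fun w => u w + (-1) * v w) y i j := by
    rw [← rm_lapC_eq hG hy hWs, rm_lap_add hG hy hu (contDiffOn_const.mul hv),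
      rm_lap_smul hG hy (-1) hv]
    ring
  -- the `dσ` terms
  have hds : ∀ i, pdiff (gradSqC G u) i y = pdiff (gradSqC G v) i y +
      2 * ∑ k, rm_p2 (fun w => u w + (-1) * v w) i k y *
        sscm_up (G y) (fun l => pdiff v l y) k := by
    intro i
    have h1 : pdiff (fun w => gradSqC G u w - gradSqC G v w) i y =
        pdiff (gradSqC G u) i y - pdiff (gradSqC G v) i y :=
      rm_pdiff_sub (rm_da hG.opn hσu hy) (rm_da hG.opn hσv hy)
    rw [rm_pdiff_congr_on hG.opn hy (fun w hw =>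
      ssmp_sq_sub hG hw (rm_da hG.opn hu hw) (rm_da hG.opn hv hw)),
      ssmp_pdiff_ip hG hy hWs hSs hcrit] at h1
    have h2 : ∑ k, ∑ l, rm_p2 (fun w => u w + (-1) * v w) i k y *
        ((G y)⁻¹ k l * pdiff (fun w => u w + v w) l y) =
        2 * ∑ k, rm_p2 (fun w => u w + (-1) * v w) i k y *
          sscm_up (G y) (fun l => pdiff v l y) k := by
      unfold sscm_up
      simp only [Finset.mul_sum, rm_pdiff_add du dv, hp]
      exact Finset.sum_congr rfl fun k _ => Finset.sum_congr rfl fun l _ => by ring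
    rw [h2] at h1
    linarith
  have hip : gradIpC G (gradSqC G u) u y = gradIpC G (gradSqC G v) v y +
      2 * ∑ i, ∑ k, sscm_up (G y) (fun l => pdiff v l y) i *
        sscm_up (G y) (fun l => pdiff v l y) k *
          rm_p2 (fun w => u w + (-1) * v w) i k y := by
    have e1 : ∀ F : E d → ℝ, gradIpC G F v y =
        ∑ i, pdiff F i y * sscm_up (G y) (fun l => pdiff v l y) i := by
      intro F
      unfold gradIpC sscm_up
      refine Finset.sum_congr rfl fun i _ => ?_
      rw [Finset.mul_sum]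
      exact Finset.sum_congr rfl fun j _ => by ring
    have e2 : gradIpC G (gradSqC G u) u y = gradIpC G (gradSqC G u) v y := by
      unfold gradIpC
      simp only [hp]
    rw [e2, e1, e1]
    simp only [hds, add_mul, Finset.sum_add_distrib, Finset.mul_sum, Finset.sum_mul]
    congr 1
    exact Finset.sum_congr rfl fun i _ => Finset.sum_congr rfl fun k _ => by ring
  have hipt : gradIpC G t u y = gradIpC G t v y := by
    unfold gradIpC
    simp only [hp]
  have h0 := rm_sq_nonneg hG hy v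
  have hpsd := ssmp_psd (hG.pos y hy) (fun l => pdiff v l y) (hfl.pos _ h0)
    (by rw [sscm_sg_grad]; exact hfl.ell _ h0)
  have hneg := rm_max_tr_hess G hG.opn hy hWs hmax hpsd
  simp only [Matrix.add_apply, Matrix.smul_apply, sscm_pp, Matrix.of_apply, smul_eq_mul, add_mul,
    Finset.sum_add_distrib] at hneg
  unfold ssDivC
  rw [hσ, hlap, hip, hipt]
  simp only [rm_crit_hess G hcrit] at hneg ⊢
  have e3 : ∑ i, ∑ j, fl (gradSqC G v y) * (G y)⁻¹ i j *
      rm_p2 (fun w => u w + (-1) * v w) i j y = fl (gradSqC G v y) *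
      ∑ i, ∑ j, (G y)⁻¹ i j * rm_p2 (fun w => u w + (-1) * v w) i j y := by
    simp only [Finset.mul_sum]
    exact Finset.sum_congr rfl fun i _ => Finset.sum_congr rfl fun j _ => by ring
  have e4 : ∑ i, ∑ j, 2 * deriv fl (gradSqC G v y) *
      (sscm_up (G y) (fun l => pdiff v l y) i * sscm_up (G y) (fun l => pdiff v l y) j) *
      rm_p2 (fun w => u w + (-1) * v w) i j y = deriv fl (gradSqC G v y) *
      (2 * ∑ i, ∑ k, sscm_up (G y) (fun l => pdiff v l y) i *
        sscm_up (G y) (fun l => pdiff v l y) k *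
          rm_p2 (fun w => u w + (-1) * v w) i k y) := by
    simp only [Finset.mul_sum]
    exact Finset.sum_congr rfl fun i _ => Finset.sum_congr rfl fun j _ => by ring
  rw [e3, e4] at hneg
  linarith

end chart

/-- = `ss_mp`. -/
theorem ssmp_mp {V : Type} [NormedAddCommGroup V] [NormedSpace ℝ V] [FiniteDimensional ℝ V]
    {d : ℕ} (M : Set V) (h : Ten V) (t u v : V → ℝ)
    (fl : ℝ → ℝ) (hM : IsMfd d M) (hh : IsMetricOn d M h) (ht : SmoothAlong d M t)
    (hu : SmoothAlong d M u) (hv : SmoothAlong d M v) (hfl : IsFlux fl) {x : V} (hx : x ∈ M)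
    (hmax : ∃ O ∈ nhds x, ∀ y ∈ M ∩ O, u y - v y ≤ u x - v x) :
    gradSq d M h u x = gradSq d M h v x ∧ ssDiv d M h t fl u x ≤ ssDiv d M h t fl v x := by
  obtain ⟨O, hO, hmax⟩ := hmax
  obtain ⟨ψ, U, hp, w, hw, rfl⟩ := hM x hx
  have hc : ContinuousAt ψ w := (if_continuousOn hp).continuousAt ((if_open hp).mem_nhds hw)
  have hloc : IsLocalMax (fun z => (u ∘ ψ) z - (v ∘ ψ) z) w := by
    filter_upwards [hc.eventually hO, (if_open hp).mem_nhds hw] with z hz hzU
    exact hmax _ ⟨if_mem hp hzU, hz⟩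
  have := ssmp_chart (t := t ∘ ψ) (ssb_met hh hp) (hu ψ U hp) (hv ψ U hp) hfl hw hloc
  rw [if_gradSq_eq hh hu hp hw, if_gradSq_eq hh hv hp hw, ssb_div hh ht hu fl hp hw,
    ssb_div hh ht hv fl hp hw]
  exact this

end Claimed.Agent.R315
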