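import Claimed.Agent.R315.Pack011
import Claimed.Agent.R315.Ss.MpA

/-!
# Row 315, paper S: package SS-MP (#6750) `ss_mp`

## `ss_mp`, `ss_bern`: the two maximum principle facts.
`ss_mp`: in a chart, `ssDivC G t fl u = a^{ij} hessC_{ij} u - fl ⟨dt,du⟩`, `a^{ij} = fl G^{ij} + 2 fl' u^i u^j` (uses `rm_lapC_eq` and
 `⟨dσ,du⟩ = 2 Hess u(∇u,∇u)`); at a local maximum of `u - v`: `du = dv`, `hessC (u-v) = ∂²(u-v) ≤ 0`, `a^{ij}` positive definite.
`ss_bern` (Bernstein; replaces the angle equation S Lemma 3.3 on closed manifolds): at a local maximum `x` of `σ` all `dσ` terms vanish and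
 `⟨d(div_{h,t}(fl ∇u)), du⟩ = fl ⟨dΔu,du⟩ + fl' Hess σ(∇u,∇u) - fl Hess t(∇u,∇u)`; Bochner `⟨dΔu,du⟩ = ½Δσ - |Hess u|² - Ric(∇u,∇u)`;
 `½(fl Δσ + 2 fl' Hess σ(∇u,∇u)) ≤ 0` by ellipticity; so `⟨d(div..),du⟩ ≤ - fl (Ric + Hess t)(∇u,∇u) ≤ C fl σ`, `C` = bound of
 `|Ric_h| + |Hess_h t|` on the compact `P`.
-/

set_option autoImplicit false
open scoped ContDiff
open Claims.C0499

namespace Claimed.Agent.R315

variable {V : Type} [NormedAddCommGroup V] [NormedSpace ℝ V]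

/-- comparison at a local maximum of `u - v`. -/
theorem ss_mp [FiniteDimensional ℝ V] {d : ℕ} (M : Set V) (h : Ten V) (t u v : V → ℝ)
    (fl : ℝ → ℝ) (hM : IsMfd d M) (hh : IsMetricOn d M h) (ht : SmoothAlong d M t)
    (hu : SmoothAlong d M u) (hv : SmoothAlong d M v) (hfl : IsFlux fl) {x : V} (hx : x ∈ M)
    (hmax : ∃ O ∈ nhds x, ∀ y ∈ M ∩ O, u y - v y ≤ u x - v x) :
    gradSq d M h u x = gradSq d M h v x ∧ ssDiv d M h t fl u x ≤ ssDiv d M h t fl v x :=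
  ssmp_mp M h t u v fl hM hh ht hu hv hfl hx hmax

end Claimed.Agent.R315
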