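import Claimed.Agent.R315.Pack011
import Claimed.Agent.R315.Ss.LsPf
import Claimed.Agent.R315.Ss.AngleC
import Claimed.Agent.R315.Ss.Mp
import Claimed.Agent.R315.Ss.Bern
import Claimed.Agent.R315.Gs.Calc

/-!
# Row 315, paper S: package SS-GG-CL (#8733) `ss_g0_flux`, `ss_gg_closed`

Equation (S (3.7)):  `div_{h,w}(∇u/√(1+σ)) = 10 (u - w)`,  flux `ssG0 σ = 1/√(1+σ)`, `ω = ssG0 σ`, `Ĝ = G + du² = ssHuC G (fun _ => 1) u`.

## SS-GG-CL `ss_g0_flux`, `ss_gg_closed` (~400 lines).  `ss_ql` (`Ss/LsPf.lean`) with `t = w`, `b x z σ = 10 (z - w x)`.  A priori bounds for the family `div(..) = 10 τ (u - w) + (1-τ) u`, `m = max_P |w|`: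
 height: at a maximum point of `u` (`ss_mp` against the constant function `v = u x`; `ssDiv` of a constant is `0`: `rm_lap_const`, `rm_ip_const_*`): `10τ(u - w) + (1-τ)u ≤ 0`; if `u > m ≥ 0` both terms are `≥ 0` and one is positive; same at a minimum.
 gradient: at a maximum point of `σ`: `ss_bern`: `10τ(σ - ⟨dw,du⟩) + (1-τ)σ ≤ C ω σ ≤ C√σ`, `10τ + 1 - τ ≥ 1`, so `√σ ≤ 10 max|dw| + C`  (`gradIp` of the two sides of the equation agree because they agree on `P`: in a chart they agree on an open set).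
-/

set_option autoImplicit false
open scoped ContDiff Topology
open Claims.C0499

namespace Claimed.Agent.R315

variable {V : Type} [NormedAddCommGroup V] [NormedSpace ℝ V]
variable {d : ℕ}

theorem ss_g0_flux : IsFlux ssG0 := ssan_G0_flux

/-- S Lemma 3.4 on a closed manifold. -/
theorem ss_gg_closed [FiniteDimensional ℝ V] {n : ℕ} {P : Set V} {H : Ten V} {w : V → ℝ}
    (hn : 2 ≤ n) (hP : IsMfd n P) (hc : IsCompact P) (hH : IsMetricOn n P H) (hw : SmoothAlong n P w) :
    ∃ u : V → ℝ, SmoothAlong n P u ∧ ∀ x ∈ P, ssDiv n P H w ssG0 u x = 10 * (u x - w x) := by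
  classical
  rcases P.eq_empty_or_nonempty with hPe | hPne
  · exact ⟨fun _ => 0, gs_sm_const 0, fun x hx => by
      rw [hPe] at hx
      exact absurd hx (Set.notMem_empty _)⟩
  have hcont : ∀ f : V → ℝ, SmoothAlong n P f → ContinuousOn f P := fun f hf =>
    if_continuousOn_of_along hP fun ψ U hψ => (hf ψ U hψ).continuousOn
  obtain ⟨m, hm⟩ := hc.exists_bound_of_continuousOn (hcont w hw)
  have hσw := if_gradSq_smoothAlong hH hw
  obtain ⟨g1, hg1⟩ := hc.exists_bound_of_continuousOn (hcont _ hσw)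
  obtain ⟨C, hC0, hbern⟩ := ss_bern P H w hP hH hw P hc subset_rfl
  obtain ⟨xx, hxx⟩ := hPne
  have hm0 : 0 ≤ m := (norm_nonneg _).trans (hm xx hxx)
  have hg10 : 0 ≤ g1 := (norm_nonneg _).trans (hg1 xx hxx)
  set B : ℝ := 10 * Real.sqrt g1 + C with hB
  have hB0 : 0 ≤ B := by positivity
  have hconst : ∀ c : ℝ, ∀ x ∈ P, ssDiv n P H w ssG0 (fun _ => c) x = 0 := by
    intro c x hx
    unfold ssDiv
    rw [gs_lap_const hP hH c hx,
      gs_ip_const_right hP hH c (if_gradSq_smoothAlong hH (gs_sm_const c)) hx,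
      gs_ip_const_right hP hH c hw hx]
    ring
  refine ss_ql P H w ssG0 (fun x z _ => 10 * (z - w x)) (max m (B ^ 2)) hn hP hc hH hw ss_g0_flux
    ?_ ?_
  · intro ψ U hψ
    have h1 : ContDiffOn ℝ ∞ (fun p : E n × ℝ × ℝ => w (ψ p.1))
        (U ×ˢ (Set.univ ×ˢ Set.Ioi (-1 : ℝ))) :=
      (hw ψ U hψ).comp contDiffOn_fst fun p hp => hp.1
    exact contDiffOn_const.mul ((contDiff_fst.comp contDiff_snd).contDiffOn.sub h1)
  · intro τ hτ u hu heq
    have hτ1 : 0 ≤ 1 - τ := by linarith [hτ.2]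
    -- height
    obtain ⟨x0, hx0, hmax⟩ := hc.exists_isMaxOn ⟨xx, hxx⟩ (hcont u hu)
    obtain ⟨x1, hx1, hmin⟩ := hc.exists_isMinOn ⟨xx, hxx⟩ (hcont u hu)
    have hup : u x0 ≤ m := by
      have h1 := (ss_mp P H w u (fun _ => u x0) ssG0 hP hH hw hu (gs_sm_const _) ss_g0_flux hx0
        ⟨Set.univ, Filter.univ_mem, fun y hy => by
          have : u y ≤ u x0 := hmax hy.1
          linarith⟩).2
      rw [hconst _ x0 hx0, heq x0 hx0] at h1
      have hw0 : w x0 ≤ m := (le_abs_self _).trans (hm x0 hx0)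
      by_contra hcon
      push Not at hcon
      have h2 : τ * (10 * (u x0 - m)) ≤ τ * (10 * (u x0 - w x0)) :=
        mul_le_mul_of_nonneg_left (by linarith) hτ.1
      have h3 : (1 - τ) * (u x0 - m) ≤ (1 - τ) * u x0 :=
        mul_le_mul_of_nonneg_left (by linarith) hτ1
      have h4 : 0 < (1 + 9 * τ) * (u x0 - m) := mul_pos (by linarith [hτ.1]) (by linarith)
      nlinarith
    have hlo : -m ≤ u x1 := by
      have h1 := (ss_mp P H w (fun _ => u x1) u ssG0 hP hH hw (gs_sm_const _) hu ss_g0_flux hx1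
        ⟨Set.univ, Filter.univ_mem, fun y hy => by
          have : u x1 ≤ u y := hmin hy.1
          linarith⟩).2
      rw [hconst _ x1 hx1, heq x1 hx1] at h1
      have hw0 : -m ≤ w x1 := by
        have := (neg_abs_le (w x1))
        have h5 : |w x1| ≤ m := hm x1 hx1
        linarith
      by_contra hcon
      push Not at hcon
      have h2 : τ * (10 * (u x1 - w x1)) ≤ τ * (10 * (u x1 + m)) :=
        mul_le_mul_of_nonneg_left (by linarith) hτ.1
      have h3 : (1 - τ) * u x1 ≤ (1 - τ) * (u x1 + m) :=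
        mul_le_mul_of_nonneg_left (by linarith) hτ1
      have h4 : (1 + 9 * τ) * (u x1 + m) < 0 := mul_neg_of_pos_of_neg (by linarith [hτ.1])
        (by linarith)
      nlinarith
    -- gradient
    have hσ := if_gradSq_smoothAlong hH hu
    obtain ⟨x2, hx2, hmax2⟩ := hc.exists_isMaxOn ⟨xx, hxx⟩ (hcont _ hσ)
    have hgr : gradSq n P H u x2 ≤ B ^ 2 := by
      have hb := hbern ssG0 u ss_g0_flux hu x2 hx2
        ⟨Set.univ, Filter.univ_mem, fun y hy => hmax2 hy.1⟩
      have e1 : gradIp n P H (ssDiv n P H w ssG0 u) u x2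
          = gradIp n P H (fun x => τ * (10 * (u x - w x)) + (1 - τ) * u x) u x2 :=
        gs_ip_congr heq fun _ _ => rfl
      have e2 : gradIp n P H (fun x => τ * (10 * (u x - w x)) + (1 - τ) * u x) u x2
          = τ * (10 * (gradSq n P H u x2 - gradIp n P H w u x2)) + (1 - τ) * gradSq n P H u x2 := by
        rw [gs_ip_add_left hP hH (gs_sm_smul τ (gs_sm_smul 10 (gs_sm_sub hu hw)))
          (gs_sm_smul (1 - τ) hu) hu hx2,
          gs_ip_smul_left hP hH τ (gs_sm_smul 10 (gs_sm_sub hu hw)) hu hx2,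
          gs_ip_smul_left hP hH 10 (gs_sm_sub hu hw) hu hx2,
          gs_ip_sub_left hP hH hu hw hu hx2, gs_ip_smul_left hP hH (1 - τ) hu hu hx2]
        rfl
      rw [e1, e2] at hb
      set s := gradSq n P H u x2 with hs
      set q := gradIp n P H w u x2 with hq
      have hs0 : 0 ≤ s := gs_sq_nonneg hP hH hu hx2
      have hcs := gs_ip_cs hP hH hw hu hx2
      have hgw : gradSq n P H w x2 ≤ g1 := (le_abs_self _).trans (hg1 x2 hx2)
      have hq1 : q ≤ Real.sqrt g1 * Real.sqrt s := by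
        rw [← Real.sqrt_mul hg10]
        refine Real.le_sqrt_of_sq_le (hcs.trans ?_)
        exact mul_le_mul_of_nonneg_right hgw hs0
      set r := Real.sqrt s with hr
      have hr0 : 0 ≤ r := Real.sqrt_nonneg _
      have hrs : r * r = s := Real.mul_self_sqrt hs0
      have hom : ssG0 s * s ≤ r := by
        unfold ssG0
        have h1 : 0 < Real.sqrt (1 + s) := Real.sqrt_pos.2 (by linarith)
        have h2 : r ≤ Real.sqrt (1 + s) := Real.sqrt_le_sqrt (by linarith)
        rw [one_div, inv_mul_eq_div, div_le_iff₀ h1]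
        calc s = r * r := hrs.symm
          _ ≤ r * Real.sqrt (1 + s) := mul_le_mul_of_nonneg_left h2 hr0
      have h5 : C * ssG0 s * s ≤ C * r := by
        rw [mul_assoc]
        exact mul_le_mul_of_nonneg_left hom hC0
      have h6 : τ * (10 * q) ≤ 10 * (Real.sqrt g1 * r) := by
        have h7 : 0 ≤ Real.sqrt g1 * r := by positivity
        calc τ * (10 * q) ≤ τ * (10 * (Real.sqrt g1 * r)) :=
              mul_le_mul_of_nonneg_left (by linarith) hτ.1
          _ ≤ 1 * (10 * (Real.sqrt g1 * r)) :=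
              mul_le_mul_of_nonneg_right hτ.2 (by positivity)
          _ = _ := one_mul _
      have h8 : s ≤ B * r := by
        have h9 : 0 ≤ τ * s := mul_nonneg hτ.1 hs0
        rw [hB]
        nlinarith
      have h10 : r ≤ B := by
        by_contra hcon
        push Not at hcon
        have : B * r < r * r := mul_lt_mul_of_pos_right hcon (lt_of_le_of_lt hB0 hcon)
        linarith
      rw [← hrs]
      nlinarith
    intro x hx
    refine ⟨(abs_le.2 ⟨?_, ?_⟩).trans (le_max_left _ _), ?_⟩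
    · exact hlo.trans (hmin hx)
    · exact le_trans (hmax hx) hup
    · exact le_trans (hmax2 hx) (hgr.trans (le_max_right _ _))

end Claimed.Agent.R315
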