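import Claimed.Agent.R315.Ss.AngleC
import Claimed.Agent.R315.Ss.BalA
import Claimed.Agent.R315.Pack008
import Claimed.Agent.R315.Ss.Cmp

/-!
# Row 315, paper S, package SS-GG-GR, part A: the inequality at the maximum point (prefix `ssgr_`)
Owner: helper39.
-/

set_option autoImplicit false
open scoped ContDiff Topology
open Claims.C0499

namespace Claimed.Agent.R315

variable {d : ℕ} {G : rm_MF d} {B : Set (E d)} {w u ζ : E d → ℝ} {y1 : E d}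

/-- `|a l| ≤ D` if `a² ≤ D² σ`, `l² σ ≤ 1`. -/
theorem ssgr_cs {a l D σ : ℝ} (hD : 0 ≤ D) (ha : a ^ 2 ≤ D ^ 2 * σ)
    (hl : l ^ 2 * σ ≤ 1) : |a * l| ≤ D := by
  refine abs_le_of_sq_le_sq' ?_ hD |> fun h => abs_le.2 h
  have h1 : (a * l) ^ 2 ≤ D ^ 2 * (l ^ 2 * σ) := by
    have := mul_le_mul_of_nonneg_right ha (sq_nonneg l)
    nlinarith
  have h2 : D ^ 2 * (l ^ 2 * σ) ≤ D ^ 2 * 1 := mul_le_mul_of_nonneg_left hl (sq_nonneg D)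
  linarith

theorem ssgr_alg {A C1 CH L1 L2 Dw Dζ Kp Lω Iω Lζ Iζ Rc Hz lz iz a b qw qz p l σ z1 : ℝ}
    (hA : 0 < A) (hC1 : 0 ≤ C1) (hCH : 0 ≤ CH) (hDw0 : 0 ≤ Dw) (hDζ0 : 0 ≤ Dζ)
    (m1 : 0 ≤ Lω + -1 / A * Lζ) (m2 : Iω + -1 / A * Iζ = 0) (hL1 : |lz| ≤ L1) (hL2 : |iz| ≤ L2)
    (hDw : qw ≤ Dw ^ 2) (hDζ : qz ≤ Dζ ^ 2) (hKp : |p| ≤ Kp) (hl0 : 0 < l) (hs : 0 < σ)
    (hR : |Rc| ≤ C1 * σ) (hH : |Hz| ≤ CH * σ) (c1 : a ^ 2 ≤ qw * σ) (c2 : b ^ 2 ≤ σ * qz)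
    (hl2 : l ^ 2 = 1 / (1 + σ))
    (a1 : Lω - Iω ≤ -l ^ 3 * Rc - (10 * σ - 10 * a) / (1 + σ))
    (a3 : Lζ - Iζ = lz - iz - Hz / (1 + σ) - p * b * l) (hζ1 : z1 ≤ 1) (h0 : l = z1 / A) :
    10 * A ≤ 10 + 10 * Dw + C1 + (L1 + L2 + CH + Kp * Dζ) := by
  have hS : l ^ 2 * σ = 1 - l ^ 2 := by rw [hl2]; field_simp; ring
  have hS1 : l ^ 2 * σ ≤ 1 := by nlinarith [sq_nonneg l]
  have hS0 : 0 ≤ l ^ 2 * σ := by positivity
  have hl1 : l ≤ 1 := by nlinarith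
  have hlA : l ≤ 1 / A := by
    rw [h0]; exact div_le_div_of_nonneg_right hζ1 hA.le
  have e1 : (10 * σ - 10 * a) / (1 + σ) = 10 * (l ^ 2 * σ) - 10 * (a * l) * l := by
    rw [div_eq_mul_one_div, ← hl2]; ring
  have e2 : Hz / (1 + σ) = Hz * l ^ 2 := by rw [div_eq_mul_one_div, ← hl2]
  have b1 : |a * l| ≤ Dw := ssgr_cs hDw0 (c1.trans (mul_le_mul_of_nonneg_right hDw hs.le)) hS1
  have b2 : |b * l| ≤ Dζ := ssgr_cs hDζ0
    (c2.trans (by rw [mul_comm]; exact mul_le_mul_of_nonneg_right hDζ hs.le)) hS1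
  have b3 : -l ^ 3 * Rc ≤ C1 * l := by
    have h1 : -Rc ≤ C1 * σ := (neg_le_abs Rc).trans hR
    have h2 : l ^ 3 * (-Rc) ≤ l ^ 3 * (C1 * σ) := mul_le_mul_of_nonneg_left h1 (by positivity)
    have h3 : l ^ 3 * (C1 * σ) = C1 * l * (l ^ 2 * σ) := by ring
    have h4 : C1 * l * (l ^ 2 * σ) ≤ C1 * l * 1 := mul_le_mul_of_nonneg_left hS1 (by positivity)
    linarith
  have b4 : (a * l) * l ≤ Dw * l := mul_le_mul_of_nonneg_right ((le_abs_self _).trans b1) hl0.le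
  have b5 : Hz * l ^ 2 ≤ CH := by
    have h1 : Hz ≤ CH * σ := (le_abs_self Hz).trans hH
    have h2 : Hz * l ^ 2 ≤ CH * σ * l ^ 2 := mul_le_mul_of_nonneg_right h1 (sq_nonneg l)
    have h3 : CH * σ * l ^ 2 = CH * (l ^ 2 * σ) := by ring
    have h4 : CH * (l ^ 2 * σ) ≤ CH * 1 := mul_le_mul_of_nonneg_left hS1 hCH
    linarith
  have b6 : p * b * l ≤ Kp * Dζ := by
    have h1 : |p * (b * l)| ≤ Kp * Dζ := by
      rw [abs_mul]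
      exact mul_le_mul hKp b2 (abs_nonneg _) ((abs_nonneg p).trans hKp)
    have h2 := (le_abs_self _).trans h1
    linarith
  have b7 : -(L1 + L2 + CH + Kp * Dζ) ≤ Lζ - Iζ := by
    rw [a3, e2]
    have := neg_le_of_abs_le hL1
    have := le_of_abs_le hL2
    linarith
  have b8 : 0 ≤ (Lω - Iω) - 1 / A * (Lζ - Iζ) := by
    have : (Lω - Iω) - 1 / A * (Lζ - Iζ) = (Lω + -1 / A * Lζ) - (Iω + -1 / A * Iζ) := by ring
    rw [this, m2]; linarith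
  have b9 : 1 / A * (-(L1 + L2 + CH + Kp * Dζ)) ≤ 1 / A * (Lζ - Iζ) :=
    mul_le_mul_of_nonneg_left b7 (by positivity)
  rw [e1, hS] at a1
  have b10 : l ^ 2 ≤ l := by nlinarith
  have b11 : 10 ≤ (C1 + 10 + 10 * Dw) * l + 1 / A * (L1 + L2 + CH + Kp * Dζ) := by
    have h1 : 1 / A * (-(L1 + L2 + CH + Kp * Dζ)) = -(1 / A * (L1 + L2 + CH + Kp * Dζ)) := by ring
    have h2 : (C1 + 10 + 10 * Dw) * l = C1 * l + 10 * l + 10 * (Dw * l) := by ring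
    rw [h1] at b9
    rw [h2]
    linarith
  have b12 : (C1 + 10 + 10 * Dw) * l ≤ (C1 + 10 + 10 * Dw) * (1 / A) :=
    mul_le_mul_of_nonneg_left hlA (by positivity)
  have b13 : 10 ≤ (C1 + 10 + 10 * Dw + (L1 + L2 + CH + Kp * Dζ)) / A := by
    have : (C1 + 10 + 10 * Dw + (L1 + L2 + CH + Kp * Dζ)) / A =
        (C1 + 10 + 10 * Dw) * (1 / A) + 1 / A * (L1 + L2 + CH + Kp * Dζ) := by ring
    rw [this]; linarith
  rw [le_div_iff₀ hA] at b13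
  linarith

theorem ssgr_point (hG : rm_Met G B) (hw : ContDiffOn ℝ ∞ w B) (hu : ContDiffOn ℝ ∞ u B)
    (hζ : ContDiffOn ℝ ∞ ζ B)
    (hpde : ∀ y ∈ B, ssDivC G w ssG0 u y = 10 * (u y - w y))
    (hy1 : y1 ∈ B) {A : ℝ} (hA : 0 < A)
    (hmin : IsLocalMin (fun z => ssG0 (gradSqC G u z) + (-1 / A) * ζ z) y1)
    (h0 : ssG0 (gradSqC G u y1) = ζ y1 / A) (hζ1 : ζ y1 ≤ 1) (hs : 0 < gradSqC G u y1)
    {C1 CH L1 L2 Dw Dζ Kp : ℝ} (hC1 : 0 ≤ C1) (hCH : 0 ≤ CH) (hDw0 : 0 ≤ Dw) (hDζ0 : 0 ≤ Dζ)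
    (hR : |ssRicUU G u y1 + ssHessUU G w u y1| ≤ C1 * gradSqC G u y1)
    (hH : |ssHessUU G ζ u y1| ≤ CH * gradSqC G u y1)
    (hL1 : |lapC G ζ y1| ≤ L1) (hL2 : |gradIpC G w ζ y1| ≤ L2)
    (hDw : gradSqC G w y1 ≤ Dw ^ 2) (hDζ : gradSqC G ζ y1 ≤ Dζ ^ 2)
    (hKp : |10 * (u y1 - w y1)| ≤ Kp) :
    10 * A ≤ 10 + 10 * Dw + C1 + (L1 + L2 + CH + Kp * Dζ) := by
  have hGp : rm_Met (ssHuC G (fun _ => 1) u) B :=
    ss_huC_met hG hu contDiffOn_const fun _ _ => zero_le_one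
  have hωs := ssan_om_smooth hG hu
  have hcζ : ContDiffOn ℝ ∞ (fun z => (-1 / A) * ζ z) B := contDiffOn_const.mul hζ
  have hfs : ContDiffOn ℝ ∞ (fun z => ssG0 (gradSqC G u z) + (-1 / A) * ζ z) B := hωs.add hcζ
  have dω := rm_da hG.opn hωs hy1
  have dζ := rm_da hG.opn hζ hy1
  have du := rm_da hG.opn hu hy1
  have dw := rm_da hG.opn hw hy1
  -- (1)
  have m1 := rm_min_lap hGp hy1 hfs hmin
  have m2 : gradIpC (ssHuC G (fun _ => 1) u) w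
      (fun z => ssG0 (gradSqC G u z) + (-1 / A) * ζ z) y1 = 0 := by
    unfold gradIpC
    simp [rm_min_pdiff hmin]
  rw [rm_lap_add hGp hy1 hωs hcζ, rm_lap_smul hGp hy1 _ hζ] at m1
  rw [rm_ip_add_right (f := fun z => ssG0 (gradSqC G u z)) (k := fun z => (-1 / A) * ζ z) dω
    (dζ.const_mul _), rm_ip_smul_right _ dζ] at m2
  -- (2)
  have a1 := ssan_angle hG hw hu hy1 hs
  -- (3)
  have a2 : gradIpC G (ssDivC G w ssG0 u) u y1 =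
      10 * gradSqC G u y1 - 10 * gradIpC G w u y1 := by
    have e : ssDivC G w ssG0 u =ᶠ[𝓝 y1] fun z => 10 * u z + (-10) * w z :=
      Filter.eventuallyEq_of_mem (hG.opn.mem_nhds hy1) fun z hz => by
        rw [hpde z hz]; ring
    rw [rm_ip_congr e (Filter.EventuallyEq.refl _ u),
      rm_ip_add_left (f := fun z => 10 * u z) (k := fun z => (-10) * w z) (du.const_mul 10)
        (dw.const_mul (-10)), rm_ip_smul_left 10 du, rm_ip_smul_left (-10) dw, ← if_gradSqC_eq]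
    ring
  -- (4)
  have a3 := ssan_graph_lap2 (t := w) hG hu hζ hy1
  rw [hpde y1 hy1] at a3
  rw [a2] at a1
  have h1σ := ssan_one_add_pos hG hy1 u
  have hl0 := ssan_G0_pos h1σ
  have hl2 := ssan_G0_sq h1σ
  have c1 := rm_ip_cs hG hy1 w u
  have c2 := rm_ip_cs hG hy1 u ζ
  exact ssgr_alg hA hC1 hCH hDw0 hDζ0 m1 m2 hL1 hL2 hDw hDζ hKp hl0 hs hR hH c1 c2 hl2 a1 a3 hζ1 h0

end Claimed.Agent.R315
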