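import Claimed.Agent.R315.Ss.AngleC
import Claimed.Agent.R315.Ss.MpA

/-!
# Row 315, paper S, package SS-GG-HT, part A: the barrier `c + 1/ϱ` (prefix `ssht_`)

`ϱ(y) = r² - |y-y0|²`, `τ = |dϱ|²`, `P = ϱ⁴ + τ > 0` on the closed ball, `X = ⟨dτ,dϱ⟩`:
`div_{G,t}(∇v/√(1+|dv|²)) = -(Δϱ - ⟨dt,dϱ⟩)/√P + (2ϱ³τ + X/2)/(P√P)` for `v = c + 1/ϱ`.
Owner: helper39.
-/

set_option autoImplicit false
open scoped ContDiff Topology
open Claims.C0499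

namespace Claimed.Agent.R315

section real

/-- `φ(x) = c + 1/x`. -/
noncomputable def sshtPhi (c x : ℝ) : ℝ := c + x⁻¹

variable {c x : ℝ}

theorem ssht_phi_smooth : ContDiffOn ℝ ∞ (sshtPhi c) (Set.Ioi 0) := by
  unfold sshtPhi
  exact contDiffOn_const.add (contDiffOn_id.inv fun x (hx : 0 < x) => hx.ne')

theorem ssht_phi_d1 (hx : 0 < x) : HasDerivAt (sshtPhi c) (-(x ^ 2)⁻¹) x :=
  (hasDerivAt_inv hx.ne').const_add c

theorem ssht_phi_d2 (hx : 0 < x) : HasDerivAt (deriv (sshtPhi c)) (2 / x ^ 3) x := by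
  have h1 : HasDerivAt (fun x : ℝ => -(x ^ 2)⁻¹) (2 / x ^ 3) x := by
    have h2 := ((hasDerivAt_pow 2 x).fun_inv (by positivity)).neg
    have e : -(-(((2 : ℕ) : ℝ) * x ^ (2 - 1)) / (x ^ 2) ^ 2) = 2 / x ^ 3 := by
      norm_num
      field_simp
    rw [e] at h2
    exact h2
  refine h1.congr_of_eventuallyEq ?_
  filter_upwards [isOpen_Ioi.mem_nhds hx] with z hz
  exact (ssht_phi_d1 hz).deriv

theorem ssht_pow4_d (hx : 0 < x) : HasDerivAt (fun x : ℝ => (x ^ 4)⁻¹) (-4 / x ^ 5) x := by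
  have h2 := (hasDerivAt_pow 4 x).fun_inv (by positivity)
  have e : -(((4 : ℕ) : ℝ) * x ^ (4 - 1)) / (x ^ 4) ^ 2 = -4 / x ^ 5 := by
    norm_num
    field_simp
  rw [e] at h2
  exact h2

end real

section chart

variable {d : ℕ} {G : rm_MF d} {B : Set (E d)} {t ϱ : E d → ℝ} {y : E d} {c : ℝ}

/-- the value of the operator on the barrier. -/
noncomputable def sshtTheta (G : rm_MF d) (t ϱ : E d → ℝ) (y : E d) : ℝ :=
  -(lapC G ϱ y - gradIpC G t ϱ y) / Real.sqrt (ϱ y ^ 4 + gradSqC G ϱ y) +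
    (2 * ϱ y ^ 3 * gradSqC G ϱ y + gradIpC G (gradSqC G ϱ) ϱ y / 2) /
      ((ϱ y ^ 4 + gradSqC G ϱ y) * Real.sqrt (ϱ y ^ 4 + gradSqC G ϱ y))

theorem ssht_sq (hϱ : DifferentiableAt ℝ ϱ y) (h0 : 0 < ϱ y) :
    gradSqC G (fun z => sshtPhi c (ϱ z)) y = gradSqC G ϱ y * (ϱ y ^ 4)⁻¹ := by
  have h1 := ssht_phi_d1 (c := c) h0
  rw [if_gradSqC_eq, rm_ip_comp_left h1.differentiableAt hϱ,
    rm_ip_comp_right h1.differentiableAt hϱ, h1.deriv, ← if_gradSqC_eq]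
  field_simp

theorem ssht_barrier (hG : rm_Met G B) (hϱ : ContDiffOn ℝ ∞ ϱ B) (hpos : ∀ z ∈ B, 0 < ϱ z)
    (hy : y ∈ B) :
    ssDivC G t ssG0 (fun z => sshtPhi c (ϱ z)) y = sshtTheta G t ϱ y := by
  have h0 := hpos y hy
  have dϱ := rm_da hG.opn hϱ hy
  have hτs := sscm_sq_smooth hG hϱ
  have dτ := rm_da hG.opn hτs hy
  have hτ0 := rm_sq_nonneg hG hy ϱ
  have h1 := ssht_phi_d1 (c := c) h0
  have h2 := ssht_phi_d2 (c := c) h0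
  have h4 := ssht_pow4_d h0
  have eσ := ssht_sq (G := G) (c := c) dϱ h0
  have eL : lapC G (fun z => sshtPhi c (ϱ z)) y =
      -(ϱ y ^ 2)⁻¹ * lapC G ϱ y + 2 / ϱ y ^ 3 * gradSqC G ϱ y := by
    rw [rm_lap_comp hG hy hϱ isOpen_Ioi ssht_phi_smooth hpos, h1.deriv, h2.deriv]
  have eI : gradIpC G t (fun z => sshtPhi c (ϱ z)) y = -(ϱ y ^ 2)⁻¹ * gradIpC G t ϱ y := by
    rw [rm_ip_comp_right h1.differentiableAt dϱ, h1.deriv]
  have eX : gradIpC G (gradSqC G (fun z => sshtPhi c (ϱ z))) (fun z => sshtPhi c (ϱ z)) y =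
      -(ϱ y ^ 2)⁻¹ * (gradSqC G ϱ y * (-4 / ϱ y ^ 5 * gradSqC G ϱ y) +
        (ϱ y ^ 4)⁻¹ * gradIpC G (gradSqC G ϱ) ϱ y) := by
    have e1 : gradSqC G (fun z => sshtPhi c (ϱ z)) =ᶠ[𝓝 y]
        fun z => gradSqC G ϱ z * (ϱ z ^ 4)⁻¹ :=
      Filter.eventuallyEq_of_mem (hG.opn.mem_nhds hy) fun z hz =>
        ssht_sq (rm_da hG.opn hϱ hz) (hpos z hz)
    rw [rm_ip_congr e1 (Filter.EventuallyEq.refl _ _), rm_ip_comp_right h1.differentiableAt dϱ,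
      h1.deriv, rm_ip_mul_left (f := gradSqC G ϱ) (k := fun z => (ϱ z ^ 4)⁻¹) dτ
        (h4.differentiableAt.comp y dϱ),
      rm_ip_comp_left (φ := fun x : ℝ => (x ^ 4)⁻¹) h4.differentiableAt dϱ, h4.deriv,
      ← if_gradSqC_eq]
  have hP : 0 < ϱ y ^ 4 + gradSqC G ϱ y := by positivity
  have hω : ssG0 (gradSqC G ϱ y * (ϱ y ^ 4)⁻¹) =
      ϱ y ^ 2 / Real.sqrt (ϱ y ^ 4 + gradSqC G ϱ y) := by
    unfold ssG0
    have e2 : 1 + gradSqC G ϱ y * (ϱ y ^ 4)⁻¹ = (ϱ y ^ 4 + gradSqC G ϱ y) / (ϱ y ^ 2) ^ 2 := by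
      field_simp
    rw [e2, Real.sqrt_div hP.le, Real.sqrt_sq (by positivity)]
    field_simp
  have h1σ : 0 < 1 + gradSqC G ϱ y * (ϱ y ^ 4)⁻¹ := by positivity
  unfold ssDivC sshtTheta
  rw [eX, eL, eI, eσ, (ssan_G0_deriv' h1σ).deriv, hω]
  obtain ⟨r, hr⟩ : ∃ r, r = Real.sqrt (ϱ y ^ 4 + gradSqC G ϱ y) := ⟨_, rfl⟩
  have hr0 : 0 < r := by rw [hr]; exact Real.sqrt_pos.2 hP
  have hr2 : gradSqC G ϱ y = r ^ 2 - ϱ y ^ 4 := by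
    rw [hr, Real.sq_sqrt hP.le]; ring
  rw [← hr]
  have hP2 : ϱ y ^ 4 + gradSqC G ϱ y = r ^ 2 := by rw [hr2]; ring
  rw [hP2, hr2]
  generalize lapC G ϱ y = L
  generalize gradIpC G t ϱ y = I
  generalize gradIpC G (gradSqC G ϱ) ϱ y = X
  generalize ϱ y = q at h0
  field_simp
  ring

end chart

end Claimed.Agent.R315
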