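import Claimed.Agent.R315.Ss.GrDefs

/-!
# Row 315, paper S: small facts on the pressure used by the glue of Section 5.2 (PROVED)
-/

set_option autoImplicit false
open scoped ContDiff
open Claims.C0499

namespace Claimed.Agent.R315

theorem ss_press_diff {A0 P0 ε b0 S0 T : ℝ} {F : ℝ → ℝ → ℝ} (hF : IsPressure A0 P0 ε b0 S0 T F)
    (τ : ℝ) : ContDiffOn ℝ ∞ (fun y => F y τ) (Set.Ioo (-S0) S0) := by
  have h1 : ContDiffOn ℝ ∞ (fun y : ℝ => (y, τ)) (Set.Ioo (-S0) S0) :=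
    (contDiff_id.prodMk contDiff_const).contDiffOn
  exact hF.smooth.comp h1 fun y hy => ⟨hy, Set.mem_univ _⟩

theorem ss_press_zero {A0 P0 ε b0 S0 T : ℝ} {F : ℝ → ℝ → ℝ} (hF : IsPressure A0 P0 ε b0 S0 T F)
    (τ : ℝ) : F 0 τ = 0 := by
  have := hF.odd 0 τ
  rw [neg_zero] at this
  linarith

/-- `F(ξ,τ) ξ ≥ 10 A0 ξ²`. -/
theorem ss_press_lower {A0 P0 ε b0 S0 T : ℝ} {F : ℝ → ℝ → ℝ} (hA0 : 0 < A0)
    (hF : IsPressure A0 P0 ε b0 S0 T F) {ξ : ℝ} (hξ : ξ ∈ Set.Ioo (-S0) S0) (τ : ℝ) :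
    10 * A0 * ξ ^ 2 ≤ F ξ τ * ξ := by
  have hD : Convex ℝ (Set.Ioo (-S0) S0) := convex_Ioo _ _
  have hs := ss_press_diff hF τ
  have hder : ∀ x ∈ interior (Set.Ioo (-S0) S0), 10 * A0 ≤ deriv (fun y => F y τ) x := by
    intro x hx
    rw [interior_Ioo] at hx
    refine le_trans ?_ (hF.fx_ge x hx τ)
    have h1 : (10 : ℝ) ≤ Real.sqrt (ssV T τ) := by
      refine Real.le_sqrt_of_sq_le ?_
      unfold ssV
      nlinarith [hF.T_ge, sq_nonneg τ]
    nlinarith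
  have key := hD.mul_sub_le_image_sub_of_le_deriv hs.continuousOn
    ((hs.differentiableOn (by simp)).mono interior_subset) hder
  have h0 : (0 : ℝ) ∈ Set.Ioo (-S0) S0 := ⟨by linarith [hF.S0_pos], hF.S0_pos⟩
  have hz := ss_press_zero hF τ
  rcases le_total 0 ξ with h | h
  · have := key 0 h0 ξ hξ h
    simp only [hz, sub_zero] at this
    nlinarith
  · have := key ξ hξ 0 h0 h
    simp only [hz, zero_sub] at this
    nlinarith

end Claimed.Agent.R315
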