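import Claimed.Agent.R315.Ss.GrDefs

/-!
# Row 315, paper S: common calculus for the a priori gradient bounds (`ss_gradb`, `ss_crude`); prefix `ssg_`; sorry-free (helper277)

* `ssg_ip_comp2`: two variable chain rule for `gradIp`;  `ssg_ip_max`: the differential vanishes at a local maximum;  `ssg_ip_le`: Cauchy-Schwarz with constants.
* `ssg_arith`: the real arithmetic of the Bernstein argument.
* `ssg_grad`: gradient bound for the whole family `div(fl grad u) = tau J(sigma) Phi((u - lam psi)/eta, t) + (1 - tau) u`, with a constant which only depends on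
  a bound `X` of `|xi|`, a lower bound `p0` of `Phi_xi` and an upper bound `C2` of `|Phi_t|` on `|xi| <= X`.
-/

set_option autoImplicit false
set_option linter.unusedSectionVars false
open scoped ContDiff
open Claims.C0499

namespace Claimed.Agent.R315

variable {V : Type} [NormedAddCommGroup V] [NormedSpace ℝ V]

/-! ## two variable chain rule -/

theorem ssg_deriv_fst {Φ : ℝ → ℝ → ℝ} {p : ℝ × ℝ}
    (hΦ : DifferentiableAt ℝ (fun p : ℝ × ℝ => Φ p.1 p.2) p) :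
    deriv (fun s => Φ s p.2) p.1 = fderiv ℝ (fun p : ℝ × ℝ => Φ p.1 p.2) p (1, 0) := by
  have h1 : HasDerivAt (fun s : ℝ => (s, p.2)) ((1 : ℝ), (0 : ℝ)) p.1 :=
    (hasDerivAt_id p.1).prodMk (hasDerivAt_const p.1 p.2)
  have h2 := (hΦ.hasFDerivAt (x := (p.1, p.2))).comp_hasDerivAt p.1 h1
  exact h2.deriv

theorem ssg_deriv_snd {Φ : ℝ → ℝ → ℝ} {p : ℝ × ℝ}
    (hΦ : DifferentiableAt ℝ (fun p : ℝ × ℝ => Φ p.1 p.2) p) :
    deriv (fun r => Φ p.1 r) p.2 = fderiv ℝ (fun p : ℝ × ℝ => Φ p.1 p.2) p (0, 1) := by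
  have h1 : HasDerivAt (fun r : ℝ => (p.1, r)) ((0 : ℝ), (1 : ℝ)) p.2 :=
    (hasDerivAt_const p.2 p.1).prodMk (hasDerivAt_id p.2)
  have h2 := (hΦ.hasFDerivAt (x := (p.1, p.2))).comp_hasDerivAt p.2 h1
  exact h2.deriv

theorem ssg_pdiff_comp2 {d : ℕ} {Φ : ℝ → ℝ → ℝ} {f k : E d → ℝ} {u : E d} (i : Fin d)
    (hΦ : DifferentiableAt ℝ (fun p : ℝ × ℝ => Φ p.1 p.2) (f u, k u))
    (hf : DifferentiableAt ℝ f u) (hk : DifferentiableAt ℝ k u) :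
    pdiff (fun w => Φ (f w) (k w)) i u =
      deriv (fun s => Φ s (k u)) (f u) * pdiff f i u
        + deriv (fun r => Φ (f u) r) (k u) * pdiff k i u := by
  have h1 : HasFDerivAt (fun w => (f w, k w)) ((fderiv ℝ f u).prod (fderiv ℝ k u)) u :=
    hf.hasFDerivAt.prodMk hk.hasFDerivAt
  have h2 := hΦ.hasFDerivAt.comp u h1
  have e1 := ssg_deriv_fst (p := (f u, k u)) hΦ
  have e2 := ssg_deriv_snd (p := (f u, k u)) hΦ
  simp only at e1 e2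
  rw [e1, e2]
  unfold pdiff
  have h3 : fderiv ℝ (fun w => Φ (f w) (k w)) u = _ := h2.fderiv
  rw [h3]
  set L := fderiv ℝ (fun p : ℝ × ℝ => Φ p.1 p.2) (f u, k u)
  set α := fderiv ℝ f u (EuclideanSpace.single i 1)
  set β := fderiv ℝ k u (EuclideanSpace.single i 1)
  show L (α, β) = L (1, 0) * α + L (0, 1) * β
  have : ((α, β) : ℝ × ℝ) = α • ((1 : ℝ), (0 : ℝ)) + β • ((0 : ℝ), (1 : ℝ)) := by
    ext <;> simp
  rw [this, map_add, map_smul, map_smul]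
  simp only [smul_eq_mul]
  ring

theorem ssg_ipC_comp2 {d : ℕ} {G : rm_MF d} {Φ : ℝ → ℝ → ℝ} {f k l : E d → ℝ} {u : E d}
    (hΦ : DifferentiableAt ℝ (fun p : ℝ × ℝ => Φ p.1 p.2) (f u, k u))
    (hf : DifferentiableAt ℝ f u) (hk : DifferentiableAt ℝ k u) :
    gradIpC G (fun w => Φ (f w) (k w)) l u =
      deriv (fun s => Φ s (k u)) (f u) * gradIpC G f l u
        + deriv (fun r => Φ (f u) r) (k u) * gradIpC G k l u := by
  unfold gradIpC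
  simp only [ssg_pdiff_comp2 _ hΦ hf hk, Finset.mul_sum, ← Finset.sum_add_distrib]
  exact Finset.sum_congr rfl fun i _ => Finset.sum_congr rfl fun j _ => by ring

variable {d : ℕ} {M : Set V} {h : Ten V} {f k l : V → ℝ} {x : V}

theorem ssg_sm_comp2 {Φ : ℝ → ℝ → ℝ} (hΦ : ContDiff ℝ ∞ (fun p : ℝ × ℝ => Φ p.1 p.2))
    (hf : SmoothAlong d M f) (hk : SmoothAlong d M k) :
    SmoothAlong d M (fun y => Φ (f y) (k y)) := fun ψ U hp =>
  hΦ.comp_contDiffOn ((hf ψ U hp).prodMk (hk ψ U hp))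

theorem ssg_ip_comp2 [FiniteDimensional ℝ V] (hM : IsMfd d M) (hh : IsMetricOn d M h)
    {Φ : ℝ → ℝ → ℝ} (hΦ : ContDiff ℝ ∞ (fun p : ℝ × ℝ => Φ p.1 p.2))
    (hf : SmoothAlong d M f) (hk : SmoothAlong d M k) (hl : SmoothAlong d M l) (hx : x ∈ M) :
    gradIp d M h (fun y => Φ (f y) (k y)) l x =
      deriv (fun s => Φ s (k x)) (f x) * gradIp d M h f l x
        + deriv (fun r => Φ (f x) r) (k x) * gradIp d M h k l x := by
  obtain ⟨ψ, U, hp, u, hu, rfl⟩ := hM x hx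
  rw [gs_ip_eq hh (ssg_sm_comp2 hΦ hf hk) hl hp hu, gs_ip_eq hh hf hl hp hu,
    gs_ip_eq hh hk hl hp hu]
  exact ssg_ipC_comp2 (f := fun w => f (ψ w)) (k := fun w => k (ψ w))
    (hΦ.differentiable (by simp)).differentiableAt (gs_da hf hp hu) (gs_da hk hp hu)

/-- the differential vanishes at a local maximum. -/
theorem ssg_ip_max [FiniteDimensional ℝ V] (hM : IsMfd d M) (hh : IsMetricOn d M h)
    (hf : SmoothAlong d M f) (hl : SmoothAlong d M l) (hx : x ∈ M)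
    (hmax : ∃ O ∈ nhds x, ∀ y ∈ M ∩ O, f y ≤ f x) : gradIp d M h f l x = 0 := by
  obtain ⟨sg, hsg⟩ := ss_switch_exists
  have hfl := ss_flux hsg (a := 1 / 2) (by norm_num) le_rfl
  obtain ⟨O, hO, hm⟩ := hmax
  have h1 := (ss_mp M h (fun _ => 0) f (fun _ => 0) _ hM hh (gs_sm_const 0) hf (gs_sm_const 0) hfl hx
    ⟨O, hO, fun y hy => by simpa using hm y hy⟩).1
  rw [gs_sq_const hM hh 0 hx] at h1
  have h2 := gs_ip_cs hM hh hf hl hx
  rw [h1, zero_mul] at h2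
  exact pow_eq_zero_iff (two_ne_zero) |>.1 (le_antisymm h2 (sq_nonneg _))

theorem ssg_ip_le [FiniteDimensional ℝ V] (hM : IsMfd d M) (hh : IsMetricOn d M h)
    (hf : SmoothAlong d M f) (hl : SmoothAlong d M l) (hx : x ∈ M) {c s : ℝ} (hc : 0 ≤ c)
    (hs : 0 ≤ s) (h1 : gradSq d M h f x ≤ c ^ 2) (h2 : gradSq d M h l x = s ^ 2) :
    |gradIp d M h f l x| ≤ c * s := by
  have h3 := gs_ip_cs hM hh hf hl hx
  rw [h2] at h3
  have h4 : gradIp d M h f l x ^ 2 ≤ (c * s) ^ 2 := by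
    rw [mul_pow]
    exact h3.trans (mul_le_mul_of_nonneg_right h1 (sq_nonneg s))
  exact abs_le_of_sq_le_sq h4 (mul_nonneg hc hs)

theorem ssg_arith {s c₁ c₂ j j0 p p0 η lam ξ X A B D q C C1 C2 : ℝ} (hs : 0 ≤ s)
    (hc1 : 0 ≤ c₁) (hc2 : 0 ≤ c₂) (hc : c₁ + c₂ = 1) (hj0 : 0 < j0) (hj : j0 ≤ j) (hj2 : j ≤ 2)
    (hp0 : 0 < p0) (hp : p0 ≤ p) (hη0 : 0 < η) (hη1 : η ≤ 1) (hlam : |lam| ≤ 1) (hξ : |ξ| ≤ X)
    (hC1 : 0 ≤ C1) (hA : |A| ≤ C1 * s) (hB : |B| ≤ 2 * C1 * s) (hD : |D| ≤ C1 * s)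
    (hq : |q| ≤ C2) (hC : 0 ≤ C)
    (hmain : c₁ * (j * (p * ((s ^ 2 - lam * A - ξ * B) / η) + q * D)) + c₂ * s ^ 2 ≤ C * s) :
    s ≤ (1 + 2 * X) * C1 + (C + 2 * C2 * C1) / min (j0 * p0) 1 := by
  have hX : 0 ≤ X := (abs_nonneg ξ).trans hξ
  have hC2 : 0 ≤ C2 := (abs_nonneg q).trans hq
  set m := min (j0 * p0) 1 with hm
  have hm0 : 0 < m := lt_min (mul_pos hj0 hp0) one_pos
  have hm1 : m ≤ 1 := min_le_right _ _
  have hm2 : m ≤ j0 * p0 := min_le_left _ _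
  set s₁ := (1 + 2 * X) * C1 with hs₁
  have hs₁0 : 0 ≤ s₁ := by positivity
  have hE : 0 ≤ (C + 2 * C2 * C1) / m := by positivity
  by_cases hcase : s ≤ s₁
  · linarith
  push Not at hcase
  have hspos : 0 < s := lt_of_le_of_lt hs₁0 hcase
  -- lower bound of W
  have hlA : lam * A ≤ C1 * s := by
    calc lam * A ≤ |lam * A| := le_abs_self _
      _ = |lam| * |A| := abs_mul _ _
      _ ≤ 1 * (C1 * s) := mul_le_mul hlam hA (abs_nonneg _) zero_le_one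
      _ = C1 * s := one_mul _
  have hξB : ξ * B ≤ X * (2 * C1 * s) := by
    calc ξ * B ≤ |ξ * B| := le_abs_self _
      _ = |ξ| * |B| := abs_mul _ _
      _ ≤ X * (2 * C1 * s) := mul_le_mul hξ hB (abs_nonneg _) hX
  set W := s ^ 2 - lam * A - ξ * B with hW
  have hWge : s * (s - s₁) ≤ W := by
    have : s * (s - s₁) = s ^ 2 - C1 * s - X * (2 * C1 * s) := by rw [hs₁]; ring
    rw [this, hW]; linarith
  have hZ : 0 ≤ s * (s - s₁) := mul_nonneg hs (by linarith)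
  have hW0 : 0 ≤ W := hZ.trans hWge
  have hWη : W ≤ W / η := by
    rw [le_div_iff₀ hη0]
    exact mul_le_of_le_one_right hW0 hη1
  have hjp : m ≤ j * p := hm2.trans (mul_le_mul hj hp hp0.le (hj0.le.trans hj))
  have h1 : m * (s * (s - s₁)) ≤ j * (p * (W / η)) := by
    calc m * (s * (s - s₁)) ≤ (j * p) * (W / η) :=
          mul_le_mul hjp (hWge.trans hWη) hZ (hm0.le.trans hjp)
      _ = j * (p * (W / η)) := by ring
  have hqD : -(C2 * (C1 * s)) ≤ q * D := by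
    have : |q * D| ≤ C2 * (C1 * s) := by
      rw [abs_mul]; exact mul_le_mul hq hD (abs_nonneg _) hC2
    exact (abs_le.1 this).1
  have hj0' : 0 ≤ j := hj0.le.trans hj
  have h2 : -(2 * C2 * C1 * s) ≤ j * (q * D) := by
    have hnn : 0 ≤ C2 * (C1 * s) := by positivity
    have h20 : j * (-(C2 * (C1 * s))) ≤ j * (q * D) := mul_le_mul_of_nonneg_left hqD hj0'
    have h21 : j * (C2 * (C1 * s)) ≤ 2 * (C2 * (C1 * s)) := mul_le_mul_of_nonneg_right hj2 hnn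
    have e1 : j * (-(C2 * (C1 * s))) = -(j * (C2 * (C1 * s))) := by ring
    have e2 : 2 * C2 * C1 * s = 2 * (C2 * (C1 * s)) := by ring
    rw [e2]
    linarith
  have h3 : m * (s * (s - s₁)) - 2 * C2 * C1 * s ≤ j * (p * (W / η) + q * D) := by
    rw [mul_add]; linarith
  have h4 : c₁ * (m * (s * (s - s₁)) - 2 * C2 * C1 * s) ≤ c₁ * (j * (p * (W / η) + q * D)) :=
    mul_le_mul_of_nonneg_left h3 hc1
  have h5 : c₂ * (m * (s * (s - s₁))) ≤ c₂ * s ^ 2 := by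
    apply mul_le_mul_of_nonneg_left _ hc2
    have : s * (s - s₁) ≤ s ^ 2 := by
      have h50 : 0 ≤ s * s₁ := mul_nonneg hs hs₁0
      have e5 : s * (s - s₁) = s ^ 2 - s * s₁ := by ring
      linarith
    calc m * (s * (s - s₁)) ≤ 1 * (s * (s - s₁)) := mul_le_mul_of_nonneg_right hm1 hZ
      _ ≤ s ^ 2 := by linarith
  have hc1' : c₁ ≤ 1 := by linarith
  have h6 : c₁ * (2 * C2 * C1 * s) ≤ 2 * C2 * C1 * s := by
    have hnn : 0 ≤ 2 * C2 * C1 * s := by positivity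
    exact mul_le_of_le_one_left hnn hc1'
  have h7 : m * (s * (s - s₁)) ≤ (C + 2 * C2 * C1) * s := by
    have e : m * (s * (s - s₁)) = c₁ * (m * (s * (s - s₁))) + c₂ * (m * (s * (s - s₁))) := by
      rw [← add_mul, hc, one_mul]
    have e2 : c₁ * (m * (s * (s - s₁)) - 2 * C2 * C1 * s) =
        c₁ * (m * (s * (s - s₁))) - c₁ * (2 * C2 * C1 * s) := by ring
    linarith
  have h8 : m * (s - s₁) ≤ C + 2 * C2 * C1 := by
    have : (m * (s - s₁)) * s ≤ (C + 2 * C2 * C1) * s := by linarith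
    exact le_of_mul_le_mul_right this hspos
  have h9 : s - s₁ ≤ (C + 2 * C2 * C1) / m := by
    rw [le_div_iff₀ hm0]; linarith
  linarith

/-- bound of `|df|²` on a compact manifold. -/
theorem ssg_sq_bound [FiniteDimensional ℝ V] (hM : IsMfd d M) (hK : IsCompact M)
    (hh : IsMetricOn d M h) (hf : SmoothAlong d M f) :
    ∃ c : ℝ, 0 ≤ c ∧ ∀ x ∈ M, gradSq d M h f x ≤ c ^ 2 := by
  obtain ⟨B, hB⟩ := hK.exists_bound_of_continuousOn
    (if_smoothAlong_continuousOn hM (if_gradSq_smoothAlong hh hf))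
  refine ⟨Real.sqrt (max B 0), Real.sqrt_nonneg _, fun x hx => ?_⟩
  rw [Real.sq_sqrt (le_max_right _ _)]
  exact ((le_abs_self _).trans (hB x hx)).trans (le_max_left _ _)

theorem ssg_eta_sm {η1 : V → ℝ} (hη : SmoothAlong d M η1) (ρ : ℝ) :
    SmoothAlong d M (ssEta ρ η1) :=
  gs_sm_add (gs_sm_const ρ) (gs_sm_smul (1 - ρ) (gs_sm_pow hη 2))

theorem ssg_eta_bounds {η1 : V → ℝ} {ρ : ℝ} (hρ : ρ ∈ Set.Ioc (0 : ℝ) (1 / 2)) {x : V}
    (h : 0 ≤ η1 x ∧ η1 x ≤ 1) : ρ ≤ ssEta ρ η1 x ∧ ssEta ρ η1 x ≤ 1 := by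
  have h1 : 0 ≤ η1 x ^ 2 := sq_nonneg _
  have h2 : η1 x ^ 2 ≤ 1 := by
    have := mul_le_mul h.2 h.2 h.1 zero_le_one
    rw [sq]; linarith
  have h3 : 0 ≤ 1 - ρ := by linarith [hρ.2]
  unfold ssEta
  constructor
  · have := mul_nonneg h3 h1
    linarith
  · have := mul_le_mul_of_nonneg_left h2 h3
    linarith

theorem ssg_eta_ip [FiniteDimensional ℝ V] (hM : IsMfd d M) (hh : IsMetricOn d M h)
    {η1 : V → ℝ} (hη : SmoothAlong d M η1) (hl : SmoothAlong d M l) (ρ : ℝ) (hx : x ∈ M) :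
    gradIp d M h (ssEta ρ η1) l x = (1 - ρ) * (2 * η1 x * gradIp d M h η1 l x) := by
  have e : gradIp d M h (ssEta ρ η1) l x =
      gradIp d M h (fun y => (fun _ => ρ) y + (fun y => (1 - ρ) * (fun y => η1 y * η1 y) y) y) l x :=
    gs_ip_congr (fun y _ => by simp only [ssEta]; ring) (fun _ _ => rfl)
  rw [e, gs_ip_add_left hM hh (gs_sm_const ρ) (gs_sm_smul (1 - ρ) (gs_sm_mul hη hη)) hl hx,
    gs_ip_const_left hM hh ρ hl hx, gs_ip_smul_left hM hh (1 - ρ) (gs_sm_mul hη hη) hl hx,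
    gs_ip_mul_left hM hh hη hη hl hx]
  ring

/-- **the gradient bound for the family** `div(fl ∇u) = τ J(σ) Φ((u - lam ψ)/η, t) + (1-τ) u`. -/
theorem ssg_grad [FiniteDimensional ℝ V] {n : ℕ} {P : Set V} {H : Ten V} {t ψ η1 : V → ℝ}
    (hC : SsClosed n P H t ψ η1) {sg : ℝ → ℝ} (hsg : IsSwitch sg) {a : ℝ} (ha0 : 0 < a)
    (ha1 : a ≤ 1 / 2) (X p0 C2 : ℝ) (hp0 : 0 < p0) :
    ∃ K : ℝ, ∀ (Φ : ℝ → ℝ → ℝ) (J' : ℝ → ℝ), ContDiff ℝ ∞ (fun p : ℝ × ℝ => Φ p.1 p.2) →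
      ContDiffOn ℝ ∞ J' (Set.Ioi (-1)) → (∀ σ, 0 ≤ σ → J' σ = ssJ sg a σ) →
      (∀ x ∈ P, ∀ ξ, |ξ| ≤ X → p0 ≤ deriv (fun y => Φ y (t x)) ξ ∧
        |deriv (fun r => Φ ξ r) (t x)| ≤ C2) →
      ∀ τ ∈ Set.Icc (0 : ℝ) 1, ∀ ρ ∈ Set.Ioc (0 : ℝ) (1 / 2), ∀ lam ∈ Set.Icc (0 : ℝ) 1,
      ∀ u : V → ℝ, SmoothAlong n P u →
      (∀ x ∈ P, ssDiv n P H t (ssFl sg a) u x =
        τ * (J' (gradSq n P H u x) * Φ ((u x - lam * ψ x) / ssEta ρ η1 x) (t x)) + (1 - τ) * u x) →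
      (∀ x ∈ P, |(u x - lam * ψ x) / ssEta ρ η1 x| ≤ X) → ∀ x ∈ P, gradSq n P H u x ≤ K := by
  have hM := hC.mfd
  have hh := hC.met
  obtain ⟨C, hC0, hbern⟩ := ss_bern P H t hM hh hC.t_s P hC.cpt subset_rfl
  obtain ⟨c1, hc1, hb1⟩ := ssg_sq_bound hM hC.cpt hh hC.ψ_s
  obtain ⟨c2, hc2, hb2⟩ := ssg_sq_bound hM hC.cpt hh hC.η_s
  obtain ⟨c3, hc3, hb3⟩ := ssg_sq_bound hM hC.cpt hh hC.t_s
  set C1 := max c1 (max c2 c3) with hC1def
  have hC1 : 0 ≤ C1 := hc1.trans (le_max_left _ _)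
  have hsqle : ∀ c : ℝ, 0 ≤ c → c ≤ C1 → c ^ 2 ≤ C1 ^ 2 := fun c h0 h1 =>
    pow_le_pow_left₀ h0 h1 2
  have hB1 : ∀ x ∈ P, gradSq n P H ψ x ≤ C1 ^ 2 := fun x hx =>
    (hb1 x hx).trans (hsqle c1 hc1 (le_max_left _ _))
  have hB2 : ∀ x ∈ P, gradSq n P H η1 x ≤ C1 ^ 2 := fun x hx =>
    (hb2 x hx).trans (hsqle c2 hc2 ((le_max_left _ _).trans (le_max_right _ _)))
  have hB3 : ∀ x ∈ P, gradSq n P H t x ≤ C1 ^ 2 := fun x hx =>
    (hb3 x hx).trans (hsqle c3 hc3 ((le_max_right _ _).trans (le_max_right _ _)))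
  refine ⟨((1 + 2 * X) * C1 + (C + 2 * C2 * C1) / min (a * (1 / 100) * p0) 1) ^ 2, ?_⟩
  intro Φ J' hΦ hJ hJe hder τ hτ ρ hρ lam hlam u hu heq hξX x hx
  set σ : V → ℝ := gradSq n P H u with hσdef
  have hσs : SmoothAlong n P σ := if_gradSq_smoothAlong hh hu
  have hσ0 : ∀ y ∈ P, 0 ≤ σ y := fun y hy => gs_sq_nonneg hM hh hu hy
  obtain ⟨x₀, hx₀, hmax⟩ := hC.cpt.exists_isMaxOn ⟨x, hx⟩ (if_smoothAlong_continuousOn hM hσs)
  have hmax' : ∃ O ∈ nhds x₀, ∀ y ∈ P ∩ O, σ y ≤ σ x₀ :=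
    ⟨Set.univ, Filter.univ_mem, fun y hy => hmax hy.1⟩
  have hflux := ss_flux hsg ha0 ha1
  have hb := hbern (ssFl sg a) u hflux hu x₀ hx₀ hmax'
  -- the functions
  set η : V → ℝ := ssEta ρ η1 with hηdef
  have hηs : SmoothAlong n P η := ssg_eta_sm hC.η_s ρ
  have hηb : ∀ y ∈ P, ρ ≤ η y ∧ η y ≤ 1 := fun y hy => ssg_eta_bounds hρ (hC.η_mem y hy)
  have hηpos : ∀ y ∈ P, 0 < η y := fun y hy => lt_of_lt_of_le hρ.1 (hηb y hy).1
  set Nf : V → ℝ := fun y => u y - lam * ψ y with hNdef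
  have hNs : SmoothAlong n P Nf := gs_sm_sub hu (gs_sm_smul lam hC.ψ_s)
  set ξ : V → ℝ := fun y => Nf y / η y with hξdef
  have hξs : SmoothAlong n P ξ := gs_sm_div hNs hηs fun y hy => (hηpos y hy).ne'
  have hJσs : SmoothAlong n P (fun y => J' (σ y)) :=
    gs_sm_comp hJ hσs fun y hy => lt_of_lt_of_le (by norm_num) (hσ0 y hy)
  have hΦs : SmoothAlong n P (fun y => Φ (ξ y) (t y)) := ssg_sm_comp2 hΦ hξs hC.t_s
  -- the derivative of the right hand side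
  have hσu : gradIp n P H σ u x₀ = 0 := ssg_ip_max hM hh hσs hu hx₀ hmax'
  have e1 : gradIp n P H (ssDiv n P H t (ssFl sg a) u) u x₀ =
      gradIp n P H (fun y => (fun y => τ * (fun y => (fun y => J' (σ y)) y *
        (fun y => Φ (ξ y) (t y)) y) y) y + (fun y => (1 - τ) * u y) y) u x₀ :=
    gs_ip_congr (fun y hy => heq y hy) (fun _ _ => rfl)
  have e2 : gradIp n P H (fun y => J' (σ y)) u x₀ = 0 := by
    rw [gs_ip_comp_left hM hh isOpen_Ioi hJ hσs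
      (fun y hy => lt_of_lt_of_le (by norm_num) (hσ0 y hy)) hu hx₀, hσu, mul_zero]
  have e3 : gradIp n P H ξ u x₀ =
      (σ x₀ - lam * gradIp n P H ψ u x₀ - ξ x₀ * gradIp n P H η u x₀) / η x₀ := by
    have h1 : gradIp n P H (fun y => ξ y * η y) u x₀ = gradIp n P H Nf u x₀ :=
      gs_ip_congr (fun y hy => div_mul_cancel₀ _ (hηpos y hy).ne') (fun _ _ => rfl)
    rw [gs_ip_mul_left hM hh hξs hηs hu hx₀,
      gs_ip_sub_left hM hh hu (gs_sm_smul lam hC.ψ_s) hu hx₀,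
      gs_ip_smul_left hM hh lam hC.ψ_s hu hx₀] at h1
    rw [eq_div_iff (hηpos x₀ hx₀).ne']
    have : gradIp n P H u u x₀ = σ x₀ := rfl
    rw [this] at h1
    linarith
  have e4 : gradIp n P H (ssDiv n P H t (ssFl sg a) u) u x₀ =
      τ * (J' (σ x₀) * (deriv (fun s => Φ s (t x₀)) (ξ x₀) *
        ((σ x₀ - lam * gradIp n P H ψ u x₀ - ξ x₀ * gradIp n P H η u x₀) / η x₀)
        + deriv (fun r => Φ (ξ x₀) r) (t x₀) * gradIp n P H t u x₀)) + (1 - τ) * σ x₀ := by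
    rw [e1, gs_ip_add_left hM hh (gs_sm_smul τ (gs_sm_mul hJσs hΦs)) (gs_sm_smul (1 - τ) hu) hu hx₀,
      gs_ip_smul_left hM hh τ (gs_sm_mul hJσs hΦs) hu hx₀,
      gs_ip_smul_left hM hh (1 - τ) hu hu hx₀,
      gs_ip_mul_left hM hh hJσs hΦs hu hx₀, e2, mul_zero, add_zero,
      ssg_ip_comp2 hM hh hΦ hξs hC.t_s hu hx₀, e3]
    rfl
  -- the numbers
  set s := Real.sqrt (σ x₀) with hsdef
  have hs0 : 0 ≤ s := Real.sqrt_nonneg _
  have hs2 : σ x₀ = s ^ 2 := (Real.sq_sqrt (hσ0 x₀ hx₀)).symm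
  have hfl : C * ssFl sg a (σ x₀) * σ x₀ ≤ C * s := by
    rw [mul_assoc]
    exact mul_le_mul_of_nonneg_left (ss_fl_le hsg ha0 ha1 (hσ0 x₀ hx₀)) hC0
  have hJb := ss_J_bounds hsg ha0 ha1 (hσ0 x₀ hx₀)
  rw [← hJe _ (hσ0 x₀ hx₀)] at hJb
  have hdx := hder x₀ hx₀ (ξ x₀) (hξX x₀ hx₀)
  have hA : |gradIp n P H ψ u x₀| ≤ C1 * s :=
    ssg_ip_le hM hh hC.ψ_s hu hx₀ hC1 hs0 (hB1 x₀ hx₀) hs2
  have hD : |gradIp n P H t u x₀| ≤ C1 * s :=
    ssg_ip_le hM hh hC.t_s hu hx₀ hC1 hs0 (hB3 x₀ hx₀) hs2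
  have hBη : |gradIp n P H η u x₀| ≤ 2 * C1 * s := by
    rw [hηdef, ssg_eta_ip hM hh hC.η_s hu ρ hx₀, abs_mul, abs_mul, abs_mul]
    have g1 := ssg_ip_le hM hh hC.η_s hu hx₀ hC1 hs0 (hB2 x₀ hx₀) hs2
    have g2 : |1 - ρ| ≤ 1 := by
      rw [abs_le]; constructor <;> linarith [hρ.1, hρ.2]
    have g3 : |η1 x₀| ≤ 1 := by
      rw [abs_le]; constructor <;> linarith [(hC.η_mem x₀ hx₀).1, (hC.η_mem x₀ hx₀).2]
    have g4 : |(2 : ℝ)| = 2 := abs_of_pos two_pos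
    rw [g4]
    have g5 : 2 * |η1 x₀| * |gradIp n P H η1 u x₀| ≤ 2 * 1 * (C1 * s) :=
      mul_le_mul (mul_le_mul_of_nonneg_left g3 two_pos.le) g1 (abs_nonneg _) (by norm_num)
    calc |1 - ρ| * (2 * |η1 x₀| * |gradIp n P H η1 u x₀|)
        ≤ 1 * (2 * 1 * (C1 * s)) := mul_le_mul g2 g5 (by positivity) zero_le_one
      _ = 2 * C1 * s := by ring
  have hmain : τ * (J' (σ x₀) * (deriv (fun s => Φ s (t x₀)) (ξ x₀) *
        ((s ^ 2 - lam * gradIp n P H ψ u x₀ - ξ x₀ * gradIp n P H η u x₀) / η x₀)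
        + deriv (fun r => Φ (ξ x₀) r) (t x₀) * gradIp n P H t u x₀)) + (1 - τ) * s ^ 2 ≤ C * s := by
    rw [← hs2, ← e4]
    exact hb.trans hfl
  have hfin := ssg_arith hs0 hτ.1 (sub_nonneg.2 hτ.2) (by ring) (mul_pos ha0 (by norm_num))
    hJb.1 hJb.2 hp0 hdx.1 (hηpos x₀ hx₀) (hηb x₀ hx₀).2
    (by rw [abs_le]; constructor <;> linarith [hlam.1, hlam.2]) (hξX x₀ hx₀) hC1 hA hBη hD hdx.2
    hC0 hmain
  calc σ x ≤ σ x₀ := hmax hx
    _ = s ^ 2 := hs2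
    _ ≤ _ := pow_le_pow_left₀ hs0 hfin 2

end Claimed.Agent.R315
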