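import Claimed.Agent.R315.Ss.GrCalc

/-!
# Row 315, paper S: package SS-CRUDE (#9788) `ss_crude`

Equation on a closed manifold `P` (S (5.7)), `η = ssEta ρ η1 = ρ + (1-ρ)η1²`, `0 < ρ ≤ 1/2`, `0 ≤ lam ≤ 1`:
     `div_{H,t}(ssFl sg a (σ) ∇u) = ssJ sg a σ * Φ ((u - lam ψ)/η) t`                                  (`SsEq`)
with `Φ` a GLOBALLY smooth truncation of the pressure `F` (`IsTrunc S2 F Φ`: `Φ = F` on `[-S2,S2] × ℝ`, `∂_ξ Φ > 0` everywhere).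

## SS-CRUDE `ss_crude` (~500 lines): ANY `C¹` bound (it may depend on `ρ`) for the Leray-Schauder family `div(..) = τ J'(σ) Φ((u-ψ)/η,t) + (1-τ) u` which `ss_ql` (`Ss/LsPf.lean`) asks for.
 Height: `m = max_P|ψ|`.  At a maximum point of `u` (`ss_mp` against the constant `u x`; `ssDiv` of a constant is `0`): `τ J' Φ(ξ,t) + (1-τ)u ≤ 0`; if `u x > m` then `ξ > 0`, `Φ(ξ,t) > Φ(0,t) = F(0,t) = 0` (oddness, `IsTrunc.mono`), `u x > 0`: contradiction.  Same at a minimum.  So `|u| ≤ m`, `|ξ| ≤ 2m/ρ =: X`.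
 Gradient: on the compact `[-X,X] × t(P)`: `c1 ≤ Φ_ξ ≤ C1`, `|Φ_t| ≤ C1`, `c1 > 0`.  At a maximum point of `σ` (`dσ = 0`), `ss_bern`: `τ J'[Φ_ξ (σ - ⟨dψ,du⟩ - ξ⟨dη,du⟩)/η + Φ_t⟨dt,du⟩] + (1-τ)σ ≤ C fl σ ≤ C√σ`;
 `τ J' Φ_ξ/η + (1-τ) ≥ min (a s0 c1) 1 =: c2` (`η ≤ 1`), all other terms are `≤ C' √σ` (`η ≥ ρ`): `√σ ≤ C'/c2`.
-/

set_option autoImplicit false
open scoped ContDiff
open Claims.C0499

namespace Claimed.Agent.R315

variable {V : Type} [NormedAddCommGroup V] [NormedSpace ℝ V]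

theorem ssg_div_const [FiniteDimensional ℝ V] {d : ℕ} {M : Set V} {h : Ten V} {t : V → ℝ}
    (hM : IsMfd d M) (hh : IsMetricOn d M h) (ht : SmoothAlong d M t) (fl : ℝ → ℝ) (c : ℝ) {x : V}
    (hx : x ∈ M) : ssDiv d M h t fl (fun _ => c) x = 0 := by
  unfold ssDiv
  rw [gs_lap_const hM hh c hx,
    gs_ip_const_right hM hh c (if_gradSq_smoothAlong hh (gs_sm_const c)) hx,
    gs_ip_const_right hM hh c ht hx]
  ring

theorem ssg_convex_pos {τ A B : ℝ} (hτ : τ ∈ Set.Icc (0 : ℝ) 1) (hA : 0 < A) (hB : 0 < B) :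
    0 < τ * A + (1 - τ) * B := by
  rcases eq_or_lt_of_le hτ.1 with h | h
  · rw [← h]; simpa using hB
  · have h1 := mul_pos h hA
    have h2 := mul_nonneg (sub_nonneg.2 hτ.2) hB.le
    linarith

/-- a crude `C¹` bound for the Leray-Schauder family (for fixed `ρ`). -/
theorem ss_crude [FiniteDimensional ℝ V] {n : ℕ} {P : Set V} {H : Ten V} {t ψ η1 : V → ℝ}
    (hC : SsClosed n P H t ψ η1) {sg : ℝ → ℝ} (hsg : IsSwitch sg) {a : ℝ} (ha0 : 0 < a)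
    (ha1 : a ≤ 1 / 2) {A0 P0 ε b0 S0 T : ℝ} {F : ℝ → ℝ → ℝ} (hA0 : 0 < A0)
    (hF : IsPressure A0 P0 ε b0 S0 T F) {S2 : ℝ} (h0 : 0 < S2) (h2 : S2 < S0) {Φ : ℝ → ℝ → ℝ}
    (hΦ : IsTrunc S2 F Φ) {J' : ℝ → ℝ} (hJ : ContDiffOn ℝ ∞ J' (Set.Ioi (-1)))
    (hJe : ∀ σ, 0 ≤ σ → J' σ = ssJ sg a σ) (ρ : ℝ) (hρ : ρ ∈ Set.Ioc (0 : ℝ) (1 / 2)) :
    ∃ K : ℝ, ∀ τ ∈ Set.Icc (0 : ℝ) 1, ∀ u : V → ℝ, SmoothAlong n P u →
      (∀ x ∈ P, ssDiv n P H t (ssFl sg a) u x =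
        τ * (J' (gradSq n P H u x) * Φ ((u x - ψ x) / ssEta ρ η1 x) (t x)) + (1 - τ) * u x) →
      ∀ x ∈ P, |u x| ≤ K ∧ gradSq n P H u x ≤ K := by
  have hM := hC.mfd
  have hh := hC.met
  rcases P.eq_empty_or_nonempty with hPe | ⟨z₀, hz₀⟩
  · exact ⟨0, fun τ _ u _ _ x hx => by rw [hPe] at hx; exact absurd hx (Set.notMem_empty x)⟩
  obtain ⟨m, hm⟩ := hC.cpt.exists_bound_of_continuousOn (if_smoothAlong_continuousOn hM hC.ψ_s)
  have hm0 : 0 ≤ m := (norm_nonneg _).trans (hm z₀ hz₀)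
  set X := 2 * m / ρ with hX
  have hX0 : 0 ≤ X := div_nonneg (by positivity) hρ.1.le
  -- the derivatives of `Φ` on a compact set
  have hΦd : Differentiable ℝ (fun p : ℝ × ℝ => Φ p.1 p.2) := hΦ.smooth.differentiable (by simp)
  have hcf : Continuous (fderiv ℝ (fun p : ℝ × ℝ => Φ p.1 p.2)) :=
    hΦ.smooth.continuous_fderiv (by simp)
  have hc1 : Continuous (fun p : ℝ × ℝ => deriv (fun y => Φ y p.2) p.1) := by
    have : (fun p : ℝ × ℝ => deriv (fun y => Φ y p.2) p.1) =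
        fun p => fderiv ℝ (fun p : ℝ × ℝ => Φ p.1 p.2) p (1, 0) := by
      funext p; exact ssg_deriv_fst (hΦd p)
    rw [this]
    exact hcf.clm_apply continuous_const
  have hc2 : Continuous (fun p : ℝ × ℝ => deriv (fun r => Φ p.1 r) p.2) := by
    have : (fun p : ℝ × ℝ => deriv (fun r => Φ p.1 r) p.2) =
        fun p => fderiv ℝ (fun p : ℝ × ℝ => Φ p.1 p.2) p (0, 1) := by
      funext p; exact ssg_deriv_snd (hΦd p)
    rw [this]
    exact hcf.clm_apply continuous_const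
  have hcpt : IsCompact (Set.Icc (-X) X ×ˢ (t '' P)) :=
    isCompact_Icc.prod (hC.cpt.image_of_continuousOn (if_smoothAlong_continuousOn hM hC.t_s))
  have hne : (Set.Icc (-X) X ×ˢ (t '' P)).Nonempty :=
    ⟨(0, t z₀), ⟨by linarith, hX0⟩, Set.mem_image_of_mem t hz₀⟩
  obtain ⟨q₀, -, hq₀⟩ := hcpt.exists_isMinOn hne hc1.continuousOn
  set p0 := deriv (fun y => Φ y q₀.2) q₀.1 with hp0
  have hp0pos : 0 < p0 := hΦ.mono _ _
  obtain ⟨C2, hC2⟩ := hcpt.exists_bound_of_continuousOn hc2.continuousOn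
  obtain ⟨Kg, hKg⟩ := ssg_grad hC hsg ha0 ha1 X p0 C2 hp0pos
  refine ⟨max m Kg, fun τ hτ u hu heq => ?_⟩
  have hflux := ss_flux hsg ha0 ha1
  have hηpos : ∀ y ∈ P, 0 < ssEta ρ η1 y := fun y hy =>
    lt_of_lt_of_le hρ.1 (ssg_eta_bounds hρ (hC.η_mem y hy)).1
  have hJpos : ∀ y ∈ P, 0 < J' (gradSq n P H u y) := fun y hy => by
    rw [hJe _ (gs_sq_nonneg hM hh hu hy)]
    exact lt_of_lt_of_le (mul_pos ha0 (by norm_num))
      (ss_J_bounds hsg ha0 ha1 (gs_sq_nonneg hM hh hu hy)).1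
  have hΦ0 : ∀ r, Φ 0 r = 0 := by
    intro r
    rw [hΦ.eq 0 ⟨by linarith, h0.le⟩ r]
    have := hF.odd 0 r
    rw [neg_zero] at this
    linarith
  have hmono : ∀ r, StrictMono (fun y => Φ y r) := fun r =>
    strictMono_of_deriv_pos fun y => hΦ.mono y r
  have hψ : ∀ y ∈ P, |ψ y| ≤ m := fun y hy => hm y hy
  have hcu := if_smoothAlong_continuousOn hM hu
  -- upper bound
  have hup : ∀ y ∈ P, u y ≤ m := by
    obtain ⟨x₁, hx₁, hmax⟩ := hC.cpt.exists_isMaxOn ⟨z₀, hz₀⟩ hcu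
    have hmp := (ss_mp P H t u (fun _ => 0) (ssFl sg a) hM hh hC.t_s hu (gs_sm_const 0) hflux hx₁
      ⟨Set.univ, Filter.univ_mem, fun y hy => by simpa using hmax hy.1⟩).2
    rw [ssg_div_const hM hh hC.t_s _ 0 hx₁, heq x₁ hx₁] at hmp
    have : u x₁ ≤ m := by
      by_contra hcon
      push Not at hcon
      have h1 : 0 < (u x₁ - ψ x₁) / ssEta ρ η1 x₁ :=
        div_pos (by linarith [le_abs_self (ψ x₁), hψ x₁ hx₁]) (hηpos x₁ hx₁)
      have h3 : 0 < Φ ((u x₁ - ψ x₁) / ssEta ρ η1 x₁) (t x₁) := by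
        have := hmono (t x₁) h1
        simp only [hΦ0] at this
        exact this
      have := ssg_convex_pos hτ (mul_pos (hJpos x₁ hx₁) h3) (lt_of_le_of_lt hm0 hcon)
      linarith
    exact fun y hy => (hmax hy).trans this
  have hlow : ∀ y ∈ P, -m ≤ u y := by
    obtain ⟨x₂, hx₂, hmin⟩ := hC.cpt.exists_isMinOn ⟨z₀, hz₀⟩ hcu
    have hmp := (ss_mp P H t (fun _ => 0) u (ssFl sg a) hM hh hC.t_s (gs_sm_const 0) hu hflux hx₂
      ⟨Set.univ, Filter.univ_mem, fun y hy => by simpa using hmin hy.1⟩).2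
    rw [ssg_div_const hM hh hC.t_s _ 0 hx₂, heq x₂ hx₂] at hmp
    have : -m ≤ u x₂ := by
      by_contra hcon
      push Not at hcon
      have h1 : (u x₂ - ψ x₂) / ssEta ρ η1 x₂ < 0 :=
        div_neg_of_neg_of_pos (by linarith [neg_abs_le (ψ x₂), hψ x₂ hx₂]) (hηpos x₂ hx₂)
      have h3 : 0 < - Φ ((u x₂ - ψ x₂) / ssEta ρ η1 x₂) (t x₂) := by
        have := hmono (t x₂) h1
        simp only [hΦ0] at this
        linarith
      have := ssg_convex_pos hτ (mul_pos (hJpos x₂ hx₂) h3)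
        (show 0 < - u x₂ by linarith)
      have e : τ * (J' (gradSq n P H u x₂) * -Φ ((u x₂ - ψ x₂) / ssEta ρ η1 x₂) (t x₂))
          + (1 - τ) * -u x₂ = -(τ * (J' (gradSq n P H u x₂) *
            Φ ((u x₂ - ψ x₂) / ssEta ρ η1 x₂) (t x₂)) + (1 - τ) * u x₂) := by ring
      linarith
    exact fun y hy => this.trans (hmin hy)
  have hgrad := hKg Φ J' hΦ.smooth hJ hJe (fun y hy ξ hξ => by
      rw [abs_le] at hξ
      have hmem : (ξ, t y) ∈ Set.Icc (-X) X ×ˢ (t '' P) := ⟨hξ, Set.mem_image_of_mem t hy⟩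
      exact ⟨hq₀ hmem, hC2 _ hmem⟩) τ hτ ρ hρ 1 ⟨zero_le_one, le_rfl⟩ u hu
    (fun y hy => by rw [one_mul]; exact heq y hy)
    (fun y hy => by
      rw [one_mul, abs_div, abs_of_pos (hηpos y hy), hX]
      have h1 : |u y - ψ y| ≤ 2 * m := by
        rw [abs_le]
        have := abs_le.1 (hψ y hy)
        constructor <;> linarith [hup y hy, hlow y hy, this.1, this.2]
      exact div_le_div₀ (by positivity) h1 hρ.1 (ssg_eta_bounds hρ (hC.η_mem y hy)).1)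
  intro x hx
  exact ⟨(abs_le.2 ⟨hlow x hx, hup x hx⟩).trans (le_max_left _ _),
    (hgrad x hx).trans (le_max_right _ _)⟩

end Claimed.Agent.R315
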