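import Claimed.Agent.R315.Ss.GrCalc

/-!
# Row 315, paper S: package SS-GRADB (#7668) `ss_gradb`

Equation on a closed manifold `P` (S (5.7)), `η = ssEta ρ η1 = ρ + (1-ρ)η1²`, `0 < ρ ≤ 1/2`, `0 ≤ lam ≤ 1`:
     `div_{H,t}(ssFl sg a (σ) ∇u) = ssJ sg a σ * Φ ((u - lam ψ)/η) t`                                  (`SsEq`)
with `Φ` a GLOBALLY smooth truncation of the pressure `F` (`IsTrunc S2 F Φ`: `Φ = F` on `[-S2,S2] × ℝ`, `∂_ξ Φ > 0` everywhere).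

## SS-GRADB `ss_gradb` (~500 lines).  At a maximum point `x` of `σ` on `P`: `ss_bern`: `⟨d(ssDiv u),du⟩ ≤ C fl σ ≤ C √σ` (`ss_fl_le`).  By the equation the left side is `⟨d(J(σ)Φ(ξ,t)),du⟩`; `dσ = 0` at `x`:
 `= J [Φ_ξ ⟨dξ,du⟩ + Φ_t ⟨dt,du⟩]`, `⟨dξ,du⟩ = (σ - lam⟨dψ,du⟩ - ξ⟨dη,du⟩)/η`.  With `s = √σ`, `|ξ| ≤ S1 ≤ 1`, `|dψ|,|dη1|,|dt| ≤ C1` on `P`, `|dη| ≤ 2C1`, `Φ_ξ = F_x ≥ A0 T =: c0 > 0`, `|Φ_t| = |F_t| ≤ C2` on `[-S1,S1] × [-R,R]`, `a s0 ≤ J ≤ 2`, `η ≤ 1`: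
 `J Φ_ξ σ/η ≤ J Φ_ξ 3 C1 s/η + 2 C2 C1 s + C s`, so `s ≤ 3C1 + (2 C2 C1 + C)/(a s0 c0)`:  independent of `ρ, lam, u`.
-/

set_option autoImplicit false
open scoped ContDiff
open Claims.C0499

namespace Claimed.Agent.R315

variable {V : Type} [NormedAddCommGroup V] [NormedSpace ℝ V]

/-- the gradient bound, independent of `ρ` and `lam`. -/
theorem ss_gradb [FiniteDimensional ℝ V] {n : ℕ} {P : Set V} {H : Ten V} {t ψ η1 : V → ℝ}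
    (hC : SsClosed n P H t ψ η1) {sg : ℝ → ℝ} (hsg : IsSwitch sg) {a : ℝ} (ha0 : 0 < a)
    (ha1 : a ≤ 1 / 2) {A0 P0 ε b0 S0 T : ℝ} {F : ℝ → ℝ → ℝ} (hA0 : 0 < A0)
    (hF : IsPressure A0 P0 ε b0 S0 T F) (S1 S2 : ℝ) (h0 : 0 < S1) (h1 : S1 < S2) (h2 : S2 < S0) :
    ∃ K1 : ℝ, ∀ Φ : ℝ → ℝ → ℝ, IsTrunc S2 F Φ →
      ∀ ρ ∈ Set.Ioc (0 : ℝ) (1 / 2), ∀ lam ∈ Set.Icc (0 : ℝ) 1, ∀ u : V → ℝ, SmoothAlong n P u →
        SsEq n P H t ψ η1 sg a Φ ρ lam u P →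
        (∀ x ∈ P, |u x - lam * ψ x| ≤ S1 * ssEta ρ η1 x) → ∀ x ∈ P, gradSq n P H u x ≤ K1 := by
  have hM := hC.mfd
  have hh := hC.met
  have hT : 0 < T := lt_of_lt_of_le (by norm_num) hF.T_ge
  -- bound of `F`
  have hcpt : IsCompact (Set.Icc (-S1) S1 ×ˢ (t '' P)) :=
    isCompact_Icc.prod (hC.cpt.image_of_continuousOn (if_smoothAlong_continuousOn hM hC.t_s))
  have hsub : Set.Icc (-S1) S1 ×ˢ (t '' P) ⊆ Set.Ioo (-S0) S0 ×ˢ (Set.univ : Set ℝ) := by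
    rintro ⟨y, r⟩ ⟨hy, -⟩
    exact ⟨⟨by linarith [hy.1], by linarith [hy.2]⟩, Set.mem_univ _⟩
  obtain ⟨Fm, hFm⟩ := hcpt.exists_bound_of_continuousOn (hF.smooth.continuousOn.mono hsub)
  obtain ⟨J', hJ', -, hJe⟩ := ss_J_ext hsg ha0 ha1
  have hJe' : ∀ σ, 0 ≤ σ → J' σ = ssJ sg a σ := fun σ hσ =>
    hJe σ (le_trans (by norm_num) hσ)
  obtain ⟨K, hK⟩ := ssg_grad hC hsg ha0 ha1 S1 (A0 * T) (|ε| * Fm) (mul_pos hA0 hT)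
  refine ⟨K, fun Φ hΦ ρ hρ lam hlam u hu heq hht x hx => ?_⟩
  refine hK Φ J' hΦ.smooth hJ' hJe' ?_ 1 ⟨zero_le_one, le_rfl⟩ ρ hρ lam hlam u hu ?_ ?_ x hx
  · intro y hy ξ hξ
    rw [abs_le] at hξ
    have hξ0 : ξ ∈ Set.Ioo (-S0) S0 := ⟨by linarith [hξ.1], by linarith [hξ.2]⟩
    constructor
    · have e : (fun z => Φ z (t y)) =ᶠ[nhds ξ] fun z => F z (t y) := by
        filter_upwards [Ioo_mem_nhds (show -S2 < ξ by linarith [hξ.1])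
          (show ξ < S2 by linarith [hξ.2])] with z hz
        exact hΦ.eq z ⟨hz.1.le, hz.2.le⟩ _
      rw [e.deriv_eq]
      refine le_trans ?_ (hF.fx_ge ξ hξ0 (t y))
      apply mul_le_mul_of_nonneg_left _ hA0.le
      apply Real.le_sqrt_of_sq_le
      unfold ssV
      nlinarith [sq_nonneg (t y)]
    · have e : (fun r => Φ ξ r) = fun r => F ξ r := by
        funext r
        exact hΦ.eq ξ ⟨by linarith [hξ.1], by linarith [hξ.2]⟩ r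
      rw [e]
      refine (hF.ft_le ξ hξ0 (t y)).trans ?_
      have h3 : |F ξ (t y)| ≤ Fm := hFm (ξ, t y) ⟨⟨hξ.1, hξ.2⟩, Set.mem_image_of_mem t hy⟩
      exact mul_le_mul (le_abs_self ε) h3 (abs_nonneg _) (abs_nonneg _)
  · intro y hy
    rw [heq y hy, hJe' _ (gs_sq_nonneg hM hh hu hy)]
    ring
  · intro y hy
    have hη : 0 < ssEta ρ η1 y := lt_of_lt_of_le hρ.1 (ssg_eta_bounds hρ (hC.η_mem y hy)).1
    rw [abs_div, abs_of_pos hη, div_le_iff₀ hη]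
    exact hht y hy

end Claimed.Agent.R315
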