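import Claimed.Agent.R315.Ss.GrDefs
import Claimed.Agent.R315.Ss.Mp
import Claimed.Agent.R315.Gs.Calc

/-!
# Row 315, paper S: package SS-HEIGHT (#7667) `ss_height`

Equation on a closed manifold `P` (S (5.7)), `η = ssEta ρ η1 = ρ + (1-ρ)η1²`, `0 < ρ ≤ 1/2`, `0 ≤ lam ≤ 1`:
     `div_{H,t}(ssFl sg a (σ) ∇u) = ssJ sg a σ * Φ ((u - lam ψ)/η) t`                                  (`SsEq`)
with `Φ` a GLOBALLY smooth truncation of the pressure `F` (`IsTrunc S2 F Φ`: `Φ = F` on `[-S2,S2] × ℝ`, `∂_ξ Φ > 0` everywhere).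

## SS-HEIGHT `ss_height` (S (5.8)).  `v = lam ψ + S η = lam ψ + Sρ + S(1-ρ) η1²`.  `C0 := sup |ssDiv n P H t fl (lam ψ + c η1² + k) x|` over `x ∈ P`, `lam, c ∈ [-1,1]`, `k ∈ ℝ`
 (`ssh_div_bound`: everything is expanded by bilinearity into polynomials in `(lam, c)` with coefficients smooth along the compact `P`).
 `t(P) ⊆ [-R,R]`.  `IsPressure.pole R ((C0+1)/(a s0))` gives `S1 < S0` with `a s0 F(S1,τ) > C0`.  Take `S2 ∈ (S1,S0)`.
 If `u - lam ψ - S1 η` has a positive maximum at `x` (compactness of `P`): `ss_mp`: `ssDiv u x ≤ ssDiv v x ≤ C0`, but `ξ > S1`, `Φ(ξ,t) ≥ Φ(S1,t) = F(S1,t)`, `ssJ ≥ a s0`: `ssDiv u x > C0`.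
 Lower bound: the same at a positive maximum of `lam ψ - S1 η - u` with `ss_mp` for `(v,u)` and the oddness of `F`.
-/

set_option autoImplicit false
set_option linter.unusedSectionVars false
open scoped ContDiff
open Claims.C0499

namespace Claimed.Agent.R315

variable {V : Type} [NormedAddCommGroup V] [NormedSpace ℝ V]

/-- a function which is smooth along a compact manifold is bounded. -/
theorem ssh_bdd {n : ℕ} {P : Set V} (hM : IsMfd n P) (hc : IsCompact P) {f : V → ℝ}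
    (hf : SmoothAlong n P f) : ∃ K : ℝ, 0 ≤ K ∧ ∀ x ∈ P, |f x| ≤ K := by
  obtain ⟨C, hC⟩ := hc.exists_bound_of_continuousOn (if_smoothAlong_continuousOn hM hf)
  exact ⟨max C 0, le_max_right _ _, fun x hx => le_trans (hC x hx) (le_max_left _ _)⟩

theorem ssh_abs1 {p a K : ℝ} (hp : |p| ≤ 1) (ha : |a| ≤ K) : |p * a| ≤ K := by
  rw [abs_mul]
  calc |p| * |a| ≤ 1 * |a| := mul_le_mul_of_nonneg_right hp (abs_nonneg a)
    _ = |a| := one_mul _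
    _ ≤ K := ha

theorem ssh_abs2 {p q a b Ka Kb : ℝ} (hp : |p| ≤ 1) (hq : |q| ≤ 1) (ha : |a| ≤ Ka)
    (hb : |b| ≤ Kb) : |p * a + q * b| ≤ Ka + Kb :=
  (abs_add_le _ _).trans (add_le_add (ssh_abs1 hp ha) (ssh_abs1 hq hb))

theorem ssh_absq {lam c a b e Ka Kb Ke : ℝ} (hl : |lam| ≤ 1) (hc : |c| ≤ 1) (ha : |a| ≤ Ka)
    (hb : |b| ≤ Kb) (he : |e| ≤ Ke) :
    |lam ^ 2 * a + 2 * lam * c * b + c ^ 2 * e| ≤ Ka + 2 * Kb + Ke := by
  have h1 : |lam ^ 2| ≤ 1 := by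
    rw [abs_pow]
    exact pow_le_one₀ (abs_nonneg _) hl
  have h2 : |c ^ 2| ≤ 1 := by
    rw [abs_pow]
    exact pow_le_one₀ (abs_nonneg _) hc
  have h3 : |lam * c| ≤ 1 := by
    rw [abs_mul]
    exact mul_le_one₀ hl (abs_nonneg _) hc
  have h4 : |2 * lam * c * b| ≤ 2 * Kb := by
    have : 2 * lam * c * b = 2 * (lam * c * b) := by ring
    rw [this, abs_mul, abs_two]
    exact mul_le_mul_of_nonneg_left (ssh_abs1 h3 hb) (by norm_num)
  exact (abs_add_le _ _).trans (add_le_add ((abs_add_le _ _).trans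
    (add_le_add (ssh_abs1 h1 ha) h4)) (ssh_abs1 h2 he))

theorem ssh_abs3 {a b c d e F0 F1 X Y Z : ℝ} (ha : |a| ≤ F0) (hc : |c| ≤ F1) (hb : |b| ≤ X)
    (hd : |d| ≤ Y) (he : |e| ≤ Z) : |a * b + c * d - a * e| ≤ F0 * X + F1 * Y + F0 * Z := by
  have h1 : |a * b| ≤ F0 * X := by
    rw [abs_mul]
    exact mul_le_mul ha hb (abs_nonneg _) ((abs_nonneg _).trans ha)
  have h2 : |c * d| ≤ F1 * Y := by
    rw [abs_mul]
    exact mul_le_mul hc hd (abs_nonneg _) ((abs_nonneg _).trans hc)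
  have h3 : |a * e| ≤ F0 * Z := by
    rw [abs_mul]
    exact mul_le_mul ha he (abs_nonneg _) ((abs_nonneg _).trans ha)
  exact (abs_sub _ _).trans (add_le_add ((abs_add_le _ _).trans (add_le_add h1 h2)) h3)

section sshCalc

variable [FiniteDimensional ℝ V] {n : ℕ} {P : Set V} {H : Ten V} {f g ψ e A B D : V → ℝ} {x : V}

theorem ssh_sm (hψ : SmoothAlong n P ψ) (he : SmoothAlong n P e) (lam c k : ℝ) :
    SmoothAlong n P (fun y => lam * ψ y + c * e y + k) :=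
  gs_sm_add (gs_sm_add (gs_sm_smul lam hψ) (gs_sm_smul c he)) (gs_sm_const k)

theorem ssh_ip_right (hM : IsMfd n P) (hh : IsMetricOn n P H) (hf : SmoothAlong n P f)
    (hψ : SmoothAlong n P ψ) (he : SmoothAlong n P e) (lam c k : ℝ) (hx : x ∈ P) :
    gradIp n P H f (fun y => lam * ψ y + c * e y + k) x
      = lam * gradIp n P H f ψ x + c * gradIp n P H f e x := by
  rw [gs_ip_add_right hM hh (gs_sm_add (gs_sm_smul lam hψ) (gs_sm_smul c he)) (gs_sm_const k) hf hx,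
    gs_ip_add_right hM hh (gs_sm_smul lam hψ) (gs_sm_smul c he) hf hx,
    gs_ip_smul_right hM hh lam hψ hf hx, gs_ip_smul_right hM hh c he hf hx,
    gs_ip_const_right hM hh k hf hx, add_zero]

theorem ssh_ip_left (hM : IsMfd n P) (hh : IsMetricOn n P H) (hA : SmoothAlong n P A)
    (hB : SmoothAlong n P B) (hD : SmoothAlong n P D) (hg : SmoothAlong n P g) (p q r : ℝ)
    (hx : x ∈ P) :
    gradIp n P H (fun y => p * A y + q * B y + r * D y) g x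
      = p * gradIp n P H A g x + q * gradIp n P H B g x + r * gradIp n P H D g x := by
  rw [gs_ip_add_left hM hh (gs_sm_add (gs_sm_smul p hA) (gs_sm_smul q hB)) (gs_sm_smul r hD) hg hx,
    gs_ip_add_left hM hh (gs_sm_smul p hA) (gs_sm_smul q hB) hg hx,
    gs_ip_smul_left hM hh p hA hg hx, gs_ip_smul_left hM hh q hB hg hx,
    gs_ip_smul_left hM hh r hD hg hx]

theorem ssh_sq (hM : IsMfd n P) (hh : IsMetricOn n P H) (hψ : SmoothAlong n P ψ)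
    (he : SmoothAlong n P e) (lam c k : ℝ) (hx : x ∈ P) :
    gradSq n P H (fun y => lam * ψ y + c * e y + k) x
      = lam ^ 2 * gradSq n P H ψ x + 2 * lam * c * gradIp n P H ψ e x
        + c ^ 2 * gradSq n P H e x := by
  have hw := ssh_sm hψ he lam c k
  simp only [if_gradSq_eq_gradIp]
  rw [ssh_ip_right hM hh hw hψ he lam c k hx, gs_ip_comm hM hh hw hψ hx,
    gs_ip_comm hM hh hw he hx, ssh_ip_right hM hh hψ hψ he lam c k hx,
    ssh_ip_right hM hh he hψ he lam c k hx, gs_ip_comm hM hh he hψ hx]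
  ring

theorem ssh_lap (hM : IsMfd n P) (hh : IsMetricOn n P H) (hψ : SmoothAlong n P ψ)
    (he : SmoothAlong n P e) (lam c k : ℝ) (hx : x ∈ P) :
    lap n P H (fun y => lam * ψ y + c * e y + k) x
      = lam * lap n P H ψ x + c * lap n P H e x := by
  rw [gs_lap_add hM hh (gs_sm_add (gs_sm_smul lam hψ) (gs_sm_smul c he)) (gs_sm_const k) hx,
    gs_lap_add hM hh (gs_sm_smul lam hψ) (gs_sm_smul c he) hx,
    gs_lap_smul hM hh lam hψ hx, gs_lap_smul hM hh c he hx, gs_lap_const hM hh k hx, add_zero]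

/-- `⟨dσ_w, dg⟩` for `w = lam ψ + c e + k`. -/
theorem ssh_ip_sq (hM : IsMfd n P) (hh : IsMetricOn n P H) (hψ : SmoothAlong n P ψ)
    (he : SmoothAlong n P e) (hg : SmoothAlong n P g) (lam c k : ℝ) (hx : x ∈ P) :
    gradIp n P H (gradSq n P H (fun y => lam * ψ y + c * e y + k)) g x
      = lam ^ 2 * gradIp n P H (gradSq n P H ψ) g x
        + 2 * lam * c * gradIp n P H (gradIp n P H ψ e) g x
        + c ^ 2 * gradIp n P H (gradSq n P H e) g x := by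
  rw [← ssh_ip_left hM hh (if_gradSq_smoothAlong hh hψ) (if_gradIp_smoothAlong hh hψ he)
    (if_gradSq_smoothAlong hh he) hg (lam ^ 2) (2 * lam * c) (c ^ 2) hx]
  exact gs_ip_congr (fun y hy => ssh_sq hM hh hψ he lam c k hy) fun _ _ => rfl

/-- the uniform bound of the divergence of the two parameter family of barriers. -/
theorem ssh_div_bound {t : V → ℝ} (hM : IsMfd n P) (hc : IsCompact P) (hh : IsMetricOn n P H)
    (ht : SmoothAlong n P t) (hψ : SmoothAlong n P ψ) (he : SmoothAlong n P e) {fl : ℝ → ℝ}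
    (hfl : IsFlux fl) :
    ∃ C0 : ℝ, 0 ≤ C0 ∧ ∀ lam ∈ Set.Icc (-1 : ℝ) 1, ∀ c ∈ Set.Icc (-1 : ℝ) 1, ∀ k : ℝ, ∀ x ∈ P,
      |ssDiv n P H t fl (fun y => lam * ψ y + c * e y + k) x| ≤ C0 := by
  have hA := if_gradSq_smoothAlong hh hψ
  have hB := if_gradIp_smoothAlong hh hψ he
  have hD := if_gradSq_smoothAlong hh he
  obtain ⟨K1, hK1, b1⟩ := ssh_bdd hM hc hA
  obtain ⟨K2, hK2, b2⟩ := ssh_bdd hM hc hB
  obtain ⟨K3, hK3, b3⟩ := ssh_bdd hM hc hD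
  obtain ⟨K4, hK4, b4⟩ := ssh_bdd hM hc (gs_lap_sm hh hψ)
  obtain ⟨K5, hK5, b5⟩ := ssh_bdd hM hc (gs_lap_sm hh he)
  obtain ⟨K6, hK6, b6⟩ := ssh_bdd hM hc (if_gradIp_smoothAlong hh ht hψ)
  obtain ⟨K7, hK7, b7⟩ := ssh_bdd hM hc (if_gradIp_smoothAlong hh ht he)
  obtain ⟨K8, hK8, b8⟩ := ssh_bdd hM hc (if_gradIp_smoothAlong hh hA hψ)
  obtain ⟨K9, hK9, b9⟩ := ssh_bdd hM hc (if_gradIp_smoothAlong hh hB hψ)
  obtain ⟨K10, hK10, b10⟩ := ssh_bdd hM hc (if_gradIp_smoothAlong hh hD hψ)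
  obtain ⟨K11, hK11, b11⟩ := ssh_bdd hM hc (if_gradIp_smoothAlong hh hA he)
  obtain ⟨K12, hK12, b12⟩ := ssh_bdd hM hc (if_gradIp_smoothAlong hh hB he)
  obtain ⟨K13, hK13, b13⟩ := ssh_bdd hM hc (if_gradIp_smoothAlong hh hD he)
  have hsub : Set.Icc (0 : ℝ) (K1 + 2 * K2 + K3) ⊆ Set.Ioi (-1) := fun s hs =>
    lt_of_lt_of_le (by norm_num) hs.1
  obtain ⟨F0, hF0⟩ := isCompact_Icc.exists_bound_of_continuousOn (hfl.smooth.continuousOn.mono hsub)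
  obtain ⟨F1, hF1⟩ := isCompact_Icc.exists_bound_of_continuousOn
    ((hfl.smooth.continuousOn_deriv_of_isOpen isOpen_Ioi (by simp)).mono hsub)
  have h0mem : (0 : ℝ) ∈ Set.Icc (0 : ℝ) (K1 + 2 * K2 + K3) := ⟨le_rfl, by positivity⟩
  have hF0n : 0 ≤ F0 := (norm_nonneg _).trans (hF0 0 h0mem)
  have hF1n : 0 ≤ F1 := (norm_nonneg _).trans (hF1 0 h0mem)
  refine ⟨F0 * (K4 + K5) + F1 * ((K8 + 2 * K9 + K10) + (K11 + 2 * K12 + K13)) + F0 * (K6 + K7),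
    by positivity, ?_⟩
  intro lam hlam c hcc k x hx
  have hl : |lam| ≤ 1 := abs_le.2 hlam
  have hc' : |c| ≤ 1 := abs_le.2 hcc
  have hw := ssh_sm hψ he lam c k
  have hσ : gradSq n P H (fun y => lam * ψ y + c * e y + k) x ∈ Set.Icc (0 : ℝ) (K1 + 2 * K2 + K3) := by
    refine ⟨gs_sq_nonneg hM hh hw hx, ?_⟩
    rw [ssh_sq hM hh hψ he lam c k hx]
    exact (le_abs_self _).trans (ssh_absq hl hc' (b1 x hx) (b2 x hx) (b3 x hx))
  unfold ssDiv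
  rw [ssh_lap hM hh hψ he lam c k hx,
    ssh_ip_right hM hh (if_gradSq_smoothAlong hh hw) hψ he lam c k hx,
    ssh_ip_right hM hh ht hψ he lam c k hx, ssh_ip_sq hM hh hψ he hψ lam c k hx,
    ssh_ip_sq hM hh hψ he he lam c k hx]
  exact ssh_abs3 (hF0 _ hσ) (hF1 _ hσ) (ssh_abs2 hl hc' (b4 x hx) (b5 x hx))
    (ssh_abs2 hl hc' (ssh_absq hl hc' (b8 x hx) (b9 x hx) (b10 x hx))
      (ssh_absq hl hc' (b11 x hx) (b12 x hx) (b13 x hx)))
    (ssh_abs2 hl hc' (b6 x hx) (b7 x hx))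

end sshCalc

/-- S (5.8). -/
theorem ss_height [FiniteDimensional ℝ V] {n : ℕ} {P : Set V} {H : Ten V} {t ψ η1 : V → ℝ}
    (hC : SsClosed n P H t ψ η1) {sg : ℝ → ℝ} (hsg : IsSwitch sg) {a : ℝ} (ha0 : 0 < a)
    (ha1 : a ≤ 1 / 2) {A0 P0 ε b0 S0 T : ℝ} {F : ℝ → ℝ → ℝ} (hA0 : 0 < A0)
    (hF : IsPressure A0 P0 ε b0 S0 T F) :
    ∃ S1 S2 : ℝ, 0 < S1 ∧ S1 < S2 ∧ S2 < S0 ∧ ∀ Φ : ℝ → ℝ → ℝ, IsTrunc S2 F Φ →
      ∀ ρ ∈ Set.Ioc (0 : ℝ) (1 / 2), ∀ lam ∈ Set.Icc (0 : ℝ) 1, ∀ u : V → ℝ, SmoothAlong n P u →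
        SsEq n P H t ψ η1 sg a Φ ρ lam u P → ∀ x ∈ P, |u x - lam * ψ x| ≤ S1 * ssEta ρ η1 x := by
  have hM := hC.mfd
  have hh := hC.met
  have hfl : IsFlux (ssFl sg a) := ss_flux hsg ha0 ha1
  have he : SmoothAlong n P (fun y => η1 y ^ 2) := gs_sm_pow hC.η_s 2
  obtain ⟨C0, hC0, hdiv⟩ := ssh_div_bound hM hC.cpt hh hC.t_s hC.ψ_s he hfl
  obtain ⟨R, hR, htR⟩ := ssh_bdd hM hC.cpt hC.t_s
  obtain ⟨S1, hS1, hS10, hpole⟩ := hF.pole R ((C0 + 1) / (a * (1 / 100)))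
  have haa : 0 < a * (1 / 100) := by positivity
  have hL : 0 < (C0 + 1) / (a * (1 / 100)) := by positivity
  have hLa : a * (1 / 100) * ((C0 + 1) / (a * (1 / 100))) = C0 + 1 := by
    field_simp
  refine ⟨S1, (S1 + S0) / 2, hS1, by linarith, by linarith, ?_⟩
  intro Φ hΦ ρ hρ lam hlam u hu hEq
  have hS01 := hF.S0_le
  -- the coefficient of `η1²`
  have hcc : S1 * (1 - ρ) ∈ Set.Icc (-1 : ℝ) 1 := by
    have h1 : 0 ≤ S1 * (1 - ρ) := mul_nonneg hS1.le (by linarith [hρ.2])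
    have h2 : S1 * (1 - ρ) ≤ 1 * 1 := mul_le_mul (by linarith) (by linarith [hρ.1]) (by linarith [hρ.2]) (by norm_num)
    exact ⟨by linarith, by linarith⟩
  have hcc' : -(S1 * (1 - ρ)) ∈ Set.Icc (-1 : ℝ) 1 := ⟨by linarith [hcc.2], by linarith [hcc.1]⟩
  have hlam' : lam ∈ Set.Icc (-1 : ℝ) 1 := ⟨by linarith [hlam.1], hlam.2⟩
  have hηpos : ∀ y, 0 < ssEta ρ η1 y := by
    intro y
    unfold ssEta
    have : 0 ≤ (1 - ρ) * η1 y ^ 2 := mul_nonneg (by linarith [hρ.2]) (sq_nonneg _)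
    linarith [hρ.1]
  have hmono : ∀ τ, StrictMono (fun y => Φ y τ) := fun τ => strictMono_of_deriv_pos (fun y => hΦ.mono y τ)
  have hS1mem : S1 ∈ Set.Icc (-((S1 + S0) / 2)) ((S1 + S0) / 2) := ⟨by linarith, by linarith⟩
  have hS1mem' : -S1 ∈ Set.Icc (-((S1 + S0) / 2)) ((S1 + S0) / 2) := ⟨by linarith, by linarith⟩
  have huc : ContinuousOn u P := if_smoothAlong_continuousOn hM hu
  -- upper barrier
  have hv1 := ssh_sm hC.ψ_s he lam (S1 * (1 - ρ)) (S1 * ρ)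
  have hv2 := ssh_sm hC.ψ_s he lam (-(S1 * (1 - ρ))) (-(S1 * ρ))
  have ev1 : ∀ y, lam * ψ y + S1 * (1 - ρ) * η1 y ^ 2 + S1 * ρ = lam * ψ y + S1 * ssEta ρ η1 y := by
    intro y
    unfold ssEta
    ring
  have ev2 : ∀ y, lam * ψ y + -(S1 * (1 - ρ)) * η1 y ^ 2 + -(S1 * ρ) = lam * ψ y - S1 * ssEta ρ η1 y := by
    intro y
    unfold ssEta
    ring
  intro x hx
  rw [abs_le]
  constructor
  · -- lower bound
    by_contra hcon
    push Not at hcon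
    obtain ⟨x0, hx0, hmax⟩ := hC.cpt.exists_isMaxOn ⟨x, hx⟩
      ((if_smoothAlong_continuousOn hM hv2).sub huc)
    have hmax' : ∀ y ∈ P, (lam * ψ y + -(S1 * (1 - ρ)) * η1 y ^ 2 + -(S1 * ρ)) - u y
        ≤ (lam * ψ x0 + -(S1 * (1 - ρ)) * η1 x0 ^ 2 + -(S1 * ρ)) - u x0 := fun y hy => hmax hy
    have hpos : 0 < (lam * ψ x0 + -(S1 * (1 - ρ)) * η1 x0 ^ 2 + -(S1 * ρ)) - u x0 := by
      refine lt_of_lt_of_le ?_ (hmax' x hx)
      rw [ev2]
      linarith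
    obtain ⟨-, hle⟩ := ss_mp P H t _ u (ssFl sg a) hM hh hC.t_s hv2 hu hfl hx0
      ⟨Set.univ, Filter.univ_mem, fun y hy => hmax' y hy.1⟩
    have hb := (abs_le.1 (hdiv lam hlam' _ hcc' (-(S1 * ρ)) x0 hx0)).1
    rw [hEq x0 hx0] at hle
    have hJ := (ss_J_bounds hsg ha0 ha1 (gs_sq_nonneg hM hh hu hx0)).1
    have hτ : t x0 ∈ Set.Icc (-R) R := abs_le.1 (htR x0 hx0)
    have hξ : (u x0 - lam * ψ x0) / ssEta ρ η1 x0 < -S1 := by
      rw [div_lt_iff₀ (hηpos x0)]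
      rw [ev2] at hpos
      linarith
    have h1 : Φ ((u x0 - lam * ψ x0) / ssEta ρ η1 x0) (t x0) < Φ (-S1) (t x0) := hmono (t x0) hξ
    rw [hΦ.eq _ hS1mem', hF.odd] at h1
    have h2 := hpole S1 ⟨le_rfl, hS10⟩ (t x0) hτ
    have h3 : Φ ((u x0 - lam * ψ x0) / ssEta ρ η1 x0) (t x0) < -((C0 + 1) / (a * (1 / 100))) := by
      linarith
    have h4 : ssJ sg a (gradSq n P H u x0) * Φ ((u x0 - lam * ψ x0) / ssEta ρ η1 x0) (t x0)
        ≤ a * (1 / 100) * (-((C0 + 1) / (a * (1 / 100)))) := by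
      have hJ0 : 0 ≤ ssJ sg a (gradSq n P H u x0) := haa.le.trans hJ
      calc ssJ sg a (gradSq n P H u x0) * Φ ((u x0 - lam * ψ x0) / ssEta ρ η1 x0) (t x0)
          ≤ ssJ sg a (gradSq n P H u x0) * (-((C0 + 1) / (a * (1 / 100)))) :=
            mul_le_mul_of_nonneg_left h3.le hJ0
        _ ≤ a * (1 / 100) * (-((C0 + 1) / (a * (1 / 100)))) :=
            mul_le_mul_of_nonpos_right hJ (by linarith)
    rw [mul_neg, hLa] at h4
    linarith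
  · -- upper bound
    by_contra hcon
    push Not at hcon
    obtain ⟨x0, hx0, hmax⟩ := hC.cpt.exists_isMaxOn ⟨x, hx⟩
      (huc.sub (if_smoothAlong_continuousOn hM hv1))
    have hmax' : ∀ y ∈ P, u y - (lam * ψ y + S1 * (1 - ρ) * η1 y ^ 2 + S1 * ρ)
        ≤ u x0 - (lam * ψ x0 + S1 * (1 - ρ) * η1 x0 ^ 2 + S1 * ρ) := fun y hy => hmax hy
    have hpos : 0 < u x0 - (lam * ψ x0 + S1 * (1 - ρ) * η1 x0 ^ 2 + S1 * ρ) := by
      refine lt_of_lt_of_le ?_ (hmax' x hx)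
      rw [ev1]
      linarith
    obtain ⟨-, hle⟩ := ss_mp P H t u _ (ssFl sg a) hM hh hC.t_s hu hv1 hfl hx0
      ⟨Set.univ, Filter.univ_mem, fun y hy => hmax' y hy.1⟩
    have hb := (abs_le.1 (hdiv lam hlam' _ hcc (S1 * ρ) x0 hx0)).2
    rw [hEq x0 hx0] at hle
    have hJ := (ss_J_bounds hsg ha0 ha1 (gs_sq_nonneg hM hh hu hx0)).1
    have hτ : t x0 ∈ Set.Icc (-R) R := abs_le.1 (htR x0 hx0)
    have hξ : S1 < (u x0 - lam * ψ x0) / ssEta ρ η1 x0 := by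
      rw [lt_div_iff₀ (hηpos x0)]
      rw [ev1] at hpos
      linarith
    have h1 : Φ S1 (t x0) < Φ ((u x0 - lam * ψ x0) / ssEta ρ η1 x0) (t x0) := hmono (t x0) hξ
    rw [hΦ.eq _ hS1mem] at h1
    have h2 := hpole S1 ⟨le_rfl, hS10⟩ (t x0) hτ
    have h3 : (C0 + 1) / (a * (1 / 100)) < Φ ((u x0 - lam * ψ x0) / ssEta ρ η1 x0) (t x0) := by
      linarith
    have h4 : a * (1 / 100) * ((C0 + 1) / (a * (1 / 100)))
        ≤ ssJ sg a (gradSq n P H u x0) * Φ ((u x0 - lam * ψ x0) / ssEta ρ η1 x0) (t x0) :=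
      mul_le_mul hJ h3.le hL.le (haa.le.trans hJ)
    rw [hLa] at h4
    linarith

end Claimed.Agent.R315
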