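import Claimed.Agent.R315.Ss.GrTrunc
import Claimed.Agent.R315.Ss.GrHeight
import Claimed.Agent.R315.Ss.GrGradb
import Claimed.Agent.R315.Ss.GrCrude

/-!
# Row 315, paper S: package SS-GCL (#7669) `ss_graph_closed`: PROVED

Equation on a closed manifold `P` (S (5.7)), `η = ssEta ρ η1 = ρ + (1-ρ)η1²`, `0 < ρ ≤ 1/2`, `0 ≤ lam ≤ 1`:
     `div_{H,t}(ssFl sg a (σ) ∇u) = ssJ sg a σ * Φ ((u - lam ψ)/η) t`                                  (`SsEq`)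
with `Φ` a GLOBALLY smooth truncation of the pressure `F` (`IsTrunc S2 F Φ`: `Φ = F` on `[-S2,S2] × ℝ`, `∂_ξ Φ > 0` everywhere).

## SS-GCL `ss_graph_closed` (~350 lines): `ss_height` → `S1, S2`; `ss_trunc` → `Φ`; `ss_gradb` → `K1`; `ss_J_ext` → `J'`.  For `ρ`: `ss_crude` → `K`; `ss_ql` with `b x z σ := J' σ * Φ ((z - ψ x)/η x) (t x)` (`SmoothAlong3`: `η ≥ ρ > 0` smooth);
 `J' = ssJ` at `σ = gradSq .. ≥ 0`: `SsEq .. Φ ρ 1 u P`; then `ss_height`, `ss_gradb` with `lam = 1`.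
-/

set_option autoImplicit false
open scoped ContDiff
open Claims.C0499

namespace Claimed.Agent.R315

variable {V : Type} [NormedAddCommGroup V] [NormedSpace ℝ V]

/-- `SmoothAlong3` for the right hand side of the graph equation. -/
theorem ss_gcl_b3 [FiniteDimensional ℝ V] {n : ℕ} {P : Set V} {H : Ten V} {t ψ η1 : V → ℝ}
    (hC : SsClosed n P H t ψ η1) {Φ : ℝ → ℝ → ℝ}
    (hΦ : ContDiff ℝ ∞ (fun p : ℝ × ℝ => Φ p.1 p.2)) {J' : ℝ → ℝ}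
    (hJ : ContDiffOn ℝ ∞ J' (Set.Ioi (-1))) {ρ : ℝ} (hρ : 0 < ρ) (hρ1 : ρ ≤ 1) :
    SmoothAlong3 n P fun x z σ => J' σ * Φ ((z - ψ x) / ssEta ρ η1 x) (t x) := by
  intro φ U hφ
  have hψs := hC.ψ_s φ U hφ
  have hηs := hC.η_s φ U hφ
  have hts := hC.t_s φ U hφ
  set D : Set (E n × ℝ × ℝ) := U ×ˢ (Set.univ ×ˢ Set.Ioi (-1 : ℝ)) with hD
  have hfst : ContDiffOn ℝ ∞ (fun p : E n × ℝ × ℝ => p.1) D := contDiff_fst.contDiffOn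
  have hm : Set.MapsTo (fun p : E n × ℝ × ℝ => p.1) D U := fun p hp => hp.1
  have h1 : ContDiffOn ℝ ∞ (fun p : E n × ℝ × ℝ => ψ (φ p.1)) D := hψs.comp hfst hm
  have h2 : ContDiffOn ℝ ∞ (fun p : E n × ℝ × ℝ => η1 (φ p.1)) D := hηs.comp hfst hm
  have h3 : ContDiffOn ℝ ∞ (fun p : E n × ℝ × ℝ => t (φ p.1)) D := hts.comp hfst hm
  have h4 : ContDiffOn ℝ ∞ (fun p : E n × ℝ × ℝ => ssEta ρ η1 (φ p.1)) D := by
    unfold ssEta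
    exact contDiffOn_const.add (contDiffOn_const.mul (h2.pow 2))
  have h4' : ∀ p ∈ D, ssEta ρ η1 (φ p.1) ≠ 0 := by
    intro p _
    have : 0 < ssEta ρ η1 (φ p.1) := by
      unfold ssEta
      have : 0 ≤ (1 - ρ) * η1 (φ p.1) ^ 2 := mul_nonneg (by linarith) (sq_nonneg _)
      linarith
    exact this.ne'
  have h5 : ContDiffOn ℝ ∞ (fun p : E n × ℝ × ℝ => (p.2.1 - ψ (φ p.1)) / ssEta ρ η1 (φ p.1)) D :=
    ((contDiff_fst.comp contDiff_snd).contDiffOn.sub h1).div h4 h4'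
  have h6 : ContDiffOn ℝ ∞
      (fun p : E n × ℝ × ℝ => Φ ((p.2.1 - ψ (φ p.1)) / ssEta ρ η1 (φ p.1)) (t (φ p.1))) D :=
    hΦ.comp_contDiffOn (h5.prodMk h3)
  have h7 : ContDiffOn ℝ ∞ (fun p : E n × ℝ × ℝ => J' p.2.2) D :=
    hJ.comp (contDiff_snd.comp contDiff_snd).contDiffOn fun p hp => hp.2.2
  exact h7.mul h6

/-- existence with uniform height and gradient bounds on a closed manifold. -/
theorem ss_graph_closed [FiniteDimensional ℝ V] {n : ℕ} {P : Set V} {H : Ten V}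
    {t ψ η1 : V → ℝ} (hn : 2 ≤ n) (hC : SsClosed n P H t ψ η1) {sg : ℝ → ℝ} (hsg : IsSwitch sg) {a : ℝ}
    (ha0 : 0 < a) (ha1 : a ≤ 1 / 2) {A0 P0 ε b0 S0 T : ℝ} {F : ℝ → ℝ → ℝ} (hA0 : 0 < A0)
    (hF : IsPressure A0 P0 ε b0 S0 T F) :
    ∃ (S1 S2 K1 : ℝ) (Φ : ℝ → ℝ → ℝ), 0 < S1 ∧ S1 < S2 ∧ S2 < S0 ∧ IsTrunc S2 F Φ ∧
      ∀ ρ ∈ Set.Ioc (0 : ℝ) (1 / 2), ∃ u : V → ℝ, SmoothAlong n P u ∧
        SsEq n P H t ψ η1 sg a Φ ρ 1 u P ∧ (∀ x ∈ P, |u x - ψ x| ≤ S1 * ssEta ρ η1 x) ∧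
        ∀ x ∈ P, gradSq n P H u x ≤ K1 := by
  obtain ⟨S1, S2, h0, h1, h2, hht⟩ := ss_height hC hsg ha0 ha1 hA0 hF
  obtain ⟨Φ, hΦ⟩ := ss_trunc hA0 hF S2 (h0.trans h1) h2
  obtain ⟨K1, hK1⟩ := ss_gradb hC hsg ha0 ha1 hA0 hF S1 S2 h0 h1 h2
  obtain ⟨J', hJs, -, hJe⟩ := ss_J_ext hsg ha0 ha1
  have hJe' : ∀ σ, 0 ≤ σ → J' σ = ssJ sg a σ := fun σ hσ => hJe σ (by
    have : -(1 / 100 : ℝ) ^ 2 / 2 ≤ 0 := by norm_num
    linarith)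
  refine ⟨S1, S2, K1, Φ, h0, h1, h2, hΦ, fun ρ hρ => ?_⟩
  obtain ⟨K, hK⟩ := ss_crude hC hsg ha0 ha1 hA0 hF (h0.trans h1) h2 hΦ hJs hJe' ρ hρ
  obtain ⟨u, hu, heq⟩ := ss_ql P H t (ssFl sg a)
    (fun x z σ => J' σ * Φ ((z - ψ x) / ssEta ρ η1 x) (t x)) K hn hC.mfd hC.cpt hC.met hC.t_s
    (ss_flux hsg ha0 ha1) (ss_gcl_b3 hC hΦ.smooth hJs hρ.1 (hρ.2.trans (by norm_num)))
    (fun τ hτ u hu he => hK τ hτ u hu he)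
  have hE : SsEq n P H t ψ η1 sg a Φ ρ 1 u P := by
    intro x hx
    rw [heq x hx, hJe' _ (gs_sq_nonneg hC.mfd hC.met hu hx), one_mul]
  have hone : (1 : ℝ) ∈ Set.Icc (0 : ℝ) 1 := ⟨zero_le_one, le_rfl⟩
  have hh := hht Φ hΦ ρ hρ 1 hone u hu hE
  refine ⟨u, hu, hE, fun x hx => by simpa using hh x hx, hK1 Φ hΦ ρ hρ 1 hone u hu hE hh⟩

end Claimed.Agent.R315
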