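import Claimed.Agent.R315.Ss.Slope
import Claimed.Agent.R315.Pack010
import Claimed.Agent.R315.Pack011
import Claimed.Agent.R315.Ss.LsPf

/-!
# Row 315, paper S: Section 5.2, the graph equation: definitions (`IsTrunc`, `SsClosed`, `SsEq`); NO sorry here

Equation on a closed manifold `P` (S (5.7)), `η = ssEta ρ η1 = ρ + (1-ρ)η1²`, `0 < ρ ≤ 1/2`, `0 ≤ lam ≤ 1`:
     `div_{H,t}(ssFl sg a (σ) ∇u) = ssJ sg a σ * Φ ((u - lam ψ)/η) t`                                  (`SsEq`)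
with `Φ` a GLOBALLY smooth truncation of the pressure `F` (`IsTrunc S2 F Φ`: `Φ = F` on `[-S2,S2] × ℝ`, `∂_ξ Φ > 0` everywhere).
-/

set_option autoImplicit false
open scoped ContDiff
open Claims.C0499

namespace Claimed.Agent.R315

variable {V : Type} [NormedAddCommGroup V] [NormedSpace ℝ V]

/-- globally smooth truncation of the pressure. -/
structure IsTrunc (S2 : ℝ) (F Φ : ℝ → ℝ → ℝ) : Prop where
  smooth : ContDiff ℝ ∞ (fun p : ℝ × ℝ => Φ p.1 p.2)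
  eq : ∀ x ∈ Set.Icc (-S2) S2, ∀ t, Φ x t = F x t
  mono : ∀ x t, 0 < deriv (fun y => Φ y t) x

/-- data on a closed manifold. -/
structure SsClosed (n : ℕ) (P : Set V) (H : Ten V) (t ψ η1 : V → ℝ) : Prop where
  mfd : IsMfd n P
  cpt : IsCompact P
  met : IsMetricOn n P H
  t_s : SmoothAlong n P t
  ψ_s : SmoothAlong n P ψ
  η_s : SmoothAlong n P η1
  η_mem : ∀ x ∈ P, 0 ≤ η1 x ∧ η1 x ≤ 1

/-- the graph equation S (5.7) on the set `X ⊆ P`. -/
def SsEq (n : ℕ) (P : Set V) (H : Ten V) (t ψ η1 : V → ℝ) (sg : ℝ → ℝ) (a : ℝ)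
    (Φ : ℝ → ℝ → ℝ) (ρ lam : ℝ) (u : V → ℝ) (X : Set V) : Prop :=
  ∀ x ∈ X, ssDiv n P H t (ssFl sg a) u x =
    ssJ sg a (gradSq n P H u x) * Φ ((u x - lam * ψ x) / ssEta ρ η1 x) (t x)

end Claimed.Agent.R315
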