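import Claimed.Agent.R315.Ss.T1Defs
import Claimed.Agent.R315.Pack006

/-!
# Row 315, paper S: package SS-T1-C  ellipticity of the flux: `ss_flux_lower`, `ss_dpA_eq`, `ss_QA_ell`, `ss_grad_norm_le`   (~500 lines)

* `ss_flux_lower` (pure linear algebra): `H` positive definite, `s = p⬝Hp`, `c, c'` real: `c η⬝Hη + 2c' (η⬝Hp)² ≥ min c (c + 2 s c') η⬝Hη`.  If `c' ≥ 0`: drop the square.  If `c' < 0`: Cauchy-Schwarz for the form `H`
  (`(η⬝Hp)² ≤ (η⬝Hη)(p⬝Hp)`: discriminant of `τ ↦ (η+τp)⬝H(η+τp) ≥ 0`, or `Matrix.PosSemidef`-API / `inner_mul_le_norm_mul_norm` for the inner product of `H`).   ALSO USED by LS-L2OK (`lsA` positive definite) and LS-FORM-B.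
* `ss_dpA_eq`: for fixed `y, z` the map `p ↦ ssQA G t fl (y,z,p)` has the derivative `η ↦ w (fl(s) G⁻¹η + 2 fl'(s) (η⬝G⁻¹p) G⁻¹p)` (`s` is a quadratic form: `ds(η) = 2 η⬝G⁻¹p`, symmetry of `G⁻¹`; `fl` differentiable at `s ≥ 0 > -1`).
  `dpA A ζ η = fderiv ℝ A ζ (0,0,η)`; `A` is differentiable at `ζ` as a function of all variables when `ζ.1 ∈ U` (smoothness: `ss_fixA_smooth`-type argument, or directly), so `fderiv ℝ A ζ (0,0,η) = fderiv (p ↦ A (y,z,p)) p η` (chain rule with the affine map `p ↦ (y,z,p)`).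
* `ss_QA_ell`: `⟪dpA η, η'⟫ = w (fl η'⬝G⁻¹η + 2fl' (η⬝G⁻¹p)(η'⬝G⁻¹p))`: symmetric.  Lower bound: `w ≥ √(lam^d) e^{-Λ 0}` (`det G ≥ lam^d`: eigenvalues `≥ lam`, `Matrix.IsHermitian.det_eq_prod_eigenvalues`; ALTERNATIVE without eigenvalues: compactness — `ssFixW` is continuous and positive on the compact `ssFixQ` of `T1b`),
  `η⬝G⁻¹η ≥ |η|²/(d Λ 0)` (as in `ss_grad_norm_le`), `min (fl s) (fl s + 2 s fl' s) ≥ c0 > 0` on the compact `[0, Kp²/lam]` (continuity of `fl, fl'` on `(-1,∞)`, `IsCompact.exists_isMinOn`), `s ≤ |p|²/lam`.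
  (SOFT ALTERNATIVE for the whole lower bound: the function `(q,η) ↦ ⟪..η,η⟫` is continuous and positive on the compact `ssFixQ × unit sphere`.)
* `ss_grad_norm_le`: `p = ∇u(y)`, `p i = pdiff u i y`.  `(p⬝p)² = (p⬝G⁻¹(Gp))² ≤ (p⬝G⁻¹p)(Gp⬝G⁻¹Gp) = σ (p⬝Gp) ≤ σ d Λ₀ (p⬝p)`  (`|v⬝Gv| ≤ Λ₀ (∑|v_i|)² ≤ Λ₀ d v⬝v`).
-/

set_option autoImplicit false
open scoped ContDiff RealInnerProductSpace Gradient
open Claims.C0499 Claimed.Agent.Lib.Ell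

namespace Claimed.Agent.R315

variable {d : ℕ}

/-- Cauchy-Schwarz for a positive definite form -/
theorem sst1c_cs {H : Matrix (Fin d) (Fin d) ℝ} (hH : H.PosDef) (p η : Fin d → ℝ) :
    (η ⬝ᵥ H.mulVec p) ^ 2 ≤ (η ⬝ᵥ H.mulVec η) * (p ⬝ᵥ H.mulVec p) := by
  have hsym : p ⬝ᵥ H.mulVec η = η ⬝ᵥ H.mulVec p := by
    have hT : H.transpose = H := by
      have := hH.isHermitian
      rwa [Matrix.IsHermitian, Matrix.conjTranspose_eq_transpose_of_trivial] at this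
    rw [Matrix.dotProduct_mulVec, ← Matrix.mulVec_transpose, hT, dotProduct_comm]
  have h : ∀ τ : ℝ, 0 ≤ (p ⬝ᵥ H.mulVec p) * (τ * τ) + (2 * (η ⬝ᵥ H.mulVec p)) * τ + η ⬝ᵥ H.mulVec η := by
    intro τ
    have h1 := hH.posSemidef.dotProduct_mulVec_nonneg (η + τ • p)
    simp only [star_trivial, Matrix.mulVec_add, Matrix.mulVec_smul, add_dotProduct, dotProduct_add,
      smul_dotProduct, dotProduct_smul, smul_eq_mul, hsym] at h1
    nlinarith [h1]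
  have h2 := discrim_le_zero h
  rw [discrim] at h2
  nlinarith [h2]

theorem ss_flux_lower {H : Matrix (Fin d) (Fin d) ℝ} (hH : H.PosDef) (p η : Fin d → ℝ) (c c' : ℝ) :
    min c (c + 2 * (p ⬝ᵥ H.mulVec p) * c') * (η ⬝ᵥ H.mulVec η)
      ≤ c * (η ⬝ᵥ H.mulVec η) + 2 * c' * (η ⬝ᵥ H.mulVec p) ^ 2 := by
  have hQ : 0 ≤ η ⬝ᵥ H.mulVec η := by
    have := hH.posSemidef.dotProduct_mulVec_nonneg η
    simpa using this
  have hcs := sst1c_cs hH p η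
  rcases le_or_gt 0 c' with hc | hc
  · have h1 := mul_le_mul_of_nonneg_right (min_le_left c (c + 2 * (p ⬝ᵥ H.mulVec p) * c')) hQ
    have h2 : 0 ≤ 2 * c' * (η ⬝ᵥ H.mulVec p) ^ 2 := by positivity
    linarith
  · have h1 := mul_le_mul_of_nonneg_right (min_le_right c (c + 2 * (p ⬝ᵥ H.mulVec p) * c')) hQ
    nlinarith [h1, hcs]

/-- components of the gradient. -/
theorem ss_grad_apply (u : E d → ℝ) (y : E d) (i : Fin d) : (∇ u y) i = pdiff u i y := by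
  have h1 : ⟪∇ u y, EuclideanSpace.single i (1 : ℝ)⟫ = fderiv ℝ u y (EuclideanSpace.single i 1) :=
    InnerProductSpace.toDual_symm_apply
  rw [EuclideanSpace.inner_single_right] at h1
  simpa [pdiff] using h1

theorem ss_S_grad (G : rm_MF d) (u : E d → ℝ) (y : E d) : ssS G y (∇ u y) = gradSqC G u y := by
  unfold ssS gradSqC
  simp only [dotProduct, Matrix.mulVec, ss_grad_apply, Finset.mul_sum]
  exact Finset.sum_congr rfl fun i _ => Finset.sum_congr rfl fun j _ => by ring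

theorem sst1c_symm {H : Matrix (Fin d) (Fin d) ℝ} (hH : H.PosDef) (p η : Fin d → ℝ) :
    p ⬝ᵥ H.mulVec η = η ⬝ᵥ H.mulVec p := by
  have hT : H.transpose = H := by
    have := hH.isHermitian
    rwa [Matrix.IsHermitian, Matrix.conjTranspose_eq_transpose_of_trivial] at this
  rw [Matrix.dotProduct_mulVec, ← Matrix.mulVec_transpose, hT, dotProduct_comm]

theorem sst1c_S_nonneg {G : rm_MF d} {U : Set (E d)} (hG : rm_Met G U) {y : E d} (hy : y ∈ U) (p : E d) :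
    0 ≤ ssS G y p := by
  have := (rm_inv_pos hG hy).posSemidef.dotProduct_mulVec_nonneg (p : Fin d → ℝ)
  simpa [ssS] using this

theorem sst1c_fl_da {fl : ℝ → ℝ} (hfl : IsFlux fl) {s : ℝ} (hs : 0 ≤ s) : DifferentiableAt ℝ fl s :=
  (hfl.smooth.contDiffAt (Ioi_mem_nhds (by linarith))).differentiableAt (by simp)

theorem sst1c_W_da {G : rm_MF d} {U : Set (E d)} (hG : rm_Met G U) {t : E d → ℝ}
    (ht : ContDiffOn ℝ ∞ t U) {y : E d} (hy : y ∈ U) : DifferentiableAt ℝ (ssW G t) y := by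
  unfold ssW
  exact (rm_da hG.opn (rm_sqrtdet_smooth hG) hy).mul (rm_da hG.opn ht hy).neg.exp

theorem sst1c_diffAt {G : rm_MF d} {U : Set (E d)} (hG : rm_Met G U) {t : E d → ℝ}
    (ht : ContDiffOn ℝ ∞ t U) {fl : ℝ → ℝ} (hfl : IsFlux fl) {ζ : E d × ℝ × E d} (hζ : ζ.1 ∈ U) :
    DifferentiableAt ℝ (ssQA G t fl) ζ := by
  have hfst : DifferentiableAt ℝ (fun ζ' : E d × ℝ × E d => ζ'.1) ζ := differentiableAt_fst
  have hp : ∀ i, DifferentiableAt ℝ (fun ζ' : E d × ℝ × E d => ζ'.2.2 i) ζ := fun i =>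
    ((EuclideanSpace.proj i : E d →L[ℝ] ℝ).comp ((ContinuousLinearMap.snd ℝ ℝ (E d)).comp
      (ContinuousLinearMap.snd ℝ (E d) (ℝ × E d)))).differentiableAt
  have hinv : ∀ i j, DifferentiableAt ℝ (fun ζ' : E d × ℝ × E d => (G ζ'.1)⁻¹ i j) ζ := fun i j =>
    DifferentiableAt.comp ζ (g := fun w => (G w)⁻¹ i j) (rm_da hG.opn (rm_inv_smooth hG i j) hζ) hfst
  have hW : DifferentiableAt ℝ (fun ζ' : E d × ℝ × E d => ssW G t ζ'.1) ζ :=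
    DifferentiableAt.comp ζ (g := ssW G t) (sst1c_W_da hG ht hζ) hfst
  have hS : DifferentiableAt ℝ (fun ζ' : E d × ℝ × E d => ssS G ζ'.1 ζ'.2.2) ζ := by
    unfold ssS
    simp only [dotProduct, Matrix.mulVec]
    exact DifferentiableAt.fun_sum fun i _ => (hp i).mul
      (DifferentiableAt.fun_sum fun j _ => (hinv i j).mul (hp j))
  have hfl' := sst1c_fl_da hfl (sst1c_S_nonneg hG hζ ζ.2.2)
  unfold ssQA
  refine (hW.mul (DifferentiableAt.comp ζ (g := fl) hfl' hS)).smul ?_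
  rw [differentiableAt_euclidean]
  intro i
  simp only [dotProduct, Matrix.mulVec]
  exact DifferentiableAt.fun_sum fun j _ => (hinv i j).mul (hp j)

theorem ss_dpA_eq {G : rm_MF d} {U : Set (E d)} (hG : rm_Met G U) {t : E d → ℝ}
    (ht : ContDiffOn ℝ ∞ t U) {fl : ℝ → ℝ} (hfl : IsFlux fl) {ζ : E d × ℝ × E d} (hζ : ζ.1 ∈ U)
    (η : E d) :
    dpA (ssQA G t fl) ζ η = ssW G t ζ.1 • WithLp.toLp 2
      (fl (ssS G ζ.1 ζ.2.2) • (G ζ.1)⁻¹.mulVec η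
        + (2 * deriv fl (ssS G ζ.1 ζ.2.2) * ((η : Fin d → ℝ) ⬝ᵥ (G ζ.1)⁻¹.mulVec ζ.2.2))
          • (G ζ.1)⁻¹.mulVec ζ.2.2) := by
  obtain ⟨y, z, p⟩ := ζ
  replace hζ : y ∈ U := hζ
  show fderiv ℝ (ssQA G t fl) (y, z, p) ((0 : E d), (0 : ℝ), η) = ssW G t y • WithLp.toLp 2
      (fl (ssS G y p) • (G y)⁻¹.mulVec η
        + (2 * deriv fl (ssS G y p) * ((η : Fin d → ℝ) ⬝ᵥ (G y)⁻¹.mulVec p)) • (G y)⁻¹.mulVec p)
  have hHpos : ((G y)⁻¹).PosDef := rm_inv_pos hG hζ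
  have hA := (sst1c_diffAt hG ht hfl (ζ := (y, z, p)) hζ).hasFDerivAt
  have hγ : HasDerivAt (fun τ : ℝ => ((y, z, p + τ • η) : E d × ℝ × E d))
      ((0 : E d), (0 : ℝ), η) 0 := by
    have h1 : HasDerivAt (fun τ : ℝ => p + τ • η) η 0 := by
      simpa using ((hasDerivAt_id (0 : ℝ)).smul_const η).const_add p
    exact (hasDerivAt_const 0 y).prodMk ((hasDerivAt_const 0 z).prodMk h1)
  have h1 : HasDerivAt (fun τ : ℝ => ssQA G t fl (y, z, p + τ • η))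
      (fderiv ℝ (ssQA G t fl) (y, z, p) ((0 : E d), (0 : ℝ), η)) 0 :=
    HasFDerivAt.comp_hasDerivAt_of_eq 0 hA hγ (by simp)
  have hs : HasDerivAt (fun τ : ℝ => ssS G y (p + τ • η))
      (2 * ((η : Fin d → ℝ) ⬝ᵥ (G y)⁻¹.mulVec p)) 0 := by
    have e : (fun τ : ℝ => ssS G y (p + τ • η)) = fun τ =>
        ((p : Fin d → ℝ) ⬝ᵥ (G y)⁻¹.mulVec p) + τ * (2 * ((η : Fin d → ℝ) ⬝ᵥ (G y)⁻¹.mulVec p))
          + τ ^ 2 * ((η : Fin d → ℝ) ⬝ᵥ (G y)⁻¹.mulVec η) := by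
      funext τ
      unfold ssS
      simp only [WithLp.ofLp_add, WithLp.ofLp_smul, Matrix.mulVec_add, Matrix.mulVec_smul,
        add_dotProduct, dotProduct_add, smul_dotProduct, dotProduct_smul, smul_eq_mul,
        sst1c_symm hHpos (p : Fin d → ℝ) (η : Fin d → ℝ)]
      ring
    rw [e]
    have h2 := (((hasDerivAt_id (0 : ℝ)).mul_const
      (2 * ((η : Fin d → ℝ) ⬝ᵥ (G y)⁻¹.mulVec p))).const_add
        ((p : Fin d → ℝ) ⬝ᵥ (G y)⁻¹.mulVec p)).fun_add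
      (((hasDerivAt_id (0 : ℝ)).pow 2).mul_const ((η : Fin d → ℝ) ⬝ᵥ (G y)⁻¹.mulVec η))
    simpa using h2
  have hv : HasDerivAt (fun τ : ℝ => (WithLp.toLp 2 ((G y)⁻¹.mulVec (p + τ • η)) : E d))
      (WithLp.toLp 2 ((G y)⁻¹.mulVec η)) 0 := by
    have e : (fun τ : ℝ => (WithLp.toLp 2 ((G y)⁻¹.mulVec (p + τ • η)) : E d)) = fun τ =>
        WithLp.toLp 2 ((G y)⁻¹.mulVec p) + τ • WithLp.toLp 2 ((G y)⁻¹.mulVec η) := by
      funext τ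
      ext i
      simp [Matrix.mulVec_add, Matrix.mulVec_smul]
    rw [e]
    simpa using ((hasDerivAt_id (0 : ℝ)).smul_const
      (WithLp.toLp 2 ((G y)⁻¹.mulVec η) : E d)).const_add (WithLp.toLp 2 ((G y)⁻¹.mulVec p) : E d)
  have hc : HasDerivAt (fun τ : ℝ => ssW G t y * fl (ssS G y (p + τ • η)))
      (ssW G t y * (deriv fl (ssS G y p) * (2 * ((η : Fin d → ℝ) ⬝ᵥ (G y)⁻¹.mulVec p)))) 0 := by
    have hfl' : HasDerivAt fl (deriv fl (ssS G y p)) (ssS G y (p + (0 : ℝ) • η)) := by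
      simpa using (sst1c_fl_da hfl (sst1c_S_nonneg hG hζ p)).hasDerivAt
    exact (hfl'.comp 0 hs).const_mul _
  have h2 := hc.smul hv
  have h3 := h1.unique h2
  rw [h3]
  ext i
  simp
  ring

theorem sst1c_W_pos {G : rm_MF d} {U : Set (E d)} (hG : rm_Met G U) (t : E d → ℝ) {y : E d}
    (hy : y ∈ U) : 0 < ssW G t y :=
  mul_pos (Real.sqrt_pos.2 (rm_det_pos hG hy)) (Real.exp_pos _)

/-- the quadratic form of `∂_p A`. -/
theorem sst1c_inner {G : rm_MF d} {U : Set (E d)} (hG : rm_Met G U) {t : E d → ℝ}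
    (ht : ContDiffOn ℝ ∞ t U) {fl : ℝ → ℝ} (hfl : IsFlux fl) {ζ : E d × ℝ × E d} (hζ : ζ.1 ∈ U)
    (η η' : E d) :
    ⟪dpA (ssQA G t fl) ζ η, η'⟫ = ssW G t ζ.1 *
      (fl (ssS G ζ.1 ζ.2.2) * ((η' : Fin d → ℝ) ⬝ᵥ (G ζ.1)⁻¹.mulVec η) +
        2 * deriv fl (ssS G ζ.1 ζ.2.2) * ((η : Fin d → ℝ) ⬝ᵥ (G ζ.1)⁻¹.mulVec ζ.2.2) *
          ((η' : Fin d → ℝ) ⬝ᵥ (G ζ.1)⁻¹.mulVec ζ.2.2)) := by
  rw [ss_dpA_eq hG ht hfl hζ, real_inner_smul_left, EuclideanSpace.inner_eq_star_dotProduct]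
  simp only [star_trivial, dotProduct_add, dotProduct_smul, smul_eq_mul]

/-- qualitative ellipticity (used by LS-REG): `ss_dpA_eq`, `ss_flux_lower`, `ssW > 0`, `G⁻¹` positive definite, `IsFlux.pos`, `IsFlux.ell`. -/
theorem ss_QA_pos {G : rm_MF d} {U : Set (E d)} (hG : rm_Met G U) {t : E d → ℝ}
    (ht : ContDiffOn ℝ ∞ t U) {fl : ℝ → ℝ} (hfl : IsFlux fl) {ζ : E d × ℝ × E d} (hζ : ζ.1 ∈ U) :
    (∀ η η' : E d, ⟪dpA (ssQA G t fl) ζ η, η'⟫ = ⟪η, dpA (ssQA G t fl) ζ η'⟫) ∧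
      ∀ η : E d, η ≠ 0 → 0 < ⟪dpA (ssQA G t fl) ζ η, η⟫ := by
  have hH : ((G ζ.1)⁻¹).PosDef := rm_inv_pos hG hζ
  constructor
  · intro η η'
    rw [real_inner_comm _ η, sst1c_inner hG ht hfl hζ, sst1c_inner hG ht hfl hζ,
      sst1c_symm hH (η' : Fin d → ℝ) (η : Fin d → ℝ)]
    ring
  · intro η hη
    rw [sst1c_inner hG ht hfl hζ]
    have hs := sst1c_S_nonneg hG hζ ζ.2.2
    have h1 := ss_flux_lower hH (ζ.2.2 : Fin d → ℝ) (η : Fin d → ℝ) (fl (ssS G ζ.1 ζ.2.2))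
      (deriv fl (ssS G ζ.1 ζ.2.2))
    have h2 : 0 < (η : Fin d → ℝ) ⬝ᵥ (G ζ.1)⁻¹.mulVec η := by
      have := hH.dotProduct_mulVec_pos (x := (η : Fin d → ℝ)) (fun h => hη (by ext i; simp [h]))
      simpa using this
    have h3 : 0 < min (fl (ssS G ζ.1 ζ.2.2)) (fl (ssS G ζ.1 ζ.2.2) +
        2 * ((ζ.2.2 : Fin d → ℝ) ⬝ᵥ (G ζ.1)⁻¹.mulVec ζ.2.2) * deriv fl (ssS G ζ.1 ζ.2.2)) :=
      lt_min (hfl.pos _ hs) (hfl.ell _ hs)
    have h4 := mul_pos h3 h2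
    refine mul_pos (sst1c_W_pos hG t hζ) ?_
    nlinarith [h1, h4]

/-- `v⬝v ≤ d L v⬝G⁻¹v` if the entries of `G` are bounded by `L`. -/
theorem sst1c_le_inv {M : Matrix (Fin d) (Fin d) ℝ} (hM : M.PosDef) {L : ℝ}
    (hL : ∀ i j, |M i j| ≤ L) (v : Fin d → ℝ) : v ⬝ᵥ v ≤ d * L * (v ⬝ᵥ M⁻¹.mulVec v) := by
  have hdet : IsUnit M.det := hM.det_pos.ne'.isUnit
  have hcs := sst1c_cs hM.inv (M.mulVec v) v
  have e1 : M⁻¹.mulVec (M.mulVec v) = v := by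
    rw [Matrix.mulVec_mulVec, Matrix.nonsing_inv_mul M hdet, Matrix.one_mulVec]
  rw [e1] at hcs
  have hQ : 0 ≤ v ⬝ᵥ M⁻¹.mulVec v := by
    have := hM.inv.posSemidef.dotProduct_mulVec_nonneg v
    simpa using this
  have hvv : 0 ≤ v ⬝ᵥ v := by
    simp only [dotProduct]
    exact Finset.sum_nonneg fun i _ => mul_self_nonneg _
  have hup : M.mulVec v ⬝ᵥ v ≤ d * L * (v ⬝ᵥ v) := by
    have h1 : M.mulVec v ⬝ᵥ v ≤ L * (∑ i, |v i|) ^ 2 := by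
      simp only [dotProduct, Matrix.mulVec, Finset.sum_mul]
      rw [sq, Finset.sum_mul_sum, Finset.mul_sum]
      refine Finset.sum_le_sum fun i _ => ?_
      rw [Finset.mul_sum]
      refine Finset.sum_le_sum fun j _ => ?_
      calc M i j * v j * v i ≤ |M i j * v j * v i| := le_abs_self _
        _ = |M i j| * (|v i| * |v j|) := by rw [abs_mul, abs_mul]; ring
        _ ≤ L * (|v i| * |v j|) := mul_le_mul_of_nonneg_right (hL i j) (by positivity)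
    have h2 : (∑ i, |v i|) ^ 2 ≤ d * (v ⬝ᵥ v) := by
      have := sq_sum_le_card_mul_sum_sq (s := (Finset.univ : Finset (Fin d))) (f := fun i => |v i|)
      simp only [Finset.card_univ, Fintype.card_fin, sq_abs] at this
      simp only [dotProduct]
      refine this.trans (le_of_eq ?_)
      congr 1
      exact Finset.sum_congr rfl fun i _ => sq _
    have hL0 : 0 ≤ L ∨ d = 0 := by
      rcases Nat.eq_zero_or_pos d with h | h
      · exact Or.inr h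
      · exact Or.inl ((abs_nonneg _).trans (hL ⟨0, h⟩ ⟨0, h⟩))
    rcases hL0 with hL0 | hd
    · nlinarith [mul_le_mul_of_nonneg_left h2 hL0]
    · subst hd
      simp [dotProduct]
  rcases hvv.eq_or_lt with h0 | h0
  · rw [← h0]
    rcases Nat.eq_zero_or_pos d with h | h
    · subst h
      simp
    · have hL0 : 0 ≤ L := (abs_nonneg _).trans (hL ⟨0, h⟩ ⟨0, h⟩)
      positivity
  · have h3 : (v ⬝ᵥ v) ^ 2 ≤ (v ⬝ᵥ M⁻¹.mulVec v) * (d * L * (v ⬝ᵥ v)) :=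
      hcs.trans (mul_le_mul_of_nonneg_left hup hQ)
    have h4 : (v ⬝ᵥ v) * (v ⬝ᵥ v) ≤ (d * L * (v ⬝ᵥ M⁻¹.mulVec v)) * (v ⬝ᵥ v) := by nlinarith [h3]
    exact le_of_mul_le_mul_right h4 h0

/-- `p⬝G⁻¹p ≤ p⬝p / lam`. -/
theorem sst1c_inv_le {M : Matrix (Fin d) (Fin d) ℝ} (hM : M.PosDef) {lam : ℝ} (hlam : 0 < lam)
    (hlo : ∀ v : Fin d → ℝ, lam * (v ⬝ᵥ v) ≤ v ⬝ᵥ M.mulVec v) (p : Fin d → ℝ) :
    p ⬝ᵥ M⁻¹.mulVec p ≤ (p ⬝ᵥ p) / lam := by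
  have hdet : IsUnit M.det := hM.det_pos.ne'.isUnit
  have e1 : M.mulVec (M⁻¹.mulVec p) = p := by
    rw [Matrix.mulVec_mulVec, Matrix.mul_nonsing_inv M hdet, Matrix.one_mulVec]
  have h1 := hlo (M⁻¹.mulVec p)
  rw [e1, dotProduct_comm (M⁻¹.mulVec p) p] at h1
  have hQ : 0 ≤ p ⬝ᵥ M⁻¹.mulVec p := by
    have := hM.inv.posSemidef.dotProduct_mulVec_nonneg p
    simpa using this
  have hcs : (p ⬝ᵥ M⁻¹.mulVec p) ^ 2 ≤ (p ⬝ᵥ p) * (M⁻¹.mulVec p ⬝ᵥ M⁻¹.mulVec p) := by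
    simp only [dotProduct]
    have := Finset.sum_mul_sq_le_sq_mul_sq Finset.univ p (M⁻¹.mulVec p)
    simpa [sq] using this
  have hpp : 0 ≤ p ⬝ᵥ p := by
    simp only [dotProduct]
    exact Finset.sum_nonneg fun i _ => mul_self_nonneg _
  rw [le_div_iff₀ hlam]
  rcases hQ.eq_or_lt with h0 | h0
  · rw [← h0, zero_mul]
    exact hpp
  · have h2 : (p ⬝ᵥ M⁻¹.mulVec p) * lam * (p ⬝ᵥ M⁻¹.mulVec p) ≤ (p ⬝ᵥ p) * (p ⬝ᵥ M⁻¹.mulVec p) := by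
      have := mul_le_mul_of_nonneg_left h1 hpp
      nlinarith [hcs, this]
    exact le_of_mul_le_mul_right h2 h0

/-- `det G ≥ lam^d`. -/
theorem sst1c_det_ge {M : Matrix (Fin d) (Fin d) ℝ} (hM : M.PosDef) {lam : ℝ} (hlam : 0 < lam)
    (hlo : ∀ v : Fin d → ℝ, lam * (v ⬝ᵥ v) ≤ v ⬝ᵥ M.mulVec v) : lam ^ d ≤ M.det := by
  have hH := hM.isHermitian
  rw [hH.det_eq_prod_eigenvalues]
  have h1 : ∀ i, lam ≤ hH.eigenvalues i := by
    intro i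
    rw [hH.eigenvalues_eq]
    have h2 := hlo (hH.eigenvectorBasis i)
    have h3 : ((hH.eigenvectorBasis i : EuclideanSpace ℝ (Fin d)) : Fin d → ℝ) ⬝ᵥ
        ((hH.eigenvectorBasis i : EuclideanSpace ℝ (Fin d)) : Fin d → ℝ) = 1 := by
      have h4 := hH.eigenvectorBasis.orthonormal.1 i
      have h5 := EuclideanSpace.real_norm_sq_eq (hH.eigenvectorBasis i)
      rw [h4] at h5
      simp only [dotProduct]
      rw [show (1 : ℝ) = 1 ^ 2 by norm_num, h5]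
      exact Finset.sum_congr rfl fun j _ => (sq _).symm
    rw [h3, mul_one] at h2
    simpa using h2
  calc lam ^ d = ∏ _i : Fin d, lam := by simp
    _ ≤ ∏ i, hH.eigenvalues i := Finset.prod_le_prod (fun _ _ => hlam.le) fun i _ => h1 i
    _ = _ := by simp

theorem sst1c_dot_self (v : E d) : (v : Fin d → ℝ) ⬝ᵥ (v : Fin d → ℝ) = ‖v‖ ^ 2 := by
  rw [EuclideanSpace.real_norm_sq_eq]
  simp only [dotProduct]
  exact Finset.sum_congr rfl fun i _ => (sq _).symm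

theorem ss_QA_ell (d : ℕ) (R lam K : ℝ) (hlam : 0 < lam) (Λ : ℕ → ℝ) (fl : ℝ → ℝ) (hfl : IsFlux fl)
    (Kp : ℝ) :
    ∃ lam' : ℝ, 0 < lam' ∧ ∀ (G : rm_MF d) (t : E d → ℝ) (b : E d → ℝ → ℝ → ℝ),
      SsT1Data d R lam K Λ G t b → ∀ ζ : E d × ℝ × E d, ζ.1 ∈ Metric.ball (0 : E d) R →
      ‖ζ.2.2‖ < Kp →
      (∀ η η' : E d, ⟪dpA (ssQA G t fl) ζ η, η'⟫ = ⟪η, dpA (ssQA G t fl) ζ η'⟫) ∧
      ∀ η : E d, lam' * ‖η‖ ^ 2 ≤ ⟪dpA (ssQA G t fl) ζ η, η⟫ := by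
  have hsub : Set.Icc (0 : ℝ) (Kp ^ 2 / lam) ⊆ Set.Ioi (-1) := fun s hs => by
    show (-1 : ℝ) < s
    linarith [hs.1]
  have hcont : ContinuousOn (fun s => min (fl s) (fl s + 2 * s * deriv fl s))
      (Set.Icc 0 (Kp ^ 2 / lam)) := by
    have h1 : ContinuousOn fl (Set.Icc 0 (Kp ^ 2 / lam)) := hfl.smooth.continuousOn.mono hsub
    have h2 : ContinuousOn (deriv fl) (Set.Icc 0 (Kp ^ 2 / lam)) :=
      (hfl.smooth.continuousOn_deriv_of_isOpen isOpen_Ioi (by simp)).mono hsub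
    exact ContinuousOn.inf h1 (h1.add ((continuousOn_const.mul continuousOn_id).mul h2))
  obtain ⟨s0, hs0, hmin⟩ := isCompact_Icc.exists_isMinOn
    (Set.nonempty_Icc.2 (by positivity : (0 : ℝ) ≤ Kp ^ 2 / lam)) hcont
  obtain ⟨c0, hc0def⟩ : ∃ c0 : ℝ, c0 = min (fl s0) (fl s0 + 2 * s0 * deriv fl s0) := ⟨_, rfl⟩
  have hc0 : 0 < c0 := by
    rw [hc0def]
    exact lt_min (hfl.pos _ hs0.1) (hfl.ell _ hs0.1)
  refine ⟨Real.sqrt (lam ^ d) * Real.exp (-Λ 0) * c0 / (d * |Λ 0| + 1), by positivity, ?_⟩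
  intro G t b hD ζ hζ hp
  have hG := hD.met
  refine ⟨(ss_QA_pos hG hD.t_smooth hfl hζ).1, fun η => ?_⟩
  rw [sst1c_inner hG hD.t_smooth hfl hζ]
  have hM := hG.pos ζ.1 hζ
  have hH : ((G ζ.1)⁻¹).PosDef := rm_inv_pos hG hζ
  have hs := sst1c_S_nonneg hG hζ ζ.2.2
  have hsle : ssS G ζ.1 ζ.2.2 ≤ Kp ^ 2 / lam := by
    have h1 := sst1c_inv_le hM hlam (hD.ell ζ.1 hζ) (ζ.2.2 : Fin d → ℝ)
    rw [sst1c_dot_self] at h1
    have h3 : ‖ζ.2.2‖ ^ 2 ≤ Kp ^ 2 := pow_le_pow_left₀ (norm_nonneg _) hp.le 2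
    exact h1.trans (div_le_div_of_nonneg_right h3 hlam.le)
  have hm : c0 ≤ min (fl (ssS G ζ.1 ζ.2.2))
      (fl (ssS G ζ.1 ζ.2.2) + 2 * ssS G ζ.1 ζ.2.2 * deriv fl (ssS G ζ.1 ζ.2.2)) := by
    rw [hc0def]
    exact hmin ⟨hs, hsle⟩
  have hW : Real.sqrt (lam ^ d) * Real.exp (-Λ 0) ≤ ssW G t ζ.1 := by
    unfold ssW
    have h1 := Real.sqrt_le_sqrt (sst1c_det_ge hM hlam (hD.ell ζ.1 hζ))
    have h2 : |t ζ.1| ≤ Λ 0 := by
      have := hD.t_bd 0 ζ.1 hζ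
      rwa [norm_iteratedFDeriv_zero, Real.norm_eq_abs] at this
    have h3 : Real.exp (-Λ 0) ≤ Real.exp (-(t ζ.1)) :=
      Real.exp_le_exp.2 (by linarith [le_abs_self (t ζ.1)])
    exact mul_le_mul h1 h3 (Real.exp_pos _).le (Real.sqrt_nonneg _)
  have hQ0 : 0 ≤ (η : Fin d → ℝ) ⬝ᵥ (G ζ.1)⁻¹.mulVec η := by
    have := hH.posSemidef.dotProduct_mulVec_nonneg (η : Fin d → ℝ)
    simpa using this
  have hQ : ‖η‖ ^ 2 ≤ (d * |Λ 0| + 1) * ((η : Fin d → ℝ) ⬝ᵥ (G ζ.1)⁻¹.mulVec η) := by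
    have hL : ∀ i j, |G ζ.1 i j| ≤ |Λ 0| := fun i j => by
      have := hD.G_bd 0 ζ.1 hζ i j
      rw [norm_iteratedFDeriv_zero, Real.norm_eq_abs] at this
      exact this.trans (le_abs_self _)
    have h1 := sst1c_le_inv hM hL (η : Fin d → ℝ)
    rw [sst1c_dot_self] at h1
    linarith
  have hfl1 := ss_flux_lower hH (ζ.2.2 : Fin d → ℝ) (η : Fin d → ℝ) (fl (ssS G ζ.1 ζ.2.2))
    (deriv fl (ssS G ζ.1 ζ.2.2))
  have hD0 : (0 : ℝ) < d * |Λ 0| + 1 := by positivity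
  have hW0 : 0 ≤ Real.sqrt (lam ^ d) * Real.exp (-Λ 0) := by positivity
  calc Real.sqrt (lam ^ d) * Real.exp (-Λ 0) * c0 / (d * |Λ 0| + 1) * ‖η‖ ^ 2
      = Real.sqrt (lam ^ d) * Real.exp (-Λ 0) * c0 * (‖η‖ ^ 2 / (d * |Λ 0| + 1)) := by ring
    _ ≤ Real.sqrt (lam ^ d) * Real.exp (-Λ 0) * c0 * ((η : Fin d → ℝ) ⬝ᵥ (G ζ.1)⁻¹.mulVec η) := by
        refine mul_le_mul_of_nonneg_left ?_ (mul_nonneg hW0 hc0.le)
        rw [div_le_iff₀ hD0]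
        linarith
    _ = Real.sqrt (lam ^ d) * Real.exp (-Λ 0) * (c0 * ((η : Fin d → ℝ) ⬝ᵥ (G ζ.1)⁻¹.mulVec η)) := by
        ring
    _ ≤ ssW G t ζ.1 * (c0 * ((η : Fin d → ℝ) ⬝ᵥ (G ζ.1)⁻¹.mulVec η)) :=
        mul_le_mul_of_nonneg_right hW (mul_nonneg hc0.le hQ0)
    _ ≤ _ := by
        refine mul_le_mul_of_nonneg_left ?_ (sst1c_W_pos hG t hζ).le
        have h5 := mul_le_mul_of_nonneg_right hm hQ0
        have h6 : (ζ.2.2 : Fin d → ℝ) ⬝ᵥ (G ζ.1)⁻¹.mulVec ζ.2.2 = ssS G ζ.1 ζ.2.2 := rfl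
        rw [h6] at hfl1
        have h7 := h5.trans hfl1
        rw [sq] at h7
        linarith

theorem ss_grad_norm_le {R lam K : ℝ} {Λ : ℕ → ℝ} {G : rm_MF d} {t : E d → ℝ}
    {b : E d → ℝ → ℝ → ℝ} (hD : SsT1Data d R lam K Λ G t b) (u : E d → ℝ) {y : E d}
    (hy : y ∈ Metric.ball (0 : E d) R) : ‖∇ u y‖ ^ 2 ≤ d * Λ 0 * gradSqC G u y := by
  have hM := hD.met.pos y hy
  have hL : ∀ i j, |G y i j| ≤ Λ 0 := fun i j => by
    have := hD.G_bd 0 y hy i j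
    rwa [norm_iteratedFDeriv_zero, Real.norm_eq_abs] at this
  have h1 := sst1c_le_inv hM hL (∇ u y).ofLp
  rw [sst1c_dot_self] at h1
  rw [← ss_S_grad]
  exact h1

end Claimed.Agent.R315
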