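import Claimed.Agent.R315.Ss.T1Defs
import Claimed.Agent.R315.Ss.T1c

/-!
# Row 315, paper S: package SS-T1-D  divergence form: `ss_QA_c1`, `ss_div_QA`, `ss_weak_of_div`   (~500 lines; also used by LS-REG)

* `ss_div_QA`: `J(x) = ssQA G t fl (x, u x, ∇u x)` has the components `J^i = e^{-t} fl(σ) · (√(det G) ∑_j G^{ij} ∂_j u)`, `σ = gradSqC G u` (`ss_S_grad`, `ss_grad_apply` of `T1c`; copy or import).
  `ellDiv J y = ∑_i ∂_i J^i` (`ellDiv` is written with `stdOrthonormalBasis`; it is the trace of `fderiv J y`, independent of the orthonormal basis: `LinearMap.trace_eq_sum_inner`, use `EuclideanSpace.basisFun`; `pdiff f i y = fderiv ℝ f y (EuclideanSpace.single i 1)`).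
  Product rule: `∑_i ∂_i J^i = e^{-t} fl(σ) ∑_i ∂_i(√det G ∑_j G^{ij}∂_j u) + √det G ∑_{ij} G^{ij}∂_j u ∂_i(e^{-t} fl(σ))`; the first sum is `√det G · lapC G u` BY DEFINITION of `lapC`;
  `∂_i(e^{-t}fl(σ)) = e^{-t}(fl'(σ)∂_iσ - fl(σ)∂_i t)`; `∑ G^{ij}∂_j u ∂_i σ = gradIpC G σ u`.
  Differentiability: `u ∈ C²` ⇒ `∂_j u ∈ C¹`; `G^{ij}`, `√det G` smooth (`if_inv_contDiffOn`, `rm_sqrt_det`-type lemmas in `Rm/`, `If/`), `σ ∈ C¹`, `σ ≥ 0 > -1`.
* `ss_weak_of_div` (GENERAL): `J = A(·,u,∇u)` is `C¹` on `U`; for a test function `φ`: `∫ (φ div J + ⟪J,∇φ⟫) = 0` (`Lib/Dgnm/Classical.lean` `dg_integral_div` with `dg_div = ellDiv` (`dg_div_eq_sum`), `fderiv φ x (J x) = ⟪J x,∇φ x⟫`); integrability of both terms: continuous with compact support in `U`.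
-/

set_option autoImplicit false
open scoped ContDiff RealInnerProductSpace Gradient
open Claims.C0499 Claimed.Agent.Lib.Ell

namespace Claimed.Agent.R315

variable {d : ℕ}

theorem sst1d_one_le : (1 : WithTop ℕ∞) ≤ ∞ := by
  have : ((1 : ℕ∞) : WithTop ℕ∞) ≤ ((⊤ : ℕ∞) : WithTop ℕ∞) := by exact_mod_cast le_top
  exact this

/-- `∂_j u` is `C¹`. -/
theorem sst1d_pdiff_c1 {U : Set (E d)} (hU : IsOpen U) {u : E d → ℝ} (hu : ContDiffOn ℝ 2 u U)
    (j : Fin d) : ContDiffOn ℝ 1 (fun w => pdiff u j w) U := by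
  have h1 : ContDiffOn ℝ 1 (fderiv ℝ u) U := hu.fderiv_of_isOpen hU (by norm_num)
  exact h1.clm_apply contDiffOn_const

/-- `σ` is `C¹`. -/
theorem sst1d_sq_c1 {G : rm_MF d} {U : Set (E d)} (hG : rm_Met G U) {u : E d → ℝ}
    (hu : ContDiffOn ℝ 2 u U) : ContDiffOn ℝ 1 (gradSqC G u) U := by
  show ContDiffOn ℝ 1 (fun w => ∑ i : Fin d, ∑ j : Fin d, (G w)⁻¹ i j * pdiff u i w * pdiff u j w) U
  exact ContDiffOn.sum fun i _ => ContDiffOn.sum fun j _ =>
    (((rm_inv_smooth hG i j).of_le sst1d_one_le).mul (sst1d_pdiff_c1 hG.opn hu i)).mul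
      (sst1d_pdiff_c1 hG.opn hu j)

/-- the coefficient `c = e^{-t} fl(σ)`. -/
noncomputable def sst1dC (G : rm_MF d) (t : E d → ℝ) (fl : ℝ → ℝ) (u : E d → ℝ) (x : E d) : ℝ :=
  Real.exp (-(t x)) * fl (gradSqC G u x)

/-- `P^i = √(det G) ∑_j G^{ij} ∂_j u`. -/
noncomputable def sst1dP (G : rm_MF d) (u : E d → ℝ) (i : Fin d) (x : E d) : ℝ :=
  Real.sqrt (G x).det * ∑ j : Fin d, (G x)⁻¹ i j * pdiff u j x

theorem sst1d_comp (G : rm_MF d) (t : E d → ℝ) (fl : ℝ → ℝ) (u : E d → ℝ) (x : E d) (i : Fin d) :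
    (ssQA G t fl (x, u x, ∇ u x)) i = sst1dC G t fl u x * sst1dP G u i x := by
  unfold ssQA sst1dC sst1dP ssW
  simp only [ss_S_grad, PiLp.smul_apply, smul_eq_mul, Matrix.mulVec, dotProduct, ss_grad_apply]
  ring

theorem sst1d_C_c1 {G : rm_MF d} {U : Set (E d)} (hG : rm_Met G U) {t u : E d → ℝ}
    (ht : ContDiffOn ℝ ∞ t U) (hu : ContDiffOn ℝ 2 u U) {fl : ℝ → ℝ} (hfl : IsFlux fl) :
    ContDiffOn ℝ 1 (sst1dC G t fl u) U := by
  have h1 : ContDiffOn ℝ 1 (fun x => fl (gradSqC G u x)) U :=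
    (hfl.smooth.of_le sst1d_one_le).comp (sst1d_sq_c1 hG hu) (fun x hx => by
      show (-1 : ℝ) < gradSqC G u x
      linarith [rm_sq_nonneg hG hx u])
  exact ((ht.of_le sst1d_one_le).neg.exp).mul h1

theorem sst1d_P_c1 {G : rm_MF d} {U : Set (E d)} (hG : rm_Met G U) {u : E d → ℝ}
    (hu : ContDiffOn ℝ 2 u U) (i : Fin d) : ContDiffOn ℝ 1 (sst1dP G u i) U :=
  ((rm_sqrtdet_smooth hG).of_le sst1d_one_le).mul (ContDiffOn.sum fun j _ =>
    ((rm_inv_smooth hG i j).of_le sst1d_one_le).mul (sst1d_pdiff_c1 hG.opn hu j))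

theorem ss_QA_c1 {G : rm_MF d} {U : Set (E d)} (hG : rm_Met G U) {t u : E d → ℝ}
    (ht : ContDiffOn ℝ ∞ t U) (hu : ContDiffOn ℝ 2 u U) {fl : ℝ → ℝ} (hfl : IsFlux fl) :
    ContDiffOn ℝ 1 (fun x => ssQA G t fl (x, u x, ∇ u x)) U := by
  rw [contDiffOn_euclidean]
  intro i
  simp only [sst1d_comp]
  exact (sst1d_C_c1 hG ht hu hfl).mul (sst1d_P_c1 hG hu i)

/-- the divergence in coordinates. -/
theorem sst1d_div_eq {F : E d → E d} {y : E d} (hF : DifferentiableAt ℝ F y) :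
    ellDiv F y = ∑ i, pdiff (fun x => F x i) i y := by
  have h1 : ellDiv F y = Claimed.Agent.Lib.Dgnm.dg_div F y := by
    rw [Claimed.Agent.Lib.Dgnm.dg_div_eq_sum (stdOrthonormalBasis ℝ (E d))]
    exact Finset.sum_congr rfl fun i _ => real_inner_comm _ _
  rw [h1, Claimed.Agent.Lib.Dgnm.dg_div_eq_sum (EuclideanSpace.basisFun (Fin d) ℝ)]
  refine Finset.sum_congr rfl fun i _ => ?_
  have h2 : HasFDerivAt (fun x => F x i)
      ((EuclideanSpace.proj i : E d →L[ℝ] ℝ).comp (fderiv ℝ F y)) y :=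
    (EuclideanSpace.proj i : E d →L[ℝ] ℝ).hasFDerivAt.comp y hF.hasFDerivAt
  unfold pdiff
  rw [h2.fderiv, EuclideanSpace.basisFun_apply, EuclideanSpace.inner_single_left]
  simp

theorem sst1d_ip (G : rm_MF d) (f u : E d → ℝ) (y : E d) :
    ∑ i, pdiff f i y * ∑ j, (G y)⁻¹ i j * pdiff u j y = gradIpC G f u y := by
  unfold gradIpC
  refine Finset.sum_congr rfl fun i _ => ?_
  rw [Finset.mul_sum]
  exact Finset.sum_congr rfl fun j _ => by ring

theorem ss_div_QA {G : rm_MF d} {U : Set (E d)} (hG : rm_Met G U) {t u : E d → ℝ}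
    (ht : ContDiffOn ℝ ∞ t U) (hu : ContDiffOn ℝ 2 u U) {fl : ℝ → ℝ} (hfl : IsFlux fl) {y : E d}
    (hy : y ∈ U) :
    ellDiv (fun x => ssQA G t fl (x, u x, ∇ u x)) y = ssW G t y * ssDivC G t fl u y := by
  have hU := hG.opn
  have hF : DifferentiableAt ℝ (fun x => ssQA G t fl (x, u x, ∇ u x)) y :=
    ((ss_QA_c1 hG ht hu hfl).contDiffAt (hU.mem_nhds hy)).differentiableAt one_ne_zero
  rw [sst1d_div_eq hF]
  simp only [sst1d_comp]
  have hC : DifferentiableAt ℝ (sst1dC G t fl u) y :=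
    ((sst1d_C_c1 hG ht hu hfl).contDiffAt (hU.mem_nhds hy)).differentiableAt one_ne_zero
  have hP : ∀ i, DifferentiableAt ℝ (sst1dP G u i) y := fun i =>
    ((sst1d_P_c1 hG hu i).contDiffAt (hU.mem_nhds hy)).differentiableAt one_ne_zero
  have h1 : ∀ i, pdiff (fun x => sst1dC G t fl u x * sst1dP G u i x) i y
      = pdiff (sst1dC G t fl u) i y * sst1dP G u i y
        + sst1dC G t fl u y * pdiff (sst1dP G u i) i y := fun i => rm_pdiff_mul hC (hP i)
  simp only [h1]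
  rw [Finset.sum_add_distrib, ← Finset.mul_sum]
  have hdet : 0 < Real.sqrt (G y).det := Real.sqrt_pos.2 (rm_det_pos hG hy)
  have h2 : ∑ i, pdiff (sst1dP G u i) i y = Real.sqrt (G y).det * lapC G u y := by
    unfold lapC
    rw [← mul_assoc, mul_inv_cancel₀ hdet.ne', one_mul]
    rfl
  have hσ : DifferentiableAt ℝ (gradSqC G u) y :=
    ((sst1d_sq_c1 hG hu).contDiffAt (hU.mem_nhds hy)).differentiableAt one_ne_zero
  have htd : DifferentiableAt ℝ t y := rm_da hU ht hy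
  have hfl' : DifferentiableAt ℝ fl (gradSqC G u y) := sst1c_fl_da hfl (rm_sq_nonneg hG hy u)
  have h3 : ∀ i, pdiff (sst1dC G t fl u) i y = Real.exp (-(t y)) *
      (deriv fl (gradSqC G u y) * pdiff (gradSqC G u) i y
        - fl (gradSqC G u y) * pdiff t i y) := by
    intro i
    have e1 : pdiff (sst1dC G t fl u) i y
        = pdiff (fun x => Real.exp (-(t x))) i y * fl (gradSqC G u y)
          + Real.exp (-(t y)) * pdiff (fun x => fl (gradSqC G u x)) i y :=
      rm_pdiff_mul (f := fun x => Real.exp (-(t x))) (g := fun x => fl (gradSqC G u x))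
        htd.neg.exp (DifferentiableAt.comp y (g := fl) hfl' hσ)
    have e2 : pdiff (fun x => fl (gradSqC G u x)) i y
        = deriv fl (gradSqC G u y) * pdiff (gradSqC G u) i y := rm_pdiff_comp hfl' hσ
    have e3 : pdiff (fun x => Real.exp (-(t x))) i y = - Real.exp (-(t y)) * pdiff t i y := by
      have h := rm_pdiff_comp (i := i) (φ := fun s : ℝ => Real.exp (-s)) (f := t) (u := y)
        (differentiableAt_id.neg.exp) htd
      rw [h]
      congr 1
      have := ((hasDerivAt_id (t y)).neg.exp).deriv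
      simpa using this
    rw [e1, e2, e3]
    ring
  rw [h2]
  simp only [h3]
  have h4 : ∑ i, Real.exp (-(t y)) * (deriv fl (gradSqC G u y) * pdiff (gradSqC G u) i y
        - fl (gradSqC G u y) * pdiff t i y) * sst1dP G u i y
      = Real.exp (-(t y)) * Real.sqrt (G y).det *
        (deriv fl (gradSqC G u y) * gradIpC G (gradSqC G u) u y
          - fl (gradSqC G u y) * gradIpC G t u y) := by
    rw [← sst1d_ip, ← sst1d_ip, Finset.mul_sum, Finset.mul_sum, ← Finset.sum_sub_distrib,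
      Finset.mul_sum]
    refine Finset.sum_congr rfl fun i _ => ?_
    unfold sst1dP
    ring
  rw [h4]
  unfold ssW ssDivC sst1dC
  ring

/-- classical solutions in divergence form are weak solutions. -/
theorem ss_weak_of_div {W : Type} [NormedAddCommGroup W] [InnerProductSpace ℝ W]
    [FiniteDimensional ℝ W] [MeasurableSpace W] [BorelSpace W] {U : Set W} (hU : IsOpen U)
    {A : W × ℝ × W → W} {B : W × ℝ × W → ℝ} {u : W → ℝ}
    (hJ : ContDiffOn ℝ 1 (fun x => A (x, u x, ∇ u x)) U)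
    (h : ∀ x ∈ U, ellDiv (fun y => A (y, u y, ∇ u y)) x = B (x, u x, ∇ u x)) :
    WeakQuasi U A B u := by
  intro φ hφ
  have hT : Claimed.Agent.Lib.Dgnm.dg_Test U φ := ⟨hφ.1.of_le sst1d_one_le, hφ.2.1, hφ.2.2⟩
  have h0 := Claimed.Agent.Lib.Dgnm.dg_integral_div hU hT hJ
  have hi := Claimed.Agent.Lib.Dgnm.dg_cl_integrable hU hT hJ
  have hi2 : MeasureTheory.Integrable (fun x => fderiv ℝ φ x (A (x, u x, ∇ u x))) := by
    have hc : ContinuousOn (fun x => fderiv ℝ φ x (A (x, u x, ∇ u x))) U :=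
      ((hT.smooth.continuous_fderiv one_ne_zero).continuousOn).clm_apply hJ.continuousOn
    have hK : IsCompact (tsupport φ) := hφ.2.1
    have h1 : MeasureTheory.IntegrableOn (fun x => fderiv ℝ φ x (A (x, u x, ∇ u x))) (tsupport φ) :=
      (hc.mono hφ.2.2).integrableOn_compact hK
    refine (MeasureTheory.integrableOn_iff_integrable_of_support_subset ?_).1 h1
    intro x hx
    by_contra hx'
    apply hx
    have h2 : fderiv ℝ φ x = 0 :=
      image_eq_zero_of_notMem_tsupport (fun h => hx' (tsupport_fderiv_subset ℝ h))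
    simp [h2]
  have hi1 : MeasureTheory.Integrable
      (fun x => φ x * Claimed.Agent.Lib.Dgnm.dg_div (fun x => A (x, u x, ∇ u x)) x) := by
    refine (hi.sub hi2).congr (Filter.Eventually.of_forall fun x => ?_)
    simp
  have e1 : ∀ x, φ x * Claimed.Agent.Lib.Dgnm.dg_div (fun x => A (x, u x, ∇ u x)) x
      = B (x, u x, ∇ u x) * φ x := by
    intro x
    by_cases hx : x ∈ U
    · rw [← h x hx, mul_comm]
      congr 1
      rw [Claimed.Agent.Lib.Dgnm.dg_div_eq_sum (stdOrthonormalBasis ℝ W)]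
      exact Finset.sum_congr rfl fun i _ => real_inner_comm _ _
    · rw [hT.eq_zero hx]
      simp
  have e2 : ∀ x, fderiv ℝ φ x (A (x, u x, ∇ u x)) = ⟪A (x, u x, ∇ u x), ∇ φ x⟫ := by
    intro x
    rw [real_inner_comm]
    exact (InnerProductSpace.toDual_symm_apply).symm
  rw [MeasureTheory.integral_add hi1 hi2] at h0
  simp only [e1, e2] at h0
  rw [add_comm]
  exact h0

end Claimed.Agent.R315
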