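import Claimed.Agent.R315.Ss.T1Defs

/-!
# Row 315, paper S: package SS-T1-E  `ss_quasi_holder`: the Ladyzhenskaya-Uraltseva step  `C¹` bound ⇒ `C^{1,α}` bound   (GENERAL, `Lib` level: only `Lib/Ell` + `Lib/Dgnm`; ~700 lines)

`u` smooth on `ball x₀ R`, `div A(x,u,∇u) = B(x,u,∇u)` pointwise, `(x,u,∇u) ∈ qbox x₀ R Kz Kp`, `A, B` bounded with their first derivatives on the box (`CbLe Λ`), `∂_pA ≥ lam`.
For a unit vector `e` put `w = dd e u = ∂_e u`.  `J(x) = A(x,u x,∇u x)` is smooth, `∂_e J = (∂_xA)e + (∂_zA) w + (∂_pA)∇w`.   Since derivatives commute: `div(∂_e J) = ∂_e(div J) = ∂_e B̂ = div(B̂ e)`, `B̂(x) = B(x,u x,∇u x)`.  So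
      `div (a dw + F) = 0`,   `a(x) ξ = dpA A (jet x) (ξ♯)`,   `F = (∂_xA)e + (∂_zA) w - B̂ e`,   `‖F‖ ≤ Λ 1 (1 + Kp) + Λ 0 =: kF`.
`dg_ECoef` with `f = b = 0`, `c = g = 0`; `Ok (ball x₀ R) lam (max lam (Λ 1)) kF 0` (measurability: continuity, `dg_aesm_of_continuousOn`; `ξ (a ξ) = ⟪dpA ξ♯, ξ♯⟫ ≥ lam ‖ξ‖²`, `‖ξ♯‖ = ‖ξ‖`; `‖dpA‖ ≤ ‖fderiv A‖ ≤ Λ 1` (`norm_iteratedFDeriv_one`)).
`dg_ESol`: `dg_integral_div` for the `C¹` field `a dw + F = ∂_e J - B̂ e` with divergence `0`.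
`dg_elliptic_holder W hm lam Lam` → `α, C`.  `ρ := min 1 (R - r)`.  For `x, y ∈ ball x₀ r`:
  * `‖x-y‖ ≤ ρ/2`: estimate on `ball x ρ ⊆ ball x₀ R` with `M0 = Kp`: `|w x - w y| ≤ C (‖x-y‖/ρ)^α (Kp + ρ kF)`;
  * `‖x-y‖ > ρ/2`: `|w x - w y| ≤ 2Kp ≤ 2 Kp (2‖x-y‖/ρ)^α`.
`‖fderiv u x - fderiv u y‖ = sup_{|e|=1} |w_e x - w_e y|` (`ContinuousLinearMap.opNorm_le_bound`).
-/

set_option autoImplicit false
set_option linter.unusedSectionVars false
open scoped ContDiff RealInnerProductSpace Gradient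
open Claims.C0499 Claimed.Agent.Lib.Ell Claimed.Agent.Lib.Dgnm

namespace Claimed.Agent.R315

section t1e

variable {W : Type} [NormedAddCommGroup W] [InnerProductSpace ℝ W] [FiniteDimensional ℝ W]

theorem sst1e_isOpen_qbox (x₀ : W) (R Kz Kp : ℝ) : IsOpen (qbox x₀ R Kz Kp) := by
  have h1 : IsOpen {ζ : W × ℝ × W | ζ.1 ∈ Metric.ball x₀ R} :=
    Metric.isOpen_ball.preimage continuous_fst
  have h2 : IsOpen {ζ : W × ℝ × W | |ζ.2.1| < Kz} :=
    isOpen_lt (continuous_abs.comp (continuous_fst.comp continuous_snd)) continuous_const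
  have h3 : IsOpen {ζ : W × ℝ × W | ‖ζ.2.2‖ < Kp} :=
    isOpen_lt (continuous_norm.comp (continuous_snd.comp continuous_snd)) continuous_const
  exact h1.inter (h2.inter h3)

theorem sst1e_sharp_inner (Q : W →L[ℝ] ℝ) (v : W) : ⟪sharpL Q, v⟫ = Q v :=
  InnerProductSpace.toDual_symm_apply

theorem sst1e_sharp_norm (Q : W →L[ℝ] ℝ) : ‖sharpL Q‖ = ‖Q‖ :=
  (InnerProductSpace.toDual ℝ W).symm.norm_map Q

theorem sst1e_grad (u : W → ℝ) (x : W) : ∇ u x = sharpL (fderiv ℝ u x) := rfl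

/-- second derivatives of a smooth map at a point of an open set -/
theorem sst1e_d2 {Y : Type} [NormedAddCommGroup Y] [NormedSpace ℝ Y] {S : Set W} (hS : IsOpen S)
    {J : W → Y} (hJ : ContDiffOn ℝ ∞ J S) {x : W} (hx : x ∈ S) :
    HasFDerivAt J (fderiv ℝ J x) x ∧ HasFDerivAt (fderiv ℝ J) (fderiv ℝ (fderiv ℝ J) x) x ∧
      ∀ v w : W, fderiv ℝ (fderiv ℝ J) x v w = fderiv ℝ (fderiv ℝ J) x w v := by
  have h1 : ContDiffAt ℝ ∞ J x := hJ.contDiffAt (hS.mem_nhds hx)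
  have h2 : ContDiffOn ℝ ∞ (fderiv ℝ J) S := hJ.fderiv_of_isOpen hS (m := ∞) (by simp)
  have h3 : ContDiffAt ℝ ∞ (fderiv ℝ J) x := h2.contDiffAt (hS.mem_nhds hx)
  refine ⟨(h1.differentiableAt (by simp)).hasFDerivAt, (h3.differentiableAt (by simp)).hasFDerivAt, ?_⟩
  have h4 : IsSymmSndFDerivAt ℝ J x := h1.isSymmSndFDerivAt (by
    rw [minSmoothness_of_isRCLikeNormedField]
    exact WithTop.coe_le_coe.2 le_top)
  exact fun v w => h4.eq v w

variable [MeasurableSpace W] [BorelSpace W]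

/-- `div (∂_e J - B̂ e) = 0` if `div J = B̂`. -/
theorem sst1e_div_zero {S : Set W} (hS : IsOpen S) {J : W → W} {Bh : W → ℝ}
    (hJ : ContDiffOn ℝ ∞ J S) (hB : ContDiffOn ℝ ∞ Bh S) (heq : ∀ x ∈ S, ellDiv J x = Bh x) (e : W)
    {x : W} (hx : x ∈ S) : dg_div (fun y => fderiv ℝ J y e - Bh y • e) x = 0 := by
  obtain ⟨-, hJ2, hsym⟩ := sst1e_d2 hS hJ hx
  have hB1 : HasFDerivAt Bh (fderiv ℝ Bh x) x :=
    ((hB.contDiffAt (hS.mem_nhds hx)).differentiableAt (by simp)).hasFDerivAt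
  -- derivative of the field
  have hX : HasFDerivAt (fun y => fderiv ℝ J y e - Bh y • e)
      ((fderiv ℝ (fderiv ℝ J) x).flip e - (fderiv ℝ Bh x).smulRight e) x :=
    (hJ2.clm_apply (hasFDerivAt_const e x)).congr_fderiv (by ext v; simp) |>.sub (hB1.smul_const e)
  -- derivative of the divergence
  have hD : HasFDerivAt (ellDiv J) (∑ i, (innerSL ℝ (stdOrthonormalBasis ℝ W i)).comp
      ((fderiv ℝ (fderiv ℝ J) x).flip (stdOrthonormalBasis ℝ W i))) x := by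
    unfold ellDiv
    apply HasFDerivAt.fun_sum
    intro i _
    have h1 : HasFDerivAt (fun y => fderiv ℝ J y (stdOrthonormalBasis ℝ W i))
        ((fderiv ℝ (fderiv ℝ J) x).flip (stdOrthonormalBasis ℝ W i)) x :=
      (hJ2.clm_apply (hasFDerivAt_const (stdOrthonormalBasis ℝ W i) x)).congr_fderiv (by ext v; simp)
    have h2 := (innerSL ℝ (stdOrthonormalBasis ℝ W i)).hasFDerivAt.comp x h1
    refine h2.congr_of_eventuallyEq (Filter.Eventually.of_forall fun y => ?_)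
    show ⟪fderiv ℝ J y (stdOrthonormalBasis ℝ W i), stdOrthonormalBasis ℝ W i⟫ = _
    rw [real_inner_comm]
    rfl
  have hDB : fderiv ℝ (ellDiv J) x = fderiv ℝ Bh x := by
    apply Filter.EventuallyEq.fderiv_eq
    filter_upwards [hS.mem_nhds hx] with y hy using heq y hy
  rw [hD.fderiv] at hDB
  have hDBe := congrArg (fun T : W →L[ℝ] ℝ => T e) hDB
  simp only [_root_.sum_apply, ContinuousLinearMap.comp_apply,
    ContinuousLinearMap.flip_apply, innerSL_apply_apply] at hDBe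
  rw [dg_div_eq_sum (stdOrthonormalBasis ℝ W), hX.fderiv]
  simp only [_root_.sub_apply, ContinuousLinearMap.flip_apply,
    ContinuousLinearMap.smulRight_apply, inner_sub_right, Finset.sum_sub_distrib, inner_smul_right]
  have e1 : ∑ i, ⟪stdOrthonormalBasis ℝ W i,
      fderiv ℝ (fderiv ℝ J) x (stdOrthonormalBasis ℝ W i) e⟫ = fderiv ℝ Bh x e := by
    rw [← hDBe]
    exact Finset.sum_congr rfl fun i _ => by rw [hsym]
  have e2 : ∑ i, fderiv ℝ Bh x (stdOrthonormalBasis ℝ W i) * ⟪stdOrthonormalBasis ℝ W i, e⟫ =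
      fderiv ℝ Bh x e := by
    conv_rhs => rw [← (stdOrthonormalBasis ℝ W).sum_repr' e, map_sum]
    refine Finset.sum_congr rfl fun i _ => ?_
    rw [map_smul, smul_eq_mul, mul_comm]
  rw [e1, e2, sub_self]

theorem sst1e_weak {S : Set W} (hS : IsOpen S) {X : W → W} (hX : ContDiffOn ℝ 1 X S)
    (hdiv : ∀ x ∈ S, dg_div X x = 0) {φ : W → ℝ} (hφ : dg_Test S φ) :
    ∫ x, fderiv ℝ φ x (X x) = 0 := by
  have h := dg_integral_div hS hφ hX
  rw [← h]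
  congr 1
  funext x
  by_cases hx : x ∈ S
  · rw [hdiv x hx, mul_zero, zero_add]
  · rw [hφ.eq_zero hx, zero_mul, zero_add]

theorem sst1e_norm3 (η : W) : ‖(((0 : W), (0 : ℝ), η) : W × ℝ × W)‖ = ‖η‖ := by
  simp [Prod.norm_def]

theorem sst1e_norm1 (η : W) : ‖((η, (0 : ℝ), (0 : W)) : W × ℝ × W)‖ = ‖η‖ := by
  simp [Prod.norm_def]

theorem sst1e_norm2 : ‖(((0 : W), (1 : ℝ), (0 : W)) : W × ℝ × W)‖ = 1 := by
  simp [Prod.norm_def]

theorem sst1e_dpA (A : W × ℝ × W → W) (ζ : W × ℝ × W) (η : W) :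
    dpA A ζ η = fderiv ℝ A ζ ((0 : W), (0 : ℝ), η) := rfl

/-- the differentiated equation -/
theorem sst1e_sol (lam : ℝ) (hlam : 0 < lam) (Λ : ℕ → ℝ) (Kz Kp R : ℝ) (x₀ : W) (A : W × ℝ × W → W)
    (B : W × ℝ × W → ℝ) (u : W → ℝ)
    (hA : CbLe Λ (qbox x₀ R Kz Kp) A) (hB : CbLe Λ (qbox x₀ R Kz Kp) B)
    (hpos : ∀ ζ ∈ qbox x₀ R Kz Kp, ∀ η : W, lam * ‖η‖ ^ 2 ≤ ⟪dpA A ζ η, η⟫)
    (hu : ContDiffOn ℝ ∞ u (Metric.ball x₀ R))
    (hbox : ∀ x ∈ Metric.ball x₀ R, (x, u x, ∇ u x) ∈ qbox x₀ R Kz Kp)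
    (heq : ∀ x ∈ Metric.ball x₀ R, ellDiv (fun y => A (y, u y, ∇ u y)) x = B (x, u x, ∇ u x))
    (e : W) (he : ‖e‖ = 1) :
    ∃ E : dg_ECoef W, E.Ok (Metric.ball x₀ R) lam (max lam (Λ 1)) (Λ 1 * (1 + Kp) + Λ 0) 0 ∧
      dg_ESol E (Metric.ball x₀ R) (fun x => fderiv ℝ u x e) := by
  obtain ⟨S, hSdef⟩ : ∃ S : Set W, S = Metric.ball x₀ R := ⟨_, rfl⟩
  rw [← hSdef] at hu hbox heq ⊢
  have hS : IsOpen S := by rw [hSdef]; exact Metric.isOpen_ball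
  have hQ := sst1e_isOpen_qbox x₀ R Kz Kp
  -- smoothness
  have hdu : ContDiffOn ℝ ∞ (fderiv ℝ u) S := hu.fderiv_of_isOpen hS (m := ∞) (by simp)
  have hgr : ContDiffOn ℝ ∞ (fun x => ∇ u x) S :=
    (sharpL : (W →L[ℝ] ℝ) →L[ℝ] W).contDiff.comp_contDiffOn hdu
  have hjet : ContDiffOn ℝ ∞ (fun x => (x, u x, ∇ u x)) S := contDiffOn_id.prodMk (hu.prodMk hgr)
  have hJ : ContDiffOn ℝ ∞ (fun x => A (x, u x, ∇ u x)) S := hA.smooth.comp hjet hbox
  have hBh : ContDiffOn ℝ ∞ (fun x => B (x, u x, ∇ u x)) S := hB.smooth.comp hjet hbox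
  have hw : ContDiffOn ℝ ∞ (fun x => fderiv ℝ u x e) S := hdu.clm_apply contDiffOn_const
  have hcA : ContinuousOn (fun x => fderiv ℝ A (x, u x, ∇ u x)) S :=
    (hA.smooth.continuousOn_fderiv_of_isOpen hQ (by simp)).comp hjet.continuousOn hbox
  have hfd : ∀ x ∈ S, ‖fderiv ℝ A (x, u x, ∇ u x)‖ ≤ Λ 1 := by
    intro x hx
    have := hA.bd 1 _ (hbox x hx)
    rwa [norm_iteratedFDeriv_one] at this
  have hb0 : ∀ x ∈ S, |B (x, u x, ∇ u x)| ≤ Λ 0 := by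
    intro x hx
    have := hB.bd 0 _ (hbox x hx)
    rwa [norm_iteratedFDeriv_zero, Real.norm_eq_abs] at this
  have hwb : ∀ x ∈ S, |fderiv ℝ u x e| ≤ Kp := by
    intro x hx
    have h1 := (fderiv ℝ u x).le_opNorm e
    rw [he, mul_one, Real.norm_eq_abs, ← sst1e_sharp_norm, ← sst1e_grad] at h1
    exact h1.trans (hbox x hx).2.2.le
  have hLam : 0 ≤ max lam (Λ 1) := hlam.le.trans (le_max_left _ _)
  -- the key identity
  have key : ∀ x ∈ S, dpA A (x, u x, ∇ u x) (sharpL (fderiv ℝ (fun y => fderiv ℝ u y e) x)) +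
      (fderiv ℝ A (x, u x, ∇ u x) (e, 0, 0) + (fderiv ℝ u x e) • fderiv ℝ A (x, u x, ∇ u x) (0, 1, 0)
        - B (x, u x, ∇ u x) • e) =
      fderiv ℝ (fun y => A (y, u y, ∇ u y)) x e - B (x, u x, ∇ u x) • e := by
    intro x hx
    obtain ⟨hu1, hu2, hsym⟩ := sst1e_d2 hS hu hx
    have hjetD : HasFDerivAt (fun y => (y, u y, ∇ u y))
        ((ContinuousLinearMap.id ℝ W).prod ((fderiv ℝ u x).prod
          ((sharpL : (W →L[ℝ] ℝ) →L[ℝ] W).comp (fderiv ℝ (fderiv ℝ u) x)))) x :=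
      (hasFDerivAt_id x).prodMk (hu1.prodMk
        ((sharpL : (W →L[ℝ] ℝ) →L[ℝ] W).hasFDerivAt.comp x hu2))
    have hAD : HasFDerivAt A (fderiv ℝ A (x, u x, ∇ u x)) (x, u x, ∇ u x) :=
      ((hA.smooth.contDiffAt (hQ.mem_nhds (hbox x hx))).differentiableAt (by simp)).hasFDerivAt
    have hJD := (hAD.comp x hjetD).fderiv
    have hJD' : fderiv ℝ (fun y => A (y, u y, ∇ u y)) x e =
        fderiv ℝ A (x, u x, ∇ u x) (e, fderiv ℝ u x e, sharpL (fderiv ℝ (fderiv ℝ u) x e)) := by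
      have : (fun y => A (y, u y, ∇ u y)) = A ∘ fun y => (y, u y, ∇ u y) := rfl
      rw [this, hJD]
      rfl
    have hwD : fderiv ℝ (fun y => fderiv ℝ u y e) x = fderiv ℝ (fderiv ℝ u) x e := by
      have h1 : HasFDerivAt (fun y => fderiv ℝ u y e) ((fderiv ℝ (fderiv ℝ u) x).flip e) x :=
        (hu2.clm_apply (hasFDerivAt_const e x)).congr_fderiv (by ext v; simp)
      rw [h1.fderiv]
      ext v
      rw [ContinuousLinearMap.flip_apply, hsym]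
    have hsplit : ((e, fderiv ℝ u x e, sharpL (fderiv ℝ (fderiv ℝ u) x e)) : W × ℝ × W) =
        ((0 : W), (0 : ℝ), sharpL (fderiv ℝ (fderiv ℝ u) x e)) +
          ((e, (0 : ℝ), (0 : W)) + (fderiv ℝ u x e) • ((0 : W), (1 : ℝ), (0 : W))) := by
      simp
    rw [hJD', hwD, sst1e_dpA, hsplit, map_add, map_add, map_smul]
    abel
  refine ⟨{ a := fun x => (dpA A (x, u x, ∇ u x)).comp sharpL
            f := fun _ => 0
            b := fun _ => 0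
            c := fun _ => 0
            F := fun x => fderiv ℝ A (x, u x, ∇ u x) (e, 0, 0) +
              (fderiv ℝ u x e) • fderiv ℝ A (x, u x, ∇ u x) (0, 1, 0) - B (x, u x, ∇ u x) • e
            g := fun _ => 0 }, ?_, ?_⟩
  · refine ⟨?_, MeasureTheory.aestronglyMeasurable_const, MeasureTheory.aestronglyMeasurable_const,
      MeasureTheory.aestronglyMeasurable_const, ?_, MeasureTheory.aestronglyMeasurable_const, ?_, ?_,
      ?_, ?_, ?_, ?_, ?_⟩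
    · have hca : ContinuousOn (fun x => (dpA A (x, u x, ∇ u x)).comp
          (sharpL : (W →L[ℝ] ℝ) →L[ℝ] W)) S :=
        (hcA.clm_comp continuousOn_const).clm_comp continuousOn_const
      exact dg_aesm_of_continuousOn (E := (W →L[ℝ] ℝ) →L[ℝ] W) hS hca
    · exact dg_aesm_of_continuousOn hS
        (((hcA.clm_apply continuousOn_const).add
          (hw.continuousOn.smul (hcA.clm_apply continuousOn_const))).sub
          (hBh.continuousOn.smul continuousOn_const))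
    · intro x hx ξ
      show lam * ‖ξ‖ ^ 2 ≤ ξ (dpA A (x, u x, ∇ u x) (sharpL ξ))
      rw [← sst1e_sharp_inner ξ, real_inner_comm, ← sst1e_sharp_norm ξ]
      exact hpos _ (hbox x hx) _
    · intro x hx ξ
      show ‖dpA A (x, u x, ∇ u x) (sharpL ξ)‖ ≤ max lam (Λ 1) * ‖ξ‖
      rw [sst1e_dpA]
      refine ((fderiv ℝ A (x, u x, ∇ u x)).le_opNorm _).trans ?_
      rw [sst1e_norm3, sst1e_sharp_norm]
      exact mul_le_mul_of_nonneg_right ((hfd x hx).trans (le_max_right _ _)) (norm_nonneg _)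
    · intro x _
      show ‖(0 : W)‖ ≤ _
      rw [norm_zero]
      exact hLam
    · intro x _
      show ‖(0 : W)‖ ≤ _
      rw [norm_zero]
      exact hLam
    · intro x _
      show |(0 : ℝ)| ≤ _
      rw [abs_zero]
      exact hLam
    · intro x hx
      show ‖fderiv ℝ A (x, u x, ∇ u x) (e, 0, 0) +
        (fderiv ℝ u x e) • fderiv ℝ A (x, u x, ∇ u x) (0, 1, 0) - B (x, u x, ∇ u x) • e‖ ≤ _
      have h1 := (fderiv ℝ A (x, u x, ∇ u x)).le_opNorm ((e, (0 : ℝ), (0 : W)) : W × ℝ × W)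
      have h2 := (fderiv ℝ A (x, u x, ∇ u x)).le_opNorm (((0 : W), (1 : ℝ), (0 : W)) : W × ℝ × W)
      rw [sst1e_norm1, he, mul_one] at h1
      rw [sst1e_norm2, mul_one] at h2
      have h3 := hfd x hx
      have h4 := hwb x hx
      have h5 := hb0 x hx
      have hΛ1 : 0 ≤ Λ 1 := (norm_nonneg (fderiv ℝ A (x, u x, ∇ u x))).trans h3
      have h6 : ‖(fderiv ℝ u x e) • fderiv ℝ A (x, u x, ∇ u x) (0, 1, 0)‖ ≤ Kp * Λ 1 := by
        rw [norm_smul, Real.norm_eq_abs]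
        exact mul_le_mul h4 (h2.trans h3) (norm_nonneg _) ((abs_nonneg _).trans h4)
      have h7 : ‖B (x, u x, ∇ u x) • e‖ ≤ Λ 0 := by
        rw [norm_smul, he, mul_one, Real.norm_eq_abs]
        exact h5
      calc _ ≤ ‖fderiv ℝ A (x, u x, ∇ u x) (e, 0, 0) +
            (fderiv ℝ u x e) • fderiv ℝ A (x, u x, ∇ u x) (0, 1, 0)‖ + ‖B (x, u x, ∇ u x) • e‖ :=
            norm_sub_le _ _
        _ ≤ ‖fderiv ℝ A (x, u x, ∇ u x) (e, 0, 0)‖ +
            ‖(fderiv ℝ u x e) • fderiv ℝ A (x, u x, ∇ u x) (0, 1, 0)‖ + ‖B (x, u x, ∇ u x) • e‖ :=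
            add_le_add_left (norm_add_le _ _) _
        _ ≤ Λ 1 * (1 + Kp) + Λ 0 := by linarith
    · intro x _
      show |(0 : ℝ)| ≤ 0
      rw [abs_zero]
  · intro φ hφ
    have hX : ContDiffOn ℝ 1 (fun y => fderiv ℝ (fun y => A (y, u y, ∇ u y)) y e -
        B (y, u y, ∇ u y) • e) S :=
      ((((hJ.fderiv_of_isOpen hS (m := ∞) (by simp)).clm_apply contDiffOn_const).sub
        (hBh.smul contDiffOn_const))).of_le (by simp)
    have h0 := sst1e_weak hS hX (fun x hx => sst1e_div_zero hS hJ hBh heq e hx) hφ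
    refine Eq.trans ?_ h0
    congr 1
    funext x
    by_cases hx : x ∈ S
    · rw [← key x hx]
      simp [dg_eform]
    · simp [dg_eform, hφ.eq_zero hx, hφ.fderiv_eq_zero hx]

end t1e

theorem ss_quasi_holder (W : Type) [NormedAddCommGroup W] [InnerProductSpace ℝ W]
    [FiniteDimensional ℝ W] [MeasurableSpace W] [BorelSpace W] (hm : 2 ≤ Module.finrank ℝ W)
    (lam : ℝ) (Λ : ℕ → ℝ) (Kz Kp r R : ℝ) (hlam : 0 < lam) (hr : 0 < r) (hrR : r < R) :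
    ∃ α K : ℝ, 0 < α ∧ α < 1 ∧ ∀ (x₀ : W) (A : W × ℝ × W → W) (B : W × ℝ × W → ℝ) (u : W → ℝ),
      CbLe Λ (qbox x₀ R Kz Kp) A → CbLe Λ (qbox x₀ R Kz Kp) B →
      (∀ ζ ∈ qbox x₀ R Kz Kp, ∀ η : W, lam * ‖η‖ ^ 2 ≤ ⟪dpA A ζ η, η⟫) →
      ContDiffOn ℝ ∞ u (Metric.ball x₀ R) →
      (∀ x ∈ Metric.ball x₀ R, (x, u x, ∇ u x) ∈ qbox x₀ R Kz Kp) →
      (∀ x ∈ Metric.ball x₀ R, ellDiv (fun y => A (y, u y, ∇ u y)) x = B (x, u x, ∇ u x)) →
      HolOn α K (Metric.ball x₀ r) (fderiv ℝ u) := by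
  obtain ⟨α, C, hα, hα1, hC, hH⟩ :=
    Claimed.Agent.Lib.Dgnm.dg_elliptic_holder W hm lam (max lam (Λ 1)) hlam (le_max_left _ _)
  obtain ⟨ρ, hρdef⟩ : ∃ ρ : ℝ, ρ = min 1 (R - r) := ⟨_, rfl⟩
  have hρ : 0 < ρ := by rw [hρdef]; exact lt_min one_pos (by linarith)
  have hρ1 : ρ ≤ 1 := by rw [hρdef]; exact min_le_left _ _
  have hρR : ρ ≤ R - r := by rw [hρdef]; exact min_le_right _ _
  refine ⟨α, C * (1 / ρ) ^ α * (Kp + ρ * (Λ 1 * (1 + Kp) + Λ 0)) + 2 * Kp * (2 / ρ) ^ α, hα, hα1, ?_⟩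
  intro x₀ A B u hA hB hpos hu hbox heq x hx y hy
  have hx0 : x₀ ∈ Metric.ball x₀ R := Metric.mem_ball_self (by linarith)
  have hKp : 0 < Kp := (norm_nonneg _).trans_lt (hbox x₀ hx0).2.2
  have hΛ0 : 0 ≤ Λ 0 := (norm_nonneg _).trans (hB.bd 0 _ (hbox x₀ hx0))
  have hΛ1 : 0 ≤ Λ 1 := (norm_nonneg _).trans (hA.bd 1 _ (hbox x₀ hx0))
  have hsubS : Metric.ball x₀ r ⊆ Metric.ball x₀ R := Metric.ball_subset_ball hrR.le
  have hT1 : 0 ≤ C * (1 / ρ) ^ α * (Kp + ρ * (Λ 1 * (1 + Kp) + Λ 0)) := by positivity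
  have hT2 : 0 ≤ 2 * Kp * (2 / ρ) ^ α := by positivity
  have hn : 0 ≤ ‖x - y‖ ^ α := Real.rpow_nonneg (norm_nonneg _) _
  refine ContinuousLinearMap.opNorm_le_of_unit_norm (by positivity) fun e he => ?_
  obtain ⟨E, hE, hsol⟩ := sst1e_sol lam hlam Λ Kz Kp R x₀ A B u hA hB hpos hu hbox heq e he
  have hwb : ∀ z ∈ Metric.ball x₀ R, |fderiv ℝ u z e| ≤ Kp := by
    intro z hz
    have h1 := (fderiv ℝ u z).le_opNorm e
    rw [he, mul_one, Real.norm_eq_abs, ← sst1e_sharp_norm, ← sst1e_grad] at h1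
    exact h1.trans (hbox z hz).2.2.le
  rw [_root_.sub_apply, Real.norm_eq_abs]
  rcases le_or_gt ‖x - y‖ (ρ / 2) with h | h
  · have hw1 : ContDiffOn ℝ 1 (fun z => fderiv ℝ u z e) (Metric.ball x₀ R) :=
      ((hu.fderiv_of_isOpen Metric.isOpen_ball (m := ∞) (by simp)).clm_apply
        contDiffOn_const).of_le (by simp)
    have hsub : Metric.ball x ρ ⊆ Metric.ball x₀ R := by
      intro z hz
      rw [Metric.mem_ball] at hz hx ⊢
      calc dist z x₀ ≤ dist z x + dist x x₀ := dist_triangle _ _ _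
        _ < ρ + r := add_lt_add hz hx
        _ ≤ R := by linarith
    have h1 := hH (Metric.ball x₀ R) E (fun z => fderiv ℝ u z e) _ 0 Kp Metric.isOpen_ball hE hw1
      hsol x ρ hρ hρ1 hsub (fun z hz => hwb z (hsub hz)) x
      (Metric.mem_closedBall_self (by positivity)) y
      (by rw [Metric.mem_closedBall, dist_comm, dist_eq_norm]; exact h)
    have e1 : (‖x - y‖ / ρ) ^ α = (1 / ρ) ^ α * ‖x - y‖ ^ α := by
      rw [div_eq_mul_one_div, Real.mul_rpow (norm_nonneg _) (by positivity), mul_comm]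
    rw [e1, mul_zero, add_zero] at h1
    calc |fderiv ℝ u x e - fderiv ℝ u y e|
        ≤ C * ((1 / ρ) ^ α * ‖x - y‖ ^ α) * (Kp + ρ * (Λ 1 * (1 + Kp) + Λ 0)) := h1
      _ = (C * (1 / ρ) ^ α * (Kp + ρ * (Λ 1 * (1 + Kp) + Λ 0))) * ‖x - y‖ ^ α := by ring
      _ ≤ (C * (1 / ρ) ^ α * (Kp + ρ * (Λ 1 * (1 + Kp) + Λ 0)) + 2 * Kp * (2 / ρ) ^ α) *
          ‖x - y‖ ^ α := mul_le_mul_of_nonneg_right (by linarith) hn
  · have h1 : |fderiv ℝ u x e - fderiv ℝ u y e| ≤ 2 * Kp := by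
      have h2 := abs_sub (fderiv ℝ u x e) (fderiv ℝ u y e)
      have h3 := hwb x (hsubS hx)
      have h4 := hwb y (hsubS hy)
      linarith
    have h2 : 1 ≤ (2 / ρ) ^ α * ‖x - y‖ ^ α := by
      rw [← Real.mul_rpow (by positivity) (norm_nonneg _)]
      apply Real.one_le_rpow _ hα.le
      rw [div_mul_eq_mul_div, le_div_iff₀ hρ]
      linarith
    calc |fderiv ℝ u x e - fderiv ℝ u y e| ≤ 2 * Kp * 1 := by linarith
      _ ≤ 2 * Kp * ((2 / ρ) ^ α * ‖x - y‖ ^ α) := mul_le_mul_of_nonneg_left h2 (by positivity)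
      _ = (2 * Kp * (2 / ρ) ^ α) * ‖x - y‖ ^ α := by ring
      _ ≤ (C * (1 / ρ) ^ α * (Kp + ρ * (Λ 1 * (1 + Kp) + Λ 0)) + 2 * Kp * (2 / ρ) ^ α) *
          ‖x - y‖ ^ α := mul_le_mul_of_nonneg_right (by linarith) hn

end Claimed.Agent.R315
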