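import Claimed.Agent.R315.Ss.T1b
import Claimed.Agent.R315.Ss.T1c
import Claimed.Agent.R315.Ss.T1d
import Claimed.Agent.R315.Ss.T1e
import Claimed.Agent.R315.Pack006

/-!
# Row 315, paper S: `ss_T1` (S Section 3.1, "interior bounds of every order"), geometric form, UNIFORM constants: ASSEMBLY (PROVED)

from `T1a` .. `T1e` and `ell_quasi_est` (`Lib/Ell/Quasi.lean`).  See `T1Defs.lean` for the route.
-/

set_option autoImplicit false
open scoped ContDiff RealInnerProductSpace Gradient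
open Claims.C0499 Claimed.Agent.Lib.Ell

namespace Claimed.Agent.R315

/-- uniform interior estimates of every order. -/
theorem ss_T1 (d : ℕ) (hd : 2 ≤ d) (r R lam K : ℝ) (hr : 0 < r) (hrR : r < R) (hlam : 0 < lam)
    (Λ : ℕ → ℝ) (fl : ℝ → ℝ) (hfl : IsFlux fl) (k : ℕ) :
    ∃ C : ℝ, ∀ (G : rm_MF d) (t u : E d → ℝ) (b : E d → ℝ → ℝ → ℝ),
      SsT1Data d R lam K Λ G t b → ContDiffOn ℝ ∞ u (Metric.ball 0 R) →
      (∀ y ∈ Metric.ball (0 : E d) R, |u y| ≤ K ∧ gradSqC G u y ≤ K) →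
      (∀ y ∈ Metric.ball (0 : E d) R, ssDivC G t fl u y = b y (u y) (gradSqC G u y)) →
      ∀ y ∈ Metric.ball (0 : E d) r, ‖iteratedFDeriv ℝ k u y‖ ≤ C := by
  have hR : 0 < R := hr.trans hrR
  by_cases hK : 0 ≤ K
  swap
  · refine ⟨0, fun G t u b _ _ hb _ y _ => ?_⟩
    exact absurd ((abs_nonneg _).trans (hb 0 (Metric.mem_ball_self hR)).1) hK
  obtain ⟨κ, hκs, hκm, hκo, hκid, hκb, -⟩ := ss_kappa K 1 hK one_pos
  have hκ00 : κ 0 = 0 := hκid 0 ⟨by linarith, hK⟩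
  have hκ0 : ∀ x, 0 ≤ x → 0 ≤ κ x := fun x hx => hκ00 ▸ hκm hx
  set Kz : ℝ := K + 1 with hKz
  set Kp : ℝ := Real.sqrt (d * Λ 0 * K) + 1 with hKp
  obtain ⟨Λ1, hΛ1⟩ := ss_QA_cb d R lam K hlam Λ fl hfl Kz Kp
  obtain ⟨Λ2, hΛ2⟩ := ss_QB_cb d R lam K hlam Λ κ hκs hκb hκ0 Kz Kp
  obtain ⟨lam', hlam', hell⟩ := ss_QA_ell d R lam K hlam Λ fl hfl Kp
  set Λ' : ℕ → ℝ := fun j => max (Λ1 j) (Λ2 j) with hΛ'
  set R' : ℝ := (r + R) / 2 with hR'
  have hrR' : r < R' := by rw [hR']; linarith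
  have hR'R : R' < R := by rw [hR']; linarith
  have hfr : 2 ≤ Module.finrank ℝ (E d) := by simpa using hd
  obtain ⟨α, K', hα0, hα1, hhol⟩ :=
    ss_quasi_holder (E d) hfr lam' Λ' Kz Kp R' R hlam' (hr.trans hrR') hR'R
  obtain ⟨C, hC⟩ := ell_quasi_est (E d) k (α := α) (lam := lam') (K := max K' Kp) (Kz := Kz)
    (Kp := Kp) (r := r) (R := R') Λ' hα0 hα1 hlam' hr hrR'
  refine ⟨C, fun G t u b hD hu hb heq y hy => ?_⟩
  set A := ssQA G t fl with hA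
  set B := ssQB G t (fun y z σ => b y (κ z) (κ σ)) with hB
  have hAcb : CbLe Λ' (qbox (0 : E d) R Kz Kp) A :=
    (hΛ1 G t b hD).mono subset_rfl fun j => le_max_left _ _
  have hBcb : CbLe Λ' (qbox (0 : E d) R Kz Kp) B :=
    (hΛ2 G t b hD).mono subset_rfl fun j => le_max_right _ _
  have hbox : ∀ x ∈ Metric.ball (0 : E d) R, (x, u x, ∇ u x) ∈ qbox (0 : E d) R Kz Kp := by
    intro x hx
    refine ⟨hx, ?_, ?_⟩
    · show |u x| < Kz
      have := (hb x hx).1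
      rw [hKz]; linarith
    · show ‖∇ u x‖ < Kp
      have h1 := ss_grad_norm_le hD u hx
      have hσ0 : 0 ≤ gradSqC G u x := rm_sq_nonneg hD.met hx u
      have hc : 0 ≤ (d : ℝ) * Λ 0 := by
        have i0 : Fin d := ⟨0, by omega⟩
        have := (norm_nonneg _).trans (hD.G_bd 0 x hx i0 i0)
        positivity
      have h2 : ‖∇ u x‖ ^ 2 ≤ d * Λ 0 * K :=
        h1.trans (mul_le_mul_of_nonneg_left (hb x hx).2 hc)
      have h3 : ‖∇ u x‖ ≤ Real.sqrt (d * Λ 0 * K) := Real.le_sqrt_of_sq_le h2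
      rw [hKp]; linarith
  have hpt : ∀ x ∈ Metric.ball (0 : E d) R,
      ellDiv (fun y => A (y, u y, ∇ u y)) x = B (x, u x, ∇ u x) := by
    intro x hx
    rw [hA, ss_div_QA hD.met hD.t_smooth (hu.of_le rm_two_le) hfl hx, heq x hx, hB]
    have hσ0 : 0 ≤ gradSqC G u x := rm_sq_nonneg hD.met hx u
    have e1 : κ (u x) = u x := hκid _ (abs_le.1 (hb x hx).1)
    have e2 : κ (gradSqC G u x) = gradSqC G u x := hκid _ ⟨by linarith, (hb x hx).2⟩
    simp only [ssQB, ss_S_grad, e1, e2]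
  have hpos : ∀ ζ ∈ qbox (0 : E d) R Kz Kp, ∀ η : E d, lam' * ‖η‖ ^ 2 ≤ ⟪dpA A ζ η, η⟫ :=
    fun ζ hζ => (hell G t b hD ζ hζ.1 hζ.2.2).2
  have hH := hhol 0 A B u hAcb hBcb hpos hu hbox hpt
  have hsub : Metric.ball (0 : E d) R' ⊆ Metric.ball (0 : E d) R :=
    Metric.ball_subset_ball hR'R.le
  have hqsub : qbox (0 : E d) R' Kz Kp ⊆ qbox (0 : E d) R Kz Kp :=
    fun ζ hζ => ⟨hsub hζ.1, hζ.2⟩
  have hmet' : rm_Met G (Metric.ball (0 : E d) R') :=
    ⟨Metric.isOpen_ball, fun i j => (hD.met.smooth i j).mono hsub, fun x hx => hD.met.pos x (hsub hx)⟩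
  have hQ : QuasiData α lam' Λ' (max K' Kp) Kz Kp (0 : E d) R' A B u :=
    { Kp_le := le_max_right _ _
      A_cb := hAcb.mono hqsub fun _ => le_rfl
      B_cb := hBcb.mono hqsub fun _ => le_rfl
      A_sym := fun ζ hζ => (hell G t b hD ζ (hsub hζ.1) hζ.2.2).1
      A_pos := fun ζ hζ => hpos ζ (hqsub hζ)
      u_c1 := (hu.mono hsub).of_le (by exact_mod_cast le_top)
      u_box := fun x hx => ⟨hx, (hbox x (hsub hx)).2⟩
      u_hol := fun x hx y hy => (hH x hx y hy).trans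
        (mul_le_mul_of_nonneg_right (le_max_left _ _) (Real.rpow_nonneg (norm_nonneg _) _))
      weak := ss_weak_of_div Metric.isOpen_ball
        (ss_QA_c1 hmet' (hD.t_smooth.mono hsub) ((hu.mono hsub).of_le rm_two_le) hfl)
        (fun x hx => hpt x (hsub hx)) }
  exact (hC 0 A B u hQ).2 k le_rfl y hy

end Claimed.Agent.R315
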