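import Claimed.Agent.R315.Ss.LocyDefs
import Claimed.Agent.R315.Ss.T1

/-!
# Row 315, paper S: package SS-LOCY-B  `ss_loc_scale`: rescaled interior estimates   (~700 lines)

`v(z) = u(y0 + ρ z)/ρ` on `ball 0 1`, `y0 ∈ C'`, `ρ < ρ2 ≤ min 1 r'`, `cthickening r' C' ⊆ U`.   `G_ρ(z) = G(y0+ρz)`, `t_ρ(z) = t(y0+ρz)`.
* `ss_divC_scale` (affine change of variables): `pdiff (f ∘ a) i z = ρ pdiff f i (a z)`, `a z = y0 + ρ • z`; hence `gradSqC G_ρ v z = gradSqC G u (a z)`, `lapC G_ρ v z = ρ lapC G u (a z)`, `gradIpC G_ρ (σ_v) v z = ρ gradIpC G σ_u u (a z)`, `gradIpC G_ρ t_ρ v z = ρ gradIpC G t u (a z)`: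
   `ssDivC G_ρ t_ρ fl v z = ρ * ssDivC G t fl u (a z)`.   No smoothness is needed if one uses `fderiv_comp_smul`-type lemmas (`fderiv (f ∘ a) z = ρ • fderiv f (a z)` holds for every `f`: `a` is an affine isomorphism; `fderiv_comp_add_left`, `fderiv_comp_smul`); `lapC` contains `pdiff` of a product of such functions.
* `ss_iter_scale`: `iteratedFDeriv ℝ k (fun z => f (y0 + ρ • z)) z = ρ^k • iteratedFDeriv ℝ k f (y0 + ρ • z)` (`iteratedFDeriv_comp_add_left`, `iteratedFDeriv_const_smul_apply'`-type lemmas: search `iteratedFDeriv_comp_smul`).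
* `ss_loc_class`: ONE class `SsT1Data d 1 lam K Λ` contains `(G_ρ, t_ρ, b_ρ)`, `b_ρ z ζ σ = ρ * (J σ * Φ ζ (t (y0+ρz)))`, for all `y0 ∈ C'`, `0 < ρ < ρ2`: `K = max S1 K1`; `lam` = lower bound of `G` on the compact `C'' = cthickening r' C'`; `Λ j` = sup over `C''` of `‖D^j G_ik‖`, `‖D^j t‖` (times `ρ^j ≤ 1`),
   and the sup of `‖D^j (q ↦ J q.σ Φ q.ζ q.τ)‖` over the compact `[-K-1,K+1] × [0,K+1] × t(C'')` combined with the bounds of `t_ρ` (`ss_cb_comp` of `T1a.lean`).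
* `ss_T1 d hd (1/2) 1 lam K .. k` → `C`; `‖D^k v(0)‖ ≤ C`, `D^k v(0) = ρ^{k-1} D^k u(y0)`.
-/

set_option autoImplicit false
open scoped ContDiff
open Claims.C0499 Claimed.Agent.Lib.Ell

namespace Claimed.Agent.R315

variable {d : ℕ}

theorem ssLy_iter_smul {X F' : Type} [NormedAddCommGroup X] [NormedSpace ℝ X]
    [NormedAddCommGroup F'] [NormedSpace ℝ F'] (g : X → F') (ρ : ℝ) (k : ℕ) :
    iteratedFDeriv ℝ k (fun z => g (ρ • z)) = fun z => ρ ^ k • iteratedFDeriv ℝ k g (ρ • z) := by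
  induction k with
  | zero => ext; simp
  | succ k ih =>
    ext z v
    rw [iteratedFDeriv_succ_eq_comp_left, iteratedFDeriv_succ_eq_comp_left, ih]
    have h1 : fderiv ℝ (fun z => ρ ^ k • iteratedFDeriv ℝ k g (ρ • z)) z
        = ρ ^ k • (ρ • fderiv ℝ (iteratedFDeriv ℝ k g) (ρ • z)) := by
      have := congrFun (fderiv_const_smul_field (𝕜 := ℝ)
        (f := fun z => iteratedFDeriv ℝ k g (ρ • z)) (ρ ^ k)) z
      rw [Pi.smul_apply, fderiv_comp_smul] at this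
      exact this
    simp only [Function.comp_apply, h1, smul_smul, ← pow_succ]
    simp

theorem ss_iter_scale {F' : Type} [NormedAddCommGroup F'] [NormedSpace ℝ F'] (f : E d → F')
    (y0 : E d) (ρ : ℝ) (k : ℕ) (z : E d) :
    iteratedFDeriv ℝ k (fun z => f (y0 + ρ • z)) z = ρ ^ k • iteratedFDeriv ℝ k f (y0 + ρ • z) := by
  have h := congrFun (ssLy_iter_smul (fun w => f (y0 + w)) ρ k) z
  rw [h, iteratedFDeriv_comp_add_left]

theorem ssLy_pdiff_scale (f : E d → ℝ) (y0 : E d) (ρ : ℝ) (i : Fin d) (z : E d) :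
    pdiff (fun z => f (y0 + ρ • z)) i z = ρ * pdiff f i (y0 + ρ • z) := by
  unfold pdiff
  have h := fderiv_comp_smul (𝕜 := ℝ) (f := fun w => f (y0 + w)) (x := z) ρ
  rw [fderiv_comp_add_left] at h
  rw [h]
  simp

theorem ssLy_pdiff_scale' (f : E d → ℝ) (y0 : E d) {ρ : ℝ} (hρ : 0 < ρ) (i : Fin d) (z : E d) :
    pdiff (fun z => f (y0 + ρ • z) / ρ) i z = pdiff f i (y0 + ρ • z) := by
  have h1 := ssLy_pdiff_scale (fun w => f w / ρ) y0 ρ i z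
  rw [h1]
  have h2 : pdiff (fun w => f w / ρ) i (y0 + ρ • z) = ρ⁻¹ * pdiff f i (y0 + ρ • z) := by
    unfold pdiff
    have := congrFun (fderiv_const_smul_field (𝕜 := ℝ) (f := f) (ρ⁻¹)) (y0 + ρ • z)
    have e : (fun w => f w / ρ) = ρ⁻¹ • f := by
      ext w; simp [div_eq_inv_mul]
    rw [e, this]
    simp
  rw [h2]
  field_simp

theorem ss_sq_scale (G : rm_MF d) (u : E d → ℝ) (y0 : E d) {ρ : ℝ} (hρ : 0 < ρ) (z : E d) :
    gradSqC (fun z => G (y0 + ρ • z)) (fun z => u (y0 + ρ • z) / ρ) z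
      = gradSqC G u (y0 + ρ • z) := by
  unfold gradSqC
  simp only [ssLy_pdiff_scale' u y0 hρ]

theorem ss_divC_scale (G : rm_MF d) (t u : E d → ℝ) (fl : ℝ → ℝ) (y0 : E d) {ρ : ℝ} (hρ : 0 < ρ)
    (z : E d) :
    ssDivC (fun z => G (y0 + ρ • z)) (fun z => t (y0 + ρ • z)) fl (fun z => u (y0 + ρ • z) / ρ) z
      = ρ * ssDivC G t fl u (y0 + ρ • z) := by
  have hsq : gradSqC (fun z => G (y0 + ρ • z)) (fun z => u (y0 + ρ • z) / ρ)
      = fun z => gradSqC G u (y0 + ρ • z) := funext fun z => ss_sq_scale G u y0 hρ z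
  unfold ssDivC
  rw [hsq]
  have hlap : lapC (fun z => G (y0 + ρ • z)) (fun z => u (y0 + ρ • z) / ρ) z
      = ρ * lapC G u (y0 + ρ • z) := by
    unfold lapC
    simp only [ssLy_pdiff_scale' u y0 hρ]
    have : ∀ i : Fin d, pdiff (fun w => Real.sqrt (G (y0 + ρ • w)).det *
        ∑ j : Fin d, (G (y0 + ρ • w))⁻¹ i j * pdiff u j (y0 + ρ • w)) i z
        = ρ * pdiff (fun w => Real.sqrt (G w).det * ∑ j : Fin d, (G w)⁻¹ i j * pdiff u j w) i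
          (y0 + ρ • z) := fun i =>
      ssLy_pdiff_scale (fun w => Real.sqrt (G w).det * ∑ j : Fin d, (G w)⁻¹ i j * pdiff u j w)
        y0 ρ i z
    simp only [this, ← Finset.mul_sum]
    ring
  have hip1 : gradIpC (fun z => G (y0 + ρ • z)) (fun z => gradSqC G u (y0 + ρ • z))
      (fun z => u (y0 + ρ • z) / ρ) z = ρ * gradIpC G (gradSqC G u) u (y0 + ρ • z) := by
    unfold gradIpC
    simp only [ssLy_pdiff_scale' u y0 hρ, ssLy_pdiff_scale (gradSqC G u) y0 ρ, Finset.mul_sum]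
    refine Finset.sum_congr rfl fun i _ => Finset.sum_congr rfl fun j _ => ?_
    ring
  have hip2 : gradIpC (fun z => G (y0 + ρ • z)) (fun z => t (y0 + ρ • z))
      (fun z => u (y0 + ρ • z) / ρ) z = ρ * gradIpC G t u (y0 + ρ • z) := by
    unfold gradIpC
    simp only [ssLy_pdiff_scale' u y0 hρ, ssLy_pdiff_scale t y0 ρ, Finset.mul_sum]
    refine Finset.sum_congr rfl fun i _ => Finset.sum_congr rfl fun j _ => ?_
    ring
  rw [hlap, hip1, hip2]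
  ring


/-- uniform ellipticity on a compact set. -/
theorem ssLy_ell {X : Type} [TopologicalSpace X] {Q : Set X} (hQ : IsCompact Q)
    {A : X → Matrix (Fin d) (Fin d) ℝ}
    (hA : ∀ i j, ContinuousOn (fun q => A q i j) Q) (hpos : ∀ q ∈ Q, (A q).PosDef) :
    ∃ lam : ℝ, 0 < lam ∧ ∀ q ∈ Q, ∀ v : Fin d → ℝ, lam * (v ⬝ᵥ v) ≤ v ⬝ᵥ (A q).mulVec v := by
  set Sp : Set (Fin d → ℝ) := {v | v ⬝ᵥ v = 1} with hSp
  have hSc : IsCompact Sp := by
    have hcl : IsClosed Sp := by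
      have hc : Continuous fun v : Fin d → ℝ => v ⬝ᵥ v := by
        simp only [dotProduct]
        fun_prop
      exact isClosed_eq hc continuous_const
    refine (isCompact_closedBall (0 : Fin d → ℝ) 1).of_isClosed_subset hcl fun v hv => ?_
    rw [mem_closedBall_zero_iff, pi_norm_le_iff_of_nonneg zero_le_one]
    intro i
    have h1 : v i * v i ≤ v ⬝ᵥ v := by
      simp only [dotProduct]
      exact Finset.single_le_sum (f := fun i => v i * v i) (fun j _ => mul_self_nonneg _)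
        (Finset.mem_univ i)
    have h2 : v ⬝ᵥ v = 1 := hv
    rw [Real.norm_eq_abs]
    apply abs_le_of_sq_le_sq' _ zero_le_one |>.2 |> fun h => abs_le.2 ⟨?_, h⟩
    · nlinarith
    · nlinarith
  set g : X × (Fin d → ℝ) → ℝ := fun z => z.2 ⬝ᵥ (A z.1).mulVec z.2 with hg
  have hgc : ContinuousOn g (Q ×ˢ Sp) := by
    simp only [hg, dotProduct, Matrix.mulVec]
    refine continuousOn_finsetSum _ fun i _ => ?_
    refine ContinuousOn.mul (by fun_prop) ?_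
    refine continuousOn_finsetSum _ fun j _ => ?_
    refine ContinuousOn.mul ?_ (by fun_prop)
    exact (hA i j).comp continuousOn_fst fun z hz => hz.1
  have hgpos : ∀ z ∈ Q ×ˢ Sp, 0 < g z := by
    intro z hz
    have hne : z.2 ≠ 0 := by
      intro h0
      have : z.2 ⬝ᵥ z.2 = 1 := hz.2
      rw [h0] at this
      simp at this
    have := (hpos z.1 hz.1).dotProduct_mulVec_pos hne
    simpa using this
  obtain ⟨lam, hlam, hle⟩ : ∃ lam : ℝ, 0 < lam ∧ ∀ z ∈ Q ×ˢ Sp, lam ≤ g z := by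
    rcases (Q ×ˢ Sp).eq_empty_or_nonempty with he | hne
    · exact ⟨1, one_pos, fun z hz => by rw [he] at hz; exact hz.elim⟩
    · obtain ⟨z₀, hz₀, hmin⟩ := (hQ.prod hSc).exists_isMinOn hne hgc
      exact ⟨g z₀, hgpos z₀ hz₀, fun z hz => hmin hz⟩
  refine ⟨lam, hlam, fun q hq v => ?_⟩
  have hvv : 0 ≤ v ⬝ᵥ v := by
    simp only [dotProduct]
    exact Finset.sum_nonneg fun i _ => mul_self_nonneg _
  rcases hvv.eq_or_lt with h0 | hpos'
  · have hv0 : v = 0 := dotProduct_self_eq_zero.1 h0.symm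
    rw [hv0]
    simp
  · set c := v ⬝ᵥ v with hc
    have hsc : 0 < Real.sqrt c := Real.sqrt_pos.2 hpos'
    have hw : (Real.sqrt c)⁻¹ • v ∈ Sp := by
      simp only [hSp, Set.mem_ofPred_eq, smul_dotProduct, dotProduct_smul, smul_eq_mul]
      rw [← hc, ← mul_assoc, ← mul_inv, Real.mul_self_sqrt hpos'.le, inv_mul_cancel₀ hpos'.ne']
    have h1 := hle (q, (Real.sqrt c)⁻¹ • v) ⟨hq, hw⟩
    simp only [hg, Matrix.mulVec_smul, smul_dotProduct, dotProduct_smul, smul_eq_mul] at h1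
    rw [← mul_assoc, ← mul_inv, Real.mul_self_sqrt hpos'.le, le_inv_mul_iff₀ hpos'] at h1
    linarith

/-- bounds of the derivatives of a smooth map on a compact set. -/
theorem ssLy_bd {X F' : Type} [NormedAddCommGroup X] [NormedSpace ℝ X] [NormedAddCommGroup F']
    [NormedSpace ℝ F'] {f : X → F'} {U Q : Set X} (hU : IsOpen U) (hf : ContDiffOn ℝ ∞ f U)
    (hQ : IsCompact Q) (hQU : Q ⊆ U) (j : ℕ) :
    ∃ C : ℝ, 0 ≤ C ∧ ∀ q ∈ Q, ‖iteratedFDeriv ℝ j f q‖ ≤ C := by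
  have h1 : ContinuousOn (iteratedFDerivWithin ℝ j f U) U :=
    hf.continuousOn_iteratedFDerivWithin (by exact_mod_cast le_top) hU.uniqueDiffOn
  obtain ⟨C, hC⟩ := hQ.exists_bound_of_continuousOn
    ((h1.congr fun q hq => (iteratedFDerivWithin_of_isOpen j hU hq).symm).mono hQU)
  exact ⟨|C|, abs_nonneg _, fun q hq => (hC q hq).trans (le_abs_self _)⟩

/-- the rescaled map has the bounds of the map. -/
theorem ssLy_cb_scale {F' : Type} [NormedAddCommGroup F'] [NormedSpace ℝ F'] {f : E d → F'}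
    {U Q : Set (E d)} (hf : ContDiffOn ℝ ∞ f U) (hQU : Q ⊆ U) {Λ : ℕ → ℝ}
    (hΛ : ∀ j : ℕ, ∀ q ∈ Q, ‖iteratedFDeriv ℝ j f q‖ ≤ Λ j) {y0 : E d} {ρ : ℝ} (hρ0 : 0 ≤ ρ)
    (hρ1 : ρ ≤ 1) (hmap : ∀ z ∈ Metric.ball (0 : E d) 1, y0 + ρ • z ∈ Q) :
    CbLe Λ (Metric.ball (0 : E d) 1) (fun z => f (y0 + ρ • z)) := by
  refine ⟨hf.comp (by fun_prop) fun z hz => hQU (hmap z hz), fun j z hz => ?_⟩
  rw [ss_iter_scale, norm_smul, norm_pow, Real.norm_of_nonneg hρ0]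
  have h1 := hΛ j _ (hmap z hz)
  have h2 : ρ ^ j ≤ 1 := pow_le_one₀ hρ0 hρ1
  calc ρ ^ j * ‖iteratedFDeriv ℝ j f (y0 + ρ • z)‖
      ≤ 1 * ‖iteratedFDeriv ℝ j f (y0 + ρ • z)‖ :=
        mul_le_mul_of_nonneg_right h2 (norm_nonneg _)
    _ ≤ Λ j := by rw [one_mul]; exact h1

/-- one class for all rescaled data. -/
theorem ss_loc_class {G : rm_MF d} {U : Set (E d)} (hG : rm_Met G U) {t : E d → ℝ}
    (ht : ContDiffOn ℝ ∞ t U) {J : ℝ → ℝ} (hJ : ContDiffOn ℝ ∞ J (Set.Ioi (-1))) {Φ : ℝ → ℝ → ℝ}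
    (hΦ : ContDiff ℝ ∞ (fun p : ℝ × ℝ => Φ p.1 p.2)) (K : ℝ) (C' : Set (E d)) (hC : IsCompact C')
    (hCU : C' ⊆ U) :
    ∃ (lam ρ2 : ℝ) (Λ : ℕ → ℝ), 0 < lam ∧ 0 < ρ2 ∧ ρ2 ≤ 1 ∧ ∀ y0 ∈ C', ∀ ρ ∈ Set.Ioo 0 ρ2,
      (∀ z ∈ Metric.ball (0 : E d) 1, y0 + ρ • z ∈ U) ∧
      SsT1Data d 1 lam K Λ (fun z => G (y0 + ρ • z)) (fun z => t (y0 + ρ • z))
        (fun z ζ σ => ρ * (J σ * Φ ζ (t (y0 + ρ • z)))) := by
  obtain ⟨δ, hδ, hδU⟩ := hC.exists_cthickening_subset_open hG.opn hCU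
  set Q := Metric.cthickening δ C' with hQdef
  have hQ : IsCompact Q := hC.cthickening
  obtain ⟨lam, hlam, hell⟩ := ssLy_ell hQ (A := G)
    (fun i j => ((hG.smooth i j).continuousOn).mono hδU) (fun q hq => hG.pos q (hδU hq))
  choose ΛG hΛG0 hΛG using fun (j : ℕ) (i k : Fin d) =>
    ssLy_bd hG.opn (hG.smooth i k) hQ hδU j
  choose Λt hΛt0 hΛt using fun j : ℕ => ssLy_bd hG.opn ht hQ hδU j
  set g : ℝ × ℝ × ℝ → ℝ := fun q => J q.1 * Φ q.2.1 q.2.2 with hgdef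
  set 𝒪 : Set (ℝ × ℝ × ℝ) := Set.Ioi (-1) ×ˢ Set.univ with h𝒪def
  have h𝒪 : IsOpen 𝒪 := isOpen_Ioi.prod isOpen_univ
  have hg : ContDiffOn ℝ ∞ g 𝒪 :=
    (hJ.comp contDiffOn_fst (fun q hq => hq.1)).mul ((hΦ.comp contDiff_snd).contDiffOn)
  set Q3 : Set (ℝ × ℝ × ℝ) :=
    Set.Icc (-(1 / 2)) (K + 2) ×ˢ (Set.Icc (-(K + 2)) (K + 2) ×ˢ (t '' Q)) with hQ3def
  have hQ3 : IsCompact Q3 := isCompact_Icc.prod
    (isCompact_Icc.prod (hQ.image_of_continuousOn (ht.continuousOn.mono hδU)))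
  have hQ3𝒪 : Q3 ⊆ 𝒪 := fun q hq => ⟨by
    have := hq.1.1
    simp only [Set.mem_Ioi]
    linarith, trivial⟩
  set T1 : E d × ℝ × ℝ →L[ℝ] ℝ :=
    (ContinuousLinearMap.snd ℝ ℝ ℝ).comp (ContinuousLinearMap.snd ℝ (E d) (ℝ × ℝ)) with hT1
  set T2 : E d × ℝ × ℝ →L[ℝ] ℝ :=
    (ContinuousLinearMap.fst ℝ ℝ ℝ).comp (ContinuousLinearMap.snd ℝ (E d) (ℝ × ℝ)) with hT2
  set T3 : E d × ℝ × ℝ →L[ℝ] E d := ContinuousLinearMap.fst ℝ (E d) (ℝ × ℝ) with hT3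
  set Λf : ℕ → ℝ := fun j => (if j = 0 then |K| + 2 else ‖T1‖) +
    ((if j = 0 then |K| + 2 else ‖T2‖) + Λt j * ‖T3‖ ^ j) with hΛf
  obtain ⟨Λ', hΛ'⟩ := ss_cb_comp (X := E d × ℝ × ℝ) g 𝒪 Q3 h𝒪 hg hQ3 hQ3𝒪 Λf
  set Ω : Set (E d × ℝ × ℝ) := Metric.ball (0 : E d) 1 ×ˢ
    (Set.Ioo (-(K + 2)) (K + 2) ×ˢ Set.Ioo (-(1 / 2) : ℝ) (K + 2)) with hΩdef
  have hΩ : IsOpen Ω := Metric.isOpen_ball.prod (isOpen_Ioo.prod isOpen_Ioo)
  refine ⟨lam, min 1 δ, fun j => (∑ i, ∑ k, ΛG j i k) + Λt j + |Λ' j|, hlam,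
    lt_min one_pos hδ, min_le_left _ _, fun y0 hy0 ρ hρ => ?_⟩
  have hρ0 : 0 < ρ := hρ.1
  have hρ1 : ρ ≤ 1 := (hρ.2.trans_le (min_le_left _ _)).le
  have hρδ : ρ ≤ δ := (hρ.2.trans_le (min_le_right _ _)).le
  have hmap : ∀ z ∈ Metric.ball (0 : E d) 1, y0 + ρ • z ∈ Q := by
    intro z hz
    refine Metric.mem_cthickening_of_dist_le _ y0 _ _ hy0 ?_
    rw [dist_eq_norm, add_sub_cancel_left, norm_smul, Real.norm_of_nonneg hρ0.le]
    have hz' : ‖z‖ < 1 := by simpa using hz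
    nlinarith [norm_nonneg z]
  have hcG : ∀ i k, CbLe (fun j => ΛG j i k) (Metric.ball (0 : E d) 1)
      (fun z => G (y0 + ρ • z) i k) := fun i k =>
    ssLy_cb_scale (f := fun w => G w i k) (hG.smooth i k) hδU (fun j => hΛG j i k) hρ0.le hρ1 hmap
  have hct : CbLe Λt (Metric.ball (0 : E d) 1) (fun z => t (y0 + ρ • z)) :=
    ssLy_cb_scale ht hδU hΛt hρ0.le hρ1 hmap
  have hf1 : CbLe (fun j => if j = 0 then |K| + 2 else ‖T1‖) Ω
      (fun p : E d × ℝ × ℝ => p.2.2) := by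
    refine cbLe_clm T1 fun x hx => ?_
    have h1 : -(1 / 2) < x.2.2 := hx.2.2.1
    have h2 : x.2.2 < K + 2 := hx.2.2.2
    show ‖x.2.2‖ ≤ _
    rw [Real.norm_eq_abs, abs_le]
    constructor <;> linarith [le_abs_self K, abs_nonneg K]
  have hf2 : CbLe (fun j => if j = 0 then |K| + 2 else ‖T2‖) Ω
      (fun p : E d × ℝ × ℝ => p.2.1) := by
    refine cbLe_clm T2 fun x hx => ?_
    have h1 : -(K + 2) < x.2.1 := hx.2.1.1
    have h2 : x.2.1 < K + 2 := hx.2.1.2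
    show ‖x.2.1‖ ≤ _
    rw [Real.norm_eq_abs, abs_le]
    constructor <;> linarith [le_abs_self K, abs_nonneg K]
  have hf3 : CbLe (fun j => Λt j * ‖T3‖ ^ j) Ω
      (fun p : E d × ℝ × ℝ => t (y0 + ρ • p.1)) :=
    hct.comp_clm Metric.isOpen_ball hΩ T3 fun x hx => hx.1
  have hf : CbLe Λf Ω (fun p : E d × ℝ × ℝ => (p.2.2, p.2.1, t (y0 + ρ • p.1))) :=
    hf1.prodMk hΩ (hf2.prodMk hΩ hf3)
  have hfm : Set.MapsTo (fun p : E d × ℝ × ℝ => (p.2.2, p.2.1, t (y0 + ρ • p.1))) Ω Q3 := by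
    intro x hx
    exact ⟨⟨hx.2.2.1.le, hx.2.2.2.le⟩, ⟨hx.2.1.1.le, hx.2.1.2.le⟩, ⟨_, hmap _ hx.1, rfl⟩⟩
  have hcb := hΛ' Ω _ hΩ hf hfm
  have hcb2 := hcb.clm_post hΩ (ρ • ContinuousLinearMap.id ℝ ℝ)
  have hTn : ‖ρ • ContinuousLinearMap.id ℝ ℝ‖ ≤ 1 := by
    rw [norm_smul, Real.norm_of_nonneg hρ0.le]
    calc ρ * ‖ContinuousLinearMap.id ℝ ℝ‖ ≤ 1 * 1 :=
          mul_le_mul hρ1 ContinuousLinearMap.norm_id_le (norm_nonneg _) zero_le_one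
      _ = 1 := one_mul 1
  have hsumG : ∀ j i k, ΛG j i k ≤ ∑ i, ∑ k, ΛG j i k := by
    intro j i k
    calc ΛG j i k ≤ ∑ k, ΛG j i k :=
          Finset.single_le_sum (f := fun k => ΛG j i k) (fun k _ => hΛG0 j i k) (Finset.mem_univ k)
      _ ≤ ∑ i, ∑ k, ΛG j i k :=
          Finset.single_le_sum (f := fun i => ∑ k, ΛG j i k)
            (fun i _ => Finset.sum_nonneg fun k _ => hΛG0 j i k) (Finset.mem_univ i)
  have hsumG0 : ∀ j, 0 ≤ ∑ i, ∑ k, ΛG j i k := fun j =>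
    Finset.sum_nonneg fun i _ => Finset.sum_nonneg fun k _ => hΛG0 j i k
  refine ⟨fun z hz => hδU (hmap z hz), ?_⟩
  refine
    { met := ⟨Metric.isOpen_ball, fun i k => (hcG i k).smooth,
        fun z hz => hG.pos _ (hδU (hmap z hz))⟩
      ell := fun y hy v => hell _ (hmap y hy) v
      G_bd := fun j y hy i k => ?_
      t_smooth := hct.smooth
      t_bd := fun j y hy => ?_
      b_smooth := ?_
      b_bd := fun j p hp => ?_ }
  · have := (hcG i k).bd j y hy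
    have h2 := hsumG j i k
    have h3 := hΛt0 j
    have h4 := abs_nonneg (Λ' j)
    linarith
  · have := hct.bd j y hy
    have h2 := hsumG0 j
    have h4 := abs_nonneg (Λ' j)
    linarith
  · refine contDiffOn_const.mul ((hJ.comp (by fun_prop) fun p hp => hp.2.2).mul ?_)
    have h1 : ContDiffOn ℝ ∞ (fun p : E d × ℝ × ℝ => (p.2.1, t (y0 + ρ • p.1)))
        (Metric.ball 0 1 ×ˢ (Set.univ ×ˢ Set.Ioi (-1 : ℝ))) :=
      ContDiffOn.prodMk (by fun_prop) (hct.smooth.comp contDiffOn_fst fun p hp => hp.1)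
    exact hΦ.comp_contDiffOn h1
  · have hpΩ : p ∈ Ω := by
      refine ⟨hp.1, ⟨?_, ?_⟩, ⟨?_, ?_⟩⟩
      · linarith [hp.2.1.1]
      · linarith [hp.2.1.2]
      · linarith [hp.2.2.1]
      · linarith [hp.2.2.2]
    have h1 := hcb2.bd j p hpΩ
    have h2 : ‖ρ • ContinuousLinearMap.id ℝ ℝ‖ * Λ' j ≤ |Λ' j| := by
      calc ‖ρ • ContinuousLinearMap.id ℝ ℝ‖ * Λ' j
          ≤ ‖ρ • ContinuousLinearMap.id ℝ ℝ‖ * |Λ' j| :=
            mul_le_mul_of_nonneg_left (le_abs_self _) (norm_nonneg _)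
        _ ≤ 1 * |Λ' j| := mul_le_mul_of_nonneg_right hTn (abs_nonneg _)
        _ = |Λ' j| := one_mul _
    have h3 := hsumG0 j
    have h4 := hΛt0 j
    refine le_trans ?_ (show |Λ' j| ≤ _ by linarith)
    exact h1.trans h2

theorem ss_loc_scale (hd : 2 ≤ d) {G : rm_MF d} {U : Set (E d)} (hG : rm_Met G U) {t : E d → ℝ}
    (ht : ContDiffOn ℝ ∞ t U) {fl J : ℝ → ℝ} (hfl : IsFlux fl)
    (hJ : ContDiffOn ℝ ∞ J (Set.Ioi (-1))) {S1 K1 : ℝ} {Φ : ℝ → ℝ → ℝ}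
    (hΦ : ContDiff ℝ ∞ (fun p : ℝ × ℝ => Φ p.1 p.2)) (C' : Set (E d)) (hC : IsCompact C')
    (hCU : C' ⊆ U) (k : ℕ) :
    ∃ Ck ρ2 : ℝ, 0 < ρ2 ∧ ∀ ρ ∈ Set.Ioo 0 ρ2, ∀ u : E d → ℝ, SsLocSol G U t fl J Φ S1 K1 ρ u →
      ∀ y ∈ C', ‖iteratedFDeriv ℝ k u y‖ * ρ ^ k ≤ Ck * ρ := by
  obtain ⟨lam, ρ2, Λ, hlam, hρ2, -, hcl⟩ := ss_loc_class hG ht hJ hΦ (max S1 K1) C' hC hCU
  obtain ⟨C, hCb⟩ := ss_T1 d hd (1 / 2) 1 lam (max S1 K1) (by norm_num) (by norm_num) hlam Λ fl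
    hfl k
  refine ⟨C, ρ2, hρ2, fun ρ hρ u hu y hy => ?_⟩
  have hρ0 : 0 < ρ := hρ.1
  obtain ⟨hmap, hdata⟩ := hcl y hy ρ hρ
  have hsm : ContDiffOn ℝ ∞ (fun z => u (y + ρ • z) / ρ) (Metric.ball (0 : E d) 1) :=
    (hu.smooth.comp (by fun_prop) fun z hz => hmap z hz).div_const ρ
  have h := hCb _ _ (fun z => u (y + ρ • z) / ρ) _ hdata hsm ?_ ?_ 0
    (Metric.mem_ball_self (by norm_num))
  · have e1 := ss_iter_scale (fun w => u w / ρ) y ρ k 0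
    have hat : ContDiffAt ℝ k u y :=
      ((hu.smooth.contDiffAt (hG.opn.mem_nhds (hCU hy)))).of_le (by exact_mod_cast le_top)
    have e2 : iteratedFDeriv ℝ k (fun w => u w / ρ) y = ρ⁻¹ • iteratedFDeriv ℝ k u y := by
      have e3 : (fun w => u w / ρ) = fun w => ρ⁻¹ • u w := by
        ext w
        simp [div_eq_inv_mul]
      rw [e3]
      exact iteratedFDeriv_const_smul_apply' hat
    rw [smul_zero, add_zero, e2] at e1
    rw [e1, norm_smul, norm_smul, norm_pow, norm_inv, Real.norm_of_nonneg hρ0.le] at h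
    have h2 : ρ ^ k * (ρ⁻¹ * ‖iteratedFDeriv ℝ k u y‖) * ρ ≤ C * ρ :=
      mul_le_mul_of_nonneg_right h hρ0.le
    have h3 : ρ ^ k * (ρ⁻¹ * ‖iteratedFDeriv ℝ k u y‖) * ρ = ‖iteratedFDeriv ℝ k u y‖ * ρ ^ k := by
      field_simp
    rw [h3] at h2
    exact h2
  · intro z hz
    have hb := hu.bd _ (hmap z hz)
    constructor
    · rw [abs_div, abs_of_pos hρ0, div_le_iff₀ hρ0]
      exact hb.1.trans (mul_le_mul_of_nonneg_right (le_max_left _ _) hρ0.le)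
    · rw [ss_sq_scale G u y hρ0]
      exact hb.2.trans (le_max_right _ _)
  · intro z hz
    rw [ss_divC_scale G t u fl y hρ0, ss_sq_scale G u y hρ0, hu.eq _ (hmap z hz)]

end Claimed.Agent.R315
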