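import Claimed.Agent.R315.Ss.LocyDefs

/-!
# Row 315, paper S: package SS-LOCY-C  `ss_interp_step`, `ss_exp_small`, `ss_interp3`: interpolation   (PURE MATHLIB; ~500 lines)

* `ss_interp_step`: for a unit vector `e`, `s = δ/2`: `φ(τ) = g(y + τ e)` on `[0,s]`; `‖φ(s) - φ(0) - s φ'(0)‖ ≤ M s²/2` (mean value inequality for `τ ↦ φ(τ) - τ φ'(0)`, whose derivative `(Dg(y+τe) - Dg(y)) e` is bounded by `M τ`, again by the mean value inequality on the convex ball: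
  `Convex.norm_image_sub_le_of_norm_fderiv_le`), so `‖Dg(y) e‖ ≤ 2ε₀/s + M s/2 = 4ε₀/δ + Mδ/4`.  `ContinuousLinearMap.opNorm_le_bound`.
* `ss_exp_small`: `ρ^{-m} exp(-c/√ρ) → 0` as `ρ → 0+`: with `x = 1/√ρ`: `x^{2m} exp(-c x) → 0` (`Real.tendsto_pow_mul_exp_neg_atTop_nhds_zero`, rescale by `c`).
* `ss_interp3`: `ε₀ = S1 ρ exp(-γ/√ρ)`, `M_k = C4 ρ^{1-k}`.  Work on the balls `ball y (r (1 - j/4))`, `j = 0,1,2,3`, with `δ_j = min (r/4) (√ε_j)`... SIMPLER: fix `δ = ρ^3` (`≤ r/4` for small `ρ`) in all three steps: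
    `ε_{j+1} = 4 ε_j/ρ³ + C4 ρ^{1-(j+2)} ρ³`, i.e. `ε₁ ≤ 4ε₀ρ⁻³ + C4 ρ²`, `ε₂ ≤ 16 ε₀ ρ⁻⁶ + 4 C4 ρ⁻¹ + C4 ρ`: NOT small.  So use `δ_1 = ρ^2`... choose exponents: step for `D^{j+1}u` needs `M_{j+2} δ = C4 ρ^{-1-j} δ` small: `δ_j = ρ^{j+2}`; then
    `ε₁ = 4ε₀ρ⁻² + C4 ρ`... and `ε₂ = 4ε₁ρ⁻³ + C4ρ = 16ε₀ρ⁻⁵ + 4C4ρ⁻² + C4ρ`: the polynomial error of step 1 is amplified.  THEREFORE the error terms must be exponentially small as well: take `δ_j = √(ε_j)`-type choices: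
    with `θ = exp(-γ/√ρ)`: `δ₀ = θ^{1/2}`, `ε₁ ≤ (4 S1 ρ + C4 ρ⁻¹) θ^{1/2}`; `δ₁ = θ^{1/4}`, `ε₂ ≤ (4(4S1ρ + C4ρ⁻¹) + C4ρ⁻²) θ^{1/4}`; `δ₂ = θ^{1/8}`, `ε₃ ≤ (…+ C4ρ⁻³) θ^{1/8}`.  All are `≤ c ρ⁻³ exp(-γ/(8√ρ)) → 0` (`ss_exp_small`), and `δ₀ + δ₁ + δ₂ ≤ 3θ^{1/8} < r` for small `ρ`.
    `g = u`, `g = fderiv u`, `g = fderiv (fderiv u)`; norms of `iteratedFDeriv ℝ k u` versus iterated `fderiv`: `norm_iteratedFDeriv_fderiv`/`norm_fderiv_iteratedFDeriv` (`‖iteratedFDeriv ℝ (k+1) u z‖ = ‖fderiv ℝ (iteratedFDeriv ℝ k u) z‖`): apply `ss_interp_step` to `g = iteratedFDeriv ℝ k u`, `k = 0,1,2`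
    (`‖fderiv (fderiv g)‖ = ‖iteratedFDeriv ℝ (k+2) u‖`).
-/

set_option autoImplicit false
open scoped ContDiff
open Claims.C0499

namespace Claimed.Agent.R315

variable {d : ℕ}

theorem ss_interp_step {F' : Type} [NormedAddCommGroup F'] [NormedSpace ℝ F'] {g : E d → F'}
    {y : E d} {δ ε0 M : ℝ} (hδ : 0 < δ) (hg : ContDiffOn ℝ 2 g (Metric.ball y δ))
    (h0 : ∀ z ∈ Metric.ball y δ, ‖g z‖ ≤ ε0)
    (h2 : ∀ z ∈ Metric.ball y δ, ‖fderiv ℝ (fderiv ℝ g) z‖ ≤ M) :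
    ‖fderiv ℝ g y‖ ≤ 4 * ε0 / δ + M * δ := by
  have hy : y ∈ Metric.ball y δ := Metric.mem_ball_self hδ
  have hε0 : 0 ≤ ε0 := (norm_nonneg _).trans (h0 y hy)
  have hM : 0 ≤ M := le_trans (norm_nonneg (fderiv ℝ (fderiv ℝ g) y)) (h2 y hy)
  have hopen : IsOpen (Metric.ball y δ) := Metric.isOpen_ball
  have hconv : Convex ℝ (Metric.ball y δ) := convex_ball y δ
  have hgd : ∀ z ∈ Metric.ball y δ, DifferentiableAt ℝ g z := fun z hz =>
    (hg.differentiableOn (by norm_num)).differentiableAt (hopen.mem_nhds hz)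
  have hg1 : ContDiffOn ℝ 1 (fderiv ℝ g) (Metric.ball y δ) :=
    hg.fderiv_of_isOpen hopen (by norm_num)
  have hgd1 : ∀ z ∈ Metric.ball y δ, DifferentiableAt ℝ (fderiv ℝ g) z := fun z hz =>
    (hg1.differentiableOn (by norm_num)).differentiableAt (hopen.mem_nhds hz)
  have s1 : ∀ z ∈ Metric.ball y δ, ‖fderiv ℝ g z - fderiv ℝ g y‖ ≤ M * δ := fun z hz => by
    have := hconv.norm_image_sub_le_of_norm_fderiv_le hgd1 h2 hy hz
    refine this.trans ?_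
    have hz' : ‖z - y‖ ≤ δ := by
      rw [← dist_eq_norm]; exact (Metric.mem_ball.1 hz).le
    gcongr
  have hhd : ∀ z ∈ Metric.ball y δ, DifferentiableAt ℝ (fun z => g z - fderiv ℝ g y z) z :=
    fun z hz => (hgd z hz).sub (fderiv ℝ g y).differentiableAt
  have hhf : ∀ z ∈ Metric.ball y δ, ‖fderiv ℝ (fun z => g z - fderiv ℝ g y z) z‖ ≤ M * δ :=
    fun z hz => by
      rw [fderiv_fun_sub (hgd z hz) (fderiv ℝ g y).differentiableAt,
        ContinuousLinearMap.fderiv]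
      exact s1 z hz
  have s2 : ∀ v : E d, ‖v‖ < δ → ‖fderiv ℝ g y v‖ ≤ 2 * ε0 + M * δ * ‖v‖ := fun v hv => by
    have hz : y + v ∈ Metric.ball y δ := by
      rw [Metric.mem_ball, dist_eq_norm, add_sub_cancel_left]; exact hv
    have := hconv.norm_image_sub_le_of_norm_fderiv_le hhd hhf hy hz
    rw [add_sub_cancel_left] at this
    have e : fderiv ℝ g y v = g (y + v) - g y - (g (y + v) - fderiv ℝ g y (y + v) - (g y - fderiv ℝ g y y)) := by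
      rw [map_add]; abel
    rw [e]
    calc ‖g (y + v) - g y - (g (y + v) - fderiv ℝ g y (y + v) - (g y - fderiv ℝ g y y))‖
        ≤ ‖g (y + v) - g y‖ + ‖g (y + v) - fderiv ℝ g y (y + v) - (g y - fderiv ℝ g y y)‖ :=
          norm_sub_le _ _
      _ ≤ (‖g (y + v)‖ + ‖g y‖) + M * δ * ‖v‖ := by
          gcongr
          exact norm_sub_le _ _
      _ ≤ 2 * ε0 + M * δ * ‖v‖ := by
          have := h0 _ hz
          have := h0 _ hy
          linarith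
  refine ContinuousLinearMap.opNorm_le_bound _ (by positivity) fun w => ?_
  rcases eq_or_ne w 0 with rfl | hw
  · simp
  have hw' : 0 < ‖w‖ := norm_pos_iff.2 hw
  have hv : ‖(δ / 2 / ‖w‖) • w‖ = δ / 2 := by
    rw [norm_smul, Real.norm_of_nonneg (by positivity)]
    field_simp
  have := s2 ((δ / 2 / ‖w‖) • w) (by rw [hv]; linarith)
  rw [hv, map_smul, norm_smul, Real.norm_of_nonneg (by positivity)] at this
  have h3 : ‖fderiv ℝ g y w‖ = (δ / 2 / ‖w‖ * ‖fderiv ℝ g y w‖) * (2 * ‖w‖ / δ) := by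
    field_simp
  rw [h3]
  calc (δ / 2 / ‖w‖ * ‖fderiv ℝ g y w‖) * (2 * ‖w‖ / δ)
      ≤ (2 * ε0 + M * δ * (δ / 2)) * (2 * ‖w‖ / δ) := by gcongr
    _ = (4 * ε0 / δ + M * δ) * ‖w‖ := by field_simp; ring

theorem ss_exp_small (m : ℕ) (c ε : ℝ) (hc : 0 < c) (hε : 0 < ε) :
    ∃ ρ1 : ℝ, 0 < ρ1 ∧ ∀ ρ ∈ Set.Ioo 0 ρ1, Real.exp (-c / Real.sqrt ρ) / ρ ^ m ≤ ε := by
  have ht := Real.tendsto_pow_mul_exp_neg_atTop_nhds_zero (2 * m)
  have hpos : 0 < ε * c ^ (2 * m) := by positivity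
  have hev := (ht.eventually (ge_mem_nhds hpos))
  obtain ⟨X, hX⟩ := Filter.eventually_atTop.1 hev
  have hX1 : 0 < max X 1 := lt_of_lt_of_le one_pos (le_max_right _ _)
  refine ⟨(c / max X 1) ^ 2, by positivity, fun ρ hρ => ?_⟩
  have hρ0 : 0 < ρ := hρ.1
  have hs : 0 < Real.sqrt ρ := Real.sqrt_pos.2 hρ0
  have hs2 : Real.sqrt ρ < c / max X 1 := by
    rw [Real.sqrt_lt' (by positivity)]
    exact hρ.2
  have hx : X ≤ c / Real.sqrt ρ := by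
    refine (le_max_left X 1).trans ?_
    rw [le_div_iff₀ hs]
    rw [lt_div_iff₀ hX1] at hs2
    linarith
  have h1 := hX _ hx
  have e : (c / Real.sqrt ρ) ^ (2 * m) = c ^ (2 * m) / ρ ^ m := by
    rw [div_pow, pow_mul (Real.sqrt ρ), Real.sq_sqrt hρ0.le]
  rw [e] at h1
  have e2 : -c / Real.sqrt ρ = -(c / Real.sqrt ρ) := by ring
  rw [e2]
  have hcm : 0 < c ^ (2 * m) := by positivity
  have : c ^ (2 * m) * (Real.exp (-(c / Real.sqrt ρ)) / ρ ^ m) ≤ c ^ (2 * m) * ε := by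
    calc c ^ (2 * m) * (Real.exp (-(c / Real.sqrt ρ)) / ρ ^ m)
        = c ^ (2 * m) / ρ ^ m * Real.exp (-(c / Real.sqrt ρ)) := by ring
      _ ≤ ε * c ^ (2 * m) := h1
      _ = c ^ (2 * m) * ε := by ring
  exact le_of_mul_le_mul_left this hcm

theorem ss_interp_norm2 {F1 F2 : Type} [NormedAddCommGroup F1] [NormedSpace ℝ F1]
    [NormedAddCommGroup F2] [NormedSpace ℝ F2] (L : (E d →L[ℝ] F1) ≃ₗᵢ[ℝ] F2) (g : E d → F1) (z : E d) :
    ‖fderiv ℝ (fderiv ℝ g) z‖ = ‖fderiv ℝ (L ∘ fderiv ℝ g) z‖ := by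
  rw [LinearIsometryEquiv.comp_fderiv]
  exact (LinearIsometry.norm_toContinuousLinearMap_comp L.toLinearIsometry).symm

theorem ss_interp_lvl (u : E d → ℝ) (y : E d) (k : ℕ) {R δ e M : ℝ} (hδ : 0 < δ)
    (hu : ContDiffOn ℝ ∞ u (Metric.ball y R))
    (h0 : ∀ z ∈ Metric.ball y R, ‖iteratedFDeriv ℝ k u z‖ ≤ e)
    (h2 : ∀ z ∈ Metric.ball y R, ‖iteratedFDeriv ℝ (k + 2) u z‖ ≤ M) :
    ∀ z ∈ Metric.ball y (R - δ), ‖iteratedFDeriv ℝ (k + 1) u z‖ ≤ 4 * e / δ + M * δ := by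
  intro z hz
  have hsub : Metric.ball z δ ⊆ Metric.ball y R := by
    intro w hw
    rw [Metric.mem_ball] at hw hz ⊢
    linarith [dist_triangle w z y]
  have hmn : (2 : WithTop ℕ∞) + (k : WithTop ℕ∞) ≤ ((⊤ : ℕ∞) : WithTop ℕ∞) := by
    have h : (((2 + k : ℕ) : ℕ∞) : WithTop ℕ∞) ≤ ((⊤ : ℕ∞) : WithTop ℕ∞) :=
      WithTop.coe_le_coe.2 le_top
    simpa using h
  have hc : ContDiffOn ℝ 2 (iteratedFDeriv ℝ k u) (Metric.ball y R) := fun w hw =>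
    ((hu.contDiffAt (Metric.isOpen_ball.mem_nhds hw)).iteratedFDeriv_right (m := 2) (i := k)
      hmn).contDiffWithinAt
  rw [← norm_fderiv_iteratedFDeriv]
  exact ss_interp_step hδ (hc.mono hsub) (fun w hw => h0 w (hsub hw))
    (fun w hw => by
      rw [ss_interp_norm2 (continuousMultilinearCurryLeftEquiv ℝ (fun _ : Fin (k + 1) => E d) ℝ).symm,
        ← iteratedFDeriv_succ_eq_comp_left, norm_fderiv_iteratedFDeriv]
      exact h2 w (hsub hw))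

theorem ss_interp3 (d : ℕ) (r S1 γ C4 ε : ℝ) (hr : 0 < r) (hγ : 0 < γ) (hε : 0 < ε) :
    ∃ ρ3 : ℝ, 0 < ρ3 ∧ ∀ ρ ∈ Set.Ioo 0 ρ3, ∀ (u : E d → ℝ) (y : E d),
      ContDiffOn ℝ ∞ u (Metric.ball y r) →
      (∀ z ∈ Metric.ball y r, |u z| ≤ S1 * ρ * Real.exp (-γ / Real.sqrt ρ)) →
      (∀ z ∈ Metric.ball y r, ∀ k ≤ 4, ‖iteratedFDeriv ℝ k u z‖ * ρ ^ k ≤ C4 * ρ) →
      ∀ k ≤ 3, ‖iteratedFDeriv ℝ k u y‖ ≤ ε := by
  obtain ⟨S, hS⟩ : ∃ S, S = |S1| := ⟨_, rfl⟩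
  obtain ⟨C, hC⟩ : ∃ C, C = |C4| := ⟨_, rfl⟩
  have hS0 : 0 ≤ S := hS ▸ abs_nonneg _
  have hC0 : 0 ≤ C := hC ▸ abs_nonneg _
  have hS1 : S1 ≤ S := hS ▸ le_abs_self _
  have hC4 : C4 ≤ C := hC ▸ le_abs_self _
  obtain ⟨K, hK⟩ : ∃ K, K = 64 * S + 21 * C + 1 := ⟨_, rfl⟩
  have hK0 : 0 < K := by rw [hK]; positivity
  obtain ⟨ρa, hρa, ha⟩ := ss_exp_small 3 (γ / 8) (ε / K) (by positivity) (by positivity)
  obtain ⟨ρb, hρb, hb⟩ := ss_exp_small 0 (γ / 8) (r / 4) (by positivity) (by positivity)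
  refine ⟨min (min ρa ρb) 1, by positivity, fun ρ hρ u y hu h0 h4 => ?_⟩
  have hρ0 : 0 < ρ := hρ.1
  have hρ1 : ρ ≤ 1 := (hρ.2.trans_le (min_le_right _ _)).le
  have hρA : ρ ∈ Set.Ioo 0 ρa :=
    ⟨hρ0, hρ.2.trans_le ((min_le_left _ _).trans (min_le_left _ _))⟩
  have hρB : ρ ∈ Set.Ioo 0 ρb :=
    ⟨hρ0, hρ.2.trans_le ((min_le_left _ _).trans (min_le_right _ _))⟩
  obtain ⟨τ, hτ⟩ : ∃ τ, τ = Real.exp (-(γ / 8) / Real.sqrt ρ) := ⟨_, rfl⟩
  have hτ0 : 0 < τ := hτ ▸ Real.exp_pos _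
  have hs : 0 < Real.sqrt ρ := Real.sqrt_pos.2 hρ0
  have hτ1 : τ ≤ 1 := by
    rw [hτ, Real.exp_le_one_iff]
    have : 0 ≤ γ / 8 / Real.sqrt ρ := by positivity
    have e : -(γ / 8) / Real.sqrt ρ = -(γ / 8 / Real.sqrt ρ) := by ring
    rw [e]; linarith
  have hθ : Real.exp (-γ / Real.sqrt ρ) = τ ^ 8 := by
    rw [hτ, ← Real.exp_nat_mul]
    congr 1
    push_cast
    ring
  have hA := ha ρ hρA
  have hB := hb ρ hρB
  rw [← hτ] at hA hB
  rw [pow_zero, div_one] at hB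
  obtain ⟨p, hp⟩ : ∃ p, p = 1 / ρ ^ 3 := ⟨_, rfl⟩
  have hp0 : 0 < p := by rw [hp]; positivity
  have hp1 : 1 ≤ p := by
    rw [hp, le_div_iff₀ (by positivity), one_mul]
    exact pow_le_one₀ hρ0.le hρ1
  have hpτ : K * (p * τ) ≤ ε := by
    have : p * τ = τ / ρ ^ 3 := by rw [hp]; ring
    rw [this]
    calc K * (τ / ρ ^ 3) ≤ K * (ε / K) := by gcongr
      _ = ε := by field_simp
  have hτ2 : τ ^ 2 ≤ τ := by nlinarith
  have hτ4 : τ ^ 4 ≤ τ := by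
    calc τ ^ 4 = τ ^ 2 * τ ^ 2 := by ring
      _ ≤ τ * 1 := by
        gcongr
        exact hτ2.trans hτ1
      _ = τ := mul_one _
  have hτ8 : τ ^ 8 ≤ τ := by
    calc τ ^ 8 = τ ^ 4 * τ ^ 4 := by ring
      _ ≤ τ * 1 := by
        gcongr
        exact hτ4.trans hτ1
      _ = τ := mul_one _
  -- uniform bound of the derivatives
  have hM : ∀ z ∈ Metric.ball y r, ∀ k ≤ 4, ‖iteratedFDeriv ℝ k u z‖ ≤ C * p := by
    intro z hz k hk
    have h := h4 z hz k hk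
    have h1 : ‖iteratedFDeriv ℝ k u z‖ * ρ ^ 4 ≤ C * ρ := by
      have e : ρ ^ 4 = ρ ^ k * ρ ^ (4 - k) := by rw [← pow_add]; congr 1; omega
      rw [e, ← mul_assoc]
      calc ‖iteratedFDeriv ℝ k u z‖ * ρ ^ k * ρ ^ (4 - k) ≤ (C * ρ) * 1 := by
            apply mul_le_mul (h.trans (by gcongr)) (pow_le_one₀ hρ0.le hρ1) (by positivity)
              (by positivity)
        _ = C * ρ := mul_one _
    rw [hp, mul_one_div, le_div_iff₀ (by positivity)]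
    have h2 : (‖iteratedFDeriv ℝ k u z‖ * ρ ^ 3) * ρ ≤ C * ρ := by
      calc (‖iteratedFDeriv ℝ k u z‖ * ρ ^ 3) * ρ = ‖iteratedFDeriv ℝ k u z‖ * ρ ^ 4 := by ring
        _ ≤ C * ρ := h1
    exact le_of_mul_le_mul_right h2 hρ0
  have hE0 : ∀ z ∈ Metric.ball y r, ‖iteratedFDeriv ℝ 0 u z‖ ≤ S * p * τ ^ 8 := by
    intro z hz
    rw [norm_iteratedFDeriv_zero, Real.norm_eq_abs]
    refine (h0 z hz).trans ?_
    rw [hθ]
    have : ρ ≤ p := hρ1.trans hp1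
    gcongr
  have hE1 : ∀ z ∈ Metric.ball y (r - τ ^ 4), ‖iteratedFDeriv ℝ 1 u z‖ ≤ (4 * S + C) * p * τ ^ 4 := by
    intro z hz
    have := ss_interp_lvl u y 0 (δ := τ ^ 4) (by positivity) hu hE0
      (fun w hw => hM w hw 2 (by norm_num)) z hz
    refine this.trans (le_of_eq ?_)
    field_simp
  have hsub1 : Metric.ball y (r - τ ^ 4) ⊆ Metric.ball y r :=
    Metric.ball_subset_ball (by have : 0 < τ ^ 4 := by positivity
                                linarith)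
  have hE2 : ∀ z ∈ Metric.ball y (r - τ ^ 4 - τ ^ 2),
      ‖iteratedFDeriv ℝ 2 u z‖ ≤ (16 * S + 5 * C) * p * τ ^ 2 := by
    intro z hz
    have := ss_interp_lvl u y 1 (δ := τ ^ 2) (by positivity) (hu.mono hsub1) hE1
      (fun w hw => hM w (hsub1 hw) 3 (by norm_num)) z hz
    refine this.trans (le_of_eq ?_)
    field_simp
    ring
  have hsub2 : Metric.ball y (r - τ ^ 4 - τ ^ 2) ⊆ Metric.ball y r :=
    Metric.ball_subset_ball (by have : 0 < τ ^ 4 := by positivity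
                                have : 0 < τ ^ 2 := by positivity
                                linarith)
  have hE3 : ∀ z ∈ Metric.ball y (r - τ ^ 4 - τ ^ 2 - τ),
      ‖iteratedFDeriv ℝ 3 u z‖ ≤ (64 * S + 21 * C) * p * τ := by
    intro z hz
    have := ss_interp_lvl u y 2 (δ := τ) hτ0 (hu.mono hsub2) hE2
      (fun w hw => hM w (hsub2 hw) 4 (by norm_num)) z hz
    refine this.trans (le_of_eq ?_)
    field_simp
    ring
  have hy3 : y ∈ Metric.ball y (r - τ ^ 4 - τ ^ 2 - τ) := Metric.mem_ball_self (by linarith)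
  have hy2 : y ∈ Metric.ball y (r - τ ^ 4 - τ ^ 2) := Metric.mem_ball_self (by linarith)
  have hy1 : y ∈ Metric.ball y (r - τ ^ 4) := Metric.mem_ball_self (by linarith)
  have hy0 : y ∈ Metric.ball y r := Metric.mem_ball_self hr
  intro k hk
  refine le_trans ?_ hpτ
  interval_cases k
  · refine (hE0 y hy0).trans ?_
    calc S * p * τ ^ 8 ≤ K * p * τ := by
          have : S ≤ K := by rw [hK]; linarith
          gcongr
      _ = K * (p * τ) := by ring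
  · refine (hE1 y hy1).trans ?_
    calc (4 * S + C) * p * τ ^ 4 ≤ K * p * τ := by
          have : 4 * S + C ≤ K := by rw [hK]; linarith
          gcongr
      _ = K * (p * τ) := by ring
  · refine (hE2 y hy2).trans ?_
    calc (16 * S + 5 * C) * p * τ ^ 2 ≤ K * p * τ := by
          have : 16 * S + 5 * C ≤ K := by rw [hK]; linarith
          gcongr
      _ = K * (p * τ) := by ring
  · refine (hE3 y hy3).trans ?_
    calc (64 * S + 21 * C) * p * τ ≤ K * p * τ := by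
          have : 64 * S + 21 * C ≤ K := by rw [hK]; linarith
          gcongr
      _ = K * (p * τ) := by ring

end Claimed.Agent.R315
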