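import Claimed.Agent.R315.Ss.LocyA
import Claimed.Agent.R315.Ss.LocyB
import Claimed.Agent.R315.Ss.LocyC

/-!
# Row 315, paper S: `ss_loc_chart` (S (5.9)-(5.11)): ASSEMBLY (PROVED from `LocyA`, `LocyB`, `LocyC`; see `LocyDefs.lean`)
-/

set_option autoImplicit false
open scoped ContDiff
open Claims.C0499

namespace Claimed.Agent.R315

/-- S (5.9): locality, in a chart where `ψ = η1 = 0`; uniform over all solutions. -/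
theorem ss_loc_chart {d : ℕ} (hd : 2 ≤ d) {G : rm_MF d} {U : Set (E d)} (hG : rm_Met G U) {t : E d → ℝ}
    (ht : ContDiffOn ℝ ∞ t U) {fl J : ℝ → ℝ} (hfl : IsFlux fl)
    (hJ : ContDiffOn ℝ ∞ J (Set.Ioi (-1))) {j0 c0 S1 K1 : ℝ} (hj0 : 0 < j0) (hc0 : 0 < c0)
    (hJ0 : ∀ σ, 0 ≤ σ → j0 ≤ J σ) {Φ : ℝ → ℝ → ℝ}
    (hΦ : ContDiff ℝ ∞ (fun p : ℝ × ℝ => Φ p.1 p.2))
    (hΦ0 : ∀ ξ ∈ Set.Icc (-S1) S1, ∀ τ, c0 * ξ ^ 2 ≤ Φ ξ τ * ξ)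
    (C : Set (E d)) (hC : IsCompact C) (hCU : C ⊆ U) (ε : ℝ) (hε : 0 < ε) :
    ∃ ρ0 : ℝ, 0 < ρ0 ∧ ∀ ρ ∈ Set.Ioo 0 ρ0, ∀ u : E d → ℝ, ContDiffOn ℝ ∞ u U →
      (∀ y ∈ U, |u y| ≤ S1 * ρ ∧ gradSqC G u y ≤ K1) →
      (∀ y ∈ U, ssDivC G t fl u y = J (gradSqC G u y) * Φ (u y / ρ) (t y)) →
      ∀ y ∈ C, ∀ k ≤ 3, ‖iteratedFDeriv ℝ k u y‖ ≤ ε := by
  obtain ⟨r, γ, hr, hγ, hball, hdec⟩ :=
    ss_loc_decay (K1 := K1) hG ht hfl hj0 hc0 hJ0 hΦ0 C hC hCU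
  set C' : Set (E d) := Metric.cthickening r C with hC'
  have hC'c : IsCompact C' := hC.cthickening
  have hC'mem : ∀ z ∈ C', ∃ y0 ∈ C, z ∈ Metric.closedBall y0 r := by
    intro z hz
    rw [hC', hC.cthickening_eq_biUnion_closedBall hr.le] at hz
    simpa using hz
  have hC'U : C' ⊆ U := by
    intro z hz
    obtain ⟨y0, hy0, hz0⟩ := hC'mem z hz
    exact hball y0 hy0 (Metric.closedBall_subset_closedBall (by linarith) hz0)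
  choose Ck ρk hρk hsc using fun k : ℕ =>
    ss_loc_scale (S1 := S1) (K1 := K1) hd hG ht hfl hJ hΦ C' hC'c hC'U k
  set C4 : ℝ := max (Ck 0) (max (Ck 1) (max (Ck 2) (max (Ck 3) (Ck 4)))) with hC4
  set ρ2 : ℝ := min (ρk 0) (min (ρk 1) (min (ρk 2) (min (ρk 3) (ρk 4)))) with hρ2
  have hCk : ∀ k ≤ 4, Ck k ≤ C4 := by
    intro k hk
    interval_cases k <;> simp [hC4]
  have hρk' : ∀ k ≤ 4, ρ2 ≤ ρk k := by
    intro k hk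
    interval_cases k <;> simp [hρ2]
  have hρ2pos : 0 < ρ2 := by
    simp only [hρ2, lt_min_iff]
    exact ⟨hρk 0, hρk 1, hρk 2, hρk 3, hρk 4⟩
  obtain ⟨ρ3, hρ3, hint⟩ := ss_interp3 d r S1 γ C4 ε hr hγ hε
  refine ⟨min 1 (min ρ2 ρ3), lt_min one_pos (lt_min hρ2pos hρ3), ?_⟩
  intro ρ hρ u hu hb heq y hy
  have hρ1 : ρ < 1 := hρ.2.trans_le (min_le_left _ _)
  have hρ2' : ρ < ρ2 := hρ.2.trans_le ((min_le_right _ _).trans (min_le_left _ _))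
  have hρ3' : ρ < ρ3 := hρ.2.trans_le ((min_le_right _ _).trans (min_le_right _ _))
  have hS : SsLocSol G U t fl J Φ S1 K1 ρ u := ⟨hu, hb, heq⟩
  have hsub : Metric.ball y r ⊆ C' := fun z hz =>
    Metric.mem_cthickening_of_dist_le z y r C hy (Metric.mem_ball.1 hz).le
  refine hint ρ ⟨hρ.1, hρ3'⟩ u y (hu.mono (hsub.trans hC'U))
    (fun z hz => hdec ρ ⟨hρ.1, hρ1.le⟩ u hS y hy z hz) (fun z hz k hk => ?_)
  exact (hsc k ρ ⟨hρ.1, hρ2'.trans_le (hρk' k hk)⟩ u hS z (hsub hz)).trans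
    (mul_le_mul_of_nonneg_right (hCk k hk) hρ.1.le)

end Claimed.Agent.R315
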