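import Claimed.Agent.R315.Ss.GrDefs

/-!
# Row 315, paper S: package SS-TRUNC (#7666) `ss_trunc`

Equation on a closed manifold `P` (S (5.7)), `η = ssEta ρ η1 = ρ + (1-ρ)η1²`, `0 < ρ ≤ 1/2`, `0 ≤ lam ≤ 1`:
     `div_{H,t}(ssFl sg a (σ) ∇u) = ssJ sg a σ * Φ ((u - lam ψ)/η) t`                                  (`SsEq`)
with `Φ` a GLOBALLY smooth truncation of the pressure `F` (`IsTrunc S2 F Φ`: `Φ = F` on `[-S2,S2] × ℝ`, `∂_ξ Φ > 0` everywhere).

## SS-TRUNC `ss_trunc` (~250 lines, calculus).  `κ : ℝ → ℝ` smooth, odd, `κ = id` on `[-S2,S2]`, `0 ≤ κ' ≤ 1`, `|κ| ≤ (S2+S0)/2`;  `Φ ξ t := F (κ ξ) t + (ξ - κ ξ)`;  `∂_ξΦ = F_x κ' + 1 - κ' > 0`.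
-/

set_option autoImplicit false
open scoped ContDiff
open Claims.C0499

namespace Claimed.Agent.R315

variable {V : Type} [NormedAddCommGroup V] [NormedSpace ℝ V]

/-- a smooth bump: `1` on `[-S2,S2]`, `0` outside `(-S3,S3)`. -/
noncomputable def sstrRho (S2 S3 x : ℝ) : ℝ :=
  Real.smoothTransition ((S3 - x) / (S3 - S2)) * Real.smoothTransition ((S3 + x) / (S3 - S2))

/-- its primitive. -/
noncomputable def sstrKap (S2 S3 x : ℝ) : ℝ := ∫ y in (0 : ℝ)..x, sstrRho S2 S3 y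

theorem sstr_rho_smooth (S2 S3 : ℝ) : ContDiff ℝ ∞ (sstrRho S2 S3) := by
  unfold sstrRho
  refine ContDiff.mul ?_ ?_
  · exact Real.smoothTransition.contDiff.comp ((contDiff_const.sub contDiff_id).div_const _)
  · exact Real.smoothTransition.contDiff.comp ((contDiff_const.add contDiff_id).div_const _)

theorem sstr_rho_nonneg (S2 S3 x : ℝ) : 0 ≤ sstrRho S2 S3 x :=
  mul_nonneg (Real.smoothTransition.nonneg _) (Real.smoothTransition.nonneg _)

theorem sstr_rho_le_one (S2 S3 x : ℝ) : sstrRho S2 S3 x ≤ 1 :=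
  mul_le_one₀ (Real.smoothTransition.le_one _) (Real.smoothTransition.nonneg _)
    (Real.smoothTransition.le_one _)

theorem sstr_rho_one {S2 S3 x : ℝ} (h : S2 < S3) (hx : x ∈ Set.Icc (-S2) S2) :
    sstrRho S2 S3 x = 1 := by
  have h0 : 0 < S3 - S2 := by linarith
  unfold sstrRho
  rw [Real.smoothTransition.one_of_one_le, Real.smoothTransition.one_of_one_le, one_mul]
  · rw [le_div_iff₀ h0]
    linarith [hx.1]
  · rw [le_div_iff₀ h0]
    linarith [hx.2]

theorem sstr_rho_zero_right {S2 S3 x : ℝ} (h : S2 < S3) (hx : S3 ≤ x) : sstrRho S2 S3 x = 0 := by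
  have h0 : 0 < S3 - S2 := by linarith
  unfold sstrRho
  rw [Real.smoothTransition.zero_of_nonpos, zero_mul]
  exact div_nonpos_of_nonpos_of_nonneg (by linarith) h0.le

theorem sstr_rho_zero_left {S2 S3 x : ℝ} (h : S2 < S3) (hx : x ≤ -S3) : sstrRho S2 S3 x = 0 := by
  have h0 : 0 < S3 - S2 := by linarith
  unfold sstrRho
  rw [Real.smoothTransition.zero_of_nonpos (x := (S3 + x) / (S3 - S2)), mul_zero]
  exact div_nonpos_of_nonpos_of_nonneg (by linarith) h0.le

theorem sstr_rho_int (S2 S3 a b : ℝ) : IntervalIntegrable (sstrRho S2 S3) MeasureTheory.volume a b :=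
  (sstr_rho_smooth S2 S3).continuous.intervalIntegrable a b

theorem sstr_kap_hasDerivAt (S2 S3 x : ℝ) :
    HasDerivAt (sstrKap S2 S3) (sstrRho S2 S3 x) x :=
  ((sstr_rho_smooth S2 S3).continuous.integral_hasStrictDerivAt 0 x).hasDerivAt

theorem sstr_kap_smooth (S2 S3 : ℝ) : ContDiff ℝ ∞ (sstrKap S2 S3) := by
  rw [contDiff_infty_iff_deriv]
  refine ⟨fun x => (sstr_kap_hasDerivAt S2 S3 x).differentiableAt, ?_⟩
  have h : deriv (sstrKap S2 S3) = sstrRho S2 S3 := funext fun x => (sstr_kap_hasDerivAt S2 S3 x).deriv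
  rw [h]
  exact sstr_rho_smooth S2 S3

theorem sstr_kap_id {S2 S3 x : ℝ} (h0 : 0 < S2) (h : S2 < S3) (hx : x ∈ Set.Icc (-S2) S2) :
    sstrKap S2 S3 x = x := by
  unfold sstrKap
  have h1 : ∫ y in (0 : ℝ)..x, sstrRho S2 S3 y = ∫ y in (0 : ℝ)..x, (1 : ℝ) := by
    refine intervalIntegral.integral_congr fun y hy => ?_
    exact sstr_rho_one h (Set.uIcc_subset_Icc ⟨by linarith, by linarith⟩ hx hy)
  rw [h1]
  simp

theorem sstr_int_bd (S2 S3 : ℝ) {a b : ℝ} (hab : a ≤ b) :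
    0 ≤ ∫ y in a..b, sstrRho S2 S3 y ∧ ∫ y in a..b, sstrRho S2 S3 y ≤ b - a := by
  constructor
  · exact intervalIntegral.integral_nonneg hab fun y _ => sstr_rho_nonneg S2 S3 y
  · have h1 := intervalIntegral.integral_mono_on hab (sstr_rho_int S2 S3 a b)
      (intervalIntegrable_const (c := (1 : ℝ))) fun y _ => sstr_rho_le_one S2 S3 y
    simpa using h1

theorem sstr_kap_bd {S2 S3 : ℝ} (h0 : 0 < S2) (h : S2 < S3) (x : ℝ) :
    -S3 ≤ sstrKap S2 S3 x ∧ sstrKap S2 S3 x ≤ S3 := by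
  have hS3 : 0 < S3 := by linarith
  unfold sstrKap
  rcases le_total 0 x with hx | hx
  · rcases le_total x S3 with hx3 | hx3
    · have := sstr_int_bd S2 S3 hx
      constructor <;> linarith [this.1, this.2]
    · have h1 := intervalIntegral.integral_add_adjacent_intervals (sstr_rho_int S2 S3 0 S3)
        (sstr_rho_int S2 S3 S3 x)
      have h2 : ∫ y in S3..x, sstrRho S2 S3 y = ∫ y in S3..x, (0 : ℝ) := by
        refine intervalIntegral.integral_congr fun y hy => ?_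
        rw [Set.uIcc_of_le hx3] at hy
        exact sstr_rho_zero_right h hy.1
      rw [h2, intervalIntegral.integral_zero, add_zero] at h1
      rw [← h1]
      have := sstr_int_bd S2 S3 hS3.le
      constructor <;> linarith [this.1, this.2]
  · rw [intervalIntegral.integral_symm]
    rcases le_total (-S3) x with hx3 | hx3
    · have := sstr_int_bd S2 S3 hx
      constructor <;> linarith [this.1, this.2]
    · have h1 := intervalIntegral.integral_add_adjacent_intervals (sstr_rho_int S2 S3 x (-S3))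
        (sstr_rho_int S2 S3 (-S3) 0)
      have h2 : ∫ y in x..(-S3), sstrRho S2 S3 y = ∫ y in x..(-S3), (0 : ℝ) := by
        refine intervalIntegral.integral_congr fun y hy => ?_
        rw [Set.uIcc_of_le hx3] at hy
        exact sstr_rho_zero_left h hy.2
      rw [h2, intervalIntegral.integral_zero, zero_add] at h1
      rw [← h1]
      have := sstr_int_bd S2 S3 (show -S3 ≤ 0 by linarith)
      constructor <;> linarith [this.1, this.2]

theorem ss_trunc {A0 P0 ε b0 S0 T : ℝ} {F : ℝ → ℝ → ℝ} (hA0 : 0 < A0)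
    (hF : IsPressure A0 P0 ε b0 S0 T F) (S2 : ℝ) (h0 : 0 < S2) (h1 : S2 < S0) :
    ∃ Φ : ℝ → ℝ → ℝ, IsTrunc S2 F Φ := by
  set S3 : ℝ := (S2 + S0) / 2 with hS3
  have h23 : S2 < S3 := by rw [hS3]; linarith
  have h30 : S3 < S0 := by rw [hS3]; linarith
  have hmem : ∀ x, sstrKap S2 S3 x ∈ Set.Ioo (-S0) S0 := fun x =>
    ⟨by linarith [(sstr_kap_bd h0 h23 x).1], by linarith [(sstr_kap_bd h0 h23 x).2]⟩
  have hopen : IsOpen (Set.Ioo (-S0) S0 ×ˢ (Set.univ : Set ℝ)) := isOpen_Ioo.prod isOpen_univ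
  refine ⟨fun x t => F (sstrKap S2 S3 x) t + (x - sstrKap S2 S3 x), ?_, ?_, ?_⟩
  · have hk : ContDiff ℝ ∞ fun p : ℝ × ℝ => sstrKap S2 S3 p.1 :=
      (sstr_kap_smooth S2 S3).comp contDiff_fst
    have hmap : ContDiff ℝ ∞ fun p : ℝ × ℝ => (sstrKap S2 S3 p.1, p.2) := hk.prodMk contDiff_snd
    have h2 : ContDiffOn ℝ ∞ (fun p : ℝ × ℝ => F (sstrKap S2 S3 p.1) p.2) Set.univ :=
      hF.smooth.comp hmap.contDiffOn fun p _ => ⟨hmem p.1, Set.mem_univ _⟩
    exact (contDiffOn_univ.1 h2).add (contDiff_fst.sub hk)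
  · intro x hx t
    simp only [sstr_kap_id h0 h23 hx, sub_self, add_zero]
  · intro x t
    have hd : DifferentiableAt ℝ (fun y => F y t) (sstrKap S2 S3 x) := by
      have h2 : ContDiffAt ℝ ∞ (fun p : ℝ × ℝ => F p.1 p.2) (sstrKap S2 S3 x, t) :=
        (hF.smooth _ ⟨hmem x, Set.mem_univ _⟩).contDiffAt
          (hopen.mem_nhds ⟨hmem x, Set.mem_univ _⟩)
      have h3 : DifferentiableAt ℝ (fun p : ℝ × ℝ => F p.1 p.2) (sstrKap S2 S3 x, t) :=
        h2.differentiableAt (by simp)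
      have h4 : DifferentiableAt ℝ (fun y : ℝ => (y, t)) (sstrKap S2 S3 x) := by fun_prop
      exact DifferentiableAt.comp (sstrKap S2 S3 x) (g := fun p : ℝ × ℝ => F p.1 p.2)
        (f := fun y : ℝ => (y, t)) h3 h4
    have hk := sstr_kap_hasDerivAt S2 S3 x
    have h5 : HasDerivAt (fun y => F (sstrKap S2 S3 y) t + (y - sstrKap S2 S3 y))
        (deriv (fun y => F y t) (sstrKap S2 S3 x) * sstrRho S2 S3 x + (1 - sstrRho S2 S3 x)) x :=
      (hd.hasDerivAt.comp x hk).add ((hasDerivAt_id x).sub hk)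
    rw [h5.deriv]
    have hD : 0 < deriv (fun y => F y t) (sstrKap S2 S3 x) := by
      refine lt_of_lt_of_le ?_ (hF.fx_ge _ (hmem x) t)
      refine mul_pos hA0 (Real.sqrt_pos.2 ?_)
      have := hF.T_ge
      unfold ssV
      positivity
    have hr0 := sstr_rho_nonneg S2 S3 x
    have hr1 := sstr_rho_le_one S2 S3 x
    rcases lt_or_ge (sstrRho S2 S3 x) 1 with h | h
    · have := mul_nonneg hD.le hr0
      linarith
    · have h6 : sstrRho S2 S3 x = 1 := le_antisymm hr1 h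
      rw [h6]
      linarith

end Claimed.Agent.R315
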