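import Claimed.Agent.R315.Ss.GrClosed
import Claimed.Agent.R315.Ss.GrLocy
import Claimed.Agent.R315.Ss.ExtTr
import Claimed.Agent.R315.Ss.GrAux

/-!
# Row 315, paper S: package SS-GRAPH (#7671) `ss_graph`: PROVED

Equation on a closed manifold `P` (S (5.7)), `η = ssEta ρ η1 = ρ + (1-ρ)η1²`, `0 < ρ ≤ 1/2`, `0 ≤ lam ≤ 1`:
     `div_{H,t}(ssFl sg a (σ) ∇u) = ssJ sg a σ * Φ ((u - lam ψ)/η) t`                                  (`SsEq`)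
with `Φ` a GLOBALLY smooth truncation of the pressure `F` (`IsTrunc S2 F Φ`: `Φ = F` on `[-S2,S2] × ℝ`, `∂_ξ Φ > 0` everywhere).

## SS-GRAPH `ss_graph` (~500 lines): `ss_ext` for `K0 ∩ M` (compact, contains `M ∩ Ω`); push `h, t, ψ, η1` to `P`; `ss_graph_closed`; pull back `u_ρ`; transfer of the equation by `ssb_div` on both sides (`cm H (ι∘φ) = cm h φ`, `(F∘ι)∘φ = F∘(ι∘φ)`); locality: `ss_loc_chart` in the chart `φ`.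
-/

set_option autoImplicit false
open scoped ContDiff
open Claims.C0499

namespace Claimed.Agent.R315

variable {V : Type} [NormedAddCommGroup V] [NormedSpace ℝ V]

/-- S Section 5.2 on the original manifold: solutions on a relatively compact open piece `M ∩ Ω`,
height bound, locality on the open piece `M ∩ Z` where `ψ = η1 = 0`. -/
theorem ss_graph {n N : ℕ} (M : Set (E N)) (h : Ten (E N)) (t ψ η1 : E N → ℝ)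
    (hn : 2 ≤ n) (hM : IsMfd n M) (hcl : IsClosed M) (hh : IsMetricOn n M h) (ht : SmoothAlong n M t)
    (hψ : SmoothAlong n M ψ) (hη : SmoothAlong n M η1) (hη01 : ∀ x ∈ M, 0 ≤ η1 x ∧ η1 x ≤ 1)
    (Ω Z K0 : Set (E N)) (_hΩ : IsOpen Ω) (hK0 : IsCompact K0) (hΩK : M ∩ Ω ⊆ K0) (_hZ : IsOpen Z)
    (hZ0 : ∀ x ∈ M ∩ Z, ψ x = 0 ∧ η1 x = 0)
    {sg : ℝ → ℝ} (hsg : IsSwitch sg) {a : ℝ} (ha0 : 0 < a) (ha1 : a ≤ 1 / 2)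
    {A0 P0 ε b0 S0 T : ℝ} {F : ℝ → ℝ → ℝ} (hA0 : 0 < A0) (hF : IsPressure A0 P0 ε b0 S0 T F) :
    ∃ (S1 : ℝ) (u : ℝ → E N → ℝ), 0 < S1 ∧ S1 < S0 ∧
      (∀ ρ ∈ Set.Ioc (0 : ℝ) (1 / 2), SmoothAlong n M (u ρ) ∧
        SsEq n M h t ψ η1 sg a F ρ 1 (u ρ) (M ∩ Ω) ∧
        ∀ x ∈ M ∩ Ω, |u ρ x - ψ x| ≤ S1 * ssEta ρ η1 x) ∧
      ∀ (φ : E n → E N) (U : Set (E n)), IsParam M φ U → φ '' U ⊆ Ω ∩ Z →
        ∀ C : Set (E n), IsCompact C → C ⊆ U → ∀ ε' : ℝ, 0 < ε' →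
          ∃ ρ0 : ℝ, 0 < ρ0 ∧ ∀ ρ ∈ Set.Ioo 0 ρ0, ∀ y ∈ C, ∀ k ≤ 3,
            ‖iteratedFDeriv ℝ k (u ρ ∘ φ) y‖ ≤ ε' := by
  have hKc : IsCompact (K0 ∩ M) := hK0.inter_right hcl
  obtain ⟨P, ι, O, χ, hPm, hPc, hP1, hO, hKO, hι, hpar, hχ01, hχ1, hpush, hmet, hpull⟩ :=
    ss_ext M hM hcl (K0 ∩ M) hKc Set.inter_subset_right
  obtain ⟨H, hH, hcm⟩ := hmet h hh
  have hiso : if_LocIso n (M ∩ O) h P H ι := if_locIso_of_open hM hO hpar hcm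
  set t' : E N × ℝ → ℝ := fun p => χ p.1 * t p.1 with ht'
  set ψ' : E N × ℝ → ℝ := fun p => χ p.1 * ψ p.1 with hψ'
  set η' : E N × ℝ → ℝ := fun p => χ p.1 * η1 p.1 with hη'
  have hC : SsClosed n P H t' ψ' η' :=
    ⟨hPm, hPc, hH, hpush t ht, hpush ψ hψ, hpush η1 hη, fun p hp =>
      ⟨mul_nonneg (hχ01 _).1 (hη01 _ (hP1 p hp)).1,
        mul_le_one₀ (hχ01 _).2 (hη01 _ (hP1 p hp)).1 (hη01 _ (hP1 p hp)).2⟩⟩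
  obtain ⟨S1, S2, K1, Φ, h0, h1, h2, hΦ, hex⟩ := ss_graph_closed hn hC hsg ha0 ha1 hA0 hF
  have hex' : ∀ ρ : ℝ, ∃ f : E N → ℝ, ρ ∈ Set.Ioc (0 : ℝ) (1 / 2) → ∃ Uf : E N × ℝ → ℝ,
      SmoothAlong n P Uf ∧ SsEq n P H t' ψ' η' sg a Φ ρ 1 Uf P ∧
      (∀ x ∈ P, |Uf x - ψ' x| ≤ S1 * ssEta ρ η' x) ∧ (∀ x ∈ P, gradSq n P H Uf x ≤ K1) ∧
      SmoothAlong n M f ∧ ∀ x ∈ M ∩ O, f x = Uf (ι x) := by
    intro ρ
    by_cases hρ : ρ ∈ Set.Ioc (0 : ℝ) (1 / 2)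
    · obtain ⟨Uf, a1, a2, a3, a4⟩ := hex ρ hρ
      obtain ⟨f, b1, b2⟩ := hpull Uf a1
      exact ⟨f, fun _ => ⟨Uf, a1, a2, a3, a4, b1, b2⟩⟩
    · exact ⟨0, fun h => absurd h hρ⟩
  choose u hu using hex'
  -- the data agree on `M ∩ O`
  have e1 : ∀ (f : E N → ℝ), ∀ y ∈ M ∩ O, f y = χ (ι y).1 * f (ι y).1 := by
    intro f y hy
    rw [(hι y hy).2, hχ1 y hy.2, one_mul]
  have eη : ∀ ρ : ℝ, ∀ y ∈ M ∩ O, ssEta ρ η' (ι y) = ssEta ρ η1 y := by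
    intro ρ y hy
    unfold ssEta
    rw [hη']
    simp only
    rw [← e1 η1 y hy]
  have hΩO : M ∩ Ω ⊆ M ∩ O := fun x hx => ⟨hx.1, hKO ⟨hΩK hx, hx.1⟩⟩
  have hηpos : ∀ ρ : ℝ, 0 < ρ → ρ ≤ 1 / 2 → ∀ x, 0 < ssEta ρ η1 x := by
    intro ρ hρ hρ1 x
    unfold ssEta
    have : 0 ≤ (1 - ρ) * η1 x ^ 2 := mul_nonneg (by linarith) (sq_nonneg _)
    linarith
  -- the three facts on `M ∩ O`
  have main : ∀ ρ ∈ Set.Ioc (0 : ℝ) (1 / 2), ∀ x ∈ M ∩ O,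
      ssDiv n M h t (ssFl sg a) (u ρ) x = ssJ sg a (gradSq n M h (u ρ) x)
        * Φ ((u ρ x - ψ x) / ssEta ρ η1 x) (t x) ∧
      |u ρ x - ψ x| ≤ S1 * ssEta ρ η1 x ∧ gradSq n M h (u ρ) x ≤ K1 := by
    intro ρ hρ x hx
    obtain ⟨Uf, a1, a2, a3, a4, b1, b2⟩ := hu ρ hρ
    have hxP := (hι x hx).1
    have hsq := ss_tr_sq hO hiso hH a1 b2 hx
    refine ⟨?_, ?_, ?_⟩
    · rw [ss_tr_div hO hiso hH (hpush t ht) a1 (e1 t) b2 _ hx, hsq, a2 (ι x) hxP, eη ρ x hx,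
        one_mul, b2 x hx]
      show _ = ssJ sg a (gradSq n P H Uf (ι x)) * Φ ((Uf (ι x) - ψ x) / ssEta ρ η1 x) (t x)
      rw [e1 ψ x hx, e1 t x hx]
    · have := a3 (ι x) hxP
      rw [eη ρ x hx] at this
      rw [b2 x hx, e1 ψ x hx]
      exact this
    · rw [hsq]; exact a4 (ι x) hxP
  refine ⟨S1, u, h0, h1.trans h2, fun ρ hρ => ⟨?_, ?_, ?_⟩, ?_⟩
  · obtain ⟨Uf, a1, a2, a3, a4, b1, b2⟩ := hu ρ hρ
    exact b1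
  · intro x hx
    obtain ⟨m1, m2, -⟩ := main ρ hρ x (hΩO hx)
    rw [m1, one_mul]
    have hp := hηpos ρ hρ.1 hρ.2 x
    have hξ : |(u ρ x - ψ x) / ssEta ρ η1 x| ≤ S1 := by
      rw [abs_div, abs_of_pos hp, div_le_iff₀ hp]
      exact m2
    rw [hΦ.eq _ ⟨by linarith [(abs_le.1 hξ).1], by linarith [(abs_le.1 hξ).2]⟩]
  · intro x hx
    exact (main ρ hρ x (hΩO hx)).2.1
  · intro φ U hφ hsub C hCc hCU ε' hε'
    obtain ⟨J', hJs, -, hJe⟩ := ss_J_ext hsg ha0 ha1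
    have hJe' : ∀ σ, 0 ≤ σ → J' σ = ssJ sg a σ := fun σ hσ => hJe σ (by
      have : -(1 / 100 : ℝ) ^ 2 / 2 ≤ 0 := by norm_num
      linarith)
    have hG := ssb_met hh hφ
    obtain ⟨ρ0, hρ0, hloc⟩ := ss_loc_chart hn hG (ht φ U hφ) (ss_flux hsg ha0 ha1) hJs
      (j0 := a * (1 / 100)) (c0 := 10 * A0) (S1 := S1) (K1 := K1) (by positivity) (by positivity)
      (fun σ hσ => by rw [hJe' σ hσ]; exact (ss_J_bounds hsg ha0 ha1 hσ).1) hΦ.smooth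
      (fun ξ hξ τ => by
        rw [hΦ.eq ξ ⟨by linarith [hξ.1], by linarith [hξ.2]⟩]
        exact ss_press_lower hA0 hF ⟨by linarith [hξ.1], by linarith [hξ.2]⟩ τ)
      C hCc hCU ε' hε'
    refine ⟨min ρ0 (1 / 2), lt_min hρ0 (by norm_num), fun ρ hρ => ?_⟩
    have hρI : ρ ∈ Set.Ioc (0 : ℝ) (1 / 2) := ⟨hρ.1, (hρ.2.trans_le (min_le_right _ _)).le⟩
    have hus : SmoothAlong n M (u ρ) := by
      obtain ⟨Uf, a1, a2, a3, a4, b1, b2⟩ := hu ρ hρI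
      exact b1
    have hmem : ∀ y ∈ U, φ y ∈ M ∩ O ∧ ψ (φ y) = 0 ∧ ssEta ρ η1 (φ y) = ρ := by
      intro y hy
      have hyM := if_mem hφ hy
      have hyΩZ := hsub ⟨y, hy, rfl⟩
      obtain ⟨z1, z2⟩ := hZ0 (φ y) ⟨hyM, hyΩZ.2⟩
      refine ⟨hΩO ⟨hyM, hyΩZ.1⟩, z1, ?_⟩
      unfold ssEta
      rw [z2]; ring
    refine hloc ρ ⟨hρ.1, hρ.2.trans_le (min_le_left _ _)⟩ (u ρ ∘ φ) (hus φ U hφ) ?_ ?_
    · intro y hy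
      obtain ⟨q1, q2, q3⟩ := hmem y hy
      obtain ⟨-, m2, m3⟩ := main ρ hρI (φ y) q1
      rw [q2, q3, sub_zero] at m2
      exact ⟨m2, by rw [← if_gradSq_eq hh hus hφ hy]; exact m3⟩
    · intro y hy
      obtain ⟨q1, q2, q3⟩ := hmem y hy
      obtain ⟨m1, -, -⟩ := main ρ hρI (φ y) q1
      rw [← ssb_div hh ht hus _ hφ hy, m1, q2, q3, sub_zero, ← if_gradSq_eq hh hus hφ hy,
        hJe' _ (gs_sq_nonneg hM hh hus q1.1)]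
      rfl

end Claimed.Agent.R315
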