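import Claimed.Agent.R315.Pack010

/-!
# Row 315, paper S: package SS-LEN-B (#8517) `ss_len_int`

## SS-LEN-B `ss_len_int` (pure one-variable analysis, ~200 lines)
`w := max (|f'| - v/20) 0` is continuous on `[0,1]`.  `∫ w ≥ ∫ |f'| - (∫ v)/20 ≥ |f 1 - f 0| - L/20`, `L = ∫ v ≥ W`  (FTC: `intervalIntegral.integral_eq_sub_of_hasDerivAt_of_le` / `integral_eq_sub_of_hasDeriv_right`).
For real `α, β ≥ 0` with `α² + β² = 1`: `√(v²+w²) ≥ α v + β w` (Cauchy-Schwarz), so `∫ p ≥ α L + β I`, `I = ∫ w`; choose `(α,β) = (L,I)/√(L²+I²)`: `∫ p ≥ √(L²+I²)`.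
If `L ≥ 1.004 W`: done (`∫ p ≥ L`).  Otherwise `I ≥ W/5 - 1 - 0.0502 W ≥ 0.11 W` (`W ≥ 100`), `√(L²+I²) ≥ W √1.0121 ≥ 1.004 W` (`1.004² = 1.008016`).
-/

set_option autoImplicit false
open scoped ContDiff
open Claims.C0499

namespace Claimed.Agent.R315

/-- the integral inequality behind the distance gain. -/
theorem ss_len_int (f f' v p : ℝ → ℝ) (W : ℝ) (hW : 100 ≤ W)
    (hf : ∀ τ ∈ Set.Icc (0 : ℝ) 1, HasDerivWithinAt f (f' τ) (Set.Icc 0 1) τ)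
    (hf' : ContinuousOn f' (Set.Icc 0 1)) (hv : ContinuousOn v (Set.Icc 0 1))
    (hp : ContinuousOn p (Set.Icc 0 1)) (hv0 : ∀ τ ∈ Set.Icc (0 : ℝ) 1, 0 ≤ v τ)
    (hp0 : ∀ τ ∈ Set.Icc (0 : ℝ) 1, 0 ≤ p τ)
    (hpt : ∀ τ ∈ Set.Icc (0 : ℝ) 1, v τ ^ 2 + (max (|f' τ| - v τ / 20) 0) ^ 2 ≤ p τ ^ 2)
    (hL : W ≤ ∫ τ in (0 : ℝ)..1, v τ) (h0 : W / 5 - 1 ≤ f 0) (h1 : f 1 = 0) :
    1.004 * W ≤ ∫ τ in (0 : ℝ)..1, p τ := by
  have h01 : (0 : ℝ) ≤ 1 := zero_le_one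
  have hvi : IntervalIntegrable v MeasureTheory.volume 0 1 := hv.intervalIntegrable_of_Icc h01
  have hpi : IntervalIntegrable p MeasureTheory.volume 0 1 := hp.intervalIntegrable_of_Icc h01
  have hfi : IntervalIntegrable f' MeasureTheory.volume 0 1 := hf'.intervalIntegrable_of_Icc h01
  have hFTC : ∫ τ in (0 : ℝ)..1, f' τ = f 1 - f 0 := by
    refine intervalIntegral.integral_eq_sub_of_hasDeriv_right_of_le h01 ?_ ?_ hfi
    · intro τ hτ
      exact (hf τ hτ).continuousWithinAt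
    · intro τ hτ
      exact ((hf τ (Set.Ioo_subset_Icc_self hτ)).hasDerivAt
        (Icc_mem_nhds hτ.1 hτ.2)).hasDerivWithinAt
  have hpt2 : ∀ τ ∈ Set.Icc (0 : ℝ) 1, (98 / 101) * v τ + (-(20 / 101)) * f' τ ≤ p τ := by
    intro τ hτ
    have h1 := hpt τ hτ
    have h2 : -(f' τ) - v τ / 20 ≤ max (|f' τ| - v τ / 20) 0 :=
      le_trans (by linarith [neg_le_abs (f' τ)]) (le_max_left _ _)
    have h3 : (99 / 101) * v τ + (20 / 101) * max (|f' τ| - v τ / 20) 0 ≤ p τ := by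
      by_contra hc
      push Not at hc
      have h4 := pow_lt_pow_left₀ hc (hp0 τ hτ) two_ne_zero
      nlinarith [sq_nonneg ((99 / 101) * max (|f' τ| - v τ / 20) 0 - (20 / 101) * v τ)]
    linarith
  have hmono := intervalIntegral.integral_mono_on h01
    ((hvi.const_mul (98 / 101)).add (hfi.const_mul (-(20 / 101)))) hpi hpt2
  rw [intervalIntegral.integral_add (hvi.const_mul (98 / 101)) (hfi.const_mul (-(20 / 101))),
    intervalIntegral.integral_const_mul, intervalIntegral.integral_const_mul, hFTC, h1] at hmono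
  linarith

end Claimed.Agent.R315
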