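import Claimed.Agent.R315.Ss.LocyDefs

/-!
# Row 315, paper S: package SS-LOCY-A  `ss_loc_decay`: exponential decay by a barrier   (~600 lines)

`r > 0` with `closedBall y0 (2r) ⊆ U` for all `y0 ∈ C` (`IsCompact.exists_cthickening_subset_open`); `C2 = cthickening (2r) C` compact `⊆ U`.
NON-DIVERGENCE FORM (`ls_linC_form`, `ls_linC_self` of `LsFormA`/`LsLinDefs`): `ssDivC G t fl u y = ∑ A i j * rm_p2 u i j y + ∑ B k * pdiff u k y`, `A = lsA G fl y (∂u)`, `B = lsB G t A (fl σ) y`  (`lsOp A B u y + u y`).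
`ss_loc_coef`: `|A i j|, |B k| ≤ Λ` for `y ∈ C2`, `σ ≤ K1` (the entries are continuous functions of `(y,p)` on the compact `{(y,p) | y ∈ C2, pᵀG⁻¹p ≤ K1}`; or: bound `|G⁻¹ p|` by `ss_grad_norm_le`-type estimates, `fl, fl'` bounded on `[0,K1]`), `A` positive semidefinite (`ss_flux_lower`).
BARRIER `w(y) = S1 ρ exp(γ(|y-y0|² - 4r²)/√ρ)`:  `∂_k w = w 2γ(y-y0)_k/√ρ`, `∂_i∂_j w = w (4γ²(y-y0)_i(y-y0)_j/ρ + 2γδ_ij/√ρ)`; for `ρ ≤ 1` (`1/√ρ ≤ 1/ρ`), `|y-y0| ≤ 2r`: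
   `∑A∂²w + ∑B∂w ≤ (w/ρ) Λ d² (16γ²r² + 2γ + 4rγ) < j0 c0 w/ρ` for `γ` small (`ss_loc_barrier`).
COMPARISON: `u - w` is continuous on the compact `closedBall y0 (2r)`; if its maximum is positive it is attained at an interior point `y1` (on the sphere `w = S1ρ ≥ u`); there `∂(u-w) = 0`, `∂²(u-w) ≤ 0` (`ell_d2_nonpos_of_isLocalMax` of `Lib/Ell/MaxP.lean`, or 1-d second derivative test along lines),
   `tr(A ∂²(u-w)) ≤ 0` (`A ≥ 0`; as in `ls_maxp`), so `J Φ(u/ρ,t) = ∑A∂²u + ∑B∂u ≤ ∑A∂²w + ∑B∂w < j0 c0 w/ρ`; but `0 < ξ = u/ρ ≤ S1` gives `Φ(ξ,t) ≥ c0 ξ` (`hΦ0`, divide by `ξ`), `J ≥ j0`: `J Φ ≥ j0 c0 u/ρ > j0 c0 w/ρ`.  Contradiction.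
   The same for `-u` (at a positive maximum of `-u - w`: `ξ < 0`, `Φ(ξ,t) ≤ c0 ξ`).   On `ball y0 r`: `w ≤ S1 ρ exp(-3γr²/√ρ)`; the `γ` of the statement is `3γr²`.
If `S1 ≤ 0` the statement is trivial (`|u| ≤ S1 ρ ≤ 0`).
-/

set_option autoImplicit false
open scoped ContDiff
open Claims.C0499

namespace Claimed.Agent.R315

variable {d : ℕ}

theorem ss_loc_p2_eq {f : E d → ℝ} {y : E d} (hf : ContDiffAt ℝ 2 f y) (a b : Fin d) :
    rm_p2 f a b y = fderiv ℝ (fderiv ℝ f) y (eb a) (eb b) := by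
  have h1 : DifferentiableAt ℝ (fderiv ℝ f) y :=
    (hf.fderiv_right (m := 1) (by norm_num)).differentiableAt (by norm_num)
  unfold rm_p2 pdiff
  have := (h1.hasFDerivAt.clm_apply (hasFDerivAt_const (eb b) y)).fderiv
  rw [this]; simp

theorem ss_loc_max {f : E d → ℝ} {y : E d} (hf : ContDiffAt ℝ 2 f y) (hmax : IsLocalMax f y)
    {A : Matrix (Fin d) (Fin d) ℝ} (hA : A.PosSemidef) (B : Fin d → ℝ) :
    ∑ i, ∑ j, A i j * rm_p2 f i j y + ∑ k, B k * pdiff f k y ≤ 0 := by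
  have hp : ∀ k, pdiff f k y = 0 := fun k => rm_max_pdiff hmax k
  have hq : ∀ X : Fin d → ℝ, ∑ i, ∑ j, X i * X j * rm_p2 f i j y ≤ 0 := by
    intro X
    have := Claimed.Agent.Lib.Ell.ell_d2_nonpos_of_isLocalMax hf hmax (∑ i, X i • (eb i : E d))
    unfold Claimed.Agent.Lib.Ell.ellD2 at this
    refine le_trans (le_of_eq ?_) this
    simp only [map_sum, map_smul, _root_.sum_apply, _root_.smul_apply,
      smul_eq_mul, ss_loc_p2_eq hf, Finset.mul_sum]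
    rw [Finset.sum_comm]
    exact Finset.sum_congr rfl fun i _ => Finset.sum_congr rfl fun j _ => by ring
  obtain ⟨Bm, rfl⟩ := rm_exists_factor hA
  have e : ∑ i, ∑ j, (Bm.transpose * Bm) i j * rm_p2 f i j y =
      ∑ k, ∑ i, ∑ j, Bm k i * Bm k j * rm_p2 f i j y := by
    simp only [Matrix.mul_apply, Matrix.transpose_apply, Finset.sum_mul]
    rw [Finset.sum_comm]
    have : ∀ j, ∑ i, ∑ k, Bm k i * Bm k j * rm_p2 f i j y =
        ∑ k, ∑ i, Bm k i * Bm k j * rm_p2 f i j y := fun j => Finset.sum_comm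
    simp only [this]
    rw [Finset.sum_comm]
    exact Finset.sum_congr rfl fun k _ => Finset.sum_comm
  rw [e]
  simp only [hp, mul_zero, Finset.sum_const_zero, add_zero]
  exact Finset.sum_nonpos fun k _ => hq (fun i => Bm k i)

/-- the barrier. -/
noncomputable def ssBar (S1 ρ γ r : ℝ) (y0 y : E d) : ℝ :=
  S1 * ρ * Real.exp (γ * (‖y - y0‖ ^ 2 - 4 * r ^ 2) / Real.sqrt ρ)

theorem ss_bar_hasFDerivAt (S1 ρ γ r : ℝ) (y0 y : E d) :
    HasFDerivAt (ssBar S1 ρ γ r y0)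
      ((ssBar S1 ρ γ r y0 y * (2 * γ / Real.sqrt ρ)) • innerSL ℝ (y - y0)) y := by
  have h1 : HasFDerivAt (fun z : E d => ‖z - y0‖ ^ 2) (2 • innerSL ℝ (y - y0)) y := by
    have h0 : HasFDerivAt (fun z : E d => z - y0) (ContinuousLinearMap.id ℝ (E d)) y :=
      (hasFDerivAt_id y).sub_const y0
    have := HasFDerivAt.comp (g := fun x : E d => ‖x‖ ^ 2) y
      (hasStrictFDerivAt_norm_sq (y - y0)).hasFDerivAt h0
    rw [ContinuousLinearMap.comp_id] at this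
    exact this
  have h2 : HasFDerivAt (fun z : E d => γ * (‖z - y0‖ ^ 2 - 4 * r ^ 2) / Real.sqrt ρ)
      ((γ / Real.sqrt ρ) • (2 • innerSL ℝ (y - y0))) y := by
    have := (h1.sub_const (4 * r ^ 2)).const_mul (γ / Real.sqrt ρ)
    refine this.congr_of_eventuallyEq (Filter.Eventually.of_forall fun z => ?_)
    show γ * (‖z - y0‖ ^ 2 - 4 * r ^ 2) / Real.sqrt ρ = γ / Real.sqrt ρ * (‖z - y0‖ ^ 2 - 4 * r ^ 2)
    ring
  have h3 := (h2.exp).const_mul (S1 * ρ)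
  unfold ssBar
  refine h3.congr_fderiv ?_
  ext v
  simp only [_root_.smul_apply, smul_eq_mul, nsmul_eq_mul]
  push_cast
  ring

theorem ss_bar_pdiff (S1 ρ γ r : ℝ) (y0 y : E d) (k : Fin d) :
    pdiff (ssBar S1 ρ γ r y0) k y = ssBar S1 ρ γ r y0 y * (2 * γ / Real.sqrt ρ * (y k - y0 k)) := by
  unfold pdiff
  rw [(ss_bar_hasFDerivAt S1 ρ γ r y0 y).fderiv]
  simp only [_root_.smul_apply, smul_eq_mul, innerSL_apply_apply]
  rw [EuclideanSpace.inner_single_right]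
  simp
  ring

theorem ss_coord_pdiff (c : ℝ) (y0 y : E d) (i j : Fin d) :
    pdiff (fun z : E d => c * (z j - y0 j)) i y = if i = j then c else 0 := by
  have h1 : HasFDerivAt (fun z : E d => z j) (EuclideanSpace.proj j : E d →L[ℝ] ℝ) y :=
    (EuclideanSpace.proj j : E d →L[ℝ] ℝ).hasFDerivAt
  have h2 := (h1.sub_const (y0 j)).const_mul c
  unfold pdiff
  rw [h2.fderiv]
  by_cases h : i = j
  · simp [h]
  · simp [h, Ne.symm h]

theorem ss_bar_p2 (S1 ρ γ r : ℝ) (y0 y : E d) (i j : Fin d) :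
    rm_p2 (ssBar S1 ρ γ r y0) i j y = ssBar S1 ρ γ r y0 y *
      ((2 * γ / Real.sqrt ρ) ^ 2 * (y i - y0 i) * (y j - y0 j)
        + if i = j then 2 * γ / Real.sqrt ρ else 0) := by
  unfold rm_p2
  have e : (fun w => pdiff (ssBar S1 ρ γ r y0) j w)
      = fun w => ssBar S1 ρ γ r y0 w * (2 * γ / Real.sqrt ρ * (w j - y0 j)) := by
    funext w
    exact ss_bar_pdiff S1 ρ γ r y0 w j
  rw [e, rm_pdiff_mul (ss_bar_hasFDerivAt S1 ρ γ r y0 y).differentiableAt (by fun_prop),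
    ss_bar_pdiff, ss_coord_pdiff]
  ring

theorem ss_bar_pos {S1 ρ : ℝ} (hS : 0 < S1) (hρ : 0 < ρ) (γ r : ℝ) (y0 y : E d) :
    0 < ssBar S1 ρ γ r y0 y := by
  unfold ssBar
  positivity

theorem ss_coord_abs_le (y0 y : E d) (k : Fin d) : |y k - y0 k| ≤ ‖y - y0‖ := by
  have := PiLp.norm_apply_le (y - y0) k
  simpa using this

/-- the barrier is a strict supersolution of every operator with coefficients bounded by `Λ`. -/
theorem ss_loc_barrier (d : ℕ) (Λ r m : ℝ) (hΛ : 0 ≤ Λ) (hr : 0 < r) (hm : 0 < m) :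
    ∃ γ : ℝ, 0 < γ ∧ ∀ (S1 ρ : ℝ) (y0 y : E d) (A : Matrix (Fin d) (Fin d) ℝ) (B : Fin d → ℝ),
      0 < S1 → 0 < ρ → ρ ≤ 1 → y ∈ Metric.closedBall y0 (2 * r) → (∀ i j, |A i j| ≤ Λ) →
      (∀ k, |B k| ≤ Λ) →
      ∑ i, ∑ j, A i j * rm_p2 (ssBar S1 ρ γ r y0) i j y + ∑ k, B k * pdiff (ssBar S1 ρ γ r y0) k y
        < m * ssBar S1 ρ γ r y0 y / ρ := by
  obtain ⟨Q, hQ⟩ : ∃ Q : ℝ, Q = Λ * ((d : ℝ) * d * (16 * r ^ 2 + 2) + 4 * d * r) := ⟨_, rfl⟩
  have hQ0 : 0 ≤ Q := by rw [hQ]; positivity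
  refine ⟨min 1 (m / (2 * (Q + 1))), by positivity, ?_⟩
  intro S1 ρ y0 y A B hS hρ hρ1 hy hA hB
  obtain ⟨γ, hγ⟩ : ∃ γ : ℝ, γ = min 1 (m / (2 * (Q + 1))) := ⟨_, rfl⟩
  rw [← hγ]
  have hγ0 : 0 < γ := by rw [hγ]; positivity
  have hγ1 : γ ≤ 1 := by rw [hγ]; exact min_le_left _ _
  have hγQ : γ * Q < m := by
    have h1 : γ ≤ m / (2 * (Q + 1)) := by rw [hγ]; exact min_le_right _ _
    calc γ * Q ≤ m / (2 * (Q + 1)) * Q := by gcongr
      _ = m * (Q / (2 * (Q + 1))) := by ring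
      _ < m * 1 := by
          gcongr
          rw [div_lt_one (by positivity)]
          linarith
      _ = m := mul_one _
  obtain ⟨W, hW⟩ : ∃ W : ℝ, W = ssBar S1 ρ γ r y0 y := ⟨_, rfl⟩
  have hW0 : 0 < W := hW ▸ ss_bar_pos hS hρ γ r y0 y
  have hs : 0 < Real.sqrt ρ := Real.sqrt_pos.2 hρ
  obtain ⟨c, hc⟩ : ∃ c : ℝ, c = 2 * γ / Real.sqrt ρ := ⟨_, rfl⟩
  have hc0 : 0 ≤ c := by rw [hc]; positivity
  have hc2 : c ^ 2 ≤ 4 * γ / ρ := by
    rw [hc, div_pow, Real.sq_sqrt hρ.le]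
    have : γ ^ 2 ≤ γ := by nlinarith
    gcongr
    nlinarith
  have hc1 : c ≤ 2 * γ / ρ := by
    rw [hc]
    have : ρ ≤ Real.sqrt ρ := by
      apply Real.le_sqrt_of_sq_le
      nlinarith
    gcongr
  have hyk : ∀ k, |y k - y0 k| ≤ 2 * r := fun k =>
    (ss_coord_abs_le y0 y k).trans (by rw [← dist_eq_norm]; exact Metric.mem_closedBall.1 hy)
  have ht1 : ∀ i j, A i j * rm_p2 (ssBar S1 ρ γ r y0) i j y
      ≤ Λ * (W * (c ^ 2 * (2 * r) * (2 * r) + c)) := by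
    intro i j
    rw [ss_bar_p2, ← hW, ← hc]
    refine (le_abs_self _).trans ?_
    rw [abs_mul, abs_mul, abs_of_pos hW0]
    have h1 : |c ^ 2 * (y i - y0 i) * (y j - y0 j) + if i = j then c else 0|
        ≤ c ^ 2 * (2 * r) * (2 * r) + c := by
      refine (abs_add_le _ _).trans ?_
      have h2 : |c ^ 2 * (y i - y0 i) * (y j - y0 j)| ≤ c ^ 2 * (2 * r) * (2 * r) := by
        rw [abs_mul, abs_mul, abs_of_nonneg (by positivity : 0 ≤ c ^ 2)]
        have := hyk i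
        have := hyk j
        gcongr
      have h3 : |if i = j then c else 0| ≤ c := by
        split_ifs
        · rw [abs_of_nonneg hc0]
        · simpa using hc0
      linarith
    have := hA i j
    gcongr
  have ht2 : ∀ k, B k * pdiff (ssBar S1 ρ γ r y0) k y ≤ Λ * (W * (c * (2 * r))) := by
    intro k
    rw [ss_bar_pdiff, ← hW, ← hc]
    refine (le_abs_self _).trans ?_
    rw [abs_mul, abs_mul, abs_mul, abs_of_pos hW0, abs_of_nonneg hc0]
    have := hB k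
    have := hyk k
    gcongr
  have hsum1 : ∑ i, ∑ j, A i j * rm_p2 (ssBar S1 ρ γ r y0) i j y
      ≤ (d : ℝ) * (d * (Λ * (W * (c ^ 2 * (2 * r) * (2 * r) + c)))) := by
    refine (Finset.sum_le_sum fun i _ => Finset.sum_le_sum fun j _ => ht1 i j).trans ?_
    simp [Finset.sum_const, Finset.card_univ]
  have hsum2 : ∑ k, B k * pdiff (ssBar S1 ρ γ r y0) k y ≤ (d : ℝ) * (Λ * (W * (c * (2 * r)))) := by
    refine (Finset.sum_le_sum fun k _ => ht2 k).trans ?_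
    simp [Finset.sum_const, Finset.card_univ]
  rw [← hW]
  calc ∑ i, ∑ j, A i j * rm_p2 (ssBar S1 ρ γ r y0) i j y
        + ∑ k, B k * pdiff (ssBar S1 ρ γ r y0) k y
      ≤ (d : ℝ) * (d * (Λ * (W * (c ^ 2 * (2 * r) * (2 * r) + c))))
        + (d : ℝ) * (Λ * (W * (c * (2 * r)))) := add_le_add hsum1 hsum2
    _ ≤ (d : ℝ) * (d * (Λ * (W * (4 * γ / ρ * (2 * r) * (2 * r) + 2 * γ / ρ))))
        + (d : ℝ) * (Λ * (W * (2 * γ / ρ * (2 * r)))) := by gcongr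
    _ = W / ρ * (γ * Q) := by rw [hQ]; field_simp; ring
    _ < W / ρ * m := by gcongr
    _ = m * W / ρ := by ring

theorem ss_loc_bdd {X ι : Type} [TopologicalSpace X] [Fintype ι] {C2 : Set X} (hC : IsCompact C2)
    (f : ι → X → ℝ) (hf : ∀ a, ContinuousOn (f a) C2) :
    ∃ M : ℝ, 0 ≤ M ∧ ∀ a, ∀ y ∈ C2, |f a y| ≤ M := by
  choose Ca hCa using fun a => hC.exists_bound_of_continuousOn (hf a)
  refine ⟨∑ a, |Ca a|, Finset.sum_nonneg fun a _ => abs_nonneg _, fun a y hy => ?_⟩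
  calc |f a y| ≤ Ca a := hCa a y hy
    _ ≤ |Ca a| := le_abs_self _
    _ ≤ ∑ a, |Ca a| := Finset.single_le_sum (f := fun a => |Ca a|) (fun a _ => abs_nonneg _)
        (Finset.mem_univ a)

theorem ss_loc_sg_eq (A : Matrix (Fin d) (Fin d) ℝ) (p : Fin d → ℝ) :
    sscm_sg A p = p ⬝ᵥ A⁻¹.mulVec p := by
  unfold sscm_sg
  simp only [dotProduct, Matrix.mulVec, Finset.mul_sum]
  exact Finset.sum_congr rfl fun i _ => Finset.sum_congr rfl fun j _ => by ring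

theorem ss_loc_up_eq (A : Matrix (Fin d) (Fin d) ℝ) (p : Fin d → ℝ) :
    sscm_up A p = A⁻¹.mulVec p := by
  funext i
  rfl

/-- Cauchy-Schwarz: `(A p)_i² ≤ A_ii pᵀAp`. -/
theorem ss_loc_cs {A : Matrix (Fin d) (Fin d) ℝ} (hA : A.PosSemidef) (p : Fin d → ℝ) (i : Fin d) :
    (A.mulVec p i) ^ 2 ≤ A i i * (p ⬝ᵥ A.mulVec p) := by
  have h := ssmp_cs hA p (Pi.single i 1)
  have e1 : ∑ a, ∑ b, A a b * ((Pi.single i 1 : Fin d → ℝ) a * p b) = A.mulVec p i := by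
    rw [Finset.sum_eq_single i]
    · simp [Matrix.mulVec, dotProduct]
    · intro a _ ha
      simp [ha]
    · intro h; exact absurd (Finset.mem_univ i) h
  have e2 : ∑ a, ∑ b, A a b * ((Pi.single i 1 : Fin d → ℝ) a * (Pi.single i 1 : Fin d → ℝ) b)
      = A i i := by
    rw [Finset.sum_eq_single i]
    · rw [Finset.sum_eq_single i]
      · simp
      · intro b _ hb
        simp [hb]
      · intro h; exact absurd (Finset.mem_univ i) h
    · intro a _ ha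
      simp [ha]
    · intro h; exact absurd (Finset.mem_univ i) h
  have e3 : ∑ a, ∑ b, A a b * (p a * p b) = p ⬝ᵥ A.mulVec p := by
    simp only [dotProduct, Matrix.mulVec, Finset.mul_sum]
    exact Finset.sum_congr rfl fun i _ => Finset.sum_congr rfl fun j _ => by ring
  rw [e1, e2, e3] at h
  exact h

/-- bounds of the frozen coefficients on a compact set, uniformly for `σ ≤ K1`. -/
theorem ss_loc_coef {G : rm_MF d} {U : Set (E d)} (hG : rm_Met G U) {t : E d → ℝ}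
    (ht : ContDiffOn ℝ ∞ t U) {fl : ℝ → ℝ} (hfl : IsFlux fl) (K1 : ℝ) (C2 : Set (E d))
    (hC : IsCompact C2) (hCU : C2 ⊆ U) :
    ∃ Λ : ℝ, 0 ≤ Λ ∧ ∀ y ∈ C2, ∀ p : Fin d → ℝ, lsS G y p ≤ K1 →
      (lsA G fl y p).PosSemidef ∧ (∀ i j, |lsA G fl y p i j| ≤ Λ) ∧
      ∀ k, |lsB G t (lsA G fl y p) (fl (lsS G y p)) y k| ≤ Λ := by
  obtain ⟨L1, hL1, hb1⟩ := ss_loc_bdd hC (fun a : Fin d × Fin d => fun w => (G w)⁻¹ a.1 a.2)
    (fun a => ((rm_inv_smooth hG a.1 a.2).continuousOn).mono hCU)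
  obtain ⟨L3, hL3, hb3⟩ := ss_loc_bdd hC
    (fun a : Fin d × Fin d × Fin d => fun w => christoffel G w a.1 a.2.1 a.2.2)
    (fun a => ((rm_christoffel_smooth hG a.1 a.2.1 a.2.2).continuousOn).mono hCU)
  obtain ⟨L4, hL4, hb4⟩ := ss_loc_bdd hC (fun a : Fin d => fun w => pdiff t a w)
    (fun a => ((rm_pdiff_smooth hG.opn ht a).continuousOn).mono hCU)
  have hsub : Set.Icc (0 : ℝ) K1 ⊆ Set.Ioi (-1) := fun x hx => by
    have := hx.1
    show (-1 : ℝ) < x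
    linarith
  obtain ⟨F, hF, hbF⟩ := ss_loc_bdd (isCompact_Icc (a := (0 : ℝ)) (b := K1))
    (fun a : Bool => if a then fl else deriv fl) (fun a => by
      cases a
      · exact (hfl.smooth.continuousOn_deriv_of_isOpen isOpen_Ioi (by simp)).mono hsub
      · exact hfl.smooth.continuousOn.mono hsub)
  obtain ⟨ΛA, hΛA⟩ : ∃ ΛA : ℝ, ΛA = F * L1 + 2 * F * (L1 * |K1|) := ⟨_, rfl⟩
  have hΛA0 : 0 ≤ ΛA := by rw [hΛA]; positivity
  refine ⟨ΛA + ((d : ℝ) * (d * (ΛA * L3)) + F * (d * (L1 * L4))), by positivity, ?_⟩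
  intro y hy p hp
  have hyU : y ∈ U := hCU hy
  have hI := rm_inv_pos hG hyU
  have hs0 : 0 ≤ lsS G y p := by
    have := hI.posSemidef.dotProduct_mulVec_nonneg p
    rw [star_trivial] at this
    exact this
  have hsI : lsS G y p ∈ Set.Icc (0 : ℝ) K1 := ⟨hs0, hp⟩
  have hF0 : |fl (lsS G y p)| ≤ F := hbF true _ hsI
  have hF1 : |deriv fl (lsS G y p)| ≤ F := hbF false _ hsI
  have hv : ∀ i, ((G y)⁻¹.mulVec p i) ^ 2 ≤ L1 * |K1| := by
    intro i
    refine (ss_loc_cs hI.posSemidef p i).trans ?_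
    have h1 : (G y)⁻¹ i i ≤ L1 := (le_abs_self _).trans (hb1 (i, i) y hy)
    have h2 : p ⬝ᵥ (G y)⁻¹.mulVec p ≤ |K1| := hp.trans (le_abs_self _)
    exact mul_le_mul h1 h2 hs0 hL1
  have hvv : ∀ i j, |(G y)⁻¹.mulVec p i * (G y)⁻¹.mulVec p j| ≤ L1 * |K1| := by
    intro i j
    have h1 := hv i
    have h2 := hv j
    rw [abs_le]
    constructor <;> nlinarith [sq_nonneg ((G y)⁻¹.mulVec p i + (G y)⁻¹.mulVec p j),
      sq_nonneg ((G y)⁻¹.mulVec p i - (G y)⁻¹.mulVec p j)]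
  have hAij : ∀ i j, |lsA G fl y p i j| ≤ ΛA := by
    intro i j
    have e : lsA G fl y p i j = fl (lsS G y p) * (G y)⁻¹ i j
        + 2 * deriv fl (lsS G y p) * ((G y)⁻¹.mulVec p i * (G y)⁻¹.mulVec p j) := by
      unfold lsA lsS
      simp [Matrix.add_apply, Matrix.smul_apply, Matrix.vecMulVec_apply]
    rw [e, hΛA]
    refine (abs_add_le _ _).trans ?_
    rw [abs_mul, abs_mul, abs_mul, abs_two]
    have := hb1 (i, j) y hy
    have := hvv i j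
    gcongr
  refine ⟨?_, fun i j => (hAij i j).trans (by
    have : 0 ≤ (d : ℝ) * (d * (ΛA * L3)) + F * (d * (L1 * L4)) := by positivity
    linarith), fun k => ?_⟩
  · have h := ssmp_psd (hG.pos y hyU) p (f0 := fl (lsS G y p)) (f1 := deriv fl (lsS G y p))
      (hfl.pos _ hs0) (by
        rw [ss_loc_sg_eq]
        exact hfl.ell _ hs0)
    rw [ss_loc_up_eq, sscm_pp_eq] at h
    exact h
  · unfold lsB
    have h1 : |∑ i, ∑ j, lsA G fl y p i j * christoffel G y k i j| ≤ (d : ℝ) * (d * (ΛA * L3)) := by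
      refine (Finset.abs_sum_le_sum_abs _ _).trans ?_
      refine (Finset.sum_le_sum fun i _ => (Finset.abs_sum_le_sum_abs _ _).trans
        (Finset.sum_le_sum fun j _ => ?_)).trans
        (b := ∑ i : Fin d, ∑ j : Fin d, ΛA * L3) ?_
      · rw [abs_mul]
        have := hAij i j
        have := hb3 (k, i, j) y hy
        gcongr
      · simp [Finset.sum_const, Finset.card_univ]
    have h2 : |∑ i, (G y)⁻¹ k i * pdiff t i y| ≤ (d : ℝ) * (L1 * L4) := by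
      refine (Finset.abs_sum_le_sum_abs _ _).trans ?_
      refine (Finset.sum_le_sum fun i _ => ?_).trans (b := ∑ i : Fin d, L1 * L4) ?_
      · rw [abs_mul]
        have := hb1 (k, i) y hy
        have := hb4 i y hy
        gcongr
      · simp [Finset.sum_const, Finset.card_univ]
    have h3 : |fl (lsS G y p) * ∑ i, (G y)⁻¹ k i * pdiff t i y| ≤ F * ((d : ℝ) * (L1 * L4)) := by
      rw [abs_mul]
      gcongr
    refine (abs_sub _ _).trans ?_
    rw [abs_neg]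
    linarith

theorem ss_bar_contDiff (S1 ρ γ r : ℝ) (y0 : E d) : ContDiff ℝ ∞ (ssBar S1 ρ γ r y0) := by
  unfold ssBar
  have h1 : ContDiff ℝ ∞ fun y : E d => ‖y - y0‖ ^ 2 :=
    (contDiff_id.sub contDiff_const).norm_sq ℝ
  exact contDiff_const.mul (Real.contDiff_exp.comp
    ((contDiff_const.mul (h1.sub contDiff_const)).div_const _))

theorem ss_loc_p2_lin {f g : E d → ℝ} {y : E d} (hf : ContDiffAt ℝ 2 f y) (hg : ContDiffAt ℝ 2 g y)
    (e : ℝ) (i j : Fin d) :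
    rm_p2 (fun z => e * f z - g z) i j y = e * rm_p2 f i j y - rm_p2 g i j y := by
  have hfd : ∀ᶠ z in nhds y, DifferentiableAt ℝ f z :=
    (hf.eventually (by simp)).mono fun z hz => hz.differentiableAt (by norm_num)
  have hgd : ∀ᶠ z in nhds y, DifferentiableAt ℝ g z :=
    (hg.eventually (by simp)).mono fun z hz => hz.differentiableAt (by norm_num)
  have e1 : (fun w => pdiff (fun z => e * f z - g z) j w) =ᶠ[nhds y]
      fun w => e * pdiff f j w - pdiff g j w := by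
    filter_upwards [hfd, hgd] with w h1 h2
    rw [rm_pdiff_sub (rm_da_const_mul e h1) h2, rm_pdiff_const_mul e h1]
  have d1 : DifferentiableAt ℝ (fun w => pdiff f j w) y := by
    have h1 : DifferentiableAt ℝ (fderiv ℝ f) y :=
      (hf.fderiv_right (m := 1) (by norm_num)).differentiableAt (by norm_num)
    exact h1.clm_apply (differentiableAt_const _)
  have d2 : DifferentiableAt ℝ (fun w => pdiff g j w) y := by
    have h1 : DifferentiableAt ℝ (fderiv ℝ g) y :=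
      (hg.fderiv_right (m := 1) (by norm_num)).differentiableAt (by norm_num)
    exact h1.clm_apply (differentiableAt_const _)
  unfold rm_p2
  rw [rm_pdiff_congr e1, rm_pdiff_sub (rm_da_const_mul e d1) d2, rm_pdiff_const_mul e d1]

theorem ss_loc_sign {j0 c0 Jv Φv ξ : ℝ} (hj0 : 0 < j0) (hc0 : 0 < c0) (hJ : j0 ≤ Jv)
    (hΦ : c0 * ξ ^ 2 ≤ Φv * ξ) {e : ℝ} (he : e = 1 ∨ e = -1) (hξ : 0 < e * ξ) :
    j0 * c0 * (e * ξ) ≤ e * (Jv * Φv) := by
  rcases he with rfl | rfl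
  · have hξ' : 0 < ξ := by linarith
    have h1 : c0 * ξ ≤ Φv := by
      have : (c0 * ξ) * ξ ≤ Φv * ξ := by nlinarith
      exact le_of_mul_le_mul_right this hξ'
    have h2 : 0 ≤ Φv := le_trans (by positivity) h1
    calc j0 * c0 * (1 * ξ) = j0 * (c0 * ξ) := by ring
      _ ≤ j0 * Φv := by gcongr
      _ ≤ Jv * Φv := by gcongr
      _ = 1 * (Jv * Φv) := by ring
  · have hξ' : 0 < -ξ := by linarith
    have h1 : c0 * (-ξ) ≤ -Φv := by
      have : (c0 * (-ξ)) * (-ξ) ≤ (-Φv) * (-ξ) := by nlinarith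
      exact le_of_mul_le_mul_right this hξ'
    have h2 : 0 ≤ -Φv := le_trans (by positivity) h1
    calc j0 * c0 * (-1 * ξ) = j0 * (c0 * (-ξ)) := by ring
      _ ≤ j0 * (-Φv) := by gcongr
      _ ≤ Jv * (-Φv) := by gcongr
      _ = -1 * (Jv * Φv) := by ring

/-- the comparison with the barrier on one ball. -/
theorem ss_loc_cmp {G : rm_MF d} {U : Set (E d)} (hG : rm_Met G U) {t : E d → ℝ}
    (ht : ContDiffOn ℝ ∞ t U) {fl J : ℝ → ℝ} {j0 c0 S1 K1 Λ r γ ρ : ℝ} (hj0 : 0 < j0)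
    (hc0 : 0 < c0) (hJ0 : ∀ σ, 0 ≤ σ → j0 ≤ J σ) {Φ : ℝ → ℝ → ℝ}
    (hΦ0 : ∀ ξ ∈ Set.Icc (-S1) S1, ∀ τ, c0 * ξ ^ 2 ≤ Φ ξ τ * ξ) (hS1 : 0 < S1) (hρ : 0 < ρ)
    (hr : 0 < r) {u : E d → ℝ} (hu : SsLocSol G U t fl J Φ S1 K1 ρ u) {y0 : E d}
    (hball : Metric.closedBall y0 (2 * r) ⊆ U)
    (hcoef : ∀ y ∈ Metric.closedBall y0 (2 * r), ∀ p : Fin d → ℝ, lsS G y p ≤ K1 →
      (lsA G fl y p).PosSemidef ∧ (∀ i j, |lsA G fl y p i j| ≤ Λ) ∧
      ∀ k, |lsB G t (lsA G fl y p) (fl (lsS G y p)) y k| ≤ Λ)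
    (hbar : ∀ (y : E d) (A : Matrix (Fin d) (Fin d) ℝ) (B : Fin d → ℝ),
      y ∈ Metric.closedBall y0 (2 * r) → (∀ i j, |A i j| ≤ Λ) → (∀ k, |B k| ≤ Λ) →
      ∑ i, ∑ j, A i j * rm_p2 (ssBar S1 ρ γ r y0) i j y + ∑ k, B k * pdiff (ssBar S1 ρ γ r y0) k y
        < j0 * c0 * ssBar S1 ρ γ r y0 y / ρ)
    {e : ℝ} (he : e = 1 ∨ e = -1) :
    ∀ z ∈ Metric.closedBall y0 (2 * r), e * u z ≤ ssBar S1 ρ γ r y0 z := by
  have heabs : ∀ x : ℝ, e * x ≤ |x| := by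
    intro x
    rcases he with rfl | rfl
    · rw [one_mul]; exact le_abs_self x
    · rw [neg_one_mul]; exact neg_le_abs x
  have hcont : ContinuousOn (fun z => e * u z - ssBar S1 ρ γ r y0 z)
      (Metric.closedBall y0 (2 * r)) :=
    (continuousOn_const.mul (hu.smooth.continuousOn.mono hball)).sub
      (ss_bar_contDiff S1 ρ γ r y0).continuous.continuousOn
  obtain ⟨y1, hy1, hmax⟩ := (isCompact_closedBall y0 (2 * r)).exists_isMaxOn
    ⟨y0, Metric.mem_closedBall_self (by positivity)⟩ hcont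
  by_contra hcon
  push Not at hcon
  obtain ⟨z, hz, hzlt⟩ := hcon
  have hpos : 0 < e * u y1 - ssBar S1 ρ γ r y0 y1 := by
    have : e * u z - ssBar S1 ρ γ r y0 z ≤ e * u y1 - ssBar S1 ρ γ r y0 y1 := hmax hz
    linarith
  have hy1U : y1 ∈ U := hball hy1
  -- `y1` is an interior point
  have hint : y1 ∈ Metric.ball y0 (2 * r) := by
    rw [Metric.mem_ball]
    refine lt_of_le_of_ne (Metric.mem_closedBall.1 hy1) fun heq => ?_
    have hw : ssBar S1 ρ γ r y0 y1 = S1 * ρ := by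
      unfold ssBar
      rw [← dist_eq_norm, heq]
      have : γ * ((2 * r) ^ 2 - 4 * r ^ 2) / Real.sqrt ρ = 0 := by ring
      rw [this, Real.exp_zero, mul_one]
    have := (hu.bd y1 hy1U).1
    have := heabs (u y1)
    linarith
  have hloc : IsLocalMax (fun z => e * u z - ssBar S1 ρ γ r y0 z) y1 :=
    hmax.isLocalMax (Filter.mem_of_superset (Metric.isOpen_ball.mem_nhds hint)
      Metric.ball_subset_closedBall)
  have hu2 : ContDiffAt ℝ 2 u y1 := (rm_cda hG.opn hu.smooth hy1U).of_le rm_two_le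
  have hw2 : ContDiffAt ℝ 2 (ssBar S1 ρ γ r y0) y1 :=
    ((ss_bar_contDiff S1 ρ γ r y0).contDiffAt).of_le rm_two_le
  have hf2 : ContDiffAt ℝ 2 (fun z => e * u z - ssBar S1 ρ γ r y0 z) y1 :=
    (contDiffAt_const.mul hu2).sub hw2
  obtain ⟨p, hp⟩ : ∃ p : Fin d → ℝ, p = fun i => pdiff u i y1 := ⟨_, rfl⟩
  have hsq : gradSqC G u y1 = lsS G y1 p := by rw [hp]; exact ls_sq_eq G u y1
  have hsK : lsS G y1 p ≤ K1 := hsq ▸ (hu.bd y1 hy1U).2
  obtain ⟨hpsd, hA, hB⟩ := hcoef y1 hy1 p hsK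
  have hs0 : 0 ≤ gradSqC G u y1 := by
    rw [hsq]
    have := (rm_inv_pos hG hy1U).posSemidef.dotProduct_mulVec_nonneg p
    rw [star_trivial] at this
    exact this
  have hm := ss_loc_max hf2 hloc hpsd (lsB G t (lsA G fl y1 p) (fl (lsS G y1 p)) y1)
  have hb := hbar y1 _ _ hy1 hA hB
  -- the equation in non-divergence form
  have hform := ls_linC_form hG ht (hu.smooth.of_le rm_two_le) (hu.smooth.of_le rm_two_le) fl hy1U
  rw [ls_linC_self, hu.eq y1 hy1U, ← hp, hsq] at hform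
  unfold lsOp at hform
  simp only [ss_loc_p2_lin hu2 hw2, rm_pdiff_sub (rm_da_const_mul e (hu2.differentiableAt (by norm_num)))
    (hw2.differentiableAt (by norm_num)), rm_pdiff_const_mul e (hu2.differentiableAt (by norm_num)),
    mul_sub, Finset.sum_sub_distrib] at hm
  have e1 : ∑ i, ∑ j, lsA G fl y1 p i j * (e * rm_p2 u i j y1)
      = e * ∑ i, ∑ j, lsA G fl y1 p i j * rm_p2 u i j y1 := by
    simp only [Finset.mul_sum]
    exact Finset.sum_congr rfl fun i _ => Finset.sum_congr rfl fun j _ => by ring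
  have e2 : ∑ k, lsB G t (lsA G fl y1 p) (fl (lsS G y1 p)) y1 k * (e * pdiff u k y1)
      = e * ∑ k, lsB G t (lsA G fl y1 p) (fl (lsS G y1 p)) y1 k * pdiff u k y1 := by
    simp only [Finset.mul_sum]
    exact Finset.sum_congr rfl fun i _ => by ring
  rw [e1, e2] at hm
  have hξI : u y1 / ρ ∈ Set.Icc (-S1) S1 := by
    have := (hu.bd y1 hy1U).1
    rw [abs_le] at this
    constructor
    · rw [le_div_iff₀ hρ]; linarith [this.1]
    · rw [div_le_iff₀ hρ]; exact this.2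
  have hwpos := ss_bar_pos hS1 hρ γ r y0 y1
  have hsgn := ss_loc_sign hj0 hc0 (hJ0 _ hs0) (hΦ0 _ hξI (t y1)) he (by
    have : 0 < e * u y1 := by linarith
    have e3 : e * (u y1 / ρ) = e * u y1 / ρ := by ring
    rw [e3]
    positivity)
  rw [hsq] at hsgn
  have h5 : j0 * c0 * ssBar S1 ρ γ r y0 y1 / ρ < j0 * c0 * (e * (u y1 / ρ)) := by
    have e3 : j0 * c0 * (e * (u y1 / ρ)) = j0 * c0 * (e * u y1) / ρ := by ring
    rw [e3]
    have : ssBar S1 ρ γ r y0 y1 < e * u y1 := by linarith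
    gcongr
  have hJ : J (lsS G y1 p) * Φ (u y1 / ρ) (t y1)
      = ∑ i, ∑ j, lsA G fl y1 p i j * rm_p2 u i j y1
        + ∑ k, lsB G t (lsA G fl y1 p) (fl (lsS G y1 p)) y1 k * pdiff u k y1 := by linarith
  rw [hJ, mul_add] at hsgn
  linarith

theorem ss_loc_decay {G : rm_MF d} {U : Set (E d)} (hG : rm_Met G U) {t : E d → ℝ}
    (ht : ContDiffOn ℝ ∞ t U) {fl J : ℝ → ℝ} (hfl : IsFlux fl) {j0 c0 S1 K1 : ℝ} (hj0 : 0 < j0)
    (hc0 : 0 < c0) (hJ0 : ∀ σ, 0 ≤ σ → j0 ≤ J σ) {Φ : ℝ → ℝ → ℝ}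
    (hΦ0 : ∀ ξ ∈ Set.Icc (-S1) S1, ∀ τ, c0 * ξ ^ 2 ≤ Φ ξ τ * ξ)
    (C : Set (E d)) (hC : IsCompact C) (hCU : C ⊆ U) :
    ∃ r γ : ℝ, 0 < r ∧ 0 < γ ∧ (∀ y0 ∈ C, Metric.closedBall y0 (2 * r) ⊆ U) ∧
      ∀ ρ ∈ Set.Ioc (0 : ℝ) 1, ∀ u : E d → ℝ, SsLocSol G U t fl J Φ S1 K1 ρ u →
      ∀ y0 ∈ C, ∀ y ∈ Metric.ball y0 r, |u y| ≤ S1 * ρ * Real.exp (-γ / Real.sqrt ρ) := by
  obtain ⟨δ, hδ, hδU⟩ := hC.exists_cthickening_subset_open hG.opn hCU
  obtain ⟨r, hr⟩ : ∃ r : ℝ, r = δ / 2 := ⟨_, rfl⟩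
  have hr0 : 0 < r := by rw [hr]; positivity
  have h2r : 2 * r = δ := by rw [hr]; ring
  have hsubC : ∀ y0 ∈ C, Metric.closedBall y0 (2 * r) ⊆ Metric.cthickening δ C := fun y0 hy0 => by
    rw [h2r]; exact Metric.closedBall_subset_cthickening hy0 δ
  obtain ⟨Λ, hΛ, hcoef⟩ := ss_loc_coef hG ht hfl K1 (Metric.cthickening δ C) hC.cthickening hδU
  obtain ⟨γ, hγ, hbar⟩ := ss_loc_barrier d Λ r (j0 * c0) hΛ hr0 (by positivity)
  refine ⟨r, 3 * γ * r ^ 2, hr0, by positivity, fun y0 hy0 => (hsubC y0 hy0).trans hδU, ?_⟩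
  intro ρ hρ u hu y0 hy0 y hy
  have hyb : y ∈ Metric.closedBall y0 (2 * r) :=
    Metric.ball_subset_closedBall (Metric.ball_subset_ball (by linarith) hy)
  have hyU : y ∈ U := hδU (hsubC y0 hy0 hyb)
  rcases le_or_gt S1 0 with hS | hS
  · have h1 := (hu.bd y hyU).1
    have h2 : S1 * ρ ≤ 0 := mul_nonpos_of_nonpos_of_nonneg hS hρ.1.le
    have h3 : S1 * ρ = 0 := le_antisymm h2 ((abs_nonneg _).trans h1)
    rw [h3, zero_mul]
    rw [h3] at h1
    exact h1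
  · have hcmp := fun (e : ℝ) (he : e = 1 ∨ e = -1) =>
      ss_loc_cmp hG ht hj0 hc0 hJ0 hΦ0 hS hρ.1 hr0 hu ((hsubC y0 hy0).trans hδU)
        (fun y hy => hcoef y (hsubC y0 hy0 hy))
        (fun y A B hy hA hB => hbar S1 ρ y0 y A B hS hρ.1 hρ.2 hy hA hB) he y hyb
    have h1 := hcmp 1 (Or.inl rfl)
    have h2 := hcmp (-1) (Or.inr rfl)
    have hs : 0 < Real.sqrt ρ := Real.sqrt_pos.2 hρ.1
    have hw : ssBar S1 ρ γ r y0 y ≤ S1 * ρ * Real.exp (-(3 * γ * r ^ 2) / Real.sqrt ρ) := by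
      unfold ssBar
      have hn : ‖y - y0‖ ^ 2 ≤ r ^ 2 := by
        have : ‖y - y0‖ ≤ r := by rw [← dist_eq_norm]; exact (Metric.mem_ball.1 hy).le
        gcongr
      have hρ0 := hρ.1
      gcongr
      nlinarith
    rw [abs_le]
    constructor <;> linarith

end Claimed.Agent.R315
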