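import Claimed.Agent.R315.Ss.GrDefs

/-!
# Row 315, paper S, (5.9)-(5.11): locality in a chart where `ψ = η1 = 0`; definitions; NO sorry here

Chart equation: `ssDivC G t fl u = J(σ) Φ(u/ρ, t)` on `U`, `|u| ≤ S1 ρ`, `σ ≤ K1`  (`SsLocSol`).   CLAIM (`ss_loc_chart`, `GrLocy.lean`, assembly PROVED): `u → 0` in `C³` on compact sets as `ρ → 0`, uniformly over all solutions.
FILES: `LocyA` (exponential decay by a barrier), `LocyB` (rescaled interior estimates `‖D^k u‖ ≤ C ρ^{1-k}` from `ss_T1`), `LocyC` (interpolation).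
-/

set_option autoImplicit false
open scoped ContDiff
open Claims.C0499

namespace Claimed.Agent.R315

/-- solutions of the chart equation with the height and gradient bounds. -/
structure SsLocSol {d : ℕ} (G : rm_MF d) (U : Set (E d)) (t : E d → ℝ) (fl J : ℝ → ℝ)
    (Φ : ℝ → ℝ → ℝ) (S1 K1 ρ : ℝ) (u : E d → ℝ) : Prop where
  smooth : ContDiffOn ℝ ∞ u U
  bd : ∀ y ∈ U, |u y| ≤ S1 * ρ ∧ gradSqC G u y ≤ K1
  eq : ∀ y ∈ U, ssDivC G t fl u y = J (gradSqC G u y) * Φ (u y / ρ) (t y)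

end Claimed.Agent.R315
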