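import Claimed.Agent.R315.Pack011
import Claimed.Agent.Lib.BrouwerConvex

/-!
# Row 315, paper S: package LS-ABS (#9768) `ls_abs`

LS-ABS `ls_abs` (pure, ~400 lines): approximate fixed points of the retracted map.  `ϱ w = if N w ≤ M then 1 else M / N w`, `S x = ϱ(T x) • T x`; `N (S x) ≤ M`; `S` is `N`-continuous on `C = {N ≤ M}` (`N` is `N`-Lipschitz; `ϱ(w) = min 1 (M/N w)` is continuous
  where `N w > 0`, and `= 1` near `N w ≤ M/2`), `S C` is totally bounded (net of `T C` times a net of `[0,1]`; `N (T x) ≤` a constant on `C` by total boundedness).  Given `ε`: net `c_1..c_n ∈ C` with `∀ x ∈ C, ∃ i, N (S x - S c_i) < ε`, `y_i = S c_i ∈ C`;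
  `λ_i(x) = max 0 (ε - N (S x - y_i))`, `∑ λ_i > 0`.  On `stdSimplex ℝ (Fin n)` (compact convex in `Fin n → ℝ`): `g(θ) = (λ_i(x_θ)/∑_k λ_k(x_θ))_i`, `x_θ = ∑ θ_i y_i ∈ C` (convexity of `N`), `g` continuous (`N (x_θ - x_θ') ≤ ∑|θ_i-θ'_i| N y_i`).
  Brouwer (`Lib/BrouwerConvex.lean`, `bfp_brouwer`): `g θ = θ`.  Then `x = x_θ = ∑ g_i y_i`, `N (S x - x) = N (∑ g_i (S x - y_i)) ≤ ∑ g_i N (S x - y_i) ≤ ε` (only indices with `N (S x - y_i) < ε` have `g_i ≠ 0`).  `σ = ϱ(T x)`.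

PROOF (helper108): done on a seminormed space (`lsa_abs_norm`); the radial retraction `lsaRet M w = (M / max M ‖w‖) • w` is `2`-Lipschitz
(`lsa_ret_lip`), which gives continuity and total boundedness of `S` at once; `ls_abs` transports `N` to a `SeminormedAddCommGroup` structure.
-/

set_option autoImplicit false
open scoped ContDiff Topology
open Claims.C0499

namespace Claimed.Agent.R315

section LsAbsNorm

variable {X : Type} [SeminormedAddCommGroup X] [NormedSpace ℝ X]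

/-- the radial retraction onto the ball of radius `M`. -/
noncomputable def lsaRet (M : ℝ) (w : X) : X := (M / max M ‖w‖) • w

theorem lsa_ret_of_le {M : ℝ} (hM : 0 < M) {w : X} (h : ‖w‖ ≤ M) : lsaRet M w = w := by
  unfold lsaRet
  rw [max_eq_left h, div_self hM.ne', one_smul]

theorem lsa_ret_of_ge {M : ℝ} {w : X} (h : M ≤ ‖w‖) : lsaRet M w = (M / ‖w‖) • w := by
  unfold lsaRet
  rw [max_eq_right h]

theorem lsa_ret_norm_le {M : ℝ} (hM : 0 < M) (w : X) : ‖lsaRet M w‖ ≤ M := by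
  rcases le_total ‖w‖ M with h | h
  · rw [lsa_ret_of_le hM h]; exact h
  · have hw : 0 < ‖w‖ := lt_of_lt_of_le hM h
    rw [lsa_ret_of_ge h, norm_smul, Real.norm_eq_abs, abs_of_pos (by positivity),
      div_mul_cancel₀ _ hw.ne']

/-- mixed case of the Lipschitz estimate. -/
theorem lsa_ret_mixed {M : ℝ} (hM : 0 < M) {w w' : X} (h : ‖w‖ ≤ M) (h' : M ≤ ‖w'‖) :
    ‖lsaRet M w - lsaRet M w'‖ ≤ 2 * ‖w - w'‖ := by
  have hw' : 0 < ‖w'‖ := lt_of_lt_of_le hM h'
  rw [lsa_ret_of_le hM h, lsa_ret_of_ge h']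
  have e1 : w - (M / ‖w'‖) • w' = (w - w') + (1 - M / ‖w'‖) • w' := by
    rw [sub_smul, one_smul]; abel
  have e2 : ‖(1 - M / ‖w'‖) • w'‖ = ‖w'‖ - M := by
    have : 0 ≤ 1 - M / ‖w'‖ := by
      rw [sub_nonneg, div_le_one hw']; exact h'
    rw [norm_smul, Real.norm_eq_abs, abs_of_nonneg this]
    field_simp
  have e3 : ‖w'‖ ≤ ‖w‖ + ‖w - w'‖ := by
    have := norm_sub_norm_le w' w
    rw [norm_sub_rev w' w] at this
    linarith
  calc ‖w - (M / ‖w'‖) • w'‖ ≤ ‖w - w'‖ + ‖(1 - M / ‖w'‖) • w'‖ := by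
        rw [e1]; exact norm_add_le _ _
    _ ≤ 2 * ‖w - w'‖ := by rw [e2]; linarith

theorem lsa_ret_lip {M : ℝ} (hM : 0 < M) (w w' : X) :
    ‖lsaRet M w - lsaRet M w'‖ ≤ 2 * ‖w - w'‖ := by
  rcases le_total ‖w‖ M with h | h <;> rcases le_total ‖w'‖ M with h' | h'
  · rw [lsa_ret_of_le hM h, lsa_ret_of_le hM h']
    linarith [norm_nonneg (w - w')]
  · exact lsa_ret_mixed hM h h'
  · rw [norm_sub_rev, norm_sub_rev w w']
    exact lsa_ret_mixed hM h' h
  · have hw : 0 < ‖w‖ := lt_of_lt_of_le hM h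
    have hw' : 0 < ‖w'‖ := lt_of_lt_of_le hM h'
    rw [lsa_ret_of_ge h, lsa_ret_of_ge h']
    have e1 : (M / ‖w‖) • w - (M / ‖w'‖) • w'
        = (M / ‖w‖) • (w - w') + (M / ‖w‖ - M / ‖w'‖) • w' := by
      rw [smul_sub, sub_smul]; abel
    have e2 : ‖(M / ‖w‖) • (w - w')‖ ≤ ‖w - w'‖ := by
      rw [norm_smul, Real.norm_eq_abs, abs_of_pos (by positivity)]
      have : M / ‖w‖ ≤ 1 := by rw [div_le_one hw]; exact h
      nlinarith [norm_nonneg (w - w')]
    have e3 : ‖(M / ‖w‖ - M / ‖w'‖) • w'‖ ≤ ‖w - w'‖ := by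
      rw [norm_smul, Real.norm_eq_abs]
      have e4 : (M / ‖w‖ - M / ‖w'‖) = (M / ‖w‖) * ((‖w'‖ - ‖w‖) / ‖w'‖) := by
        field_simp
      rw [e4, abs_mul, abs_of_pos (show 0 < M / ‖w‖ by positivity), abs_div, abs_of_pos hw']
      have e5 : |‖w'‖ - ‖w‖| ≤ ‖w - w'‖ := by
        rw [norm_sub_rev]; exact abs_norm_sub_norm_le w' w
      have e6 : M / ‖w‖ ≤ 1 := by rw [div_le_one hw]; exact h
      calc M / ‖w‖ * (|‖w'‖ - ‖w‖| / ‖w'‖) * ‖w'‖ = M / ‖w‖ * |‖w'‖ - ‖w‖| := by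
            field_simp
        _ ≤ 1 * ‖w - w'‖ := by gcongr
        _ = _ := one_mul _
    calc _ ≤ ‖(M / ‖w‖) • (w - w')‖ + ‖(M / ‖w‖ - M / ‖w'‖) • w'‖ := by
          rw [e1]; exact norm_add_le _ _
      _ ≤ 2 * ‖w - w'‖ := by linarith

/-- the normed version of `ls_abs`. -/
theorem lsa_abs_norm (M : ℝ) (hM : 0 < M) (T : X → X)
    (hcont : ContinuousOn T (Metric.closedBall (0 : X) M))
    (htb : ∀ ε > 0, ∃ s : Finset X, (∀ c ∈ s, ‖c‖ ≤ M) ∧
      ∀ x, ‖x‖ ≤ M → ∃ c ∈ s, ‖T x - T c‖ < ε) :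
    ∀ ε > 0, ∃ (x : X) (σ : ℝ), ‖x‖ ≤ M ∧ 0 ≤ σ ∧ σ ≤ 1 ∧ ‖σ • T x - x‖ ≤ ε ∧
      (σ = 1 ∨ ‖σ • T x‖ = M) := by
  classical
  intro ε hε
  obtain ⟨s, hsM, hs⟩ := htb (ε / 2) (by positivity)
  set S : X → X := fun x => lsaRet M (T x) with hS
  have hScont : ContinuousOn S (Metric.closedBall (0 : X) M) := by
    have hl : LipschitzWith 2 (lsaRet M : X → X) :=
      LipschitzWith.of_dist_le_mul fun a b => by
        rw [dist_eq_norm, dist_eq_norm]; exact_mod_cast lsa_ret_lip hM a b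
    exact hl.continuous.comp_continuousOn hcont
  have hnet : ∀ x, ‖x‖ ≤ M → ∃ c ∈ s, ‖S x - S c‖ < ε := by
    intro x hx
    obtain ⟨c, hc, h⟩ := hs x hx
    refine ⟨c, hc, lt_of_le_of_lt (lsa_ret_lip hM _ _) (by linarith)⟩
  -- the index type
  have hne : Nonempty s := by
    obtain ⟨c, hc, -⟩ := hs 0 (by simpa using hM.le)
    exact ⟨⟨c, hc⟩⟩
  set y : s → X := fun i => S i.1 with hy
  have hyM : ∀ i, y i ∈ Metric.closedBall (0 : X) M := fun i => by
    simpa using lsa_ret_norm_le hM (T i.1)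
  set K : Set (s → ℝ) := stdSimplex ℝ s with hK
  set pt : (s → ℝ) → X := fun θ => ∑ i, θ i • y i with hpt
  have hptc : Continuous pt :=
    continuous_finsetSum _ fun i _ => (continuous_apply i).smul continuous_const
  have hptM : Set.MapsTo pt K (Metric.closedBall (0 : X) M) := by
    intro θ hθ
    exact (convex_closedBall (0 : X) M).sum_mem (fun i _ => hθ.1 i) hθ.2 (fun i _ => hyM i)
  set lam : s → (s → ℝ) → ℝ := fun i θ => max 0 (ε - ‖S (pt θ) - y i‖) with hlam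
  have hlamc : ∀ i, ContinuousOn (lam i) K := by
    intro i
    have h1 : ContinuousOn (fun θ => S (pt θ)) K := hScont.comp hptc.continuousOn hptM
    exact ContinuousOn.sup continuousOn_const (continuousOn_const.sub (h1.sub continuousOn_const).norm)
  have hlam0 : ∀ i θ, 0 ≤ lam i θ := fun i θ => le_max_left _ _
  have hLpos : ∀ θ ∈ K, 0 < ∑ i, lam i θ := by
    intro θ hθ
    obtain ⟨c, hc, h⟩ := hnet (pt θ) (by simpa using hptM hθ)
    have h1 : 0 < lam ⟨c, hc⟩ θ := lt_max_of_lt_right (by simpa [hy] using h)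
    exact lt_of_lt_of_le h1
      (Finset.single_le_sum (f := fun i => lam i θ) (fun i _ => hlam0 i θ) (Finset.mem_univ _))
  set g : (s → ℝ) → (s → ℝ) := fun θ i => lam i θ / ∑ k, lam k θ with hg
  have hgc : ContinuousOn g K :=
    continuousOn_pi.2 fun i => (hlamc i).div
      (continuousOn_finsetSum _ fun k _ => hlamc k) (fun θ hθ => (hLpos θ hθ).ne')
  have hgK : Set.MapsTo g K K := by
    intro θ hθ
    refine ⟨fun i => div_nonneg (hlam0 i θ) (hLpos θ hθ).le, ?_⟩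
    rw [← Finset.sum_div, div_self (hLpos θ hθ).ne']
  obtain ⟨θ, hθ, hfix⟩ := Claimed.Agent.Lib.bfp_brouwer (isCompact_stdSimplex ℝ s)
    (convex_stdSimplex ℝ s) ⟨_, single_mem_stdSimplex ℝ hne.some⟩ g hgc hgK
  have hx : ‖pt θ‖ ≤ M := by simpa using hptM hθ
  have hclose : ‖S (pt θ) - pt θ‖ ≤ ε := by
    have e1 : S (pt θ) - pt θ = ∑ i, θ i • (S (pt θ) - y i) := by
      simp only [smul_sub, Finset.sum_sub_distrib, ← Finset.sum_smul, hθ.2, one_smul, hpt]
    rw [e1]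
    calc ‖∑ i, θ i • (S (pt θ) - y i)‖ ≤ ∑ i, ‖θ i • (S (pt θ) - y i)‖ := norm_sum_le _ _
      _ ≤ ∑ i, θ i * ε := by
          refine Finset.sum_le_sum fun i _ => ?_
          rw [norm_smul, Real.norm_eq_abs, abs_of_nonneg (hθ.1 i)]
          rcases (hθ.1 i).eq_or_lt with h0 | h0
          · rw [← h0]; simp
          · have h1 : 0 < lam i θ := by
              have h2 : θ i = lam i θ / ∑ k, lam k θ := (congrFun hfix i).symm
              rw [h2] at h0
              by_contra hcon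
              have : lam i θ = 0 := le_antisymm (not_lt.1 hcon) (hlam0 i θ)
              rw [this, zero_div] at h0
              exact lt_irrefl _ h0
            have h3 : ‖S (pt θ) - y i‖ ≤ ε := by
              by_contra hcon
              push Not at hcon
              have : lam i θ = 0 := max_eq_left (by linarith)
              linarith
            gcongr
      _ = ε := by rw [← Finset.sum_mul, hθ.2, one_mul]
  have hmax : 0 < max M ‖T (pt θ)‖ := lt_of_lt_of_le hM (le_max_left _ _)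
  refine ⟨pt θ, M / max M ‖T (pt θ)‖, hx, by positivity, ?_, hclose, ?_⟩
  · rw [div_le_one hmax]; exact le_max_left _ _
  · rcases le_total ‖T (pt θ)‖ M with h | h
    · left; rw [max_eq_left h, div_self hM.ne']
    · right
      have hw : 0 < ‖T (pt θ)‖ := lt_of_lt_of_le hM h
      rw [max_eq_right h, norm_smul, Real.norm_eq_abs, abs_of_pos (by positivity),
        div_mul_cancel₀ _ hw.ne']

end LsAbsNorm

/-- **LS-ABS**: approximate fixed points (Schauder projection + Brouwer on a simplex). -/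
theorem ls_abs {X : Type} [AddCommGroup X] [Module ℝ X] (N : X → ℝ) (hN0 : ∀ x, 0 ≤ N x)
    (hNadd : ∀ x y, N (x + y) ≤ N x + N y) (hNsmul : ∀ (c : ℝ) x, N (c • x) = |c| * N x)
    (M : ℝ) (hM : 0 < M) (T : X → X)
    (hcont : ∀ x, N x ≤ M → ∀ ε > 0, ∃ δ > 0, ∀ y, N y ≤ M → N (y - x) < δ → N (T y - T x) < ε)
    (htb : ∀ ε > 0, ∃ s : Finset X, (∀ c ∈ s, N c ≤ M) ∧ ∀ x, N x ≤ M → ∃ c ∈ s, N (T x - T c) < ε) :
    ∀ ε > 0, ∃ (x : X) (σ : ℝ), N x ≤ M ∧ 0 ≤ σ ∧ σ ≤ 1 ∧ N (σ • T x - x) ≤ ε ∧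
      (σ = 1 ∨ N (σ • T x) = M) := by
  let p : Seminorm ℝ X := Seminorm.of N hNadd hNsmul
  let _ : SeminormedAddCommGroup X := p.toAddGroupSeminorm.toSeminormedAddCommGroup
  let _ : NormedSpace ℝ X := { norm_smul_le := fun c x => (hNsmul c x).le }
  have hn : ∀ x : X, ‖x‖ = N x := fun x => rfl
  refine lsa_abs_norm M hM T ?_ htb
  rw [Metric.continuousOn_iff]
  intro x hx ε hε
  obtain ⟨δ, hδ, h⟩ := hcont x (by simpa [hn] using hx) ε hε
  refine ⟨δ, hδ, fun y hy hyx => ?_⟩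
  rw [dist_eq_norm] at hyx ⊢
  exact h y (by simpa [hn] using hy) hyx

end Claimed.Agent.R315
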