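import Claimed.Agent.R315.Pack011

/-!
# Row 315, paper S: package LS-ATLAS (#9769) `ls_atlas`, `ls_smooth_of_atlas`

PROVED (helper282).  `lsa_chart_at`: a parametrisation centred at a point whose domain contains `closedBall 0 4`
(composition with an affine isomorphism, `if_comp`); `ls_atlas`: compactness; `ls_smooth_of_atlas`: transition maps `if_tr`.
-/

set_option autoImplicit false
open scoped ContDiff Topology
open Claims.C0499

namespace Claimed.Agent.R315

variable {V : Type} [NormedAddCommGroup V] [NormedSpace ℝ V]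
variable {d m : ℕ}

/-- a parametrisation centred at `x` whose domain contains `closedBall 0 4`. -/
theorem lsa_chart_at {P : Set V} (hP : IsMfd d P) {x : V} (hx : x ∈ P) :
    ∃ (ψ : E d → V) (U : Set (E d)), IsParam P ψ U ∧ Metric.closedBall 0 4 ⊆ U ∧ ψ 0 = x := by
  obtain ⟨ψ₀, U₀, h₀, u₀, hu₀, rfl⟩ := hP x hx
  obtain ⟨r, hr, hball⟩ := Metric.isOpen_iff.1 (if_open h₀) u₀ hu₀
  obtain ⟨τ, hτ⟩ : ∃ τ : E d → E d, ∀ z, τ z = u₀ + (r / 5) • z := ⟨_, fun _ => rfl⟩
  have hτe : τ = fun z => u₀ + (r / 5) • z := funext hτ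
  have hc : (r / 5) ≠ 0 := by positivity
  have hτs : ContDiff ℝ ∞ τ := by
    rw [hτe]; fun_prop
  have hτd : ∀ w, HasFDerivAt τ ((r / 5) • ContinuousLinearMap.id ℝ (E d)) w := by
    intro w
    rw [hτe]
    exact ((hasFDerivAt_id w).const_smul (r / 5)).const_add u₀
  have hopen : IsOpen (τ ⁻¹' U₀) := (if_open h₀).preimage hτs.continuous
  refine ⟨ψ₀ ∘ τ, τ ⁻¹' U₀, if_comp h₀ hopen hτs.contDiffOn ?_ ?_ (fun w hw => hw), ?_, ?_⟩
  · intro a _ b _ hab
    rw [hτ, hτ] at hab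
    exact smul_right_injective _ hc (add_left_cancel hab)
  · intro w _ a b hab
    rw [(hτd w).fderiv] at hab
    simpa [hc] using hab
  · intro z hz
    apply hball
    rw [Metric.mem_closedBall, dist_zero_right] at hz
    rw [Metric.mem_ball, hτ, dist_eq_norm, add_sub_cancel_left, norm_smul, Real.norm_eq_abs,
      abs_of_pos (by positivity)]
    nlinarith
  · simp [hτ]

theorem ls_atlas [FiniteDimensional ℝ V] {P : Set V} (hP : IsMfd d P) (hc : IsCompact P) :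
    ∃ (m : ℕ) (ψ : Fin m → E d → V) (U : Fin m → Set (E d)), LsAtlas d P ψ U := by
  classical
  have hex : ∀ x : P, ∃ (ψ : E d → V) (U : Set (E d)) (O : Set V), IsParam P ψ U ∧
      Metric.closedBall 0 4 ⊆ U ∧ IsOpen O ∧ (x : V) ∈ O ∧ ψ '' Metric.ball 0 1 = P ∩ O := by
    intro x
    obtain ⟨ψ, U, h, h4, h0⟩ := lsa_chart_at hP x.2
    have hsub : Metric.ball (0 : E d) 1 ⊆ U :=
      (Metric.ball_subset_closedBall.trans (Metric.closedBall_subset_closedBall (by norm_num))).trans h4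
    obtain ⟨O, hO, hOe⟩ := if_image_open h Metric.isOpen_ball hsub
    refine ⟨ψ, U, O, h, h4, hO, ?_, hOe⟩
    have : (x : V) ∈ ψ '' Metric.ball 0 1 := ⟨0, Metric.mem_ball_self one_pos, h0⟩
    rw [hOe] at this
    exact this.2
  choose ψ U O h1 h2 h3 h4 h5 using hex
  obtain ⟨t, ht⟩ := hc.elim_finite_subcover O h3 (fun x hx => Set.mem_iUnion.2 ⟨⟨x, hx⟩, h4 ⟨x, hx⟩⟩)
  refine ⟨t.card, fun α => ψ (t.equivFin.symm α), fun α => U (t.equivFin.symm α),
    fun α => h1 _, fun α => h2 _, ?_⟩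
  intro x hx
  obtain ⟨p, hp, hxp⟩ := Set.mem_iUnion₂.1 (ht hx)
  refine Set.mem_iUnion.2 ⟨t.equivFin ⟨p, hp⟩, ?_⟩
  rw [Equiv.symm_apply_apply, h5]
  exact ⟨hx, hxp⟩

/-- smoothness can be checked in the unit balls of an atlas. -/
theorem ls_smooth_of_atlas [FiniteDimensional ℝ V] {P : Set V} {ψ : Fin m → E d → V}
    {U : Fin m → Set (E d)} (hA : LsAtlas d P ψ U) {f : V → ℝ}
    (hf : ∀ α, ContDiffOn ℝ ∞ (f ∘ ψ α) (Metric.ball 0 1)) : SmoothAlong d P f := by
  intro φ W hφ w hw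
  obtain ⟨α, y, hy, hyw⟩ := Set.mem_iUnion.1 (hA.cov (if_mem hφ hw))
  have hsub : Metric.ball (0 : E d) 1 ⊆ U α :=
    (Metric.ball_subset_closedBall.trans (Metric.closedBall_subset_closedBall (by norm_num))).trans
      (hA.big α)
  have hα : IsParam P (ψ α) (Metric.ball 0 1) := if_mono (hA.par α) Metric.isOpen_ball hsub
  have hdom : w ∈ if_trDom φ W (ψ α) (Metric.ball 0 1) := if_mem_trDom hw hy hyw.symm
  have h1 : ContDiffAt ℝ ∞ (if_tr (ψ α) (Metric.ball 0 1) φ) w := if_tr_contDiffAt hφ hα hdom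
  have h2 : ContDiffAt ℝ ∞ (f ∘ ψ α) (if_tr (ψ α) (Metric.ball 0 1) φ w) :=
    (hf α).contDiffAt (Metric.isOpen_ball.mem_nhds (if_tr_mem hdom))
  have h3 : f ∘ φ =ᶠ[𝓝 w] (f ∘ ψ α) ∘ if_tr (ψ α) (Metric.ball 0 1) φ := by
    filter_upwards [if_eventuallyEq_comp_tr hφ hα hdom] with z hz
    simp only [Function.comp_apply] at hz ⊢
    rw [hz]
  exact ((h2.comp w h1).congr_of_eventuallyEq h3).contDiffWithinAt

end Claimed.Agent.R315
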