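import Claimed.Agent.R315.Pack011

/-!
# Row 315, paper S: package LS-COEF (#9777) `ls_coef`

Plan at the statement.
-/

set_option autoImplicit false
open scoped ContDiff Topology
open Claims.C0499

namespace Claimed.Agent.R315

variable {V : Type} [NormedAddCommGroup V] [NormedSpace ℝ V]
variable {d m : ℕ}

/-- the jet space. -/
abbrev LsX (d : ℕ) := E d × ℝ × (Fin d → ℝ)

/-- the compact convex box of jets. -/
def lsBox (d : ℕ) (M : ℝ) : Set (LsX d) :=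
  Metric.closedBall 0 4 ×ˢ (Set.Icc (-M) M ×ˢ Set.pi Set.univ fun _ => Set.Icc (-M) M)

theorem lsBox_compact (d : ℕ) (M : ℝ) : IsCompact (lsBox d M) :=
  (isCompact_closedBall 0 4).prod (isCompact_Icc.prod (isCompact_univ_pi fun _ => isCompact_Icc))

theorem lsBox_convex (d : ℕ) (M : ℝ) : Convex ℝ (lsBox d M) :=
  (convex_closedBall 0 4).prod ((convex_Icc _ _).prod (convex_pi fun _ _ => convex_Icc _ _))

/-- bound and Lipschitz constant of a smooth function on a compact convex set. -/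
theorem lsCoef_one {O Q : Set (LsX d)} (hO : IsOpen O) (hQ : IsCompact Q) (hQv : Convex ℝ Q)
    (hQO : Q ⊆ O) {φ : LsX d → ℝ} (hφ : ContDiffOn ℝ ∞ φ O) :
    ∃ C : ℝ, 0 ≤ C ∧ (∀ q ∈ Q, |φ q| ≤ C) ∧ ∀ q ∈ Q, ∀ q' ∈ Q, |φ q - φ q'| ≤ C * ‖q - q'‖ := by
  obtain ⟨C₁, hC₁⟩ := hQ.exists_bound_of_continuousOn (hφ.continuousOn.mono hQO)
  obtain ⟨C₂, hC₂⟩ := hQ.exists_bound_of_continuousOn
    ((hφ.continuousOn_fderiv_of_isOpen hO (by simp)).mono hQO)
  refine ⟨max (max C₁ C₂) 0, le_max_right _ _, fun q hq => ?_, fun q hq q' hq' => ?_⟩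
  · exact (hC₁ q hq).trans ((le_max_left _ _).trans (le_max_left _ _))
  · have h1 := hQv.norm_image_sub_le_of_norm_fderiv_le (f := φ) (C := max (max C₁ C₂) 0)
      (fun x hx => (hφ.contDiffAt (hO.mem_nhds (hQO hx))).differentiableAt (by simp))
      (fun x hx => (hC₂ x hx).trans ((le_max_right _ _).trans (le_max_left _ _))) hq' hq
    exact h1

/-- the same for a finite family. -/
theorem lsCoef_fam {ι : Type} [Finite ι] {O : ι → Set (LsX d)} {Q : Set (LsX d)}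
    (hO : ∀ k, IsOpen (O k)) (hQ : IsCompact Q) (hQv : Convex ℝ Q) (hQO : ∀ k, Q ⊆ O k)
    {φ : ι → LsX d → ℝ} (hφ : ∀ k, ContDiffOn ℝ ∞ (φ k) (O k)) :
    ∃ C : ℝ, 0 ≤ C ∧ ∀ k, (∀ q ∈ Q, |φ k q| ≤ C) ∧
      ∀ q ∈ Q, ∀ q' ∈ Q, |φ k q - φ k q'| ≤ C * ‖q - q'‖ := by
  choose C hC0 hC1 hC2 using fun k => lsCoef_one (hO k) hQ hQv (hQO k) (hφ k)
  obtain ⟨B, hB⟩ := (Set.finite_range C).bddAbove
  have hB' : ∀ k, C k ≤ B := fun k => hB ⟨k, rfl⟩
  refine ⟨max B 0, le_max_right _ _, fun k => ⟨fun q hq => ?_, fun q hq q' hq' => ?_⟩⟩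
  · exact (hC1 k q hq).trans ((hB' k).trans (le_max_left _ _))
  · exact (hC2 k q hq q' hq').trans
      (mul_le_mul_of_nonneg_right ((hB' k).trans (le_max_left _ _)) (norm_nonneg _))

/-- uniform ellipticity on a compact set. -/
theorem lsCoef_ell {Q : Set (LsX d)} (hQ : IsCompact Q) {A : LsX d → Matrix (Fin d) (Fin d) ℝ}
    (hA : ∀ i j, ContinuousOn (fun q => A q i j) Q) (hpos : ∀ q ∈ Q, (A q).PosDef) :
    ∃ lam : ℝ, 0 < lam ∧ ∀ q ∈ Q, ∀ v : Fin d → ℝ, lam * (v ⬝ᵥ v) ≤ v ⬝ᵥ (A q).mulVec v := by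
  set Sp : Set (Fin d → ℝ) := {v | v ⬝ᵥ v = 1} with hSp
  have hSc : IsCompact Sp := by
    have hcl : IsClosed Sp := by
      have hc : Continuous fun v : Fin d → ℝ => v ⬝ᵥ v := by
        simp only [dotProduct]
        fun_prop
      exact isClosed_eq hc continuous_const
    refine (isCompact_closedBall (0 : Fin d → ℝ) 1).of_isClosed_subset hcl fun v hv => ?_
    rw [mem_closedBall_zero_iff, pi_norm_le_iff_of_nonneg zero_le_one]
    intro i
    have h1 : v i * v i ≤ v ⬝ᵥ v := by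
      simp only [dotProduct]
      exact Finset.single_le_sum (f := fun i => v i * v i) (fun j _ => mul_self_nonneg _)
        (Finset.mem_univ i)
    have h2 : v ⬝ᵥ v = 1 := hv
    rw [Real.norm_eq_abs]
    apply abs_le_of_sq_le_sq' _ zero_le_one |>.2 |> fun h => abs_le.2 ⟨?_, h⟩
    · nlinarith
    · nlinarith
  set g : LsX d × (Fin d → ℝ) → ℝ := fun z => z.2 ⬝ᵥ (A z.1).mulVec z.2 with hg
  have hgc : ContinuousOn g (Q ×ˢ Sp) := by
    simp only [hg, dotProduct, Matrix.mulVec]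
    refine continuousOn_finsetSum _ fun i _ => ?_
    refine ContinuousOn.mul (by fun_prop) ?_
    refine continuousOn_finsetSum _ fun j _ => ?_
    refine ContinuousOn.mul ?_ (by fun_prop)
    exact (hA i j).comp continuousOn_fst fun z hz => hz.1
  have hgpos : ∀ z ∈ Q ×ˢ Sp, 0 < g z := by
    intro z hz
    have hne : z.2 ≠ 0 := by
      intro h0
      have : z.2 ⬝ᵥ z.2 = 1 := hz.2
      rw [h0] at this
      simp at this
    have := (hpos z.1 hz.1).dotProduct_mulVec_pos hne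
    simpa using this
  obtain ⟨lam, hlam, hle⟩ : ∃ lam : ℝ, 0 < lam ∧ ∀ z ∈ Q ×ˢ Sp, lam ≤ g z := by
    rcases (Q ×ˢ Sp).eq_empty_or_nonempty with he | hne
    · exact ⟨1, one_pos, fun z hz => by rw [he] at hz; exact hz.elim⟩
    · obtain ⟨z₀, hz₀, hmin⟩ := (hQ.prod hSc).exists_isMinOn hne hgc
      exact ⟨g z₀, hgpos z₀ hz₀, fun z hz => hmin hz⟩
  refine ⟨lam, hlam, fun q hq v => ?_⟩
  have hvv : 0 ≤ v ⬝ᵥ v := by
    simp only [dotProduct]
    exact Finset.sum_nonneg fun i _ => mul_self_nonneg _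
  rcases hvv.eq_or_lt with h0 | hpos'
  · have hv0 : v = 0 := dotProduct_self_eq_zero.1 h0.symm
    rw [hv0]
    simp
  · set c := v ⬝ᵥ v with hc
    have hsc : 0 < Real.sqrt c := Real.sqrt_pos.2 hpos'
    have hw : (Real.sqrt c)⁻¹ • v ∈ Sp := by
      simp only [hSp, Set.mem_setOf_eq, smul_dotProduct, dotProduct_smul, smul_eq_mul]
      rw [← hc, ← mul_assoc, ← mul_inv, Real.mul_self_sqrt hpos'.le, inv_mul_cancel₀ hpos'.ne']
    have h1 := hle (q, (Real.sqrt c)⁻¹ • v) ⟨hq, hw⟩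
    simp only [hg, Matrix.mulVec_smul, smul_dotProduct, dotProduct_smul, smul_eq_mul] at h1
    rw [← mul_assoc, ← mul_inv, Real.mul_self_sqrt hpos'.le, le_inv_mul_iff₀ hpos'] at h1
    linarith

section jets

variable {η η' : E d → ℝ} {M : ℝ}

theorem lsCoef_norm_eb (i : Fin d) : ‖(EuclideanSpace.single i (1 : ℝ) : E d)‖ = 1 := by simp

theorem lsCoef_fderiv_le {y : E d} (h : ‖iteratedFDeriv ℝ 1 η y‖ ≤ M) : ‖fderiv ℝ η y‖ ≤ M := by
  rwa [norm_iteratedFDeriv_one] at h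

theorem lsCoef_pdiff_le {y : E d} (h : ‖iteratedFDeriv ℝ 1 η y‖ ≤ M) (i : Fin d) :
    |pdiff η i y| ≤ M := by
  have h1 := (fderiv ℝ η y).le_opNorm (EuclideanSpace.single i (1 : ℝ))
  rw [lsCoef_norm_eb, mul_one, Real.norm_eq_abs] at h1
  exact h1.trans (lsCoef_fderiv_le h)

theorem lsCoef_mem (hb : ∀ y ∈ Metric.ball (0 : E d) 4, ∀ j ≤ 2, ‖iteratedFDeriv ℝ j η y‖ ≤ M)
    {y : E d} (hy : y ∈ Metric.ball (0 : E d) 4) : lsJ η y ∈ lsBox d M := by
  refine ⟨Metric.ball_subset_closedBall hy, ?_, fun i _ => ?_⟩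
  · have h0 := hb y hy 0 (by norm_num)
    rw [norm_iteratedFDeriv_zero, Real.norm_eq_abs] at h0
    exact abs_le.1 h0
  · exact abs_le.1 (lsCoef_pdiff_le (hb y hy 1 (by norm_num)) i)

theorem lsCoef_lip (hη : ContDiffOn ℝ ∞ η (Metric.ball 0 4))
    (hb : ∀ y ∈ Metric.ball (0 : E d) 4, ∀ j ≤ 2, ‖iteratedFDeriv ℝ j η y‖ ≤ M)
    {y y' : E d} (hy : y ∈ Metric.ball (0 : E d) 4) (hy' : y' ∈ Metric.ball (0 : E d) 4) :
    ‖lsJ η y - lsJ η y'‖ ≤ (1 + M) * ‖y - y'‖ := by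
  have hM0 : 0 ≤ M := (norm_nonneg _).trans (hb y hy 0 (by norm_num))
  have hn := norm_nonneg (y - y')
  have h1 : ‖η y - η y'‖ ≤ M * ‖y - y'‖ :=
    (convex_ball (0 : E d) 4).norm_image_sub_le_of_norm_fderiv_le
      (fun x hx => (hη.contDiffAt (Metric.isOpen_ball.mem_nhds hx)).differentiableAt (by simp))
      (fun x hx => lsCoef_fderiv_le (hb x hx 1 (by norm_num))) hy' hy
  have hη' : ContDiffOn ℝ ∞ (fderiv ℝ η) (Metric.ball 0 4) :=
    hη.fderiv_of_isOpen Metric.isOpen_ball (by simp)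
  have h2 : ‖fderiv ℝ η y - fderiv ℝ η y'‖ ≤ M * ‖y - y'‖ :=
    (convex_ball (0 : E d) 4).norm_image_sub_le_of_norm_fderiv_le
      (fun x hx => (hη'.contDiffAt (Metric.isOpen_ball.mem_nhds hx)).differentiableAt (by simp))
      (fun x hx => by
        have := hb x hx 2 le_rfl
        rwa [show (2 : ℕ) = 1 + 1 from rfl, ← norm_iteratedFDeriv_fderiv,
          norm_iteratedFDeriv_one] at this) hy' hy
  have e : lsJ η y - lsJ η y' =
      (y - y', η y - η y', fun i => pdiff η i y - pdiff η i y') := rfl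
  rw [e, norm_prod_le_iff, norm_prod_le_iff]
  refine ⟨by nlinarith, by nlinarith, ?_⟩
  rw [pi_norm_le_iff_of_nonneg (by positivity)]
  intro i
  have h3 := (fderiv ℝ η y - fderiv ℝ η y').le_opNorm (EuclideanSpace.single i (1 : ℝ))
  rw [lsCoef_norm_eb, mul_one] at h3
  have e2 : pdiff η i y - pdiff η i y' =
      (fderiv ℝ η y - fderiv ℝ η y') (EuclideanSpace.single i (1 : ℝ)) := rfl
  simp only
  rw [e2]
  nlinarith

theorem lsCoef_diff (hη : ContDiffOn ℝ ∞ η (Metric.ball 0 4))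
    (hη' : ContDiffOn ℝ ∞ η' (Metric.ball 0 4)) {y : E d} (hy : y ∈ Metric.ball (0 : E d) 4)
    {δ : ℝ} (hδ : ∀ j ≤ 1, ‖iteratedFDeriv ℝ j (fun z => η z - η' z) y‖ ≤ δ) :
    ‖lsJ η y - lsJ η' y‖ ≤ δ := by
  have hδ0 : 0 ≤ δ := (norm_nonneg _).trans (hδ 0 (by norm_num))
  have e : lsJ η y - lsJ η' y =
      (y - y, η y - η' y, fun i => pdiff η i y - pdiff η' i y) := rfl
  rw [e, norm_prod_le_iff, norm_prod_le_iff]
  refine ⟨by simpa using hδ0, ?_, ?_⟩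
  · have h0 := hδ 0 (by norm_num)
    rwa [norm_iteratedFDeriv_zero] at h0
  · rw [pi_norm_le_iff_of_nonneg hδ0]
    intro i
    have d1 : DifferentiableAt ℝ η y :=
      (hη.contDiffAt (Metric.isOpen_ball.mem_nhds hy)).differentiableAt (by simp)
    have d2 : DifferentiableAt ℝ η' y :=
      (hη'.contDiffAt (Metric.isOpen_ball.mem_nhds hy)).differentiableAt (by simp)
    have e2 : pdiff η i y - pdiff η' i y = pdiff (fun z => η z - η' z) i y := by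
      unfold pdiff
      rw [fderiv_fun_sub d1 d2]
      rfl
    simp only
    rw [e2, Real.norm_eq_abs]
    exact lsCoef_pdiff_le (hδ 1 le_rfl) i

end jets

/-- **LS-COEF**: constants of the frozen coefficients.  PLAN: `Q = closedBall 0 4 × [-M,M] × {|p_i| ≤ M}` is compact in `U α ×ˢ univ`; continuity of the entries and of their first derivatives gives `Λ0`;
positivity: `(q,v) ↦ vᵀ a(q) v` is continuous and positive on `Q ×` unit sphere.  `|ξ y| , |pdiff ξ i y|, |rm_p2 ξ i j y| ≤ M` from `LsLe`-type bounds; `y ↦ lsJ ξ y` is `(1+2M)`-Lipschitz-ish on the convex ball; mean value inequality on the convex set `Q`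
(`Convex.norm_image_sub_le_of_norm_fderiv_le`) for both statements. -/
theorem ls_coef {U : Fin m → Set (E d)} (S : LsStr d m) (hS : S.Ok U)
    (hU : ∀ α, IsOpen (U α) ∧ Metric.closedBall (0 : E d) 4 ⊆ U α) (M : ℝ) :
    ∃ lam Λ : ℝ, 0 < lam ∧ 0 ≤ Λ ∧ ∀ (α : Fin m) (η η' : E d → ℝ),
      ContDiffOn ℝ ∞ η (Metric.ball 0 4) → ContDiffOn ℝ ∞ η' (Metric.ball 0 4) →
      (∀ y ∈ Metric.ball (0 : E d) 4, ∀ j ≤ 2, ‖iteratedFDeriv ℝ j η y‖ ≤ M) →
      (∀ y ∈ Metric.ball (0 : E d) 4, ∀ j ≤ 2, ‖iteratedFDeriv ℝ j η' y‖ ≤ M) →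
      (∀ y ∈ Metric.ball (0 : E d) 4, (S.a α (lsJ η y)).IsSymm ∧
        (∀ v : Fin d → ℝ, lam * (v ⬝ᵥ v) ≤ v ⬝ᵥ (S.a α (lsJ η y)).mulVec v) ∧
        (∀ i j, |S.a α (lsJ η y) i j| ≤ Λ) ∧ (∀ i, |S.b α (lsJ η y) i| ≤ Λ) ∧
        |S.F α (lsJ η y)| ≤ Λ) ∧
      (∀ y ∈ Metric.ball (0 : E d) 4, ∀ y' ∈ Metric.ball (0 : E d) 4,
        (∀ i j, |S.a α (lsJ η y) i j - S.a α (lsJ η y') i j| ≤ Λ * ‖y - y'‖) ∧
        (∀ i, |S.b α (lsJ η y) i - S.b α (lsJ η y') i| ≤ Λ * ‖y - y'‖) ∧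
        |S.F α (lsJ η y) - S.F α (lsJ η y')| ≤ Λ * ‖y - y'‖) ∧
      (∀ y ∈ Metric.ball (0 : E d) 4, ∀ δ : ℝ, (∀ j ≤ 1, ‖iteratedFDeriv ℝ j (fun z => η z - η' z) y‖ ≤ δ) →
        (∀ i j, |S.a α (lsJ η y) i j - S.a α (lsJ η' y) i j| ≤ Λ * δ) ∧
        (∀ i, |S.b α (lsJ η y) i - S.b α (lsJ η' y) i| ≤ Λ * δ) ∧
        |S.F α (lsJ η y) - S.F α (lsJ η' y)| ≤ Λ * δ) := by
  have hQ := lsBox_compact d M
  have hQv := lsBox_convex d M
  have hO : ∀ α, IsOpen (U α ×ˢ (Set.univ : Set (ℝ × (Fin d → ℝ)))) := fun α =>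
    (hU α).1.prod isOpen_univ
  have hQO : ∀ α, lsBox d M ⊆ U α ×ˢ (Set.univ : Set (ℝ × (Fin d → ℝ))) := fun α q hq =>
    ⟨(hU α).2 hq.1, Set.mem_univ _⟩
  obtain ⟨Ca, hCa0, hCa⟩ := lsCoef_fam (ι := Fin m × Fin d × Fin d)
    (O := fun k => U k.1 ×ˢ Set.univ) (φ := fun k q => S.a k.1 q k.2.1 k.2.2)
    (fun k => hO k.1) hQ hQv (fun k => hQO k.1) (fun k => hS.a_s k.1 k.2.1 k.2.2)
  obtain ⟨Cb, hCb0, hCb⟩ := lsCoef_fam (ι := Fin m × Fin d)
    (O := fun k => U k.1 ×ˢ Set.univ) (φ := fun k q => S.b k.1 q k.2)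
    (fun k => hO k.1) hQ hQv (fun k => hQO k.1) (fun k => hS.b_s k.1 k.2)
  obtain ⟨CF, hCF0, hCF⟩ := lsCoef_fam (ι := Fin m)
    (O := fun k => U k ×ˢ Set.univ) (φ := fun k q => S.F k q)
    hO hQ hQv hQO (fun k => hS.F_s k)
  choose l hl0 hl using fun α => lsCoef_ell hQ (A := S.a α)
    (fun i j => (hS.a_s α i j).continuousOn.mono (hQO α)) (fun q hq => hS.a_pos α q (hQO α hq))
  obtain ⟨lam, hlam0, hlam⟩ : ∃ lam : ℝ, 0 < lam ∧ ∀ α, lam ≤ l α := by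
    rcases isEmpty_or_nonempty (Fin m) with he | hne
    · exact ⟨1, one_pos, fun α => he.elim α⟩
    · obtain ⟨α₀, hα₀⟩ := Finite.exists_min l
      exact ⟨l α₀, hl0 α₀, hα₀⟩
  set C : ℝ := max Ca (max Cb CF) with hC
  have hC0 : 0 ≤ C := hCa0.trans (le_max_left _ _)
  have hCaC : Ca ≤ C := le_max_left _ _
  have hCbC : Cb ≤ C := (le_max_left _ _).trans (le_max_right _ _)
  have hCFC : CF ≤ C := (le_max_right _ _).trans (le_max_right _ _)
  refine ⟨lam, C * (1 + |M|), hlam0, by positivity, ?_⟩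
  intro α η η' hη hη' hb hb'
  have hM0 : 0 ≤ M :=
    (norm_nonneg _).trans (hb 0 (Metric.mem_ball_self (by norm_num)) 0 (by norm_num))
  rw [abs_of_nonneg hM0]
  have hCΛ : C ≤ C * (1 + M) := by nlinarith
  -- a general transfer
  have key : ∀ {c : ℝ}, c ≤ C → ∀ {x r : ℝ}, 0 ≤ r → x ≤ c * r → x ≤ C * r := by
    intro c hc x r hr hx
    exact hx.trans (mul_le_mul_of_nonneg_right hc hr)
  refine ⟨fun y hy => ?_, fun y hy y' hy' => ?_, fun y hy δ hδ => ?_⟩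
  · have hq := lsCoef_mem hb hy
    refine ⟨?_, fun v => ?_, fun i j => ?_, fun i => ?_, ?_⟩
    · have := (hS.a_pos α _ (hQO α hq)).isHermitian.eq
      rwa [Matrix.conjTranspose_eq_transpose_of_trivial] at this
    · have hvv : 0 ≤ v ⬝ᵥ v := by
        simp only [dotProduct]
        exact Finset.sum_nonneg fun i _ => mul_self_nonneg _
      exact (mul_le_mul_of_nonneg_right (hlam α) hvv).trans (hl α _ hq v)
    · exact ((hCa (α, i, j)).1 _ hq).trans (hCaC.trans hCΛ)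
    · exact ((hCb (α, i)).1 _ hq).trans (hCbC.trans hCΛ)
    · exact ((hCF α).1 _ hq).trans (hCFC.trans hCΛ)
  · have hq := lsCoef_mem hb hy
    have hq' := lsCoef_mem hb hy'
    have hlip := lsCoef_lip hη hb hy hy'
    have hfin : ∀ {x : ℝ}, x ≤ C * ‖lsJ η y - lsJ η y'‖ → x ≤ C * (1 + M) * ‖y - y'‖ := by
      intro x hx
      rw [mul_assoc]
      exact hx.trans (mul_le_mul_of_nonneg_left hlip hC0)
    refine ⟨fun i j => ?_, fun i => ?_, ?_⟩
    · exact hfin (key hCaC (norm_nonneg _) ((hCa (α, i, j)).2 _ hq _ hq'))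
    · exact hfin (key hCbC (norm_nonneg _) ((hCb (α, i)).2 _ hq _ hq'))
    · exact hfin (key hCFC (norm_nonneg _) ((hCF α).2 _ hq _ hq'))
  · have hq := lsCoef_mem hb hy
    have hq' := lsCoef_mem hb' hy
    have hd := lsCoef_diff hη hη' hy hδ
    have hδ0 : 0 ≤ δ := (norm_nonneg _).trans hd
    have hfin : ∀ {x : ℝ}, x ≤ C * ‖lsJ η y - lsJ η' y‖ → x ≤ C * (1 + M) * δ := by
      intro x hx
      exact (hx.trans (mul_le_mul_of_nonneg_left hd hC0)).trans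
        (mul_le_mul_of_nonneg_right hCΛ hδ0)
    refine ⟨fun i j => ?_, fun i => ?_, ?_⟩
    · exact hfin (key hCaC (norm_nonneg _) ((hCa (α, i, j)).2 _ hq _ hq'))
    · exact hfin (key hCbC (norm_nonneg _) ((hCb (α, i)).2 _ hq _ hq'))
    · exact hfin (key hCFC (norm_nonneg _) ((hCF α).2 _ hq _ hq'))

end Claimed.Agent.R315
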