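import Claimed.Agent.R315.Pack011
import Claimed.Agent.Lib.Ell.Interp

/-!
# Row 315, paper S: package LS-INT (#9774) `ls_interp`

LS-INT `ls_interp` (PROVED, helper282): from `Lib/Ell/Interp.lean` (`ell_interp_c2a` for the second derivatives on
`ball 0 (5/2)`, then `ell_interp_c2` for the first derivatives on `closedBall 0 2`).
-/

set_option autoImplicit false
open scoped ContDiff Topology
open Claims.C0499

namespace Claimed.Agent.R315

variable {V : Type} [NormedAddCommGroup V] [NormedSpace ℝ V]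
variable {d m : ℕ}

/-- the norm of the second iterated derivative is the norm of `ellD2`. -/
theorem lsi_norm_two (ξ : E d → ℝ) (y : E d) :
    ‖iteratedFDeriv ℝ 2 ξ y‖ = ‖Lib.Ell.ellD2 ξ y‖ := by
  have h := norm_iteratedFDeriv_fderiv (𝕜 := ℝ) (f := ξ) (x := y) (n := 1)
  rw [norm_iteratedFDeriv_one] at h
  exact h.symm

/-- differences of `ellD2` are controlled by differences of the second iterated derivative. -/
theorem lsi_norm_sub (ξ : E d → ℝ) (y y' : E d) :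
    ‖Lib.Ell.ellD2 ξ y - Lib.Ell.ellD2 ξ y'‖ ≤
      ‖iteratedFDeriv ℝ 2 ξ y - iteratedFDeriv ℝ 2 ξ y'‖ := by
  refine ContinuousLinearMap.opNorm_le_bound _ (norm_nonneg _) (fun v => ?_)
  refine ContinuousLinearMap.opNorm_le_bound _ (by positivity) (fun w => ?_)
  have h := (iteratedFDeriv ℝ 2 ξ y - iteratedFDeriv ℝ 2 ξ y').le_opNorm ![v, w]
  simp only [_root_.sub_apply, iteratedFDeriv_two_apply, Fin.prod_univ_two,
    Matrix.cons_val_zero, Matrix.cons_val_one] at h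
  simpa [Lib.Ell.ellD2, mul_assoc] using h

/-- **LS-INT**: `C^{2,1/2}`-bounded and uniformly small implies `C²`-small. -/
theorem ls_interp (d : ℕ) (R ε : ℝ) (hε : 0 < ε) :
    ∃ δ : ℝ, 0 < δ ∧ ∀ ξ : E d → ℝ, ContDiffOn ℝ 2 ξ (Metric.ball 0 3) →
      LsH 3 (iteratedFDeriv ℝ 2 ξ) R → (∀ y ∈ Metric.ball (0 : E d) 3, |ξ y| ≤ δ) →
      ∀ y ∈ Metric.closedBall (0 : E d) 2, ∀ j ≤ 2, ‖iteratedFDeriv ℝ j ξ y‖ ≤ ε := by
  -- the radius `s` and the smallness `δ`
  obtain ⟨Z, hZ⟩ : ∃ Z : ℝ, Z = max R 0 := ⟨_, rfl⟩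
  have hZ0 : 0 ≤ Z := hZ ▸ le_max_right _ _
  have hRZ : R ≤ Z := hZ ▸ le_max_left _ _
  obtain ⟨a, ha⟩ : ∃ a : ℝ, a = min (1 / 2) (ε / (4 * Z + 1)) := ⟨_, rfl⟩
  have ha0 : 0 < a := by
    rw [ha]; exact lt_min (by norm_num) (by positivity)
  have ha1 : a ≤ 1 / 2 := ha ▸ min_le_left _ _
  have ha2 : a * (4 * Z + 1) ≤ ε := by
    have : a ≤ ε / (4 * Z + 1) := ha ▸ min_le_right _ _
    rwa [le_div_iff₀ (by positivity)] at this
  obtain ⟨s, hs⟩ : ∃ s : ℝ, s = a ^ 2 := ⟨_, rfl⟩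
  have hs0 : 0 < s := by rw [hs]; positivity
  have hs1 : s ≤ 1 / 2 := by rw [hs]; nlinarith
  have hsq : s ^ (1 / 2 : ℝ) = a := by
    rw [hs, ← Real.sqrt_eq_rpow, Real.sqrt_sq ha0.le]
  refine ⟨min (ε / 16) (ε * s ^ 2 / 16), lt_min (by positivity) (by positivity), ?_⟩
  intro ξ hξ hH hsmall
  obtain ⟨δ, hδ⟩ : ∃ δ : ℝ, δ = min (ε / 16) (ε * s ^ 2 / 16) := ⟨_, rfl⟩
  rw [← hδ] at hsmall
  have hδ1 : δ ≤ ε / 16 := hδ ▸ min_le_left _ _
  have hδ2 : δ ≤ ε * s ^ 2 / 16 := hδ ▸ min_le_right _ _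
  have hbd : Lib.Ell.BdOn δ (Metric.ball (0 : E d) 3) ξ := fun y hy => by
    rw [Real.norm_eq_abs]; exact hsmall y hy
  have hhol : Lib.Ell.HolOn (1 / 2) Z (Metric.ball (0 : E d) 3) (Lib.Ell.ellD2 ξ) := by
    intro y hy y' hy'
    refine (lsi_norm_sub ξ y y').trans ((hH y hy y' hy').trans ?_)
    exact mul_le_mul_of_nonneg_right hRZ (by positivity)
  -- second derivatives on `ball 0 (5/2)`
  have h2 : Lib.Ell.BdOn ε (Metric.ball (0 : E d) (5 / 2)) (Lib.Ell.ellD2 ξ) := by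
    intro y hy
    have hsub : Metric.closedBall y s ⊆ Metric.ball (0 : E d) 3 := by
      intro z hz
      rw [Metric.mem_ball] at hy ⊢
      rw [Metric.mem_closedBall] at hz
      calc dist z 0 ≤ dist z y + dist y 0 := dist_triangle _ _ _
        _ < 3 := by linarith
    have h := Lib.Ell.ell_interp_c2a Metric.isOpen_ball hs0 (by norm_num : (0 : ℝ) < 1 / 2) hsub hξ
      hbd hZ0 hhol
    rw [hsq] at h
    refine h.trans ?_
    have h1 : 8 * δ / s ^ 2 ≤ ε / 2 := by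
      rw [div_le_iff₀ (by positivity)]
      nlinarith
    nlinarith
  intro y hy j hj
  have hy3 : y ∈ Metric.ball (0 : E d) 3 := by
    rw [Metric.mem_closedBall] at hy
    rw [Metric.mem_ball]; linarith
  have hy52 : y ∈ Metric.ball (0 : E d) (5 / 2) := by
    rw [Metric.mem_closedBall] at hy
    rw [Metric.mem_ball]; linarith
  interval_cases j
  · rw [norm_iteratedFDeriv_zero, Real.norm_eq_abs]
    exact (hsmall y hy3).trans (by linarith)
  · rw [norm_iteratedFDeriv_one]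
    have hsub : Metric.closedBall y (1 / 4) ⊆ Metric.ball (0 : E d) (5 / 2) := by
      intro z hz
      rw [Metric.mem_closedBall] at hy hz
      rw [Metric.mem_ball]
      calc dist z 0 ≤ dist z y + dist y 0 := dist_triangle _ _ _
        _ < 5 / 2 := by linarith
    have hmono : Metric.ball (0 : E d) (5 / 2) ⊆ Metric.ball (0 : E d) 3 :=
      Metric.ball_subset_ball (by norm_num)
    have h := Lib.Ell.ell_interp_c2 Metric.isOpen_ball (by norm_num : (0 : ℝ) < 1 / 4) hsub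
      (hξ.mono hmono) (fun z hz => hbd z (hmono hz)) h2
    refine h.trans ?_
    linarith
  · rw [lsi_norm_two]
    exact h2 y hy52

end Claimed.Agent.R315
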