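import Claimed.Agent.R315.Pack011

/-!
# Row 315, paper S: package LS-MAXP (#9776) `ls_maxp`

LS-MAXP `ls_maxp` (~200 lines): `w` attains its maximum on the compact `P` at `ψ α y0`, `y0 ∈ ball 0 1`; `gs_lapC_min`-type second order condition (`Lib/Ell`: `ell_d2_nonpos_of_isLocalMax`); `tr(A H) ≤ 0` for `A ≥ 0`, `H ≤ 0`.
-/

set_option autoImplicit false
open scoped ContDiff Topology
open Claims.C0499

namespace Claimed.Agent.R315

variable {V : Type} [NormedAddCommGroup V] [NormedSpace ℝ V]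
variable {d m : ℕ}

theorem ls_maxp_pdiff_neg (ξ : E d → ℝ) (i : Fin d) (y : E d) :
    pdiff (fun z => - ξ z) i y = - pdiff ξ i y := by
  unfold pdiff
  rw [fderiv_fun_neg]
  rfl

theorem ls_maxp_op_neg (A : Matrix (Fin d) (Fin d) ℝ) (B : Fin d → ℝ) (ξ : E d → ℝ) (y : E d) :
    lsOp A B (fun z => - ξ z) y = - lsOp A B ξ y := by
  unfold lsOp rm_p2
  have e : ∀ j, (fun w => pdiff (fun z => - ξ z) j w) = fun w => - pdiff ξ j w := fun j => by
    funext w
    exact ls_maxp_pdiff_neg ξ j w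
  simp only [e, ls_maxp_pdiff_neg, mul_neg, Finset.sum_neg_distrib]
  ring

/-- one sided version. -/
theorem ls_maxp_low [FiniteDimensional ℝ V] {P : Set V} {ψ : Fin m → E d → V}
    {U : Fin m → Set (E d)} (hP : IsMfd d P) (hc : IsCompact P) (hA : LsAtlas d P ψ U)
    {w : V → ℝ} (hw : SmoothAlong d P w) (A : Fin m → E d → Matrix (Fin d) (Fin d) ℝ)
    (B : Fin m → E d → Fin d → ℝ) (hpos : ∀ α, ∀ y ∈ Metric.ball (0 : E d) 1, (A α y).PosSemidef)
    (δ : ℝ) (h : ∀ α, ∀ y ∈ Metric.ball (0 : E d) 1, lsOp (A α y) (B α y) (w ∘ ψ α) y ≤ δ) :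
    ∀ x ∈ P, -δ ≤ w x := by
  intro x hx
  obtain ⟨x0, hx0, hmin⟩ := hc.exists_isMinOn ⟨x, hx⟩ (if_smoothAlong_continuousOn hP hw)
  refine le_trans ?_ (hmin hx)
  obtain ⟨_, ⟨α, rfl⟩, y0, hy0, rfl⟩ := hA.cov hx0
  have hp := hA.par α
  have hyU : y0 ∈ U α := hA.big α (Metric.ball_subset_closedBall
    (Metric.ball_subset_ball (by norm_num) hy0))
  have hloc : IsLocalMin (w ∘ ψ α) y0 := by
    filter_upwards [(if_open hp).mem_nhds hyU] with z hz
    exact hmin (if_mem hp hz)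
  have h1 := rm_min_tr (if_open hp) hyU (hw _ _ hp) hloc (hpos α y0 hy0)
  have h2 := h α y0 hy0
  unfold lsOp at h2
  have h3 : ∑ i, B α y0 i * pdiff (w ∘ ψ α) i y0 = 0 :=
    Finset.sum_eq_zero fun i _ => by rw [rm_min_pdiff hloc, mul_zero]
  rw [h3] at h2
  have e : (w ∘ ψ α) y0 = w (ψ α y0) := rfl
  rw [e] at h2
  linarith

/-- **LS-MAXP**: the maximum principle on `P`. -/
theorem ls_maxp [FiniteDimensional ℝ V] {P : Set V} {ψ : Fin m → E d → V}
    {U : Fin m → Set (E d)} (hP : IsMfd d P) (hc : IsCompact P) (hA : LsAtlas d P ψ U)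
    {w : V → ℝ} (hw : SmoothAlong d P w) (A : Fin m → E d → Matrix (Fin d) (Fin d) ℝ)
    (B : Fin m → E d → Fin d → ℝ) (hpos : ∀ α, ∀ y ∈ Metric.ball (0 : E d) 1, (A α y).PosSemidef)
    (δ : ℝ) (h : ∀ α, ∀ y ∈ Metric.ball (0 : E d) 1, |lsOp (A α y) (B α y) (w ∘ ψ α) y| ≤ δ) :
    ∀ x ∈ P, |w x| ≤ δ := by
  intro x hx
  have h1 := ls_maxp_low hP hc hA hw A B hpos δ (fun α y hy => (abs_le.1 (h α y hy)).2) x hx
  have hw' : SmoothAlong d P (fun z => - w z) := fun φ W hφ => (hw φ W hφ).neg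
  have h2 := ls_maxp_low hP hc hA hw' A B hpos δ (fun α y hy => by
    have e : ((fun z => - w z) ∘ ψ α) = fun z => - (w ∘ ψ α) z := rfl
    rw [e, ls_maxp_op_neg]
    have := (abs_le.1 (h α y hy)).1
    linarith) x hx
  rw [abs_le]
  constructor <;> linarith

end Claimed.Agent.R315
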