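import Claimed.Agent.R315.Pack011
import Claimed.Agent.R315.Pack004

/-!
# Row 315, paper S: the `C²` seminorm of the Leray-Schauder argument (PROVED)

`lsX d P` = the space of the functions which are smooth along `P`; `lsN ψ f` = the smallest `R` with `LsLe ψ 1 f R`.
-/

set_option autoImplicit false
open scoped ContDiff Topology
open Claims.C0499

namespace Claimed.Agent.R315

variable {V : Type} [NormedAddCommGroup V] [NormedSpace ℝ V]
variable {d m : ℕ}

/-- smooth functions along `P`. -/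
def lsX (d : ℕ) (P : Set V) : Submodule ℝ (V → ℝ) where
  carrier := {f | SmoothAlong d P f}
  add_mem' := fun hf hg φ U hφ => (hf φ U hφ).add (hg φ U hφ)
  zero_mem' := fun _ _ _ => contDiffOn_const
  smul_mem' := fun _ _ hf φ U hφ => contDiffOn_const.smul (hf φ U hφ)

variable {P : Set V} {ψ : Fin m → E d → V} {U : Fin m → Set (E d)}

theorem ls_cda (hA : LsAtlas d P ψ U) {f : V → ℝ} (hf : SmoothAlong d P f) (α : Fin m) {r : ℝ}
    (hr : r ≤ 4) {y : E d} (hy : y ∈ Metric.closedBall (0 : E d) r) (j : ℕ) :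
    ContDiffAt ℝ j (f ∘ ψ α) y :=
  ((hf _ _ (hA.par α)).contDiffAt ((hA.par α).1.mem_nhds
    (hA.big α (Metric.closedBall_subset_closedBall hr hy)))).of_le (by exact_mod_cast le_top)

theorem ls_le_add (hA : LsAtlas d P ψ U) {f g : V → ℝ} (hf : SmoothAlong d P f)
    (hg : SmoothAlong d P g) {r R R' : ℝ} (hr : r ≤ 4) (h1 : LsLe ψ r f R) (h2 : LsLe ψ r g R') :
    LsLe ψ r (fun x => f x + g x) (R + R') := by
  intro α y hy j hj
  have : (fun x => f x + g x) ∘ ψ α = f ∘ ψ α + g ∘ ψ α := rfl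
  rw [this, iteratedFDeriv_add_apply (ls_cda hA hf α hr hy j) (ls_cda hA hg α hr hy j)]
  exact (norm_add_le _ _).trans (add_le_add (h1 α y hy j hj) (h2 α y hy j hj))

theorem ls_le_smul (hA : LsAtlas d P ψ U) {f : V → ℝ} (hf : SmoothAlong d P f) {r R : ℝ}
    (hr : r ≤ 4) (c : ℝ) (h1 : LsLe ψ r f R) : LsLe ψ r (fun x => c * f x) (|c| * R) := by
  intro α y hy j hj
  have : (fun x => c * f x) ∘ ψ α = c • (f ∘ ψ α) := rfl
  rw [this, iteratedFDeriv_const_smul_apply (ls_cda hA hf α hr hy j), norm_smul, Real.norm_eq_abs]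
  exact mul_le_mul_of_nonneg_left (h1 α y hy j hj) (abs_nonneg _)

theorem ls_le_sub (hA : LsAtlas d P ψ U) {f g : V → ℝ} (hf : SmoothAlong d P f)
    (hg : SmoothAlong d P g) {r R R' : ℝ} (hr : r ≤ 4) (h1 : LsLe ψ r f R) (h2 : LsLe ψ r g R') :
    LsLe ψ r (fun x => f x - g x) (R + R') := by
  intro α y hy j hj
  have : (fun x => f x - g x) ∘ ψ α = f ∘ ψ α - g ∘ ψ α := rfl
  rw [this, iteratedFDeriv_sub_apply (ls_cda hA hf α hr hy j) (ls_cda hA hg α hr hy j)]
  exact (norm_sub_le _ _).trans (add_le_add (h1 α y hy j hj) (h2 α y hy j hj))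

theorem LsLe.mono {f : V → ℝ} {r R R' : ℝ} (h : LsLe ψ r f R) (hR : R ≤ R') : LsLe ψ r f R' :=
  fun α y hy j hj => (h α y hy j hj).trans hR

theorem LsLe.mono_r {f : V → ℝ} {r r' R : ℝ} (h : LsLe ψ r f R) (hr : r' ≤ r) : LsLe ψ r' f R :=
  fun α y hy j hj => h α y (Metric.closedBall_subset_closedBall hr hy) j hj

/-- smooth functions have finite norms. -/
theorem ls_le_exists (hA : LsAtlas d P ψ U) {f : V → ℝ} (hf : SmoothAlong d P f) {r : ℝ}
    (hr : r ≤ 4) : ∃ R : ℝ, 0 ≤ R ∧ LsLe ψ r f R := by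
  have key : ∀ (α : Fin m) (j : ℕ), ∃ C : ℝ, ∀ y ∈ Metric.closedBall (0 : E d) r,
      ‖iteratedFDeriv ℝ j (f ∘ ψ α) y‖ ≤ C := by
    intro α j
    have hs := hf _ _ (hA.par α)
    have hc : ContinuousOn (iteratedFDeriv ℝ j (f ∘ ψ α)) (U α) := by
      have := hs.continuousOn_iteratedFDerivWithin (m := j) (by exact_mod_cast le_top)
        (hA.par α).1.uniqueDiffOn
      exact this.congr fun y hy => (iteratedFDerivWithin_of_isOpen j (hA.par α).1 hy).symm
    obtain ⟨C, hC⟩ := (isCompact_closedBall (0 : E d) r).exists_bound_of_continuousOn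
      (hc.mono ((Metric.closedBall_subset_closedBall hr).trans (hA.big α)))
    exact ⟨C, hC⟩
  choose C hC using key
  refine ⟨∑ α, ∑ j ∈ Finset.range 3, |C α j|, by positivity, fun α y hy j hj => ?_⟩
  refine (hC α j y hy).trans ((le_abs_self _).trans ?_)
  have h1 : |C α j| ≤ ∑ j ∈ Finset.range 3, |C α j| :=
    Finset.single_le_sum (f := fun j => |C α j|) (fun _ _ => abs_nonneg _)
      (Finset.mem_range.2 (by omega))
  exact h1.trans (Finset.single_le_sum (f := fun α => ∑ j ∈ Finset.range 3, |C α j|)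
    (fun _ _ => by positivity) (Finset.mem_univ α))

/-- the seminorm. -/
noncomputable def lsN (ψ : Fin m → E d → V) (f : V → ℝ) : ℝ := sInf {R | 0 ≤ R ∧ LsLe ψ 1 f R}

theorem lsN_nonneg (f : V → ℝ) : 0 ≤ lsN ψ f := Real.sInf_nonneg fun _ h => h.1

theorem lsN_le {f : V → ℝ} {R : ℝ} (hR : 0 ≤ R) (h : LsLe ψ 1 f R) : lsN ψ f ≤ R :=
  csInf_le ⟨0, fun _ h => h.1⟩ ⟨hR, h⟩

theorem lsN_spec (hA : LsAtlas d P ψ U) {f : V → ℝ} (hf : SmoothAlong d P f) :
    LsLe ψ 1 f (lsN ψ f) := by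
  intro α y hy j hj
  obtain ⟨R0, hR0, h0⟩ := ls_le_exists hA hf (r := 1) (by norm_num)
  exact le_csInf ⟨R0, hR0, h0⟩ fun R hR => hR.2 α y hy j hj

theorem lsN_le_iff (hA : LsAtlas d P ψ U) {f : V → ℝ} (hf : SmoothAlong d P f) {R : ℝ}
    (hR : 0 ≤ R) : lsN ψ f ≤ R ↔ LsLe ψ 1 f R :=
  ⟨fun h => (lsN_spec hA hf).mono h, lsN_le hR⟩

theorem lsN_add (hA : LsAtlas d P ψ U) {f g : V → ℝ} (hf : SmoothAlong d P f)
    (hg : SmoothAlong d P g) : lsN ψ (fun x => f x + g x) ≤ lsN ψ f + lsN ψ g :=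
  lsN_le (add_nonneg (lsN_nonneg f) (lsN_nonneg g))
    (ls_le_add hA hf hg (by norm_num) (lsN_spec hA hf) (lsN_spec hA hg))

theorem lsN_smul_le (hA : LsAtlas d P ψ U) {f : V → ℝ} (hf : SmoothAlong d P f) (c : ℝ) :
    lsN ψ (fun x => c * f x) ≤ |c| * lsN ψ f :=
  lsN_le (mul_nonneg (abs_nonneg _) (lsN_nonneg f))
    (ls_le_smul hA hf (by norm_num) c (lsN_spec hA hf))

theorem lsN_smul (hA : LsAtlas d P ψ U) {f : V → ℝ} (hf : SmoothAlong d P f) (c : ℝ) :
    lsN ψ (fun x => c * f x) = |c| * lsN ψ f := by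
  refine le_antisymm (lsN_smul_le hA hf c) ?_
  by_cases hc : c = 0
  · subst hc
    simpa using lsN_nonneg (ψ := ψ) _
  have hcf : SmoothAlong d P (fun x => c * f x) := fun φ W hφ =>
    contDiffOn_const.mul (hf φ W hφ)
  have h1 := lsN_smul_le hA hcf c⁻¹
  have h2 : (fun x => c⁻¹ * (c * f x)) = f := by
    funext x
    field_simp
  rw [h2, abs_inv] at h1
  have hpos : 0 < |c| := abs_pos.2 hc
  calc |c| * lsN ψ f ≤ |c| * (|c|⁻¹ * lsN ψ fun x => c * f x) :=
        mul_le_mul_of_nonneg_left h1 hpos.le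
    _ = lsN ψ fun x => c * f x := by field_simp

end Claimed.Agent.R315
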