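import Claimed.Agent.R315.Pack011
import Claimed.Agent.Lib.Ell.SchNd

/-!
# Row 315, paper S: package LS-SCH (#9772) `ls_sch`

LS-SCH `ls_sch` (~450 lines): ADAPTER to `Lib/Ell/SchNd.lean` `ell_sch_nd` (`W = E d`, `α = 1/2`): `ndOp a b c u = tr(a D²u) + Du(b) + c u`, `c = -1`; `rm_p2 ξ i j y = ellD2 ξ y (eb i) (eb j)`; Lipschitz on a ball of radius `≤ 4` ⇒ Hölder-`1/2` (constant `× 3`);
  matrix `A` ↦ `Matrix.toEuclideanCLM`; `iteratedFDeriv ℝ 2` versus `fderiv (fderiv ·)` (`iteratedFDeriv_two_apply`, norms agree); the qualitative hypothesis (`D²u` Hölder on smaller balls) holds because `u` is `C³`.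
-/

set_option autoImplicit false
set_option maxSynthPendingDepth 6
open scoped ContDiff Topology RealInnerProductSpace
open Claims.C0499
open Claimed.Agent.Lib.Ell

namespace Claimed.Agent.R315

variable {V : Type} [NormedAddCommGroup V] [NormedSpace ℝ V]
variable {d m : ℕ}

/-- norm of a vector with bounded entries. -/
theorem ls_sch_norm_le {c : ℝ} (x : E d) (hx : ∀ i, |x i| ≤ c) : ‖x‖ ≤ d * c := by
  conv_lhs => rw [← if_sum_eb x]
  calc ‖∑ i, x i • (eb i : E d)‖ ≤ ∑ i, ‖x i • (eb i : E d)‖ := norm_sum_le _ _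
    _ ≤ ∑ _i : Fin d, c := Finset.sum_le_sum fun i _ => by
        rw [norm_smul, Real.norm_eq_abs]
        simpa using hx i
    _ = d * c := by simp

theorem ls_sch_abs_le (x : E d) (i : Fin d) : |x i| ≤ ‖x‖ := PiLp.norm_apply_le x i

theorem ls_sch_mat_apply (A : Matrix (Fin d) (Fin d) ℝ) (x : E d) (i : Fin d) :
    Matrix.toEuclideanCLM (n := Fin d) (𝕜 := ℝ) A x i = ∑ j, A i j * x j := by
  simp [Matrix.mulVec, dotProduct]

theorem ls_sch_mat_norm {c : ℝ} (hc : 0 ≤ c) (A : Matrix (Fin d) (Fin d) ℝ)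
    (hA : ∀ i j, |A i j| ≤ c) :
    ‖Matrix.toEuclideanCLM (n := Fin d) (𝕜 := ℝ) A‖ ≤ d * (d * c) := by
  refine ContinuousLinearMap.opNorm_le_bound _ (by positivity) fun x => ?_
  have := ls_sch_norm_le (c := d * c * ‖x‖) (Matrix.toEuclideanCLM (n := Fin d) (𝕜 := ℝ) A x)
    (fun i => by
      rw [ls_sch_mat_apply]
      calc |∑ j, A i j * x j| ≤ ∑ j, |A i j * x j| := Finset.abs_sum_le_sum_abs _ _
        _ ≤ ∑ _j : Fin d, c * ‖x‖ := Finset.sum_le_sum fun j _ => by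
            rw [abs_mul]; exact mul_le_mul (hA i j) (ls_sch_abs_le x j) (abs_nonneg _) hc
        _ = d * c * ‖x‖ := by simp; ring)
  calc _ ≤ d * (d * c * ‖x‖) := this
    _ = _ := by ring

theorem ls_sch_inner (x y : E d) : ⟪x, y⟫ = ∑ i, x i * y i := by
  simp [PiLp.inner_apply, mul_comm]

theorem ls_sch_half {t : ℝ} (h0 : 0 ≤ t) (h8 : t ≤ 8) : t ≤ 3 * t ^ (1 / 2 : ℝ) := by
  rw [← Real.sqrt_eq_rpow]
  have h1 := Real.sq_sqrt h0
  have h2 := Real.sqrt_nonneg t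
  have h3 : Real.sqrt t ≤ 3 := by
    rw [Real.sqrt_le_iff]
    constructor <;> linarith
  nlinarith

theorem ls_sch_dist {R : ℝ} (hR : R ≤ 4) {y y' : E d} (hy : y ∈ Metric.ball (0 : E d) R)
    (hy' : y' ∈ Metric.ball (0 : E d) R) : ‖y - y'‖ ≤ 8 := by
  rw [mem_ball_zero_iff] at hy hy'
  have := norm_sub_le y y'
  linarith

/-- Lipschitz implies Hoelder on the balls of radius at most `4`. -/
theorem ls_sch_hol {F : Type} [NormedAddCommGroup F] {R L : ℝ} (hR : R ≤ 4) (hL : 0 ≤ L)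
    {g : E d → F}
    (hg : ∀ y ∈ Metric.ball (0 : E d) R, ∀ y' ∈ Metric.ball (0 : E d) R, ‖g y - g y'‖ ≤ L * ‖y - y'‖) :
    HolOn (1 / 2) (3 * L) (Metric.ball (0 : E d) R) g := by
  intro y hy y' hy'
  have h1 := ls_sch_half (norm_nonneg (y - y')) (ls_sch_dist hR hy hy')
  calc ‖g y - g y'‖ ≤ L * ‖y - y'‖ := hg y hy y' hy'
    _ ≤ L * (3 * ‖y - y'‖ ^ (1 / 2 : ℝ)) := mul_le_mul_of_nonneg_left h1 hL
    _ = _ := by ring

/-- ellipticity of the operator of a matrix. -/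
theorem ls_sch_ell {lam c : ℝ} (hc : 0 ≤ c) {A : Matrix (Fin d) (Fin d) ℝ} (hs : A.IsSymm)
    (hpos : ∀ v : Fin d → ℝ, lam * (v ⬝ᵥ v) ≤ v ⬝ᵥ A.mulVec v) (hA : ∀ i j, |A i j| ≤ c) :
    EllMat lam (max lam (d * (d * c))) (Matrix.toEuclideanCLM (n := Fin d) (𝕜 := ℝ) A) := by
  refine ⟨fun ξ η => ?_, fun ξ => ?_, (ls_sch_mat_norm hc A hA).trans (le_max_right _ _)⟩
  · rw [ls_sch_inner, ls_sch_inner]
    simp only [ls_sch_mat_apply, Finset.sum_mul, Finset.mul_sum]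
    rw [Finset.sum_comm]
    refine Finset.sum_congr rfl fun i _ => Finset.sum_congr rfl fun j _ => ?_
    rw [← hs.apply i j]
    ring
  · have h1 := hpos (fun i => ξ i)
    have e1 : (fun i => ξ i) ⬝ᵥ (fun i => ξ i) = ‖ξ‖ ^ 2 := by
      rw [← real_inner_self_eq_norm_sq, ls_sch_inner]
      rfl
    have e2 : (fun i => ξ i) ⬝ᵥ A.mulVec (fun i => ξ i) =
        ⟪Matrix.toEuclideanCLM (n := Fin d) (𝕜 := ℝ) A ξ, ξ⟫ := by
      rw [ls_sch_inner]
      simp only [ls_sch_mat_apply, dotProduct, Matrix.mulVec]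
      exact Finset.sum_congr rfl fun i _ => mul_comm _ _
    rw [e1, e2] at h1
    exact h1

/-- second partial derivatives and the second derivative. -/
theorem ls_sch_p2 {ξ : E d → ℝ} {y : E d} (hξ : ContDiffAt ℝ 2 ξ y) (i j : Fin d) :
    rm_p2 ξ i j y = ellD2 ξ y (eb i) (eb j) := by
  unfold rm_p2 pdiff ellD2
  have h1 : HasFDerivAt (fderiv ℝ ξ) (fderiv ℝ (fderiv ℝ ξ) y) y :=
    ((hξ.fderiv_right (m := 1) (by norm_num)).differentiableAt (by norm_num)).hasFDerivAt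
  have h2 := h1.clm_apply (hasFDerivAt_const (eb j : E d) y)
  rw [h2.fderiv]
  simp

theorem ls_sch_tr (A : Matrix (Fin d) (Fin d) ℝ) (H : E d →L[ℝ] E d →L[ℝ] ℝ) :
    ellTr (Matrix.toEuclideanCLM (n := Fin d) (𝕜 := ℝ) A) H = ∑ i, ∑ j, A i j * H (eb i) (eb j) := by
  rw [ellTr_eq_sum (EuclideanSpace.basisFun (Fin d) ℝ), Finset.sum_comm]
  refine Finset.sum_congr rfl fun k _ => ?_
  rw [EuclideanSpace.basisFun_apply]
  have h1 := if_clm_expand (H.flip (eb k)) (Matrix.toEuclideanCLM (n := Fin d) (𝕜 := ℝ) A (eb k))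
  simp only [ContinuousLinearMap.flip_apply] at h1
  rw [h1]
  refine Finset.sum_congr rfl fun i _ => ?_
  rw [ls_sch_mat_apply]
  simp

/-- the operators agree. -/
theorem ls_sch_op {ξ : E d → ℝ} {y : E d} (hξ : ContDiffAt ℝ 2 ξ y)
    (A : E d → Matrix (Fin d) (Fin d) ℝ) (B : E d → Fin d → ℝ) :
    ndOp (fun z => Matrix.toEuclideanCLM (n := Fin d) (𝕜 := ℝ) (A z)) (fun z => WithLp.toLp 2 (B z))
      (fun _ => -1) ξ y = lsOp (A y) (B y) ξ y := by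
  unfold ndOp lsOp
  rw [ls_sch_tr, if_clm_expand (fderiv ℝ ξ y)]
  simp only [ls_sch_p2 hξ]
  have e : ∑ k, (WithLp.toLp 2 (B y) : E d) k * fderiv ℝ ξ y (eb k) = ∑ i, B y i * pdiff ξ i y := rfl
  rw [e]
  ring

/-- the qualitative hypothesis. -/
theorem ls_sch_qual {R : ℝ} (hR : R ≤ 4) {ξ : E d → ℝ} (hξ : ContDiffOn ℝ ∞ ξ (Metric.ball 0 R))
    (t : ℝ) (ht : t < R) : ∃ K', HolOn (1 / 2) K' (Metric.ball (0 : E d) t) (ellD2 ξ) := by
  have h1 : ContDiffOn ℝ ∞ (fderiv ℝ ξ) (Metric.ball 0 R) :=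
    hξ.fderiv_of_isOpen Metric.isOpen_ball (by simp)
  have h2 : ContDiffOn ℝ ∞ (ellD2 ξ) (Metric.ball 0 R) :=
    h1.fderiv_of_isOpen Metric.isOpen_ball (by simp)
  have h3 : ContDiffOn ℝ ∞ (fderiv ℝ (ellD2 ξ)) (Metric.ball 0 R) :=
    h2.fderiv_of_isOpen Metric.isOpen_ball (by simp)
  have hsub : Metric.closedBall (0 : E d) t ⊆ Metric.ball 0 R := Metric.closedBall_subset_ball ht
  obtain ⟨L, hL⟩ := (isCompact_closedBall (0 : E d) t).exists_bound_of_continuousOn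
    (h3.continuousOn.mono hsub)
  refine ⟨3 * |L|, ls_sch_hol (ht.le.trans hR) (abs_nonneg L) fun y hy y' hy' => ?_⟩
  refine (convex_ball (0 : E d) t).norm_image_sub_le_of_norm_fderiv_le (𝕜 := ℝ) (fun x hx => ?_)
    (fun x hx => ((hL x (Metric.ball_subset_closedBall hx)).trans (le_abs_self L))) hy' hy
  exact (h2.contDiffAt (Metric.isOpen_ball.mem_nhds
    (hsub (Metric.ball_subset_closedBall hx)))).differentiableAt (by simp)

theorem ls_sch_norm2 (ξ : E d → ℝ) (y y' : E d) :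
    ‖iteratedFDeriv ℝ 2 ξ y - iteratedFDeriv ℝ 2 ξ y'‖ ≤ ‖ellD2 ξ y - ellD2 ξ y'‖ := by
  refine ContinuousMultilinearMap.opNorm_le_bound (norm_nonneg _) fun v => ?_
  rw [sub_apply, iteratedFDeriv_two_apply, iteratedFDeriv_two_apply,
    Fin.prod_univ_two]
  have h1 := ((ellD2 ξ y - ellD2 ξ y') (v 0)).le_opNorm (v 1)
  have h2 := (ellD2 ξ y - ellD2 ξ y').le_opNorm (v 0)
  calc _ = ‖(ellD2 ξ y - ellD2 ξ y') (v 0) (v 1)‖ := rfl
    _ ≤ ‖(ellD2 ξ y - ellD2 ξ y') (v 0)‖ * ‖v 1‖ := h1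
    _ ≤ ‖ellD2 ξ y - ellD2 ξ y'‖ * ‖v 0‖ * ‖v 1‖ := mul_le_mul_of_nonneg_right h2 (norm_nonneg _)
    _ = _ := by ring

theorem ls_sch_norm2' (ξ : E d → ℝ) (y : E d) : ‖iteratedFDeriv ℝ 2 ξ y‖ ≤ ‖ellD2 ξ y‖ := by
  refine ContinuousMultilinearMap.opNorm_le_bound (norm_nonneg _) fun v => ?_
  rw [iteratedFDeriv_two_apply, Fin.prod_univ_two]
  have h1 := ((ellD2 ξ y) (v 0)).le_opNorm (v 1)
  have h2 := (ellD2 ξ y).le_opNorm (v 0)
  calc _ = ‖(ellD2 ξ y) (v 0) (v 1)‖ := rfl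
    _ ≤ ‖(ellD2 ξ y) (v 0)‖ * ‖v 1‖ := h1
    _ ≤ ‖ellD2 ξ y‖ * ‖v 0‖ * ‖v 1‖ := mul_le_mul_of_nonneg_right h2 (norm_nonneg _)
    _ = _ := by ring

/-- **LS-SCH**: interior Schauder estimate for `lsOp`, Lipschitz coefficients. -/
theorem ls_sch (d : ℕ) (lam Λ r R : ℝ) (hlam : 0 < lam) (hr : 0 < r) (hrR : r < R) (hR : R ≤ 4) :
    ∃ C : ℝ, 0 ≤ C ∧ ∀ (A : E d → Matrix (Fin d) (Fin d) ℝ) (B : E d → Fin d → ℝ)
      (ξ g : E d → ℝ) (M : ℝ), 0 ≤ M →
      (∀ y ∈ Metric.ball (0 : E d) R, (A y).IsSymm ∧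
        (∀ v : Fin d → ℝ, lam * (v ⬝ᵥ v) ≤ v ⬝ᵥ (A y).mulVec v) ∧
        (∀ i j, |A y i j| ≤ Λ) ∧ ∀ i, |B y i| ≤ Λ) →
      (∀ y ∈ Metric.ball (0 : E d) R, ∀ y' ∈ Metric.ball (0 : E d) R,
        (∀ i j, |A y i j - A y' i j| ≤ Λ * ‖y - y'‖) ∧ (∀ i, |B y i - B y' i| ≤ Λ * ‖y - y'‖) ∧
        |g y - g y'| ≤ M * ‖y - y'‖) →
      ContDiffOn ℝ ∞ ξ (Metric.ball 0 R) →
      (∀ y ∈ Metric.ball (0 : E d) R, |ξ y| ≤ M ∧ |g y| ≤ M ∧ lsOp (A y) (B y) ξ y = g y) →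
      (∀ y ∈ Metric.ball (0 : E d) r, ∀ j ≤ 2, ‖iteratedFDeriv ℝ j ξ y‖ ≤ C * M) ∧
        LsH r (iteratedFDeriv ℝ 2 ξ) (C * M) := by
  set c : ℝ := |Λ| with hc
  have hc0 : 0 ≤ c := abs_nonneg Λ
  have hΛc : Λ ≤ c := le_abs_self Λ
  set D : ℝ := d * (d * c) with hD
  have hD0 : 0 ≤ D := by positivity
  have hdD : (d : ℝ) * c ≤ D := by
    rcases Nat.eq_zero_or_pos d with h0 | h0
    · subst h0; simp [hD]
    · have : (1 : ℝ) ≤ d := by exact_mod_cast h0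
      have h2 : 0 ≤ (d : ℝ) * c := by positivity
      rw [hD]; nlinarith
  obtain ⟨C₀, hC₀, H⟩ := ell_sch_nd (E d) (α := 1 / 2) (lam := lam) (Lam := max lam D)
    (K := 1 + 3 * D) (r := r) (R := R) (by norm_num) (by norm_num) hlam (le_max_left _ _)
    (by positivity) hr hrR
  refine ⟨1 + 3 * C₀, by positivity, ?_⟩
  intro A B ξ g M hM h1 h2 hξ h3
  have hdat : NdData (1 / 2) lam (max lam D) (1 + 3 * D) (3 * M) (Metric.ball (0 : E d) R)
      (fun z => Matrix.toEuclideanCLM (n := Fin d) (𝕜 := ℝ) (A z)) (fun z => WithLp.toLp 2 (B z))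
      (fun _ => -1) ξ g := by
    refine ⟨?_, ?_, ?_, ?_, ?_, ?_, ?_, ?_, ?_, ?_, ?_⟩
    · intro y hy
      obtain ⟨a1, a2, a3, -⟩ := h1 y hy
      exact ls_sch_ell hc0 a1 a2 fun i j => (a3 i j).trans hΛc
    · refine (ls_sch_hol hR hD0 fun y hy y' hy' => ?_).mono subset_rfl (by linarith)
      rw [← map_sub]
      have := ls_sch_mat_norm (c := c * ‖y - y'‖) (by positivity) (A y - A y') fun i j =>
        ((h2 y hy y' hy').1 i j).trans (mul_le_mul_of_nonneg_right hΛc (norm_nonneg _))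
      calc _ ≤ (d : ℝ) * (d * (c * ‖y - y'‖)) := this
        _ = _ := by rw [hD]; ring
    · intro y hy
      have := ls_sch_norm_le (c := c) (WithLp.toLp 2 (B y) : E d) fun i =>
        ((h1 y hy).2.2.2 i).trans hΛc
      linarith
    · refine (ls_sch_hol hR hD0 fun y hy y' hy' => ?_).mono subset_rfl (by linarith)
      have := ls_sch_norm_le (c := c * ‖y - y'‖)
        ((WithLp.toLp 2 (B y) : E d) - (WithLp.toLp 2 (B y') : E d)) fun i =>
        ((h2 y hy y' hy').2.1 i).trans (mul_le_mul_of_nonneg_right hΛc (norm_nonneg _))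
      calc _ ≤ (d : ℝ) * (c * ‖y - y'‖) := this
        _ = (d * c) * ‖y - y'‖ := by ring
        _ ≤ D * ‖y - y'‖ := mul_le_mul_of_nonneg_right hdD (norm_nonneg _)
    · intro y _
      simp only [norm_neg, norm_one]
      linarith
    · intro y _ y' _
      simp only [sub_self, norm_zero]
      positivity
    · exact hξ.of_le (WithTop.coe_le_coe.2 le_top)
    · intro y hy
      have := (h3 y hy).1
      rw [Real.norm_eq_abs]
      linarith
    · intro y hy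
      have := (h3 y hy).2.1
      rw [Real.norm_eq_abs]
      linarith
    · exact ls_sch_hol hR hM fun y hy y' hy' => (h2 y hy y' hy').2.2
    · intro y hy
      rw [ls_sch_op ((hξ.contDiffAt (Metric.isOpen_ball.mem_nhds hy)).of_le
        (WithTop.coe_le_coe.2 le_top))]
      exact (h3 y hy).2.2
  obtain ⟨b1, b2, b3⟩ := H (3 * M) 0 _ _ _ ξ g (by positivity) hdat (ls_sch_qual hR hξ)
  have hCM : C₀ * (3 * M) ≤ (1 + 3 * C₀) * M := by nlinarith
  have hMM : M ≤ (1 + 3 * C₀) * M := by nlinarith [mul_nonneg hC₀ hM]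
  refine ⟨fun y hy j hj => ?_, fun y hy y' hy' => ?_⟩
  · interval_cases j
    · rw [norm_iteratedFDeriv_zero, Real.norm_eq_abs]
      exact ((h3 y (Metric.ball_subset_ball hrR.le hy)).1).trans hMM
    · rw [norm_iteratedFDeriv_one]
      exact (b1 y hy).trans hCM
    · exact (ls_sch_norm2' ξ y).trans ((b2 y hy).trans hCM)
  · refine (ls_sch_norm2 ξ y y').trans ((b3 y hy y' hy').trans ?_)
    exact mul_le_mul_of_nonneg_right hCM (by positivity)

end Claimed.Agent.R315
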