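import Claimed.Agent.R315.Ss.LsTm
import Claimed.Agent.R315.Ss.LsSch
import Claimed.Agent.R315.Ss.LsInt
import Claimed.Agent.R315.Ss.LsMaxp
import Claimed.Agent.R315.Ss.LsCoef
import Claimed.Agent.R315.Ss.LsNorm
import Claimed.Agent.R315.Ss.LsOpCalc

/-!
# Row 315, paper S: package LS-BOUND-CONT (#9778) `ls_bound`, `ls_cont`: PROVED

GOAL `ls_main`: `P` a closed `d`-manifold with a finite atlas `ψ α : U α → P`, `closedBall 0 4 ⊆ U α`, `P ⊆ ⋃ ψ α '' ball 0 1`.  A *structure* `S : LsStr d m` gives in every chart smooth functions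
`a^{ij}, b^i, F` of the 1-jet `q = (y, z, p)`; `a` positive definite.  For smooth `v, u` the relation `LsEq S ψ σ v u` says: in every chart, on `ball 0 4`,
      `a^{ij}(J v) ∂_i∂_j u + b^i(J v) ∂_i u - u = σ F(J v)`.
HYPOTHESES: (`hsol`) the frozen LINEAR problem `LsEq S ψ 1 v u` is solvable in smooth functions for every smooth `v`;  (`hap`) a `C²` a priori bound for the smooth solutions of `LsEq S ψ σ x x`, `0 ≤ σ ≤ 1`;
(`hreg`) `C^{2,1/2}` solutions of the chart equation are smooth.  CONCLUSION: a smooth solution of `LsEq S ψ 1 x x`.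
ONLY SMOOTH FUNCTIONS are fed into the linear solver; the only non-smooth object is the limit in `ls_limit`.
It is applied twice (`Ss/LsLin.lean`): LEVEL 1 (linear non self-adjoint operators from the self-adjoint solver `gs_solve` of `Gs/Solve.lean`), LEVEL 2 (the quasilinear equation of paper S).

NORMS AS PREDICATES: `LsLe ψ r f R`: `‖D^j (f∘ψ α)‖ ≤ R` on `closedBall 0 r`, `j ≤ 2`, all charts.  `LsHol ψ r f R`: `D²(f∘ψ α)` is Hölder-`1/2` with constant `R` on `ball 0 r`.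

Plans at the statements.
-/

set_option autoImplicit false
open scoped ContDiff Topology
open Claims.C0499

namespace Claimed.Agent.R315

variable {V : Type} [NormedAddCommGroup V] [NormedSpace ℝ V]
variable {d m : ℕ}
variable [FiniteDimensional ℝ V] {P : Set V} {ψ : Fin m → E d → V} {U : Fin m → Set (E d)}

theorem LsH.mono_r {F : Type} [NormedAddCommGroup F] {r r' R : ℝ} {g : E d → F} (h : LsH r g R)
    (hr : r' ≤ r) : LsH r' g R :=
  fun y hy y' hy' => h y (Metric.ball_subset_ball hr hy) y' (Metric.ball_subset_ball hr hy')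

/-- the frozen coefficients along a smooth `v` with `LsLe ψ 4 v M'`: hypotheses of `ls_coef`. -/
theorem ls_coef_hyp (hA : LsAtlas d P ψ U) {v : V → ℝ} (hv : SmoothAlong d P v) {M' : ℝ}
    (h4 : LsLe ψ 4 v M') (α : Fin m) :
    ContDiffOn ℝ ∞ (v ∘ ψ α) (Metric.ball 0 4) ∧
      ∀ y ∈ Metric.ball (0 : E d) 4, ∀ j ≤ 2, ‖iteratedFDeriv ℝ j (v ∘ ψ α) y‖ ≤ M' :=
  ⟨(hv _ _ (hA.par α)).mono (Metric.ball_subset_closedBall.trans (hA.big α)),
    fun y hy j hj => h4 α y (Metric.ball_subset_closedBall hy) j hj⟩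

/-- **LS-BOUND**. -/
theorem ls_bound (hP : IsMfd d P) (hc : IsCompact P) (hA : LsAtlas d P ψ U) (S : LsStr d m)
    (hS : S.Ok U) (M : ℝ) :
    ∃ R : ℝ, 0 ≤ R ∧ ∀ v u : V → ℝ, SmoothAlong d P v → SmoothAlong d P u → LsLe ψ 1 v M →
      LsEq S ψ 1 v u → LsLe ψ 3 u R ∧ LsHol ψ 3 u R := by
  obtain ⟨Ct, -, htm⟩ := ls_tm hA
  obtain ⟨lam, Λ, hlam, hΛ, hco⟩ := ls_coef S hS (fun α => ⟨(hA.par α).1, hA.big α⟩) (Ct * M)
  obtain ⟨Cs, hCs, hsch⟩ := ls_sch d lam Λ (7 / 2) 4 hlam (by norm_num) (by norm_num) le_rfl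
  refine ⟨Cs * Λ, mul_nonneg hCs hΛ, fun v u hv hu hvM hE => ?_⟩
  have h4 := htm v M hv hvM
  have hb4 : ∀ α, Metric.ball (0 : E d) 4 ⊆ U α := fun α =>
    Metric.ball_subset_closedBall.trans (hA.big α)
  have h14 : Metric.ball (0 : E d) 1 ⊆ Metric.ball (0 : E d) 4 :=
    Metric.ball_subset_ball (by norm_num)
  have hco' := fun α => hco α (v ∘ ψ α) (v ∘ ψ α) (ls_coef_hyp hA hv h4 α).1
    (ls_coef_hyp hA hv h4 α).1 (ls_coef_hyp hA hv h4 α).2 (ls_coef_hyp hA hv h4 α).2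
  -- sup bound
  have hsup : ∀ x ∈ P, |u x| ≤ Λ := by
    refine ls_maxp hP hc hA hu (fun α y => S.a α (lsJ (v ∘ ψ α) y))
      (fun α y => S.b α (lsJ (v ∘ ψ α) y)) (fun α y hy => ?_) Λ (fun α y hy => ?_)
    · exact (hS.a_pos α (lsJ (v ∘ ψ α) y) ⟨hb4 α (h14 hy), Set.mem_univ _⟩).posSemidef
    · have hy4 : y ∈ Metric.ball (0 : E d) 4 := h14 hy
      rw [hE α y hy4, one_mul]
      exact ((hco' α).1 y hy4).2.2.2.2
  have key : ∀ α, (∀ y ∈ Metric.ball (0 : E d) (7 / 2), ∀ j ≤ 2,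
      ‖iteratedFDeriv ℝ j (u ∘ ψ α) y‖ ≤ Cs * Λ) ∧
      LsH (7 / 2) (iteratedFDeriv ℝ 2 (u ∘ ψ α)) (Cs * Λ) := by
    intro α
    refine hsch (fun y => S.a α (lsJ (v ∘ ψ α) y)) (fun y => S.b α (lsJ (v ∘ ψ α) y)) (u ∘ ψ α)
      (fun y => S.F α (lsJ (v ∘ ψ α) y)) Λ hΛ (fun y hy => ?_) (fun y hy y' hy' => ?_)
      ((hu _ _ (hA.par α)).mono (hb4 α)) (fun y hy => ?_)
    · obtain ⟨a1, a2, a3, a4, -⟩ := (hco' α).1 y hy
      exact ⟨a1, a2, a3, a4⟩
    · exact (hco' α).2.1 y hy y' hy'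
    · refine ⟨hsup _ (if_mem (hA.par α) (hb4 α hy)), ((hco' α).1 y hy).2.2.2.2, ?_⟩
      rw [hE α y hy, one_mul]
  have h37 : Metric.closedBall (0 : E d) 3 ⊆ Metric.ball (0 : E d) (7 / 2) :=
    Metric.closedBall_subset_ball (by norm_num)
  exact ⟨fun α y hy j hj => (key α).1 y (h37 hy) j hj,
    fun α => (key α).2.mono_r (by norm_num)⟩

/-- **LS-CONT**. -/
theorem ls_cont (hP : IsMfd d P) (hc : IsCompact P) (hA : LsAtlas d P ψ U) (S : LsStr d m)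
    (hS : S.Ok U) (M ε : ℝ) (hε : 0 < ε) :
    ∃ δ : ℝ, 0 < δ ∧ ∀ v v' u u' : V → ℝ, SmoothAlong d P v → SmoothAlong d P v' →
      SmoothAlong d P u → SmoothAlong d P u' → LsLe ψ 1 v M → LsLe ψ 1 v' M →
      LsEq S ψ 1 v u → LsEq S ψ 1 v' u' → LsLe ψ 1 (fun x => v x - v' x) δ →
      LsLe ψ 1 (fun x => u x - u' x) ε := by
  obtain ⟨Ct, hCt, htm⟩ := ls_tm hA
  obtain ⟨lam, Λ, hlam, hΛ, hco⟩ := ls_coef S hS (fun α => ⟨(hA.par α).1, hA.big α⟩) (Ct * M)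
  obtain ⟨R, hR, hbd⟩ := ls_bound hP hc hA S hS M
  obtain ⟨δ1, hδ1, hint⟩ := ls_interp d (R + R) ε hε
  set c : ℝ := Λ * Ct + ((d : ℝ) * d + d) * (Λ * Ct * R) with hcdef
  have hc0 : 0 ≤ c := by positivity
  refine ⟨δ1 / (c + 1), by positivity, fun v v' u u' hv hv' hu hu' hvM hv'M hE hE' hδ => ?_⟩
  set δ : ℝ := δ1 / (c + 1) with hδdef
  have hδ0 : 0 < δ := by positivity
  have h4 := htm v M hv hvM
  have h4' := htm v' M hv' hv'M
  have hvv : SmoothAlong d P (fun x => v x - v' x) := fun φ W hφ => (hv φ W hφ).sub (hv' φ W hφ)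
  have h4d := htm _ δ hvv hδ
  have hb4 : ∀ α, Metric.ball (0 : E d) 4 ⊆ U α := fun α =>
    Metric.ball_subset_closedBall.trans (hA.big α)
  have h14 : Metric.ball (0 : E d) 1 ⊆ Metric.ball (0 : E d) 4 :=
    Metric.ball_subset_ball (by norm_num)
  have hco' := fun α => hco α (v ∘ ψ α) (v' ∘ ψ α) (ls_coef_hyp hA hv h4 α).1
    (ls_coef_hyp hA hv' h4' α).1 (ls_coef_hyp hA hv h4 α).2 (ls_coef_hyp hA hv' h4' α).2
  obtain ⟨hu3, huH⟩ := hbd v u hv hu hvM hE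
  obtain ⟨hu3', huH'⟩ := hbd v' u' hv' hu' hv'M hE'
  have hw : SmoothAlong d P (fun x => u x - u' x) := fun φ W hφ => (hu φ W hφ).sub (hu' φ W hφ)
  have hcda : ∀ (f : V → ℝ), SmoothAlong d P f → ∀ α, ∀ y ∈ Metric.ball (0 : E d) 4,
      ContDiffAt ℝ 2 (f ∘ ψ α) y := fun f hf α y hy =>
    ls_cda hA hf α le_rfl (Metric.ball_subset_closedBall hy) 2
  -- sup bound of the difference
  have hsup : ∀ x ∈ P, |u x - u' x| ≤ c * δ := by
    refine ls_maxp hP hc hA hw (fun α y => S.a α (lsJ (v ∘ ψ α) y))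
      (fun α y => S.b α (lsJ (v ∘ ψ α) y)) (fun α y hy => ?_) (c * δ) (fun α y hy => ?_)
    · exact (hS.a_pos α (lsJ (v ∘ ψ α) y) ⟨hb4 α (h14 hy), Set.mem_univ _⟩).posSemidef
    · have hy4 : y ∈ Metric.ball (0 : E d) 4 := h14 hy
      have h13 : Metric.ball (0 : E d) 1 ⊆ Metric.ball (0 : E d) 3 :=
        Metric.ball_subset_ball (by norm_num)
      have hy3 : y ∈ Metric.closedBall (0 : E d) 3 := Metric.ball_subset_closedBall (h13 hy)
      have e0 : (fun x => u x - u' x) ∘ ψ α = fun z => (u ∘ ψ α) z - (u' ∘ ψ α) z := rfl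
      rw [e0, lsOp_sub _ _ (hcda u hu α y hy4) (hcda u' hu' α y hy4), hE α y hy4, one_mul]
      obtain ⟨d1, d2, d3⟩ := (hco' α).2.2 y hy4 (Ct * δ) (fun j hj =>
        h4d α y (Metric.ball_subset_closedBall hy4) j (by omega))
      have e1 := hE' α y hy4
      rw [one_mul] at e1
      have e2 := lsOp_coef_sub_le (f := u' ∘ ψ α) (y := y) (κ := Λ * (Ct * δ)) (R := R)
        (by positivity) d1 d2
        (fun i j => (ls_p2_le (hcda u' hu' α y hy4) i j).trans (hu3' α y hy3 2 le_rfl))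
        (fun i => (ls_pdiff_le _ i y).trans (hu3' α y hy3 1 (by norm_num)))
      have e3 : S.F α (lsJ (v ∘ ψ α) y)
          - lsOp (S.a α (lsJ (v ∘ ψ α) y)) (S.b α (lsJ (v ∘ ψ α) y)) (u' ∘ ψ α) y
          = (S.F α (lsJ (v ∘ ψ α) y) - S.F α (lsJ (v' ∘ ψ α) y))
            - (lsOp (S.a α (lsJ (v ∘ ψ α) y)) (S.b α (lsJ (v ∘ ψ α) y)) (u' ∘ ψ α) y
              - lsOp (S.a α (lsJ (v' ∘ ψ α) y)) (S.b α (lsJ (v' ∘ ψ α) y)) (u' ∘ ψ α) y) := by
        rw [e1]; ring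
      rw [e3]
      refine (abs_sub _ _).trans ((add_le_add d3 e2).trans (le_of_eq ?_))
      rw [hcdef]; ring
  have hcδ : c * δ ≤ δ1 := by
    rw [hδdef, mul_div_assoc', div_le_iff₀ (by positivity)]
    nlinarith
  intro α y hy j hj
  have hb3 : Metric.ball (0 : E d) 3 ⊆ Metric.ball (0 : E d) 4 :=
    Metric.ball_subset_ball (by norm_num)
  have h12 : Metric.closedBall (0 : E d) 1 ⊆ Metric.closedBall (0 : E d) 2 :=
    Metric.closedBall_subset_closedBall (by norm_num)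
  refine hint ((fun x => u x - u' x) ∘ ψ α)
    (((hw _ _ (hA.par α)).mono (hb3.trans (hb4 α))).of_le rm_two_le) ?_ ?_ y
    (h12 hy) j hj
  · intro z hz z' hz'
    have e0 : (fun x => u x - u' x) ∘ ψ α = (u ∘ ψ α) - (u' ∘ ψ α) := rfl
    rw [e0, iteratedFDeriv_sub_apply (hcda u hu α z (hb3 hz)) (hcda u' hu' α z (hb3 hz)),
      iteratedFDeriv_sub_apply (hcda u hu α z' (hb3 hz')) (hcda u' hu' α z' (hb3 hz'))]
    have a1 := huH α z hz z' hz'
    have a2 := huH' α z hz z' hz'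
    calc _ = ‖(iteratedFDeriv ℝ 2 (u ∘ ψ α) z - iteratedFDeriv ℝ 2 (u ∘ ψ α) z')
          - (iteratedFDeriv ℝ 2 (u' ∘ ψ α) z - iteratedFDeriv ℝ 2 (u' ∘ ψ α) z')‖ := by
          congr 1; abel
      _ ≤ _ := norm_sub_le _ _
      _ ≤ R * ‖z - z'‖ ^ (1 / 2 : ℝ) + R * ‖z - z'‖ ^ (1 / 2 : ℝ) := add_le_add a1 a2
      _ = _ := by ring
  · intro z hz
    exact (hsup _ (if_mem (hA.par α) (hb4 α (hb3 hz)))).trans hcδ

end Claimed.Agent.R315
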