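import Claimed.Agent.R315.Ss.LsLinDefs
import Claimed.Agent.R315.Ss.MpA

/-!
# Row 315, paper S: package LS-FORM-B (#9784) `ls_lin_chart`, `ls_hv_met`, `ls_hv_inv`

LEVEL 0 `ls_l0` (self-adjoint): `Δ_{ĥ,t̂} z - z = F` on a closed manifold, from `gs_solve` (`Gs/Solve.lean`, helper209).
LEVEL 1 `ls_l1` (general linear): `Δ_{ĥ,t̂} u + Y u - u = f`, `Y` any smooth first order operator (`LsFirst`), from `ls_main` with `T v = (Δ_{ĥ,t̂} - 1)⁻¹ (f - Y v)`.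
LEVEL 2 `ss_ql` (`Ss/LsPf.lean`): `div_{h,t}(fl(σ)∇u) = b(x,u,σ)`, from `ls_main` with `T v = u`, `ssLin v u - u = b(x,v,σ_v) - v`,
   `ssLin v u = fl(σ_v) Δu + 2 fl'(σ_v) Hess u(∇v,∇v) - fl(σ_v)⟨dt,du⟩`,  `Hess u(∇v,∇v) = ⟨d⟨dv,du⟩,dv⟩ - ½⟨dσ_v,du⟩` (checked numerically),  `ssLin u u = ssDiv u`.
   The frozen operator is `Δ_{ĥ_v} + Y_v`, `ĥ_v = lsHv = h/fl - 2fl'/(fl (fl+2σfl')) dv²` (Sherman-Morrison: `ĥ_v⁻¹ = a(dv) = fl h⁻¹ + 2fl' ∇v⊗∇v`), `Y_v u := ssLin v u - Δ_{ĥ_v} u` is of first order.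

LS-FORM-B `ls_hv_met`, `ls_hv_inv` (~300 lines): `ssb_update`, Sherman-Morrison (`Matrix.inv_eq_right_inv`), positivity: `vᵀ a v = fl |v|² + 2fl' ⟨v,p⟩² ≥ min(fl, fl+2σfl')|v|²` in the `G⁻¹` norm (Cauchy-Schwarz when `fl' < 0`).
-/

set_option autoImplicit false
open scoped ContDiff Topology
open Claims.C0499

namespace Claimed.Agent.R315

variable {V : Type} [NormedAddCommGroup V] [NormedSpace ℝ V]
variable {d m : ℕ}

theorem ls_lin_chart [FiniteDimensional ℝ V] {M : Set V} {h : Ten V} {t v u : V → ℝ}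
    (hh : IsMetricOn d M h) (ht : SmoothAlong d M t) (hv : SmoothAlong d M v)
    (hu : SmoothAlong d M u) (fl : ℝ → ℝ) {ψ : E d → V} {U : Set (E d)} (hψ : IsParam M ψ U)
    {y : E d} (hy : y ∈ U) :
    ssLin d M h t fl v u (ψ y) = ssLinC (cm h ψ) (t ∘ ψ) fl (v ∘ ψ) (u ∘ ψ) y := by
  have hσ : SmoothAlong d M (gradSq d M h v) := if_gradSq_smoothAlong hh hv
  have hvu : SmoothAlong d M (gradIp d M h v u) := if_gradIp_smoothAlong hh hv hu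
  have he : gradSq d M h v ∘ ψ =ᶠ[nhds y] gradSqC (cm h ψ) (v ∘ ψ) := by
    filter_upwards [(if_open hψ).mem_nhds hy] with w hw
    exact if_gradSq_eq hh hv hψ hw
  have he2 : gradIp d M h v u ∘ ψ =ᶠ[nhds y] gradIpC (cm h ψ) (v ∘ ψ) (u ∘ ψ) := by
    filter_upwards [(if_open hψ).mem_nhds hy] with w hw
    exact if_gradIp_eq hh hv hu hψ hw
  unfold ssLin ssLinC
  rw [if_gradSq_eq hh hv hψ hy, if_lap_eq hh hu hψ hy, if_gradIp_eq hh hvu hv hψ hy,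
    if_gradIp_eq hh hσ hu hψ hy, if_gradIp_eq hh ht hu hψ hy,
    if_gradIpC_congr _ he Filter.EventuallyEq.rfl, if_gradIpC_congr _ he2 Filter.EventuallyEq.rfl]

/-- the matrix of `ĥ_v` in a chart. -/
noncomputable def lsHvC (A : Matrix (Fin d) (Fin d) ℝ) (p : Fin d → ℝ) (f0 f1 : ℝ) :
    Matrix (Fin d) (Fin d) ℝ :=
  (1 / f0) • A - (2 * f1 / (f0 * (f0 + 2 * sscm_sg A p * f1))) • sscm_pp p

/-- Sherman-Morrison for `ĥ_v`. -/
theorem ls_hvC_inv {A : Matrix (Fin d) (Fin d) ℝ} (hA : A.PosDef) (p : Fin d → ℝ) {f0 f1 : ℝ}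
    (h0 : 0 < f0) (h1 : 0 < f0 + 2 * sscm_sg A p * f1) :
    (lsHvC A p f0 f1)⁻¹ = f0 • A⁻¹ + (2 * f1) • sscm_pp (sscm_up A p) ∧
      (lsHvC A p f0 f1).det ≠ 0 := by
  have hA' : ((1 / f0) • A).PosDef := hA.smul (by positivity)
  have hu : IsUnit A.det := isUnit_iff_ne_zero.2 hA.det_pos.ne'
  have hinv : ((1 / f0) • A)⁻¹ = f0 • A⁻¹ := by
    refine Matrix.inv_eq_left_inv ?_
    rw [Matrix.smul_mul, Matrix.mul_smul, Matrix.nonsing_inv_mul A hu, smul_smul,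
      mul_one_div_cancel h0.ne', one_smul]
  have hsg : sscm_sg ((1 / f0) • A) p = f0 * sscm_sg A p := by
    unfold sscm_sg
    rw [hinv]
    simp only [Matrix.smul_apply, smul_eq_mul, Finset.mul_sum]
    exact Finset.sum_congr rfl fun i _ => Finset.sum_congr rfl fun j _ => by ring
  have hup : sscm_up ((1 / f0) • A) p = fun i => f0 * sscm_up A p i := by
    funext i
    unfold sscm_up
    rw [hinv]
    simp only [Matrix.smul_apply, smul_eq_mul, Finset.mul_sum]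
    exact Finset.sum_congr rfl fun j _ => by ring
  have e : lsHvC A p f0 f1 = (1 / f0) • A +
      (-(2 * f1 / (f0 * (f0 + 2 * sscm_sg A p * f1)))) • sscm_pp p := by
    unfold lsHvC
    rw [neg_smul, sub_eq_add_neg]
  have hκ : 1 + -(2 * f1 / (f0 * (f0 + 2 * sscm_sg A p * f1))) * sscm_sg ((1 / f0) • A) p =
      f0 / (f0 + 2 * sscm_sg A p * f1) := by
    rw [hsg]
    obtain ⟨D, hD⟩ : ∃ D, D = f0 + 2 * sscm_sg A p * f1 := ⟨_, rfl⟩
    rw [← hD] at h1 ⊢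
    field_simp
    rw [hD]; ring
  have hκ0 : 1 + -(2 * f1 / (f0 * (f0 + 2 * sscm_sg A p * f1))) * sscm_sg ((1 / f0) • A) p ≠ 0 := by
    rw [hκ]; positivity
  constructor
  · rw [e, sscm_r1_inv hA' p hκ0, hκ, hinv, hup]
    ext i j
    simp only [Matrix.sub_apply, Matrix.add_apply, Matrix.smul_apply, sscm_pp, Matrix.of_apply,
      smul_eq_mul]
    obtain ⟨D, hD⟩ : ∃ D, D = f0 + 2 * sscm_sg A p * f1 := ⟨_, rfl⟩
    rw [← hD] at h1 ⊢
    field_simp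
    ring
  · rw [e, sscm_r1_det hA' p, hκ]
    exact mul_ne_zero hA'.det_pos.ne' (by positivity)

theorem ls_hvC_pos {A : Matrix (Fin d) (Fin d) ℝ} (hA : A.PosDef) (p : Fin d → ℝ) {f0 f1 : ℝ}
    (h0 : 0 < f0) (h1 : 0 < f0 + 2 * sscm_sg A p * f1) : (lsHvC A p f0 f1).PosDef := by
  obtain ⟨hinv, hdet⟩ := ls_hvC_inv hA p h0 h1
  have hpsd := ssmp_psd hA p h0 h1
  rw [← hinv] at hpsd
  have hu : IsUnit (lsHvC A p f0 f1).det := isUnit_iff_ne_zero.2 hdet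
  have hu2 : IsUnit (lsHvC A p f0 f1)⁻¹ := by
    rw [Matrix.isUnit_iff_isUnit_det, Matrix.det_nonsing_inv]
    exact hu.ringInverse
  have := (hpsd.posDef_iff_isUnit.2 hu2).inv
  rwa [Matrix.nonsing_inv_nonsing_inv _ hu] at this

/-- coordinate matrix of `ĥ_v`. -/
theorem ls_hv_cm [FiniteDimensional ℝ V] {M : Set V} {h : Ten V} {v : V → ℝ}
    (hh : IsMetricOn d M h) (hv : SmoothAlong d M v) (fl : ℝ → ℝ)
    {ψ : E d → V} {U : Set (E d)} (hψ : IsParam M ψ U) {y : E d} (hy : y ∈ U) :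
    cm (lsHv d M h fl v) ψ y = lsHvC (cm h ψ y) (fun i => pdiff (v ∘ ψ) i y)
      (fl (gradSqC (cm h ψ) (v ∘ ψ) y)) (deriv fl (gradSqC (cm h ψ) (v ∘ ψ) y)) := by
  have e := if_gradSq_eq hh hv hψ hy
  ext i j
  have e2 := if_cm_dsqT hv hψ hy i j
  unfold lsHvC
  rw [sscm_sg_grad]
  simp only [Matrix.sub_apply, Matrix.smul_apply, sscm_pp, Matrix.of_apply, smul_eq_mul]
  rw [← e2, ← e]
  rfl

/-- **LS-FORM-B**. -/
theorem ls_hv_met [FiniteDimensional ℝ V] {M : Set V} {h : Ten V} {v : V → ℝ}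
    (hM : IsMfd d M) (hh : IsMetricOn d M h) (hv : SmoothAlong d M v) {fl : ℝ → ℝ}
    (hfl : IsFlux fl) : IsMetricOn d M (lsHv d M h fl v) := by
  intro ψ U hψ
  have hG := ssb_met hh hψ
  have hvs := hv ψ U hψ
  have hσs := sscm_sq_smooth hG hvs
  have hσ0 : ∀ w ∈ U, 0 ≤ gradSqC (cm h ψ) (v ∘ ψ) w := fun w hw => rm_sq_nonneg hG hw _
  have hσI : ∀ w ∈ U, gradSqC (cm h ψ) (v ∘ ψ) w ∈ Set.Ioi (-1 : ℝ) := fun w hw => by
    have := hσ0 w hw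
    show (-1 : ℝ) < _
    linarith
  have hfs : ContDiffOn ℝ ∞ (fun w => fl (gradSqC (cm h ψ) (v ∘ ψ) w)) U :=
    hfl.smooth.comp hσs hσI
  have hf's : ContDiffOn ℝ ∞ (fun w => deriv fl (gradSqC (cm h ψ) (v ∘ ψ) w)) U :=
    (hfl.smooth.deriv_of_isOpen isOpen_Ioi (by simp)).comp hσs hσI
  refine ⟨fun i j => ?_, fun w hw => ?_⟩
  · have e : ∀ w ∈ U, cm (lsHv d M h fl v) ψ w i j =
        1 / fl (gradSqC (cm h ψ) (v ∘ ψ) w) * cm h ψ w i j -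
          2 * deriv fl (gradSqC (cm h ψ) (v ∘ ψ) w) / (fl (gradSqC (cm h ψ) (v ∘ ψ) w) *
            (fl (gradSqC (cm h ψ) (v ∘ ψ) w) + 2 * gradSqC (cm h ψ) (v ∘ ψ) w *
              deriv fl (gradSqC (cm h ψ) (v ∘ ψ) w))) *
          (pdiff (v ∘ ψ) i w * pdiff (v ∘ ψ) j w) := by
      intro w hw
      rw [ls_hv_cm hh hv fl hψ hw]
      unfold lsHvC
      rw [sscm_sg_grad]
      simp only [Matrix.sub_apply, Matrix.smul_apply, sscm_pp, Matrix.of_apply, smul_eq_mul]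
    refine ContDiffOn.congr ?_ e
    refine ((contDiffOn_const.div hfs fun w hw => (hfl.pos _ (hσ0 w hw)).ne').mul
      (hG.smooth i j)).sub (((contDiffOn_const.mul hf's).div
        (hfs.mul (hfs.add ((contDiffOn_const.mul hσs).mul hf's))) fun w hw =>
          (mul_pos (hfl.pos _ (hσ0 w hw)) (hfl.ell _ (hσ0 w hw))).ne').mul
      ((rm_pdiff_smooth hG.opn hvs i).mul (rm_pdiff_smooth hG.opn hvs j)))
  · rw [ls_hv_cm hh hv fl hψ hw]
    exact ls_hvC_pos (hG.pos w hw) _ (hfl.pos _ (hσ0 w hw))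
      (by rw [sscm_sg_grad]; exact hfl.ell _ (hσ0 w hw))

theorem ls_hv_inv [FiniteDimensional ℝ V] {M : Set V} {h : Ten V} {v : V → ℝ}
    (hh : IsMetricOn d M h) (hv : SmoothAlong d M v) {fl : ℝ → ℝ} (hfl : IsFlux fl)
    {ψ : E d → V} {U : Set (E d)} (hψ : IsParam M ψ U) {y : E d} (hy : y ∈ U) :
    (cm (lsHv d M h fl v) ψ y)⁻¹ = lsA (cm h ψ) fl y fun i => pdiff (v ∘ ψ) i y := by
  have hG := ssb_met hh hψ
  have h0 := rm_sq_nonneg hG hy (v ∘ ψ)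
  rw [ls_hv_cm hh hv fl hψ hy, (ls_hvC_inv (hG.pos y hy) _ (hfl.pos _ h0)
    (by rw [sscm_sg_grad]; exact hfl.ell _ h0)).1]
  have hs : (fun i => pdiff (v ∘ ψ) i y) ⬝ᵥ (cm h ψ y)⁻¹.mulVec (fun i => pdiff (v ∘ ψ) i y) =
      gradSqC (cm h ψ) (v ∘ ψ) y := by
    unfold gradSqC
    simp only [dotProduct, Matrix.mulVec, Finset.mul_sum]
    exact Finset.sum_congr rfl fun i _ => Finset.sum_congr rfl fun j _ => by ring
  unfold lsA
  rw [hs, sscm_pp_eq]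
  rfl

end Claimed.Agent.R315
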