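import Claimed.Agent.R315.Ss.LsLinDefs
import Claimed.Agent.R315.Gs.Solve

/-!
# Row 315, paper S: package LS-L0 (#9782) `ls_l0`

LEVEL 0 `ls_l0` (self-adjoint): `Δ_{ĥ,t̂} z - z = F` on a closed manifold, from `gs_solve` (`Gs/Solve.lean`, helper209).
LEVEL 1 `ls_l1` (general linear): `Δ_{ĥ,t̂} u + Y u - u = f`, `Y` any smooth first order operator (`LsFirst`), from `ls_main` with `T v = (Δ_{ĥ,t̂} - 1)⁻¹ (f - Y v)`.
LEVEL 2 `ss_ql` (`Ss/LsPf.lean`): `div_{h,t}(fl(σ)∇u) = b(x,u,σ)`, from `ls_main` with `T v = u`, `ssLin v u - u = b(x,v,σ_v) - v`,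
   `ssLin v u = fl(σ_v) Δu + 2 fl'(σ_v) Hess u(∇v,∇v) - fl(σ_v)⟨dt,du⟩`,  `Hess u(∇v,∇v) = ⟨d⟨dv,du⟩,dv⟩ - ½⟨dσ_v,du⟩` (checked numerically),  `ssLin u u = ssDiv u`.
   The frozen operator is `Δ_{ĥ_v} + Y_v`, `ĥ_v = lsHv = h/fl - 2fl'/(fl (fl+2σfl')) dv²` (Sherman-Morrison: `ĥ_v⁻¹ = a(dv) = fl h⁻¹ + 2fl' ∇v⊗∇v`), `Y_v u := ssLin v u - Δ_{ĥ_v} u` is of first order.

LS-L0 `ls_l0` (~200 lines): `letI := borel V`.  `gs_solve` with `C = W = γ = 1` (`GsGap`: `gradIp φ φ = gradSq φ ≥ 0`, integrability `gs_B_integrable`), `F' = m - F ≥ 0`, `m = max_P |F|`; `z = z₁ - m` (`gs_wlap_*` rules of `Gs/Calc.lean`).  On a compact `P` every function is `CtCS`.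
-/

set_option autoImplicit false
open scoped ContDiff Topology
open Claims.C0499

namespace Claimed.Agent.R315

variable {V : Type} [NormedAddCommGroup V] [NormedSpace ℝ V]
variable {d m : ℕ}

/-- the gap of `|dφ|² + φ²`. -/
theorem ls_l0_gap [FiniteDimensional ℝ V] [MeasurableSpace V] [BorelSpace V] {P : Set V}
    {h : Ten V} {t : V → ℝ} (hG : GsGeo d P h t) :
    GsGap d P h t 1 (fun _ => 1) 1 := by
  intro φ hφ
  unfold gsN gsB
  rw [one_mul]
  refine MeasureTheory.integral_mono_ae (gs_N_integrable hG hφ.1 hφ)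
    (gs_B_integrable hG (gs_sm_const 1) hφ.1 hφ) ?_
  filter_upwards [gs_ae_mem hG] with x hx
  have h1 : 0 ≤ gradIp d P h φ φ x := gs_sq_nonneg hG.mfd hG.met hφ.1 hx
  show φ x * φ x ≤ 1 * gradIp d P h φ φ x + 1 * (φ x * φ x)
  linarith

/-- **LS-L0**. -/
theorem ls_l0 [FiniteDimensional ℝ V] {P : Set V} {h : Ten V} {t F : V → ℝ} (hP : IsMfd d P)
    (hc : IsCompact P) (hh : IsMetricOn d P h) (ht : SmoothAlong d P t)
    (hF : SmoothAlong d P F) :
    ∃ z : V → ℝ, SmoothAlong d P z ∧ ∀ x ∈ P, wlap d P h t z x - z x = F x := by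
  let _ : MeasurableSpace V := borel V
  have _ : BorelSpace V := ⟨rfl⟩
  have hG : GsGeo d P h t := (CtGeo.mk hP hh ht).gs
  obtain ⟨c, hcb⟩ := hc.exists_bound_of_continuousOn (if_smoothAlong_continuousOn hP hF)
  have hF' : SmoothAlong d P (fun x => c - F x) := gs_sm_sub (gs_sm_const c) hF
  have hcs : ∀ f : V → ℝ, CtCS P f := fun f => ⟨P, hc, subset_rfl, fun x hx hx' => absurd hx hx'⟩
  obtain ⟨z, hz, -, -, hzeq⟩ := gs_solve hG (gs_sm_const 1) one_pos one_pos (ls_l0_gap hG) hF'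
    (fun x hx => by
      have := hcb x hx
      rw [Real.norm_eq_abs] at this
      have := le_abs_self (F x)
      linarith)
    (gs_integrable hG (if_smoothAlong_continuousOn hP (gs_sm_pow hF' 2)) (hcs _))
  refine ⟨fun x => z x - c, gs_sm_sub hz (gs_sm_const c), fun x hx => ?_⟩
  rw [gs_wlap_sub hP hh ht hz (gs_sm_const c) hx, gs_wlap_const hP hh ht c hx]
  have := hzeq x hx
  linarith

end Claimed.Agent.R315
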