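import Claimed.Agent.R315.Ss.LsLinDefs
import Claimed.Agent.R315.Ss.LsOpCalc
import Claimed.Agent.R315.Pack006

/-!
# Row 315, paper S: small calculus facts for the levels 1, 2 (PROVED)
-/

set_option autoImplicit false
open scoped ContDiff Topology
open Claims.C0499

namespace Claimed.Agent.R315

variable {d : ℕ}

/-- smoothness of the first order coefficients `lsB`. -/
theorem ls_B_smooth {G : rm_MF d} {W : Set (E d)} (hG : rm_Met G W) {t : E d → ℝ}
    (ht : ContDiffOn ℝ ∞ t W) {A : E d → Matrix (Fin d) (Fin d) ℝ}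
    (hA : ∀ i j, ContDiffOn ℝ ∞ (fun y => A y i j) W) {c : E d → ℝ} (hc : ContDiffOn ℝ ∞ c W)
    (k : Fin d) : ContDiffOn ℝ ∞ (fun y => lsB G t (A y) (c y) y k) W := by
  unfold lsB
  refine ContDiffOn.sub (ContDiffOn.neg (ContDiffOn.sum fun i _ => ContDiffOn.sum fun j _ =>
    (hA i j).mul (rm_christoffel_smooth hG k i j))) (hc.mul (ContDiffOn.sum fun i _ =>
    (rm_inv_smooth hG k i).mul (rm_pdiff_smooth hG.opn ht i)))

theorem lsOp_add_B (A : Matrix (Fin d) (Fin d) ℝ) (B B' : Fin d → ℝ) (ξ : E d → ℝ) (y : E d) :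
    lsOp A (fun i => B i + B' i) ξ y = lsOp A B ξ y + ∑ i, B' i * pdiff ξ i y := by
  unfold lsOp
  simp only [add_mul, Finset.sum_add_distrib]
  ring

theorem ls_flux_one : IsFlux (fun _ => (1 : ℝ)) :=
  ⟨contDiffOn_const, fun _ _ => one_pos, fun σ _ => by simp⟩

theorem ls_divC_one (G : rm_MF d) (t ξ : E d → ℝ) (y : E d) :
    ssDivC G t (fun _ => 1) ξ y = lapC G ξ y - gradIpC G t ξ y := by
  unfold ssDivC
  simp

end Claimed.Agent.R315
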