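import Claimed.Agent.R315.Ss.LsLinDefs

/-!
# Row 315, paper S: package LS-REG (#9785) `ls_reg`: ASSEMBLY PROVED; one small leaf `ss_c2_hol` left here

ADAPTER to `Lib/Ell/Quasi.lean` `ell_quasi_smooth` with `A = ssQA G t fl`, `B'(y,z,p) = ssW G t y * B (y,z,p)` (`Ss/T1Defs.lean`), `𝒪 = ball 0 3 × ℝ × E d`.
Uses `ss_QA_smooth`, `ss_W_smooth` (`T1b`), `ss_QA_pos`, `ss_grad_apply` (`T1c`), `ss_QA_c1`, `ss_div_QA`, `ss_weak_of_div` (`T1d`).
LEAF `ss_c2_hol` (~80 lines): `u ∈ C²(U)` ⇒ `fderiv u` is `C¹` on `U` ⇒ Lipschitz on a small closed ball (`ContDiffAt.exists_lipschitzOnWith` for `fderiv ℝ u` at `x`, or the mean value inequality on a convex ball with the bound of the continuous `fderiv (fderiv u)` on a compact ball);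
 for `r ≤ 1/2`: `‖a-b‖ ≤ 1`, so `‖a-b‖ ≤ ‖a-b‖^(1/2)` (`Real.rpow_le_rpow_of_exponent_ge`-type).
-/

set_option autoImplicit false
open scoped ContDiff Topology RealInnerProductSpace Gradient
open Claims.C0499 Claimed.Agent.Lib.Ell

namespace Claimed.Agent.R315

variable {d m : ℕ}

/-- the differential of a `C²` function is locally Hölder. -/
theorem ss_c2_hol {W : Type} [NormedAddCommGroup W] [InnerProductSpace ℝ W] [FiniteDimensional ℝ W]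
    {U : Set W} (hU : IsOpen U) {u : W → ℝ} (hu : ContDiffOn ℝ 2 u U) {x : W} (hx : x ∈ U) :
    ∃ r > 0, ∃ K, HolOn (1 / 2) K (Metric.ball x r) (fderiv ℝ u) := by
  have h1 : ContDiffAt ℝ 2 u x := hu.contDiffAt (hU.mem_nhds hx)
  have h2 : ContDiffAt ℝ 1 (fderiv ℝ u) x := h1.fderiv_right (by norm_num)
  obtain ⟨K, t, ht, hK⟩ := h2.exists_lipschitzOnWith
  obtain ⟨ε, hε, hεt⟩ := Metric.mem_nhds_iff.1 ht
  refine ⟨min ε (1 / 2), lt_min hε (by norm_num), K, fun a ha b hb => ?_⟩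
  have ha' : a ∈ t := hεt (Metric.ball_subset_ball (min_le_left _ _) ha)
  have hb' : b ∈ t := hεt (Metric.ball_subset_ball (min_le_left _ _) hb)
  have h3 := hK.dist_le_mul a ha' b hb'
  rw [dist_eq_norm, dist_eq_norm] at h3
  have h4 : ‖a - b‖ ≤ 1 := by
    rw [← dist_eq_norm]
    have h5 : dist a x < 1 / 2 := lt_of_lt_of_le (Metric.mem_ball.1 ha) (min_le_right _ _)
    have h6 : dist b x < 1 / 2 := lt_of_lt_of_le (Metric.mem_ball.1 hb) (min_le_right _ _)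
    have h7 := dist_triangle_right a b x
    linarith
  have h8 : ‖a - b‖ ≤ ‖a - b‖ ^ (1 / 2 : ℝ) := by
    have := Real.rpow_le_rpow_of_exponent_ge' (norm_nonneg (a - b)) h4 (by norm_num : (0 : ℝ) ≤ 1 / 2)
      (by norm_num : (1 / 2 : ℝ) ≤ 1)
    rwa [Real.rpow_one] at this
  exact h3.trans (mul_le_mul_of_nonneg_left h8 K.coe_nonneg)

/-- **LS-REG**: `C^{2,1/2}` solutions are smooth. -/
theorem ls_reg {G : rm_MF d} {U : Set (E d)} (hG : rm_Met G U) {t : E d → ℝ}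
    (ht : ContDiffOn ℝ ∞ t U) {fl : ℝ → ℝ} (hfl : IsFlux fl) (hU : Metric.ball (0 : E d) 3 ⊆ U)
    {B : E d × ℝ × (Fin d → ℝ) → ℝ} (hB : ContDiffOn ℝ ∞ B (U ×ˢ Set.univ)) {ξ : E d → ℝ}
    (hξ : ContDiffOn ℝ 2 ξ (Metric.ball 0 3)) (_hH : ∃ R, LsH 3 (iteratedFDeriv ℝ 2 ξ) R)
    (heq : ∀ y ∈ Metric.ball (0 : E d) 3, ssDivC G t fl ξ y = B (lsJ ξ y)) :
    ContDiffOn ℝ ∞ ξ (Metric.ball 0 3) := by
  set U3 : Set (E d) := Metric.ball 0 3 with hU3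
  have hG3 : rm_Met G U3 :=
    ⟨Metric.isOpen_ball, fun i j => (hG.smooth i j).mono hU, fun u hu => hG.pos u (hU hu)⟩
  have ht3 : ContDiffOn ℝ ∞ t U3 := ht.mono hU
  set 𝒪 : Set (E d × ℝ × E d) := U3 ×ˢ Set.univ with h𝒪
  have h𝒪o : IsOpen 𝒪 := Metric.isOpen_ball.prod isOpen_univ
  set B' : E d × ℝ × E d → ℝ :=
    fun ζ => ssW G t ζ.1 * B (ζ.1, ζ.2.1, (ζ.2.2 : Fin d → ℝ)) with hB'
  have hlin : ContDiff ℝ ∞ (fun ζ : E d × ℝ × E d => (ζ.1, ζ.2.1, (ζ.2.2 : Fin d → ℝ))) := by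
    refine contDiff_fst.prodMk ((contDiff_fst.comp contDiff_snd).prodMk ?_)
    exact (PiLp.continuousLinearEquiv 2 ℝ (fun _ : Fin d => ℝ)).contDiff.comp
      (contDiff_snd.comp contDiff_snd)
  have hB's : ContDiffOn ℝ ∞ B' 𝒪 := by
    refine ContDiffOn.mul ?_ ?_
    · exact (ss_W_smooth hG3 ht3).comp contDiff_fst.contDiffOn fun ζ hζ => hζ.1
    · exact hB.comp hlin.contDiffOn fun ζ hζ => ⟨hU hζ.1, Set.mem_univ _⟩
  refine ell_quasi_smooth (U := U3) Metric.isOpen_ball h𝒪o (A := ssQA G t fl) (B := B') (u := ξ)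
    (α := 1 / 2) (by norm_num) (ss_QA_smooth hG3 ht3 hfl) hB's
    (fun ζ hζ => (ss_QA_pos hG3 ht3 hfl hζ.1).1) (fun ζ hζ => (ss_QA_pos hG3 ht3 hfl hζ.1).2)
    (hξ.of_le (by norm_num)) (fun x hx => ⟨hx, Set.mem_univ _⟩)
    (fun x hx => ss_c2_hol Metric.isOpen_ball hξ hx) ?_
  refine ss_weak_of_div Metric.isOpen_ball (ss_QA_c1 hG3 ht3 hξ hfl) fun x hx => ?_
  rw [ss_div_QA hG3 ht3 hξ hfl hx, heq x hx]
  have : lsJ ξ x = (x, ξ x, ((∇ ξ x : E d) : Fin d → ℝ)) := by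
    unfold lsJ
    congr 2
    funext i
    exact (ss_grad_apply ξ x i).symm
  rw [this]

end Claimed.Agent.R315
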