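import Claimed.Agent.R315.Ss.LsL0
import Claimed.Agent.R315.Ss.LsFormA
import Claimed.Agent.R315.Ss.LsReg
import Claimed.Agent.R315.Ss.LsLinCalc

/-!
# Row 315, paper S: package LS-L1 (#9786) `ls_l1`: PROVED

LEVEL 0 `ls_l0` (self-adjoint): `Δ_{ĥ,t̂} z - z = F` on a closed manifold, from `gs_solve` (`Gs/Solve.lean`, helper209).
LEVEL 1 `ls_l1` (general linear): `Δ_{ĥ,t̂} u + Y u - u = f`, `Y` any smooth first order operator (`LsFirst`), from `ls_main` with `T v = (Δ_{ĥ,t̂} - 1)⁻¹ (f - Y v)`.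
LEVEL 2 `ss_ql` (`Ss/LsPf.lean`): `div_{h,t}(fl(σ)∇u) = b(x,u,σ)`, from `ls_main` with `T v = u`, `ssLin v u - u = b(x,v,σ_v) - v`,
   `ssLin v u = fl(σ_v) Δu + 2 fl'(σ_v) Hess u(∇v,∇v) - fl(σ_v)⟨dt,du⟩`,  `Hess u(∇v,∇v) = ⟨d⟨dv,du⟩,dv⟩ - ½⟨dσ_v,du⟩` (checked numerically),  `ssLin u u = ssDiv u`.
   The frozen operator is `Δ_{ĥ_v} + Y_v`, `ĥ_v = lsHv = h/fl - 2fl'/(fl (fl+2σfl')) dv²` (Sherman-Morrison: `ĥ_v⁻¹ = a(dv) = fl h⁻¹ + 2fl' ∇v⊗∇v`), `Y_v u := ssLin v u - Δ_{ĥ_v} u` is of first order.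

Plan at the statement.
-/

set_option autoImplicit false
open scoped ContDiff Topology
open Claims.C0499

namespace Claimed.Agent.R315

variable {V : Type} [NormedAddCommGroup V] [NormedSpace ℝ V]
variable {d m : ℕ}

/-- **LS-L1**: general linear equations on a closed manifold. -/
theorem ls_l1 [FiniteDimensional ℝ V] {P : Set V} {h : Ten V} {t f : V → ℝ}
    {Y : (V → ℝ) → V → ℝ} (hP : IsMfd d P) (hc : IsCompact P) (hh : IsMetricOn d P h)
    (ht : SmoothAlong d P t) (hY : LsFirst d P Y) (hf : SmoothAlong d P f) :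
    ∃ u : V → ℝ, SmoothAlong d P u ∧ ∀ x ∈ P, wlap d P h t u x + Y u x - u x = f x := by
  obtain ⟨m, ψ, U, hA⟩ := ls_atlas hP hc
  have hG : ∀ α, rm_Met (cm h (ψ α)) (U α) := fun α => ssb_met hh (hA.par α)
  choose β hβs hβ using fun α => hY.2 (ψ α) (U α) (hA.par α)
  have hb4 : ∀ α, Metric.ball (0 : E d) 4 ⊆ U α := fun α =>
    Metric.ball_subset_closedBall.trans (hA.big α)
  have hfst : ∀ α, Set.MapsTo (fun q : E d × ℝ × (Fin d → ℝ) => q.1)
      (U α ×ˢ (Set.univ : Set (ℝ × (Fin d → ℝ)))) (U α) := fun α q hq => hq.1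
  have hcomp : ∀ (α : Fin m) (k : E d → ℝ), ContDiffOn ℝ ∞ k (U α) →
      ContDiffOn ℝ ∞ (fun q : E d × ℝ × (Fin d → ℝ) => k q.1)
        (U α ×ˢ (Set.univ : Set (ℝ × (Fin d → ℝ)))) := fun α k hk =>
    hk.comp contDiff_fst.contDiffOn (hfst α)
  -- the coefficient functions of `y`
  let a0 : Fin m → E d → Matrix (Fin d) (Fin d) ℝ := fun α y => (cm h (ψ α) y)⁻¹
  let b0 : Fin m → E d → Fin d → ℝ := fun α y =>
    lsB (cm h (ψ α)) (t ∘ ψ α) ((cm h (ψ α) y)⁻¹) 1 y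
  have ha0 : ∀ α i j, ContDiffOn ℝ ∞ (fun y => a0 α y i j) (U α) := fun α i j =>
    rm_inv_smooth (hG α) i j
  have hb0 : ∀ α i, ContDiffOn ℝ ∞ (fun y => b0 α y i) (U α) := fun α i =>
    ls_B_smooth (hG α) (ht _ _ (hA.par α)) (fun a b => rm_inv_smooth (hG α) a b)
      contDiffOn_const i
  have hpos : ∀ α, ∀ y ∈ U α, (a0 α y).PosDef := fun α y hy => ((hG α).pos y hy).inv
  let S : LsStr d m :=
    { a := fun α q => a0 α q.1
      b := fun α q => b0 α q.1
      F := fun α q => f (ψ α q.1) - ∑ i, β α i q.1 * q.2.2 i }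
  have hS : S.Ok U :=
    { a_s := fun α i j => hcomp α _ (ha0 α i j)
      b_s := fun α i => hcomp α _ (hb0 α i)
      F_s := fun α => (hcomp α _ (hf _ _ (hA.par α))).sub (ContDiffOn.sum fun i _ =>
        (hcomp α _ (hβs α i)).mul
          ((contDiff_apply ℝ ℝ i).comp (contDiff_snd.comp contDiff_snd)).contDiffOn)
      a_pos := fun α q hq => hpos α q.1 hq.1 }
  -- auxiliary structures for the constants
  let S1 : LsStr d m :=
    { a := fun α q => a0 α q.1, b := fun α q => b0 α q.1, F := fun α q => f (ψ α q.1) }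
  have hS1 : S1.Ok U :=
    { a_s := fun α i j => hcomp α _ (ha0 α i j)
      b_s := fun α i => hcomp α _ (hb0 α i)
      F_s := fun α => hcomp α _ (hf _ _ (hA.par α))
      a_pos := fun α q hq => hpos α q.1 hq.1 }
  let S2 : LsStr d m :=
    { a := fun α q => a0 α q.1, b := fun α q i => β α i q.1, F := fun _ _ => 0 }
  have hS2 : S2.Ok U :=
    { a_s := fun α i j => hcomp α _ (ha0 α i j)
      b_s := fun α i => hcomp α _ (hβs α i)
      F_s := fun α => contDiffOn_const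
      a_pos := fun α q hq => hpos α q.1 hq.1 }
  -- translation
  have key : ∀ (σ : ℝ) (v u : V → ℝ), SmoothAlong d P v → SmoothAlong d P u → ∀ α, ∀ y ∈ U α,
      (lsOp (S.a α (lsJ (v ∘ ψ α) y)) (S.b α (lsJ (v ∘ ψ α) y)) (u ∘ ψ α) y
          = σ * S.F α (lsJ (v ∘ ψ α) y) ↔
        wlap d P h t u (ψ α y) - u (ψ α y) = σ * (f (ψ α y) - Y v (ψ α y))) := by
    intro σ v u hv hu α y hy
    have e1 := ls_lapC_form (hG α) (ht _ _ (hA.par α)) ((hu _ _ (hA.par α)).of_le rm_two_le) hy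
    have e2 : wlap d P h t u (ψ α y) = lapC (cm h (ψ α)) (u ∘ ψ α) y
        - gradIpC (cm h (ψ α)) (t ∘ ψ α) (u ∘ ψ α) y := by
      unfold wlap
      rw [if_lap_eq hh hu (hA.par α) hy, if_gradIp_eq hh ht hu (hA.par α) hy]
    have e3 : S.F α (lsJ (v ∘ ψ α) y) = f (ψ α y) - Y v (ψ α y) := by
      rw [hβ α v hv y hy]
      rfl
    rw [e3, e2]
    show lsOp ((cm h (ψ α) y)⁻¹) (lsB (cm h (ψ α)) (t ∘ ψ α) ((cm h (ψ α) y)⁻¹) 1 y) (u ∘ ψ α) y
      = _ ↔ _
    rw [← e1]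
    rfl
  -- constants
  have hUo : ∀ α, IsOpen (U α) ∧ Metric.closedBall (0 : E d) 4 ⊆ U α := fun α =>
    ⟨(hA.par α).1, hA.big α⟩
  obtain ⟨lam1, Λ1, hlam1, hΛ1, hco1⟩ := ls_coef S1 hS1 hUo 0
  obtain ⟨lam2, Λ2, -, hΛ2, hco2⟩ := ls_coef S2 hS2 hUo 0
  have hz : ContDiffOn ℝ ∞ (fun _ : E d => (0 : ℝ)) (Metric.ball 0 4) := contDiffOn_const
  have hz' : ∀ y ∈ Metric.ball (0 : E d) 4, ∀ j ≤ 2,
      ‖iteratedFDeriv ℝ j (fun _ : E d => (0 : ℝ)) y‖ ≤ 0 := by
    intro y _ j _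
    have : iteratedFDeriv ℝ j (fun _ : E d => (0 : ℝ)) y = 0 := by
      have h0 : (fun _ : E d => (0 : ℝ)) = 0 := rfl
      rw [h0]
      simp
    rw [this, norm_zero]
  have c1 := fun α => hco1 α _ _ hz hz hz' hz'
  have c2 := fun α => hco2 α _ _ hz hz hz' hz'
  obtain ⟨Cs, hCs, hsch⟩ := ls_sch d lam1 (Λ1 + Λ2) 2 4 hlam1 (by norm_num) (by norm_num) le_rfl
  have h14 : Metric.ball (0 : E d) 1 ⊆ Metric.ball (0 : E d) 4 :=
    Metric.ball_subset_ball (by norm_num)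
  obtain ⟨x, hx, hE⟩ := ls_main hP hc hA S hS
    (by
      intro v hv
      have hF' : SmoothAlong d P (fun x => f x - Y v x) := fun φ W hφ =>
        (hf φ W hφ).sub (hY.1 v hv φ W hφ)
      obtain ⟨z, hz, he⟩ := ls_l0 hP hc hh ht hF'
      refine ⟨z, hz, fun α y hy => ?_⟩
      rw [key 1 v z hv hz α y (hb4 α hy), one_mul]
      exact he _ (if_mem (hA.par α) (hb4 α hy)))
    (Cs * Λ1)
    (by
      intro σ hσ x hx hE
      -- the equation with the first order term on the left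
      have heq : ∀ α, ∀ y ∈ Metric.ball (0 : E d) 4,
          lsOp (a0 α y) (fun i => b0 α y i + σ * β α i y) (x ∘ ψ α) y = σ * f (ψ α y) := by
        intro α y hy
        have := hE α y hy
        rw [lsOp_add_B]
        have e : lsOp (a0 α y) (b0 α y) (x ∘ ψ α) y
            = σ * (f (ψ α y) - ∑ i, β α i y * pdiff (x ∘ ψ α) i y) := this
        rw [e, mul_sub, Finset.mul_sum]
        simp only [mul_assoc]
        ring
      have hσa : |σ| ≤ 1 := by rw [abs_of_nonneg hσ.1]; exact hσ.2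
      have hsup : ∀ z ∈ P, |x z| ≤ Λ1 := by
        refine ls_maxp hP hc hA hx a0 (fun α y i => b0 α y i + σ * β α i y)
          (fun α y hy => (hpos α y (hb4 α (h14 hy))).posSemidef) Λ1 (fun α y hy => ?_)
        rw [heq α y (h14 hy), abs_mul]
        have := ((c1 α).1 y (h14 hy)).2.2.2.2
        calc |σ| * |f (ψ α y)| ≤ 1 * Λ1 := mul_le_mul hσa this (abs_nonneg _) zero_le_one
          _ = Λ1 := one_mul _
      intro α y hy j hj
      have h12 : Metric.closedBall (0 : E d) 1 ⊆ Metric.ball (0 : E d) 2 :=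
        Metric.closedBall_subset_ball (by norm_num)
      refine (hsch (a0 α) (fun y i => b0 α y i + σ * β α i y) (x ∘ ψ α)
        (fun y => σ * f (ψ α y)) Λ1 hΛ1 (fun y hy => ?_) (fun y hy y' hy' => ?_)
        ((hx _ _ (hA.par α)).mono (hb4 α)) (fun y hy => ?_)).1 y (h12 hy) j hj
      · obtain ⟨p1, p2, p3, p4, -⟩ := (c1 α).1 y hy
        obtain ⟨-, -, -, q4, -⟩ := (c2 α).1 y hy
        refine ⟨p1, p2, fun i j => (p3 i j).trans (by linarith), fun i => ?_⟩
        refine (abs_add_le _ _).trans (add_le_add (p4 i) ?_)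
        rw [abs_mul]
        calc |σ| * |β α i y| ≤ 1 * Λ2 := mul_le_mul hσa (q4 i) (abs_nonneg _) zero_le_one
          _ = Λ2 := one_mul _
      · obtain ⟨p1, p2, p3⟩ := (c1 α).2.1 y hy y' hy'
        obtain ⟨-, q2, -⟩ := (c2 α).2.1 y hy y' hy'
        have hn := norm_nonneg (y - y')
        refine ⟨fun i j => (p1 i j).trans (mul_le_mul_of_nonneg_right (by linarith) hn),
          fun i => ?_, ?_⟩
        · have e : b0 α y i + σ * β α i y - (b0 α y' i + σ * β α i y')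
              = (b0 α y i - b0 α y' i) + σ * (β α i y - β α i y') := by ring
          rw [e, add_mul]
          refine (abs_add_le _ _).trans (add_le_add (p2 i) ?_)
          rw [abs_mul]
          calc |σ| * |β α i y - β α i y'| ≤ 1 * (Λ2 * ‖y - y'‖) :=
                mul_le_mul hσa (q2 i) (abs_nonneg _) zero_le_one
            _ = _ := one_mul _
        · rw [← mul_sub, abs_mul]
          calc |σ| * |f (ψ α y) - f (ψ α y')| ≤ 1 * (Λ1 * ‖y - y'‖) :=
                mul_le_mul hσa p3 (abs_nonneg _) zero_le_one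
            _ = _ := one_mul _
      · refine ⟨hsup _ (if_mem (hA.par α) (hb4 α hy)), ?_, heq α y hy⟩
        rw [abs_mul]
        calc |σ| * |f (ψ α y)| ≤ 1 * Λ1 :=
              mul_le_mul hσa ((c1 α).1 y hy).2.2.2.2 (abs_nonneg _) zero_le_one
          _ = Λ1 := one_mul _)
    (by
      intro σ _ α ξ hξ hH hE
      have hb3 : Metric.ball (0 : E d) 3 ⊆ U α :=
        (Metric.ball_subset_ball (by norm_num)).trans (hb4 α)
      have hG3 : rm_Met (cm h (ψ α)) (Metric.ball 0 3) :=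
        ⟨Metric.isOpen_ball, fun i j => ((hG α).smooth i j).mono hb3,
          fun u hu => (hG α).pos u (hb3 hu)⟩
      refine ls_reg (hG α) (ht _ _ (hA.par α)) ls_flux_one hb3
        (B := fun q => q.2.1 + σ * S.F α q) ?_ hξ hH ?_
      · exact (contDiff_fst.comp contDiff_snd).contDiffOn.add (contDiffOn_const.mul (hS.F_s α))
      · intro y hy
        have e1 := ls_lapC_form hG3 ((ht _ _ (hA.par α)).mono hb3) hξ hy
        have e2 : lsOp ((cm h (ψ α) y)⁻¹) (lsB (cm h (ψ α)) (t ∘ ψ α) ((cm h (ψ α) y)⁻¹) 1 y) ξ y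
            = σ * S.F α (lsJ ξ y) := hE y hy
        rw [ls_divC_one]
        show _ = ξ y + σ * S.F α (lsJ ξ y)
        rw [← e2, ← e1]
        ring)
  refine ⟨x, hx, fun z hz => ?_⟩
  obtain ⟨α, y, hy, rfl⟩ := Set.mem_iUnion.1 (hA.cov hz)
  have := (key 1 x x hx hx α y (hb4 α (h14 hy))).1 (hE α y (h14 hy))
  linarith

end Claimed.Agent.R315
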