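import Claimed.Agent.R315.Ss.LsL1
import Claimed.Agent.R315.Ss.LsFormB
import Claimed.Agent.R315.Ss.T1Class
import Claimed.Agent.R315.Ss.LsOpCalc
import Claimed.Agent.R315.Pack006

/-!
# Row 315, paper S: package LS-L2 (#9787) `ls_l2_sol`, `ls_l2_ap`: PROVED

LEVEL 0 `ls_l0` (self-adjoint): `Δ_{ĥ,t̂} z - z = F` on a closed manifold, from `gs_solve` (`Gs/Solve.lean`, helper209).
LEVEL 1 `ls_l1` (general linear): `Δ_{ĥ,t̂} u + Y u - u = f`, `Y` any smooth first order operator (`LsFirst`), from `ls_main` with `T v = (Δ_{ĥ,t̂} - 1)⁻¹ (f - Y v)`.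
LEVEL 2 `ss_ql` (`Ss/LsPf.lean`): `div_{h,t}(fl(σ)∇u) = b(x,u,σ)`, from `ls_main` with `T v = u`, `ssLin v u - u = b(x,v,σ_v) - v`,
   `ssLin v u = fl(σ_v) Δu + 2 fl'(σ_v) Hess u(∇v,∇v) - fl(σ_v)⟨dt,du⟩`,  `Hess u(∇v,∇v) = ⟨d⟨dv,du⟩,dv⟩ - ½⟨dσ_v,du⟩` (checked numerically),  `ssLin u u = ssDiv u`.
   The frozen operator is `Δ_{ĥ_v} + Y_v`, `ĥ_v = lsHv = h/fl - 2fl'/(fl (fl+2σfl')) dv²` (Sherman-Morrison: `ĥ_v⁻¹ = a(dv) = fl h⁻¹ + 2fl' ∇v⊗∇v`), `Y_v u := ssLin v u - Δ_{ĥ_v} u` is of first order.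

Plans at the statements.
-/

set_option autoImplicit false
open scoped ContDiff Topology
open Claims.C0499

namespace Claimed.Agent.R315

variable {V : Type} [NormedAddCommGroup V] [NormedSpace ℝ V]
variable {d m : ℕ}

theorem ls_dfl_smooth {fl : ℝ → ℝ} (hfl : IsFlux fl) : ContDiffOn ℝ ∞ (deriv fl) (Set.Ioi (-1)) :=
  hfl.smooth.deriv_of_isOpen isOpen_Ioi (by simp)

/-- `ssLin v u` is smooth along `P`. -/
theorem ls_lin_smooth [FiniteDimensional ℝ V] {P : Set V} {h : Ten V} {t v u : V → ℝ}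
    (hP : IsMfd d P) (hh : IsMetricOn d P h) (ht : SmoothAlong d P t) {fl : ℝ → ℝ}
    (hfl : IsFlux fl) (hv : SmoothAlong d P v) (hu : SmoothAlong d P u) :
    SmoothAlong d P (ssLin d P h t fl v u) := by
  have hσ := if_gradSq_smoothAlong hh hv
  have hσI : ∀ x ∈ P, gradSq d P h v x ∈ Set.Ioi (-1 : ℝ) := fun x hx => by
    have := gs_sq_nonneg hP hh hv hx
    show (-1 : ℝ) < _
    linarith
  have h1 := gs_sm_comp hfl.smooth hσ hσI
  have h2 := gs_sm_comp (ls_dfl_smooth hfl) hσ hσI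
  have h3 := if_lap_smoothAlong hh hu
  have h4 := if_gradIp_smoothAlong hh (if_gradIp_smoothAlong hh hv hu) hv
  have h5 := if_gradIp_smoothAlong hh hσ hu
  have h6 := if_gradIp_smoothAlong hh ht hu
  intro φ W hφ
  have := (((h1 φ W hφ).mul (h3 φ W hφ)).add
    ((contDiffOn_const (c := (2 : ℝ))).mul (h2 φ W hφ) |>.mul
      ((h4 φ W hφ).sub ((h5 φ W hφ).div_const 2)))).sub ((h1 φ W hφ).mul (h6 φ W hφ))
  exact this

/-- **LS-L2SOL**: the frozen problem is solvable. -/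
theorem ls_l2_sol [FiniteDimensional ℝ V] {P : Set V} {h : Ten V} {t v g : V → ℝ}
    (hP : IsMfd d P) (hc : IsCompact P) (hh : IsMetricOn d P h) (ht : SmoothAlong d P t)
    {fl : ℝ → ℝ} (hfl : IsFlux fl) (hv : SmoothAlong d P v) (hg : SmoothAlong d P g) :
    ∃ u : V → ℝ, SmoothAlong d P u ∧ ∀ x ∈ P, ssLin d P h t fl v u x - u x = g x := by
  have hĥ : IsMetricOn d P (lsHv d P h fl v) := ls_hv_met hP hh hv hfl
  have h0 : SmoothAlong d P (fun _ : V => (0 : ℝ)) := gs_sm_const 0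
  have hY : LsFirst d P (fun u x => ssLin d P h t fl v u x - lap d P (lsHv d P h fl v) u x) := by
    refine ⟨fun u hu φ W hφ => (ls_lin_smooth hP hh ht hfl hv hu φ W hφ).sub
      (if_lap_smoothAlong hĥ hu φ W hφ), fun φ W hφ => ?_⟩
    have hG := ssb_met hh hφ
    have hĜ := ssb_met hĥ hφ
    have hts := ht φ W hφ
    have hvs := hv φ W hφ
    have hσs : ContDiffOn ℝ ∞ (fun y => fl (gradSqC (cm h φ) (v ∘ φ) y)) W := by
      have h1 := gs_sm_comp hfl.smooth (if_gradSq_smoothAlong hh hv) (fun x hx => by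
        have := gs_sq_nonneg hP hh hv hx
        show (-1 : ℝ) < _
        linarith) φ W hφ
      exact h1.congr fun y hy => by
        show _ = fl (gradSq d P h v (φ y))
        rw [if_gradSq_eq hh hv hφ hy]
    refine ⟨fun i y => lsB (cm h φ) (t ∘ φ) ((cm (lsHv d P h fl v) φ y)⁻¹)
        (fl (gradSqC (cm h φ) (v ∘ φ) y)) y i
      - lsB (cm (lsHv d P h fl v) φ) (fun _ => 0) ((cm (lsHv d P h fl v) φ y)⁻¹) 1 y i,
      fun i => ?_, fun u hu y hy => ?_⟩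
    · exact (ls_B_smooth hG hts (fun a b => rm_inv_smooth hĜ a b) hσs i).sub
        (ls_B_smooth hĜ contDiffOn_const (fun a b => rm_inv_smooth hĜ a b) contDiffOn_const i)
    · have hus := hu φ W hφ
      have e1 := ls_linC_form hG hts (hvs.of_le rm_two_le) (hus.of_le rm_two_le) fl hy
      have e2 := ls_lapC_form hĜ (t := fun _ => 0) contDiffOn_const (hus.of_le rm_two_le) hy
      rw [rm_ip_const_left, sub_zero] at e2
      rw [← ls_hv_inv hh hv hfl hφ hy] at e1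
      have e3 := lsOp_coef_sub ((cm (lsHv d P h fl v) φ y)⁻¹) ((cm (lsHv d P h fl v) φ y)⁻¹)
        (lsB (cm h φ) (t ∘ φ) ((cm (lsHv d P h fl v) φ y)⁻¹) (fl (gradSqC (cm h φ) (v ∘ φ) y)) y)
        (lsB (cm (lsHv d P h fl v) φ) (fun _ => 0) ((cm (lsHv d P h fl v) φ y)⁻¹) 1 y) (u ∘ φ) y
      rw [← e1, ← e2] at e3
      simp only [sub_self, zero_mul, Finset.sum_const_zero, zero_add] at e3
      beta_reduce
      rw [ls_lin_chart hh ht hv hu fl hφ hy, if_lap_eq hĥ hu hφ hy, ← e3]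
      ring
  obtain ⟨u, hu, he⟩ := ls_l1 hP hc hĥ h0 hY hg
  refine ⟨u, hu, fun x hx => ?_⟩
  have := he x hx
  unfold wlap at this
  rw [gs_ip_const_left hP hĥ 0 hu hx] at this
  linarith

theorem SsT1Data.mono_lam {R lam lam' K : ℝ} {Λ : ℕ → ℝ} {G : rm_MF d} {t : E d → ℝ}
    {b : E d → ℝ → ℝ → ℝ} (h : SsT1Data d R lam K Λ G t b) (hl : lam' ≤ lam) :
    SsT1Data d R lam' K Λ G t b :=
  { h with
    ell := fun y hy v => by
      have h0 : 0 ≤ v ⬝ᵥ v := by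
        rw [dotProduct]
        exact Finset.sum_nonneg fun i _ => mul_self_nonneg _
      exact (mul_le_mul_of_nonneg_right hl h0).trans (h.ell y hy v) }

/-- **LS-L2AP**: from `C¹` to `C²` a priori bounds, uniformly in `τ`. -/
theorem ls_l2_ap [FiniteDimensional ℝ V] {P : Set V} {h : Ten V} {t : V → ℝ} {fl : ℝ → ℝ}
    {b : V → ℝ → ℝ → ℝ} {ψ : Fin m → E d → V} {U : Fin m → Set (E d)} (hd : 2 ≤ d) (_hP : IsMfd d P)
    (_hc : IsCompact P) (hA : LsAtlas d P ψ U) (hh : IsMetricOn d P h) (ht : SmoothAlong d P t)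
    (hfl : IsFlux fl) (hb : SmoothAlong3 d P b) (K : ℝ) :
    ∃ M0 : ℝ, ∀ τ ∈ Set.Icc (0 : ℝ) 1, ∀ u : V → ℝ, SmoothAlong d P u →
      (∀ x ∈ P, ssDiv d P h t fl u x = τ * b x (u x) (gradSq d P h u x) + (1 - τ) * u x) →
      (∀ x ∈ P, |u x| ≤ K ∧ gradSq d P h u x ≤ K) → LsLe ψ 1 u M0 := by
  have key : ∀ (α : Fin m) (k : ℕ), ∃ C : ℝ, ∀ τ ∈ Set.Icc (0 : ℝ) 1, ∀ u : V → ℝ,
      SmoothAlong d P u →
      (∀ x ∈ P, ssDiv d P h t fl u x = τ * b x (u x) (gradSq d P h u x) + (1 - τ) * u x) →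
      (∀ x ∈ P, |u x| ≤ K ∧ gradSq d P h u x ≤ K) →
      ∀ y ∈ Metric.ball (0 : E d) 2, ‖iteratedFDeriv ℝ k (u ∘ ψ α) y‖ ≤ C := by
    intro α k
    have hG := ssb_met hh (hA.par α)
    have hts := ht _ _ (hA.par α)
    obtain ⟨lam1, Λ1, hl1, hD1⟩ := ss_class_of_compact hG hts
      (b := fun y z σ => b (ψ α y) z σ) (hb _ _ (hA.par α)) (hA.big α) K
    obtain ⟨lam2, Λ2, hl2, hD2⟩ := ss_class_of_compact hG hts
      (b := fun _ z _ => z) (contDiff_fst.comp contDiff_snd).contDiffOn (hA.big α) K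
    obtain ⟨C, hC⟩ := ss_T1 d hd 2 4 (min lam1 lam2) K (by norm_num) (by norm_num)
      (lt_min hl1 hl2) (fun j => Λ1 j + Λ2 j) fl hfl k
    refine ⟨C, fun τ hτ u hu heq hbd y hy => ?_⟩
    have hb4 : Metric.ball (0 : E d) 4 ⊆ U α := Metric.ball_subset_closedBall.trans (hA.big α)
    refine hC (cm h (ψ α)) (t ∘ ψ α) (u ∘ ψ α) _
      ((hD1.mono_lam (min_le_left _ _)).combo (hD2.mono_lam (min_le_right _ _)) hτ)
      ((hu _ _ (hA.par α)).mono hb4) (fun z hz => ?_) (fun z hz => ?_) y hy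
    · have := hbd _ (if_mem (hA.par α) (hb4 hz))
      rw [if_gradSq_eq hh hu (hA.par α) (hb4 hz)] at this
      exact this
    · rw [← ssb_div hh ht hu _ (hA.par α) (hb4 hz), heq _ (if_mem (hA.par α) (hb4 hz)),
        if_gradSq_eq hh hu (hA.par α) (hb4 hz)]
      rfl
  choose C hC using key
  refine ⟨∑ α, ∑ j ∈ Finset.range 3, |C α j|, fun τ hτ u hu heq hbd α y hy j hj => ?_⟩
  have h12 : Metric.closedBall (0 : E d) 1 ⊆ Metric.ball (0 : E d) 2 :=
    Metric.closedBall_subset_ball (by norm_num)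
  refine (hC α j τ hτ u hu heq hbd y (h12 hy)).trans ((le_abs_self _).trans ?_)
  have h1 : |C α j| ≤ ∑ j ∈ Finset.range 3, |C α j| :=
    Finset.single_le_sum (f := fun j => |C α j|) (fun _ _ => abs_nonneg _)
      (Finset.mem_range.2 (by omega))
  exact h1.trans (Finset.single_le_sum (f := fun α => ∑ j ∈ Finset.range 3, |C α j|)
    (fun _ _ => by positivity) (Finset.mem_univ α))

end Claimed.Agent.R315
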