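import Claimed.Agent.R315.Ss.LsInt

/-!
# Row 315, paper S: package LS-TB (#9779) `ls_tb`

Plan at the statement.
-/

set_option autoImplicit false
open scoped ContDiff Topology
open Claims.C0499

namespace Claimed.Agent.R315

variable {V : Type} [NormedAddCommGroup V] [NormedSpace ℝ V]
variable {d m : ℕ}
variable [FiniteDimensional ℝ V] {P : Set V} {ψ : Fin m → E d → V} {U : Fin m → Set (E d)}

/-- **LS-TB**: `C^{2,1/2}`-bounded families are totally bounded in `C²`.  PLAN: by `ls_interp` (applied to differences, Hölder constant `2R`) it suffices to find a finite net for the sup norm on the balls `ball 0 3`.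
The functions `f∘ψ α` are `R`-Lipschitz on `ball 0 3` and bounded by `R`: take a finite `δ/(4R+1)`-net `{y_l}` of `closedBall 0 3` and the grid `δ/4 ℤ ∩ [-R,R]`; PATTERN of `f` = the grid cell of `f(ψ α y_l)` for all `(α,l)`
(a function into a finite type); pick one `f` for every realised pattern (`Finite` image + choice); the same pattern ⇒ `|f - g| ≤ δ` on all `ball 0 3`. -/
theorem ls_tb (hA : LsAtlas d P ψ U) (R ε : ℝ) (hε : 0 < ε) (𝓕 : Set (V → ℝ))
    (h𝓕 : ∀ f ∈ 𝓕, SmoothAlong d P f ∧ LsLe ψ 3 f R ∧ LsHol ψ 3 f R) :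
    ∃ s : Finset (V → ℝ), (∀ g ∈ s, g ∈ 𝓕) ∧ ∀ f ∈ 𝓕, ∃ g ∈ s, LsLe ψ 1 (fun x => f x - g x) ε := by
  classical
  obtain ⟨δ, hδ, hint⟩ := ls_interp d (2 * R) ε hε
  have hsm : ∀ f ∈ 𝓕, ∀ α, ContDiffOn ℝ ∞ (f ∘ ψ α) (U α) :=
    fun f hf α => (h𝓕 f hf).1 _ _ (hA.par α)
  have hUo : ∀ α, IsOpen (U α) := fun α => (hA.par α).1
  have hsub : ∀ α, Metric.closedBall (0 : E d) 3 ⊆ U α := fun α =>
    (Metric.closedBall_subset_closedBall (by norm_num)).trans (hA.big α)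
  have hat : ∀ f ∈ 𝓕, ∀ α, ∀ y ∈ Metric.closedBall (0 : E d) 3, ContDiffAt ℝ ∞ (f ∘ ψ α) y :=
    fun f hf α y hy => (hsm f hf α).contDiffAt ((hUo α).mem_nhds (hsub α hy))
  have hval : ∀ f ∈ 𝓕, ∀ α, ∀ y ∈ Metric.closedBall (0 : E d) 3, |f (ψ α y)| ≤ R := by
    intro f hf α y hy
    have := (h𝓕 f hf).2.1 α y hy 0 (by norm_num)
    simpa [norm_iteratedFDeriv_zero] using this
  have hlip : ∀ f ∈ 𝓕, ∀ α, ∀ y ∈ Metric.closedBall (0 : E d) 3,
      ∀ y' ∈ Metric.closedBall (0 : E d) 3, |f (ψ α y) - f (ψ α y')| ≤ R * ‖y - y'‖ := by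
    intro f hf α y hy y' hy'
    have := Convex.norm_image_sub_le_of_norm_fderiv_le (𝕜 := ℝ) (f := f ∘ ψ α)
      (s := Metric.closedBall (0 : E d) 3) (C := R)
      (fun z hz => (hat f hf α z hz).differentiableAt (by simp))
      (fun z hz => by
        have := (h𝓕 f hf).2.1 α z hz 1 (by norm_num)
        rwa [norm_iteratedFDeriv_one] at this)
      (convex_closedBall 0 3) hy' hy
    simpa using this
  -- the net of points
  have hη : 0 < δ / (4 * (|R| + 1)) := by positivity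
  obtain ⟨L, hLsub, hLfin, hLcov⟩ :=
    (isCompact_closedBall (0 : E d) 3).finite_cover_balls hη
  set Lf : Finset (E d) := hLfin.toFinset with hLf
  have hLf3 : ∀ l : Lf, (l : E d) ∈ Metric.closedBall (0 : E d) 3 := fun l =>
    hLsub (hLfin.mem_toFinset.1 l.2)
  set Ψ : (V → ℝ) → (Fin m × Lf → ℝ) := fun f p => f (ψ p.1 p.2) with hΨ
  have hbd : Ψ '' 𝓕 ⊆ Metric.closedBall 0 |R| := by
    rintro _ ⟨f, hf, rfl⟩
    rw [mem_closedBall_zero_iff, pi_norm_le_iff_of_nonneg (abs_nonneg R)]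
    intro p
    exact le_trans (hval f hf p.1 p.2 (hLf3 p.2)) (le_abs_self R)
  have htb : TotallyBounded (Ψ '' 𝓕) :=
    ((Metric.isBounded_closedBall.subset hbd).isCompact_closure.totallyBounded).subset
      subset_closure
  obtain ⟨t, ht𝓕, htfin, htcov⟩ := htb.exists_subset
    (Metric.dist_mem_uniformity (show 0 < δ / 2 by positivity))
  obtain ⟨u, hu𝓕, hufin, hucov⟩ := (Set.exists_subset_image_finite_and
    (p := fun t => Ψ '' 𝓕 ⊆ ⋃ y ∈ t, {x | (x, y) ∈ {p : (Fin m × Lf → ℝ) × (Fin m × Lf → ℝ) |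
      dist p.1 p.2 < δ / 2}})).1 ⟨t, ht𝓕, htfin, htcov⟩
  refine ⟨hufin.toFinset, fun g hg => hu𝓕 (hufin.mem_toFinset.1 hg), fun f hf => ?_⟩
  have h1 := hucov ⟨f, hf, rfl⟩
  simp only [Set.mem_iUnion, Set.mem_image, exists_prop] at h1
  obtain ⟨_, ⟨g, hgu, rfl⟩, hdist⟩ := h1
  have hg : g ∈ 𝓕 := hu𝓕 hgu
  refine ⟨g, hufin.mem_toFinset.2 hgu, ?_⟩
  have hdist' : ∀ p : Fin m × Lf, |f (ψ p.1 p.2) - g (ψ p.1 p.2)| < δ / 2 := by
    intro p
    have h2 : dist (Ψ f) (Ψ g) < δ / 2 := hdist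
    have h3 := lt_of_le_of_lt (dist_le_pi_dist (Ψ f) (Ψ g) p) h2
    rwa [Real.dist_eq] at h3
  intro α y hy j hj
  have e0 : ((fun x => f x - g x) ∘ ψ α) = (f ∘ ψ α) - (g ∘ ψ α) := rfl
  rw [e0]
  have h2top : ((2 : ℕ) : WithTop ℕ∞) ≤ ∞ := WithTop.coe_le_coe.2 le_top
  have hb3 : Metric.ball (0 : E d) 3 ⊆ Metric.closedBall (0 : E d) 3 := Metric.ball_subset_closedBall
  refine hint _ ?_ ?_ ?_ y (Metric.closedBall_subset_closedBall (by norm_num) hy) j hj
  · exact (((hsm f hf α).sub (hsm g hg α)).mono (hb3.trans (hsub α))).of_le h2top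
  · intro z hz z' hz'
    rw [iteratedFDeriv_sub_apply ((hat f hf α z (hb3 hz)).of_le h2top)
        ((hat g hg α z (hb3 hz)).of_le h2top),
      iteratedFDeriv_sub_apply ((hat f hf α z' (hb3 hz')).of_le h2top)
        ((hat g hg α z' (hb3 hz')).of_le h2top)]
    have a1 := (h𝓕 f hf).2.2 α z hz z' hz'
    have a2 := (h𝓕 g hg).2.2 α z hz z' hz'
    calc _ = ‖(iteratedFDeriv ℝ 2 (f ∘ ψ α) z - iteratedFDeriv ℝ 2 (f ∘ ψ α) z')
          - (iteratedFDeriv ℝ 2 (g ∘ ψ α) z - iteratedFDeriv ℝ 2 (g ∘ ψ α) z')‖ := by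
          congr 1; abel
      _ ≤ _ := norm_sub_le _ _
      _ ≤ R * ‖z - z'‖ ^ (1 / 2 : ℝ) + R * ‖z - z'‖ ^ (1 / 2 : ℝ) := add_le_add a1 a2
      _ = _ := by ring
  · intro z hz
    have hz3 := hb3 hz
    have h4 := hLcov hz3
    simp only [Set.mem_iUnion, exists_prop] at h4
    obtain ⟨l, hl, hzl⟩ := h4
    have hl3 := hLsub hl
    have b0 := hdist' (α, ⟨l, hLfin.mem_toFinset.2 hl⟩)
    have b1 := hlip f hf α z hz3 l hl3
    have b2 := hlip g hg α l hl3 z hz3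
    rw [Metric.mem_ball, dist_eq_norm] at hzl
    have b3 : R * ‖z - l‖ ≤ δ / 4 := by
      have c1 : R * ‖z - l‖ ≤ (|R| + 1) * (δ / (4 * (|R| + 1))) := by
        have : R ≤ |R| + 1 := by linarith [le_abs_self R]
        have h0 : 0 ≤ |R| + 1 := by positivity
        calc R * ‖z - l‖ ≤ (|R| + 1) * ‖z - l‖ := by gcongr
          _ ≤ _ := by gcongr
      have c2 : (|R| + 1) * (δ / (4 * (|R| + 1))) = δ / 4 := by
        field_simp
      linarith
    have b4 : R * ‖l - z‖ ≤ δ / 4 := by rw [norm_sub_rev]; exact b3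
    simp only [Pi.sub_apply, Function.comp_apply]
    simp only at b0
    rw [abs_le] at b1 b2 ⊢
    rw [abs_lt] at b0
    constructor <;> linarith [b1.1, b1.2, b2.1, b2.2, b0.1, b0.2]

end Claimed.Agent.R315
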