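import Claimed.Agent.R315.Ss.LsBound
import Claimed.Agent.R315.Ss.LsTb
import Claimed.Agent.R315.Ss.LsAtl
import Claimed.Agent.R315.Ss.LsLimA

/-!
# Row 315, paper S: package LS-LIMIT (#9780) `ls_limit`

GOAL `ls_main`: `P` a closed `d`-manifold with a finite atlas `ψ α : U α → P`, `closedBall 0 4 ⊆ U α`, `P ⊆ ⋃ ψ α '' ball 0 1`.  A *structure* `S : LsStr d m` gives in every chart smooth functions
`a^{ij}, b^i, F` of the 1-jet `q = (y, z, p)`; `a` positive definite.  For smooth `v, u` the relation `LsEq S ψ σ v u` says: in every chart, on `ball 0 4`,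
      `a^{ij}(J v) ∂_i∂_j u + b^i(J v) ∂_i u - u = σ F(J v)`.
HYPOTHESES: (`hsol`) the frozen LINEAR problem `LsEq S ψ 1 v u` is solvable in smooth functions for every smooth `v`;  (`hap`) a `C²` a priori bound for the smooth solutions of `LsEq S ψ σ x x`, `0 ≤ σ ≤ 1`;
(`hreg`) `C^{2,1/2}` solutions of the chart equation are smooth.  CONCLUSION: a smooth solution of `LsEq S ψ 1 x x`.
ONLY SMOOTH FUNCTIONS are fed into the linear solver; the only non-smooth object is the limit in `ls_limit`.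
It is applied twice (`Ss/LsLin.lean`): LEVEL 1 (linear non self-adjoint operators from the self-adjoint solver `gs_solve` of `Gs/Solve.lean`), LEVEL 2 (the quasilinear equation of paper S).

NORMS AS PREDICATES: `LsLe ψ r f R`: `‖D^j (f∘ψ α)‖ ≤ R` on `closedBall 0 r`, `j ≤ 2`, all charts.  `LsHol ψ r f R`: `D²(f∘ψ α)` is Hölder-`1/2` with constant `R` on `ball 0 r`.

Plan at the statement.
-/

set_option autoImplicit false
open scoped ContDiff Topology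
open Claims.C0499 Filter

namespace Claimed.Agent.R315

variable {V : Type} [NormedAddCommGroup V] [NormedSpace ℝ V]
variable {d m : ℕ}
variable [FiniteDimensional ℝ V] {P : Set V} {ψ : Fin m → E d → V} {U : Fin m → Set (E d)}

theorem ls_sm_sub {f g : V → ℝ} (hf : SmoothAlong d P f) (hg : SmoothAlong d P g) :
    SmoothAlong d P (fun z => f z - g z) := fun φ W hφ => (hf φ W hφ).sub (hg φ W hφ)

theorem ls_sm_cmul {f : V → ℝ} (c : ℝ) (hf : SmoothAlong d P f) :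
    SmoothAlong d P (fun z => c * f z) := fun φ W hφ => contDiffOn_const.mul (hf φ W hφ)

/-- a `C^{2,1/2}`-bounded sequence has a `C²`-Cauchy subsequence. -/
theorem ls_subseq (hA : LsAtlas d P ψ U) (R : ℝ) (u : ℕ → V → ℝ)
    (hus : ∀ k, SmoothAlong d P (u k)) (hb : ∀ k, LsLe ψ 3 (u k) R ∧ LsHol ψ 3 (u k) R) :
    ∃ ν : ℕ → ℕ, StrictMono ν ∧ ∀ ε > 0, ∃ k0, ∀ k ≥ k0, ∀ l ≥ k0,
      LsLe ψ 1 (fun z => u (ν k) z - u (ν l) z) ε := by
  classical
  have hsm : ∀ i j, SmoothAlong d P (fun z => u i z - u j z) := fun i j =>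
    ls_sm_sub (hus i) (hus j)
  have a1 : ∀ i, lsN ψ (fun z => u i z - u i z) = 0 := by
    intro i
    refine le_antisymm (lsN_le le_rfl fun α y _ j _ => ?_) (lsN_nonneg _)
    have : (fun z => u i z - u i z) ∘ ψ α = fun _ => (0 : ℝ) := by
      funext z
      simp
    rw [this]
    simp [iteratedFDeriv_zero_fun]
  have a2 : ∀ i j, lsN ψ (fun z => u i z - u j z) = lsN ψ (fun z => u j z - u i z) := by
    intro i j
    have h1 := lsN_smul hA (hsm j i) (-1)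
    have h2 : (fun x => -1 * (u j x - u i x)) = fun z => u i z - u j z := by
      funext x
      ring
    rw [h2] at h1
    rw [h1]
    simp
  have a3 : ∀ i j k, lsN ψ (fun z => u i z - u k z)
      ≤ lsN ψ (fun z => u i z - u j z) + lsN ψ (fun z => u j z - u k z) := by
    intro i j k
    have h1 := lsN_add hA (hsm i j) (hsm j k)
    have h2 : (fun x => u i x - u j x + (u j x - u k x)) = fun z => u i z - u k z := by
      funext x
      ring
    rw [h2] at h1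
    exact h1
  have a4 : ∀ ε > 0, ∃ s : Finset ℕ, ∀ i, ∃ j ∈ s, lsN ψ (fun z => u i z - u j z) ≤ ε := by
    intro ε hε
    obtain ⟨s, hs, hnet⟩ := ls_tb hA R ε hε (Set.range u) (by
      rintro f ⟨k, rfl⟩
      exact ⟨hus k, hb k⟩)
    choose! idx hidx using hs
    refine ⟨s.image idx, fun i => ?_⟩
    obtain ⟨g, hg, hle⟩ := hnet (u i) ⟨i, rfl⟩
    refine ⟨idx g, Finset.mem_image_of_mem _ hg, ?_⟩
    rw [hidx g hg]
    exact lsN_le hε.le hle
  obtain ⟨ν, hν, hc⟩ := ls_cauchy_subseq (fun i j => lsN ψ (fun z => u i z - u j z)) a1 a2 a3 a4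
  refine ⟨ν, hν, fun ε hε => ?_⟩
  obtain ⟨k0, hk0⟩ := hc ε hε
  exact ⟨k0, fun k hk l hl => (lsN_le_iff hA (hsm _ _) hε.le).1 (hk0 k hk l hl)⟩

/-- limits of `C²`-Cauchy sequences. -/
theorem ls_c2_limit (hA : LsAtlas d P ψ U) (w : ℕ → V → ℝ) (hws : ∀ k, SmoothAlong d P (w k))
    (hcau : ∀ ε > 0, ∃ k0, ∀ k ≥ k0, ∀ l ≥ k0, LsLe ψ 1 (fun z => w k z - w l z) ε) :
    ∃ w' : V → ℝ, (∀ α, ContDiffOn ℝ 2 (w' ∘ ψ α) (Metric.ball 0 4)) ∧
      ∀ ε > 0, ∃ k0, ∀ k ≥ k0, ∀ α, ∀ y ∈ Metric.ball (0 : E d) 4, ∀ j ≤ 2,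
        ‖iteratedFDeriv ℝ j (w k ∘ ψ α) y - iteratedFDeriv ℝ j (w' ∘ ψ α) y‖ ≤ ε := by
  obtain ⟨Ct, hCt, htm⟩ := ls_tm hA
  have hCt0 : 0 < Ct := by linarith
  have h4 : ∀ ε > 0, ∃ k0, ∀ k ≥ k0, ∀ l ≥ k0, LsLe ψ 4 (fun z => w k z - w l z) ε := by
    intro ε hε
    obtain ⟨k0, hk0⟩ := hcau (ε / Ct) (by positivity)
    refine ⟨k0, fun k hk l hl => ?_⟩
    have := htm _ _ (ls_sm_sub (hws k) (hws l)) (hk0 k hk l hl)
    rwa [mul_div_cancel₀ _ hCt0.ne'] at this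
  have hb4 : ∀ α, Metric.ball (0 : E d) 4 ⊆ U α := fun α =>
    Metric.ball_subset_closedBall.trans (hA.big α)
  have hdiff : ∀ a b α, ∀ y ∈ Metric.ball (0 : E d) 4, ∀ j : ℕ,
      iteratedFDeriv ℝ j ((fun z => w a z - w b z) ∘ ψ α) y
        = iteratedFDeriv ℝ j (w a ∘ ψ α) y - iteratedFDeriv ℝ j (w b ∘ ψ α) y := by
    intro a b α y hy j
    have : (fun z => w a z - w b z) ∘ ψ α = w a ∘ ψ α - w b ∘ ψ α := rfl
    rw [this, iteratedFDeriv_sub_apply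
      (ls_cda hA (hws a) α le_rfl (Metric.ball_subset_closedBall hy) j)
      (ls_cda hA (hws b) α le_rfl (Metric.ball_subset_closedBall hy) j)]
  have hpt : ∀ α, ∀ y ∈ Metric.ball (0 : E d) 4, ∃ L, Tendsto (fun k => w k (ψ α y)) atTop (𝓝 L) := by
    intro α y hy
    refine cauchySeq_tendsto_of_complete ?_
    rw [Metric.cauchySeq_iff]
    intro ε hε
    obtain ⟨k0, hk0⟩ := h4 (ε / 2) (by positivity)
    refine ⟨k0, fun a ha b hb => ?_⟩
    have h1 := hk0 a ha b hb α y (Metric.ball_subset_closedBall hy) 0 (by norm_num)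
    rw [← ls_val_le] at h1
    rw [Real.dist_eq]
    exact lt_of_le_of_lt h1 (by linarith)
  refine ⟨fun x => limUnder atTop (fun k => w k x), ?_⟩
  have hlim : ∀ α, ∀ y ∈ Metric.ball (0 : E d) 4, Tendsto (fun k => (w k ∘ ψ α) y) atTop
      (𝓝 (((fun x => limUnder atTop (fun k => w k x)) ∘ ψ α) y)) := fun α y hy =>
    tendsto_nhds_limUnder (hpt α y hy)
  have hgen : ∀ n : ℕ, ((n : ℕ) : WithTop ℕ∞) ≤ ∞ := fun n => by exact_mod_cast le_top
  have key := fun α => ls_ck_lim (F := ℝ) (U := Metric.ball (0 : E d) 4) Metric.isOpen_ball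
    (u := fun k => w k ∘ ψ α) (v := (fun x => limUnder atTop (fun k => w k x)) ∘ ψ α) 2
    (fun k => ((hws k _ _ (hA.par α)).mono (hb4 α)).of_le (hgen 2))
    (hlim α) (fun j hj ε hε => by
      obtain ⟨k0, hk0⟩ := h4 ε hε
      refine ⟨k0, fun a b ha hb z hz => ?_⟩
      rw [← hdiff a b α z hz j]
      exact hk0 a ha b hb α z (Metric.ball_subset_closedBall hz) j hj)
  refine ⟨fun α => (key α).1, fun ε hε => ?_⟩
  have h1 : ∀ p : Fin m × Fin 3, ∀ᶠ k in atTop, ∀ y ∈ Metric.ball (0 : E d) 4,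
      ‖iteratedFDeriv ℝ p.2 (w k ∘ ψ p.1) y - iteratedFDeriv ℝ p.2
        ((fun x => limUnder atTop (fun k => w k x)) ∘ ψ p.1) y‖ ≤ ε := by
    intro p
    obtain ⟨N, hN⟩ := (key p.1).2 p.2 (by have := p.2.2; omega) ε hε
    exact eventually_atTop.2 ⟨N, hN⟩
  obtain ⟨k0, hk0⟩ := eventually_atTop.1 (eventually_all.2 h1)
  exact ⟨k0, fun k hk α y hy j hj => hk0 k hk (α, ⟨j, by omega⟩) y hy⟩

/-- **LS-LIMIT**.  PLAN.  (1) `u k` is bounded in `C^{2,1/2}` (`ls_bound`); by `ls_tb` + a diagonal/pigeonhole argument (or: totally bounded ⇒ Cauchy subsequence) and compactness of `[0,1]` there is `ν` with `σ (ν k) → σ∞` and `u (ν k)` Cauchy for `LsLe ψ 1`,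
hence (`ls_tm`) for `LsLe ψ 4`.  (2) `u∞ x := lim u (ν k) x` on `P` (`0` elsewhere).  In every chart `u (ν k)∘ψ α` converges uniformly on `closedBall 0 4` with its derivatives of order `≤ 2`: `hasFDerivAt_of_tendstoUniformlyOn` twice:
`u∞∘ψ α` is `C²` on `ball 0 4`, `D^j` converge; the Hölder bound on `ball 0 3` passes to the limit.  (3) `x∞ := σ∞ u∞`; `x (ν k) → x∞` in the same sense (`hx`).  (4) limit of the equation at every `y ∈ ball 0 4` (continuity of `S.a, S.b, S.F` at `lsJ`, `pdiff`/`rm_p2` = values of `D^j`),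
multiply by `σ∞`: `LsEqC S α σ∞ 4 (x∞∘ψ α) (x∞∘ψ α)`.  (5) `hreg` on `ball 0 3`, `ls_smooth_of_atlas`. -/
theorem ls_limit (hP : IsMfd d P) (hc : IsCompact P) (hA : LsAtlas d P ψ U) (S : LsStr d m)
    (hS : S.Ok U)
    (hreg : ∀ σ ∈ Set.Icc (0 : ℝ) 1, ∀ α, ∀ ξ : E d → ℝ, ContDiffOn ℝ 2 ξ (Metric.ball 0 3) →
      (∃ R, LsH 3 (iteratedFDeriv ℝ 2 ξ) R) → LsEqC S α σ 3 ξ ξ →
      ContDiffOn ℝ ∞ ξ (Metric.ball 0 3))
    (M : ℝ) (x u : ℕ → V → ℝ) (σ : ℕ → ℝ) (hxs : ∀ k, SmoothAlong d P (x k))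
    (hus : ∀ k, SmoothAlong d P (u k)) (hσ : ∀ k, σ k ∈ Set.Icc (0 : ℝ) 1)
    (hxM : ∀ k, LsLe ψ 1 (x k) M) (heq : ∀ k, LsEq S ψ 1 (x k) (u k))
    (hx : ∀ k, LsLe ψ 1 (fun z => σ k * u k z - x k z) (1 / ((k : ℝ) + 1))) :
    ∃ (x' : V → ℝ) (σ' : ℝ) (ν : ℕ → ℕ), StrictMono ν ∧ SmoothAlong d P x' ∧
      σ' ∈ Set.Icc (0 : ℝ) 1 ∧ LsEq S ψ σ' x' x' ∧
      Filter.Tendsto (fun k => σ (ν k)) Filter.atTop (𝓝 σ') ∧
      ∀ ε > 0, ∃ k0, ∀ k ≥ k0, LsLe ψ 1 (fun z => x (ν k) z - x' z) ε := by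
  classical
  obtain ⟨Ct, hCt, htm⟩ := ls_tm hA
  have hCt0 : 0 < Ct := by linarith
  obtain ⟨R, hR, hbd⟩ := ls_bound hP hc hA S hS M
  have hb := fun k => hbd (x k) (u k) (hxs k) (hus k) (hxM k) (heq k)
  obtain ⟨σ', hσ', ν1, hν1, hσlim⟩ := isCompact_Icc.tendsto_subseq hσ
  obtain ⟨ν2, hν2, hcau⟩ := ls_subseq hA R (fun k => u (ν1 k)) (fun k => hus _) (fun k => hb _)
  obtain ⟨u', hu'2, hu'lim⟩ := ls_c2_limit hA (fun k => u (ν1 (ν2 k))) (fun k => hus _) hcau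
  set ν : ℕ → ℕ := fun k => ν1 (ν2 k) with hνdef
  have hν : StrictMono ν := hν1.comp hν2
  have hσν : Tendsto (fun k => σ (ν k)) atTop (𝓝 σ') := hσlim.comp hν2.tendsto_atTop
  have hb4 : ∀ α, Metric.ball (0 : E d) 4 ⊆ U α := fun α =>
    Metric.ball_subset_closedBall.trans (hA.big α)
  have hu4 : ∀ k, LsLe ψ 4 (u k) (Ct * R) := fun k =>
    htm _ _ (hus k) ((hb k).1.mono_r (by norm_num))
  have hes : ∀ k, SmoothAlong d P (fun z => σ k * u k z - x k z) := fun k =>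
    ls_sm_sub (ls_sm_cmul _ (hus k)) (hxs k)
  have he4 : ∀ k, LsLe ψ 4 (fun z => σ k * u k z - x k z) (Ct * (1 / ((k : ℝ) + 1))) := fun k =>
    htm _ _ (hes k) (hx k)
  have hcd : ∀ (f : V → ℝ), SmoothAlong d P f → ∀ α, ∀ y ∈ Metric.ball (0 : E d) 4, ∀ j : ℕ,
      ContDiffAt ℝ j (f ∘ ψ α) y := fun f hf α y hy j =>
    ls_cda hA hf α le_rfl (Metric.ball_subset_closedBall hy) j
  have hcd' : ∀ α, ∀ y ∈ Metric.ball (0 : E d) 4, ContDiffAt ℝ 2 (u' ∘ ψ α) y := fun α y hy =>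
    (hu'2 α).contDiffAt (Metric.isOpen_ball.mem_nhds hy)
  have hcdj : ∀ α, ∀ y ∈ Metric.ball (0 : E d) 4, ∀ j : ℕ, j ≤ 2 →
      ContDiffAt ℝ j (u' ∘ ψ α) y := fun α y hy j hj =>
    (hcd' α y hy).of_le (by exact_mod_cast hj)
  -- derivative formulas
  have hD : ∀ k α, ∀ y ∈ Metric.ball (0 : E d) 4, ∀ j : ℕ,
      iteratedFDeriv ℝ j (x k ∘ ψ α) y = σ k • iteratedFDeriv ℝ j (u k ∘ ψ α) y
        - iteratedFDeriv ℝ j ((fun z => σ k * u k z - x k z) ∘ ψ α) y := by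
    intro k α y hy j
    have e : x k ∘ ψ α = σ k • (u k ∘ ψ α) - (fun z => σ k * u k z - x k z) ∘ ψ α := by
      funext z
      simp
    have h1 : ContDiffAt ℝ j (σ k • (u k ∘ ψ α)) y := (hcd _ (hus k) α y hy j).const_smul (σ k)
    conv_lhs => rw [e]
    rw [iteratedFDeriv_sub_apply h1 (hcd _ (hes k) α y hy j),
      iteratedFDeriv_const_smul_apply (hcd _ (hus k) α y hy j)]
  have hD' : ∀ α, ∀ y ∈ Metric.ball (0 : E d) 4, ∀ j ≤ 2,
      iteratedFDeriv ℝ j ((fun z => σ' * u' z) ∘ ψ α) y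
        = σ' • iteratedFDeriv ℝ j (u' ∘ ψ α) y := by
    intro α y hy j hj
    have e : (fun z => σ' * u' z) ∘ ψ α = σ' • (u' ∘ ψ α) := rfl
    rw [e, iteratedFDeriv_const_smul_apply (hcdj α y hy j hj)]
  have hcx' : ∀ α, ∀ y ∈ Metric.ball (0 : E d) 4, ContDiffAt ℝ 2 ((fun z => σ' * u' z) ∘ ψ α) y :=
    fun α y hy => (hcd' α y hy).const_smul σ'
  -- uniform convergence of `x (ν k)`
  have hxlim : ∀ ε > 0, ∃ k0, ∀ k ≥ k0, ∀ α, ∀ y ∈ Metric.ball (0 : E d) 4, ∀ j ≤ 2,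
      ‖iteratedFDeriv ℝ j (x (ν k) ∘ ψ α) y
        - iteratedFDeriv ℝ j ((fun z => σ' * u' z) ∘ ψ α) y‖ ≤ ε := by
    intro ε hε
    obtain ⟨k1, hk1⟩ := (Metric.tendsto_atTop.1 hσν) (ε / (3 * (Ct * R + 1))) (by positivity)
    obtain ⟨k2, hk2⟩ := hu'lim (ε / 3) (by positivity)
    obtain ⟨k3, hk3⟩ := exists_nat_gt (3 * Ct / ε)
    refine ⟨max k1 (max k2 k3), fun k hk α y hy j hj => ?_⟩
    have hk1' : k1 ≤ k := (le_max_left _ _).trans hk
    have hk2' : k2 ≤ k := ((le_max_left _ _).trans (le_max_right _ _)).trans hk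
    have hk3' : k3 ≤ k := ((le_max_right _ _).trans (le_max_right _ _)).trans hk
    rw [hD (ν k) α y hy j, hD' α y hy j hj]
    have e : σ (ν k) • iteratedFDeriv ℝ j (u (ν k) ∘ ψ α) y
        - iteratedFDeriv ℝ j ((fun z => σ (ν k) * u (ν k) z - x (ν k) z) ∘ ψ α) y
        - σ' • iteratedFDeriv ℝ j (u' ∘ ψ α) y
        = (σ (ν k) - σ') • iteratedFDeriv ℝ j (u (ν k) ∘ ψ α) y
          + σ' • (iteratedFDeriv ℝ j (u (ν k) ∘ ψ α) y - iteratedFDeriv ℝ j (u' ∘ ψ α) y)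
          - iteratedFDeriv ℝ j ((fun z => σ (ν k) * u (ν k) z - x (ν k) z) ∘ ψ α) y := by
      rw [sub_smul, smul_sub]
      abel
    rw [e]
    have b1 : ‖(σ (ν k) - σ') • iteratedFDeriv ℝ j (u (ν k) ∘ ψ α) y‖ ≤ ε / 3 := by
      rw [norm_smul, Real.norm_eq_abs]
      have h1 : |σ (ν k) - σ'| ≤ ε / (3 * (Ct * R + 1)) := by
        have := hk1 k hk1'
        rw [Real.dist_eq] at this
        exact this.le
      have h2 := hu4 (ν k) α y (Metric.ball_subset_closedBall hy) j hj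
      calc |σ (ν k) - σ'| * ‖iteratedFDeriv ℝ j (u (ν k) ∘ ψ α) y‖
          ≤ ε / (3 * (Ct * R + 1)) * (Ct * R + 1) :=
            mul_le_mul h1 (h2.trans (by linarith)) (norm_nonneg _) (by positivity)
        _ = ε / 3 := by
            field_simp
    have b2 : ‖σ' • (iteratedFDeriv ℝ j (u (ν k) ∘ ψ α) y
        - iteratedFDeriv ℝ j (u' ∘ ψ α) y)‖ ≤ ε / 3 := by
      rw [norm_smul, Real.norm_eq_abs, abs_of_nonneg hσ'.1]
      calc σ' * _ ≤ 1 * (ε / 3) :=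
            mul_le_mul hσ'.2 (hk2 k hk2' α y hy j hj) (norm_nonneg _) (by norm_num)
        _ = ε / 3 := one_mul _
    have b3 : ‖iteratedFDeriv ℝ j ((fun z => σ (ν k) * u (ν k) z - x (ν k) z) ∘ ψ α) y‖
        ≤ ε / 3 := by
      refine (he4 (ν k) α y (Metric.ball_subset_closedBall hy) j hj).trans ?_
      have h1 : (k3 : ℝ) ≤ (ν k : ℝ) := by exact_mod_cast hk3'.trans (hν.le_apply)
      have h2 : 3 * Ct / ε < (ν k : ℝ) + 1 := by linarith
      rw [div_lt_iff₀ hε] at h2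
      rw [mul_one_div, div_le_iff₀ (by positivity)]
      nlinarith
    calc _ ≤ ‖(σ (ν k) - σ') • iteratedFDeriv ℝ j (u (ν k) ∘ ψ α) y‖
          + ‖σ' • (iteratedFDeriv ℝ j (u (ν k) ∘ ψ α) y - iteratedFDeriv ℝ j (u' ∘ ψ α) y)‖
          + ‖iteratedFDeriv ℝ j ((fun z => σ (ν k) * u (ν k) z - x (ν k) z) ∘ ψ α) y‖ :=
          (norm_sub_le _ _).trans (add_le_add_left (norm_add_le _ _) _)
      _ ≤ ε := by linarith
  -- pointwise convergence of the jets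
  have hTu : ∀ α, ∀ y ∈ Metric.ball (0 : E d) 4, ∀ j ≤ 2,
      Tendsto (fun k => iteratedFDeriv ℝ j (u (ν k) ∘ ψ α) y) atTop
        (𝓝 (iteratedFDeriv ℝ j (u' ∘ ψ α) y)) := by
    intro α y hy j hj
    rw [Metric.tendsto_atTop]
    intro ε hε
    obtain ⟨k0, hk0⟩ := hu'lim (ε / 2) (by positivity)
    refine ⟨k0, fun k hk => ?_⟩
    rw [dist_eq_norm]
    exact lt_of_le_of_lt (hk0 k hk α y hy j hj) (by linarith)
  have hTx : ∀ α, ∀ y ∈ Metric.ball (0 : E d) 4, ∀ j ≤ 2,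
      Tendsto (fun k => iteratedFDeriv ℝ j (x (ν k) ∘ ψ α) y) atTop
        (𝓝 (iteratedFDeriv ℝ j ((fun z => σ' * u' z) ∘ ψ α) y)) := by
    intro α y hy j hj
    rw [Metric.tendsto_atTop]
    intro ε hε
    obtain ⟨k0, hk0⟩ := hxlim (ε / 2) (by positivity)
    refine ⟨k0, fun k hk => ?_⟩
    rw [dist_eq_norm]
    exact lt_of_le_of_lt (hk0 k hk α y hy j hj) (by linarith)
  -- the limit equation
  have hE : LsEq S ψ σ' (fun z => σ' * u' z) (fun z => σ' * u' z) := by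
    intro α y hy
    set q' := lsJ ((fun z => σ' * u' z) ∘ ψ α) y with hq'
    have hq : Tendsto (fun k => lsJ (x (ν k) ∘ ψ α) y) atTop (𝓝 q') := by
      refine Tendsto.prodMk_nhds tendsto_const_nhds (Tendsto.prodMk_nhds ?_ ?_)
      · exact ls_tendsto_val (hTx α y hy 0 (by norm_num))
      · exact tendsto_pi_nhds.2 fun i => ls_tendsto_pdiff (hTx α y hy 1 (by norm_num)) i
    have hmem : U α ×ˢ (Set.univ : Set (ℝ × (Fin d → ℝ))) ∈ 𝓝 q' :=
      ((hA.par α).1.prod isOpen_univ).mem_nhds ⟨hb4 α hy, Set.mem_univ _⟩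
    have ha : ∀ i j, Tendsto (fun k => S.a α (lsJ (x (ν k) ∘ ψ α) y) i j) atTop
        (𝓝 (S.a α q' i j)) := fun i j =>
      (((hS.a_s α i j).continuousOn.continuousAt hmem).tendsto).comp hq
    have hbb : ∀ i, Tendsto (fun k => S.b α (lsJ (x (ν k) ∘ ψ α) y) i) atTop
        (𝓝 (S.b α q' i)) := fun i =>
      (((hS.b_s α i).continuousOn.continuousAt hmem).tendsto).comp hq
    have hF : Tendsto (fun k => S.F α (lsJ (x (ν k) ∘ ψ α) y)) atTop (𝓝 (S.F α q')) :=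
      (((hS.F_s α).continuousOn.continuousAt hmem).tendsto).comp hq
    have hop : Tendsto (fun k => lsOp (S.a α (lsJ (x (ν k) ∘ ψ α) y))
        (S.b α (lsJ (x (ν k) ∘ ψ α) y)) (u (ν k) ∘ ψ α) y) atTop
        (𝓝 (lsOp (S.a α q') (S.b α q') (u' ∘ ψ α) y)) := by
      unfold lsOp
      refine Tendsto.sub (Tendsto.add ?_ ?_) (ls_tendsto_val (hTu α y hy 0 (by norm_num)))
      · refine tendsto_finsetSum _ fun i _ => tendsto_finsetSum _ fun j _ => (ha i j).mul ?_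
        exact ls_tendsto_p2 (fun k => hcd _ (hus _) α y hy 2) (hcd' α y hy)
          (hTu α y hy 2 le_rfl) i j
      · exact tendsto_finsetSum _ fun i _ =>
          (hbb i).mul (ls_tendsto_pdiff (hTu α y hy 1 (by norm_num)) i)
    have hop' : lsOp (S.a α q') (S.b α q') (u' ∘ ψ α) y = S.F α q' := by
      refine tendsto_nhds_unique hop (hF.congr fun k => ?_)
      rw [heq (ν k) α y hy, one_mul]
    rw [lsOp_smul_of_jet _ _ (hcd' α y hy) (hcx' α y hy) (hD' α y hy), hop']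
  -- regularity
  have h34 : Metric.ball (0 : E d) 3 ⊆ Metric.ball (0 : E d) 4 :=
    Metric.ball_subset_ball (by norm_num)
  have h13 : Metric.ball (0 : E d) 1 ⊆ Metric.ball (0 : E d) 3 :=
    Metric.ball_subset_ball (by norm_num)
  have hsm : SmoothAlong d P (fun z => σ' * u' z) := by
    refine ls_smooth_of_atlas hA fun α => (hreg σ' hσ' α _ ?_ ⟨R, ?_⟩ ?_).mono h13
    · exact fun y hy => (hcx' α y (h34 hy)).contDiffWithinAt
    · intro y hy y' hy'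
      rw [hD' α y (h34 hy) 2 le_rfl, hD' α y' (h34 hy') 2 le_rfl, ← smul_sub, norm_smul,
        Real.norm_eq_abs, abs_of_nonneg hσ'.1]
      have h1 : ‖iteratedFDeriv ℝ 2 (u' ∘ ψ α) y - iteratedFDeriv ℝ 2 (u' ∘ ψ α) y'‖
          ≤ R * ‖y - y'‖ ^ (1 / 2 : ℝ) := by
        refine le_of_tendsto (((hTu α y (h34 hy) 2 le_rfl).sub
          (hTu α y' (h34 hy') 2 le_rfl)).norm) (Eventually.of_forall fun k => ?_)
        exact (hb (ν k)).2 α y hy y' hy'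
      calc σ' * _ ≤ 1 * (R * ‖y - y'‖ ^ (1 / 2 : ℝ)) :=
            mul_le_mul hσ'.2 h1 (norm_nonneg _) (by norm_num)
        _ = _ := one_mul _
    · exact fun y hy => hE α y (h34 hy)
  refine ⟨fun z => σ' * u' z, σ', ν, hν, hsm, hσ', hE, hσν, fun ε hε => ?_⟩
  obtain ⟨k0, hk0⟩ := hxlim ε hε
  refine ⟨k0, fun k hk α y hy j hj => ?_⟩
  have hy4 : y ∈ Metric.ball (0 : E d) 4 :=
    Metric.closedBall_subset_ball (by norm_num) hy
  have e : (fun z => x (ν k) z - σ' * u' z) ∘ ψ α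
      = x (ν k) ∘ ψ α - (fun z => σ' * u' z) ∘ ψ α := rfl
  rw [e, iteratedFDeriv_sub_apply (hcd _ (hxs _) α y hy4 j)
    ((hcx' α y hy4).of_le (by exact_mod_cast hj))]
  exact hk0 k hk α y hy4 j hj

end Claimed.Agent.R315
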