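import Claimed.Agent.R315.Ss.Ls
import Claimed.Agent.R315.Pack011

/-!
# Row 315, paper S: existence on closed manifolds, LEVELS 0, 1, 2: definitions (`lsB`, `lsA`, `ssLinC`, `LsFirst`, `ssLin`, `lsHv`), `ls_linC_self`; NO sorry here

LEVEL 0 `ls_l0` (self-adjoint): `Δ_{ĥ,t̂} z - z = F` on a closed manifold, from `gs_solve` (`Gs/Solve.lean`, helper209).
LEVEL 1 `ls_l1` (general linear): `Δ_{ĥ,t̂} u + Y u - u = f`, `Y` any smooth first order operator (`LsFirst`), from `ls_main` with `T v = (Δ_{ĥ,t̂} - 1)⁻¹ (f - Y v)`.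
LEVEL 2 `ss_ql` (`Ss/LsPf.lean`): `div_{h,t}(fl(σ)∇u) = b(x,u,σ)`, from `ls_main` with `T v = u`, `ssLin v u - u = b(x,v,σ_v) - v`,
   `ssLin v u = fl(σ_v) Δu + 2 fl'(σ_v) Hess u(∇v,∇v) - fl(σ_v)⟨dt,du⟩`,  `Hess u(∇v,∇v) = ⟨d⟨dv,du⟩,dv⟩ - ½⟨dσ_v,du⟩` (checked numerically),  `ssLin u u = ssDiv u`.
   The frozen operator is `Δ_{ĥ_v} + Y_v`, `ĥ_v = lsHv = h/fl - 2fl'/(fl (fl+2σfl')) dv²` (Sherman-Morrison: `ĥ_v⁻¹ = a(dv) = fl h⁻¹ + 2fl' ∇v⊗∇v`), `Y_v u := ssLin v u - Δ_{ĥ_v} u` is of first order.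
-/

set_option autoImplicit false
open scoped ContDiff Topology
open Claims.C0499

namespace Claimed.Agent.R315

variable {V : Type} [NormedAddCommGroup V] [NormedSpace ℝ V]
variable {d m : ℕ}

/-- first order coefficients of `a^{ij}∇_{ij} - c ⟨dt,d·⟩`: `-a^{ij}Γ^k_{ij} - c G^{ki}∂_i t`. -/
noncomputable def lsB (G : rm_MF d) (t : E d → ℝ) (A : Matrix (Fin d) (Fin d) ℝ) (c : ℝ) (y : E d)
    (k : Fin d) : ℝ :=
  -(∑ i, ∑ j, A i j * christoffel G y k i j) - c * ∑ i, (G y)⁻¹ k i * pdiff t i y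

/-- the coefficient matrix `a(y,p) = fl(s) G⁻¹ + 2 fl'(s) (G⁻¹p)(G⁻¹p)ᵀ`, `s = pᵀG⁻¹p`. -/
noncomputable def lsA (G : rm_MF d) (fl : ℝ → ℝ) (y : E d) (p : Fin d → ℝ) :
    Matrix (Fin d) (Fin d) ℝ :=
  fl (p ⬝ᵥ (G y)⁻¹.mulVec p) • (G y)⁻¹
    + (2 * deriv fl (p ⬝ᵥ (G y)⁻¹.mulVec p)) • Matrix.vecMulVec ((G y)⁻¹.mulVec p) ((G y)⁻¹.mulVec p)

/-- the frozen operator in a chart. -/
noncomputable def ssLinC (G : rm_MF d) (t : E d → ℝ) (fl : ℝ → ℝ) (v u : E d → ℝ) (y : E d) : ℝ :=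
  fl (gradSqC G v y) * lapC G u y
    + 2 * deriv fl (gradSqC G v y)
      * (gradIpC G (gradIpC G v u) v y - gradIpC G (gradSqC G v) u y / 2)
    - fl (gradSqC G v y) * gradIpC G t u y

theorem ls_linC_self (G : rm_MF d) (t ξ : E d → ℝ) (fl : ℝ → ℝ) (y : E d) :
    ssLinC G t fl ξ ξ y = ssDivC G t fl ξ y := by
  unfold ssLinC ssDivC
  have : gradIpC G ξ ξ = gradSqC G ξ := rfl
  rw [this]
  ring

/-- smooth first order operators without zeroth order term. -/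
def LsFirst (d : ℕ) (P : Set V) (Y : (V → ℝ) → V → ℝ) : Prop :=
  (∀ u, SmoothAlong d P u → SmoothAlong d P (Y u)) ∧
  ∀ (ψ : E d → V) (U : Set (E d)), IsParam P ψ U → ∃ β : Fin d → E d → ℝ,
    (∀ i, ContDiffOn ℝ ∞ (β i) U) ∧ ∀ u, SmoothAlong d P u → ∀ y ∈ U,
      Y u (ψ y) = ∑ i, β i y * pdiff (u ∘ ψ) i y

/-- the frozen operator on the manifold. -/
noncomputable def ssLin (d : ℕ) (M : Set V) (h : Ten V) (t : V → ℝ) (fl : ℝ → ℝ) (v u : V → ℝ)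
    (x : V) : ℝ :=
  fl (gradSq d M h v x) * lap d M h u x
    + 2 * deriv fl (gradSq d M h v x)
      * (gradIp d M h (gradIp d M h v u) v x - gradIp d M h (gradSq d M h v) u x / 2)
    - fl (gradSq d M h v x) * gradIp d M h t u x

/-- the metric of the principal part of the frozen operator. -/
noncomputable def lsHv (d : ℕ) (M : Set V) (h : Ten V) (fl : ℝ → ℝ) (v : V → ℝ) : Ten V :=
  fun x => (1 / fl (gradSq d M h v x)) • h x
    - (2 * deriv fl (gradSq d M h v x) / (fl (gradSq d M h v x)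
        * (fl (gradSq d M h v x) + 2 * gradSq d M h v x * deriv fl (gradSq d M h v x))))
      • dsqT d M v x

end Claimed.Agent.R315
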