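import Claimed.Agent.R315.Ss.LsLimit
import Claimed.Agent.R315.Ss.LsAbs
import Claimed.Agent.R315.Ss.LsNorm

/-!
# Row 315, paper S: package LS-MAIN (#9781) `ls_main`: PROVED

GOAL `ls_main`: `P` a closed `d`-manifold with a finite atlas `ψ α : U α → P`, `closedBall 0 4 ⊆ U α`, `P ⊆ ⋃ ψ α '' ball 0 1`.  A *structure* `S : LsStr d m` gives in every chart smooth functions
`a^{ij}, b^i, F` of the 1-jet `q = (y, z, p)`; `a` positive definite.  For smooth `v, u` the relation `LsEq S ψ σ v u` says: in every chart, on `ball 0 4`,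
      `a^{ij}(J v) ∂_i∂_j u + b^i(J v) ∂_i u - u = σ F(J v)`.
HYPOTHESES: (`hsol`) the frozen LINEAR problem `LsEq S ψ 1 v u` is solvable in smooth functions for every smooth `v`;  (`hap`) a `C²` a priori bound for the smooth solutions of `LsEq S ψ σ x x`, `0 ≤ σ ≤ 1`;
(`hreg`) `C^{2,1/2}` solutions of the chart equation are smooth.  CONCLUSION: a smooth solution of `LsEq S ψ 1 x x`.
ONLY SMOOTH FUNCTIONS are fed into the linear solver; the only non-smooth object is the limit in `ls_limit`.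
It is applied twice (`Ss/LsLin.lean`): LEVEL 1 (linear non self-adjoint operators from the self-adjoint solver `gs_solve` of `Gs/Solve.lean`), LEVEL 2 (the quasilinear equation of paper S).

NORMS AS PREDICATES: `LsLe ψ r f R`: `‖D^j (f∘ψ α)‖ ≤ R` on `closedBall 0 r`, `j ≤ 2`, all charts.  `LsHol ψ r f R`: `D²(f∘ψ α)` is Hölder-`1/2` with constant `R` on `ball 0 r`.

Plan at the statement.
-/

set_option autoImplicit false
open scoped ContDiff Topology
open Claims.C0499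

namespace Claimed.Agent.R315

variable {V : Type} [NormedAddCommGroup V] [NormedSpace ℝ V]
variable {d m : ℕ}
variable [FiniteDimensional ℝ V] {P : Set V} {ψ : Fin m → E d → V} {U : Fin m → Set (E d)}

/-- **LS-MAIN**: Leray-Schauder on a closed manifold.
PLAN.  `X` = the submodule of `V → ℝ` of the functions which are smooth along `P` (as `gsTest`), `N f = sSup {‖D^j (f∘ψ α) y‖ | α, j ≤ 2, y ∈ closedBall 0 1}` (bounded above: continuity on a compact set); `N f ≤ R ↔ LsLe ψ 1 f R` for `R ≥ 0`;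
seminorm axioms from the linearity of `iteratedFDeriv` on smooth functions.  `T v` := a solution (`hsol`, choice).  `M := M0 + 1`.  `hcont` = `ls_cont`, `htb` = `ls_bound` + `ls_tb` (`𝓕 = T '' {N ≤ M}`).
`ls_abs` with `ε = 1/(k+1)`: `x k, σ k`.  `ls_limit`: `x', σ'`, `LsEq S ψ σ' x' x'`; `hap`: `N x' ≤ M0 < M`.  If `σ (ν k) ≠ 1` for infinitely many `k` then `N (σ T x) = M` there, `|N (x k) - M| ≤ 1/(k+1)`, `N x' = M`: contradiction.
So `σ (ν k) = 1` eventually, `σ' = 1`. -/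
theorem ls_main (hP : IsMfd d P) (hc : IsCompact P) (hA : LsAtlas d P ψ U) (S : LsStr d m)
    (hS : S.Ok U)
    (hsol : ∀ v : V → ℝ, SmoothAlong d P v → ∃ u : V → ℝ, SmoothAlong d P u ∧ LsEq S ψ 1 v u)
    (M0 : ℝ) (hap : ∀ σ ∈ Set.Icc (0 : ℝ) 1, ∀ x : V → ℝ, SmoothAlong d P x → LsEq S ψ σ x x →
      LsLe ψ 1 x M0)
    (hreg : ∀ σ ∈ Set.Icc (0 : ℝ) 1, ∀ α, ∀ ξ : E d → ℝ, ContDiffOn ℝ 2 ξ (Metric.ball 0 3) →
      (∃ R, LsH 3 (iteratedFDeriv ℝ 2 ξ) R) → LsEqC S α σ 3 ξ ξ →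
      ContDiffOn ℝ ∞ ξ (Metric.ball 0 3)) :
    ∃ x : V → ℝ, SmoothAlong d P x ∧ LsEq S ψ 1 x x := by
  classical
  choose! Tf hTs hTe using hsol
  let T : lsX d P → lsX d P := fun x => ⟨Tf x.1, hTs x.1 x.2⟩
  let N : lsX d P → ℝ := fun x => lsN ψ x.1
  set M : ℝ := |M0| + 1 with hMdef
  have hM : 0 < M := by positivity
  have hN0 : ∀ x, 0 ≤ N x := fun x => lsN_nonneg _
  have hNadd : ∀ x y, N (x + y) ≤ N x + N y := fun x y => lsN_add hA x.2 y.2
  have hNsmul : ∀ (c : ℝ) x, N (c • x) = |c| * N x := fun c x => lsN_smul hA x.2 c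
  have hNle : ∀ (x : lsX d P) {R : ℝ}, 0 ≤ R → (N x ≤ R ↔ LsLe ψ 1 x.1 R) := fun x R hR =>
    lsN_le_iff hA x.2 hR
  have hcont : ∀ x, N x ≤ M → ∀ ε > 0, ∃ δ > 0, ∀ y, N y ≤ M → N (y - x) < δ →
      N (T y - T x) < ε := by
    intro x hx ε hε
    obtain ⟨δ, hδ, H⟩ := ls_cont hP hc hA S hS M (ε / 2) (half_pos hε)
    refine ⟨δ, hδ, fun y hy hyx => ?_⟩
    have h1 := H y.1 x.1 (T y).1 (T x).1 y.2 x.2 (T y).2 (T x).2 ((hNle y hM.le).1 hy)
      ((hNle x hM.le).1 hx) (hTe _ y.2) (hTe _ x.2) ((hNle (y - x) hδ.le).1 hyx.le)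
    have h2 : N (T y - T x) ≤ ε / 2 := (hNle (T y - T x) (half_pos hε).le).2 h1
    linarith
  have htb : ∀ ε > 0, ∃ s : Finset (lsX d P), (∀ c ∈ s, N c ≤ M) ∧
      ∀ x, N x ≤ M → ∃ c ∈ s, N (T x - T c) < ε := by
    intro ε hε
    obtain ⟨R, -, HB⟩ := ls_bound hP hc hA S hS M
    let 𝓕 : Set (V → ℝ) := {g | ∃ x : lsX d P, N x ≤ M ∧ (T x).1 = g}
    obtain ⟨s', hs', Hs⟩ := ls_tb hA R (ε / 2) (half_pos hε) 𝓕 (by
      rintro f ⟨x, hx, rfl⟩
      exact ⟨(T x).2, HB x.1 (T x).1 x.2 (T x).2 ((hNle x hM.le).1 hx) (hTe _ x.2)⟩)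
    let c : (V → ℝ) → lsX d P := fun g => if h : g ∈ 𝓕 then h.choose else 0
    have hcs : ∀ g ∈ 𝓕, N (c g) ≤ M ∧ (T (c g)).1 = g := by
      intro g hg
      have : c g = hg.choose := dif_pos hg
      rw [this]
      exact hg.choose_spec
    refine ⟨s'.image c, ?_, ?_⟩
    · intro y hy
      obtain ⟨g, hg, rfl⟩ := Finset.mem_image.1 hy
      exact (hcs g (hs' g hg)).1
    · intro x hx
      obtain ⟨g, hg, hfg⟩ := Hs (T x).1 ⟨x, hx, rfl⟩
      refine ⟨c g, Finset.mem_image_of_mem _ hg, ?_⟩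
      have h1 : LsLe ψ 1 (T x - T (c g)).1 (ε / 2) := by
        have : (T x - T (c g)).1 = fun z => (T x).1 z - g z := by
          funext z
          show (T x).1 z - (T (c g)).1 z = _
          rw [(hcs g (hs' g hg)).2]
        rw [this]
        exact hfg
      have h2 : N (T x - T (c g)) ≤ ε / 2 := (hNle _ (half_pos hε).le).2 h1
      linarith
  have habs := ls_abs N hN0 hNadd hNsmul M hM T hcont htb
  choose xs σs h1 h2 h3 h4 h5 using fun k : ℕ => habs (1 / ((k : ℝ) + 1)) (by positivity)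
  obtain ⟨x', σ', ν, hν, hx's, hσ', hE, hσlim, hxlim⟩ := ls_limit hP hc hA S hS hreg M
    (fun k => (xs k).1) (fun k => (T (xs k)).1) σs (fun k => (xs k).2) (fun k => (T (xs k)).2)
    (fun k => ⟨h2 k, h3 k⟩) (fun k => (hNle (xs k) hM.le).1 (h1 k)) (fun k => hTe _ (xs k).2)
    (fun k => (hNle (σs k • T (xs k) - xs k) (by positivity)).1 (h4 k))
  let x'X : lsX d P := ⟨x', hx's⟩
  have hNx' : N x'X ≤ |M0| :=
    (hNle x'X (abs_nonneg _)).2 ((hap σ' hσ' x' hx's hE).mono (le_abs_self _))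
  have htri : ∀ a b : lsX d P, N a ≤ N (a - b) + N b := by
    intro a b
    have := hNadd (a - b) b
    rwa [sub_add_cancel] at this
  have hev : ∃ k0, ∀ k ≥ k0, σs (ν k) = 1 := by
    by_contra hcon
    push_neg at hcon
    obtain ⟨k0, hk0⟩ := hxlim (1 / 4) (by norm_num)
    obtain ⟨k, hk, hne⟩ := hcon (max k0 4)
    have hk4 : 4 ≤ ν k := (le_max_right k0 4).trans (hk.trans (hν.id_le k))
    have e1 : N (σs (ν k) • T (xs (ν k))) = M := (h5 (ν k)).resolve_left hne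
    have e2 := htri (σs (ν k) • T (xs (ν k))) (xs (ν k))
    have e3 := htri (xs (ν k)) x'X
    have e4 : N (xs (ν k) - x'X) ≤ 1 / 4 :=
      (hNle _ (by norm_num)).2 (hk0 k ((le_max_left k0 4).trans hk))
    have e5 : (1 : ℝ) / ((ν k : ℝ) + 1) ≤ 1 / 4 := by
      have : (4 : ℝ) ≤ ν k := by exact_mod_cast hk4
      exact one_div_le_one_div_of_le (by norm_num) (by linarith)
    have e6 := h4 (ν k)
    linarith
  obtain ⟨k0, hk0⟩ := hev
  have hσ1 : σ' = 1 := by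
    refine tendsto_nhds_unique hσlim (tendsto_const_nhds.congr' ?_)
    filter_upwards [Filter.eventually_ge_atTop k0] with k hk
    exact (hk0 k hk).symm
  exact ⟨x', hx's, hσ1 ▸ hE⟩

end Claimed.Agent.R315
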