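import Claimed.Agent.R315.Pack011

/-!
# Row 315, paper S: package LS-TM (#9770) `ls_tm`

PROVED (helper282).  For `y ∈ closedBall 0 4` in the chart `α`: `ψ α y ∈ ψ β '' ball 0 1` for some `β`; `f∘ψ α = (f∘ψ β)∘τ` near `y`, `τ = if_tr ..` smooth; chain rule of order `≤ 2` (`norm_iteratedFDerivWithin_comp_le`).
  Uniform constant: `K_{αβ} = {y ∈ closedBall 0 4 | ψ α y ∈ ψ β '' closedBall 0 1}` is compact, `τ` is smooth on a neighbourhood of it, so `‖D^jτ‖ ≤ c` on `K_{αβ}`, `j ≤ 2`.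
-/

set_option autoImplicit false
open scoped ContDiff Topology
open Claims.C0499

namespace Claimed.Agent.R315

variable {V : Type} [NormedAddCommGroup V] [NormedSpace ℝ V]
variable {d m : ℕ}

/-- bounds for the derivatives of one transition map on the compact set `K_{αβ}`. -/
theorem lstm_bound [FiniteDimensional ℝ V] {P : Set V} {ψ : Fin m → E d → V}
    {U : Fin m → Set (E d)} (hA : LsAtlas d P ψ U) (α β : Fin m) (j : ℕ) :
    ∃ c : ℝ, ∀ y ∈ Metric.closedBall (0 : E d) 4, ψ α y ∈ ψ β '' Metric.closedBall 0 1 →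
      ‖iteratedFDeriv ℝ j (if_tr (ψ β) (U β) (ψ α)) y‖ ≤ c := by
  have h14 : Metric.closedBall (0 : E d) 1 ⊆ U β :=
    (Metric.closedBall_subset_closedBall (by norm_num)).trans (hA.big β)
  have hcl : IsClosed (ψ β '' Metric.closedBall 0 1) :=
    ((isCompact_closedBall _ _).image_of_continuousOn
      ((if_continuousOn (hA.par β)).mono h14)).isClosed
  have hK : IsCompact (Metric.closedBall (0 : E d) 4 ∩ ψ α ⁻¹' (ψ β '' Metric.closedBall 0 1)) := by
    refine (isCompact_closedBall (0 : E d) 4).of_isClosed_subset ?_ Set.inter_subset_left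
    exact ((if_continuousOn (hA.par α)).mono (hA.big α)).preimage_isClosed_of_isClosed
      Metric.isClosed_closedBall hcl
  have hD : IsOpen (if_trDom (ψ α) (U α) (ψ β) (U β)) := if_isOpen_trDom (hA.par α) (hA.par β)
  have hsub : Metric.closedBall (0 : E d) 4 ∩ ψ α ⁻¹' (ψ β '' Metric.closedBall 0 1) ⊆
      if_trDom (ψ α) (U α) (ψ β) (U β) := by
    rintro y ⟨hy, z, hz, hzy⟩
    exact if_mem_trDom (hA.big α hy) (h14 hz) hzy.symm
  have hcont : ContinuousOn (iteratedFDeriv ℝ j (if_tr (ψ β) (U β) (ψ α)))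
      (if_trDom (ψ α) (U α) (ψ β) (U β)) := by
    have h1 := (if_tr_contDiffOn (hA.par α) (hA.par β)).continuousOn_iteratedFDerivWithin
      (m := j) (by exact_mod_cast le_top) hD.uniqueDiffOn
    exact h1.congr (fun y hy => (iteratedFDerivWithin_of_isOpen j hD hy).symm)
  obtain ⟨c, hc⟩ := hK.exists_bound_of_continuousOn (hcont.mono hsub)
  exact ⟨c, fun y hy hy' => hc y ⟨hy, hy'⟩⟩

/-- **LS-TM**: the `C²` norm on the balls of radius `4` is controlled by the one on the unit balls. -/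
theorem ls_tm [FiniteDimensional ℝ V] {P : Set V} {ψ : Fin m → E d → V}
    {U : Fin m → Set (E d)} (hA : LsAtlas d P ψ U) :
    ∃ C : ℝ, 1 ≤ C ∧ ∀ (f : V → ℝ) (R : ℝ), SmoothAlong d P f → LsLe ψ 1 f R →
      LsLe ψ 4 f (C * R) := by
  choose c hc using fun α β j => lstm_bound hA α β j
  obtain ⟨D, hD⟩ : ∃ D : ℝ, D = 1 + ∑ α, ∑ β, ∑ j ∈ Finset.range 3, |c α β j| := ⟨_, rfl⟩
  have hD1 : 1 ≤ D := by
    rw [hD]
    have : 0 ≤ ∑ α, ∑ β, ∑ j ∈ Finset.range 3, |c α β j| :=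
      Finset.sum_nonneg fun α _ => Finset.sum_nonneg fun β _ => Finset.sum_nonneg fun j _ =>
        abs_nonneg _
    linarith
  have hcD : ∀ α β j, j ≤ 2 → c α β j ≤ D := by
    intro α β j hj
    have h1 : |c α β j| ≤ ∑ j ∈ Finset.range 3, |c α β j| :=
      Finset.single_le_sum (f := fun j => |c α β j|) (fun _ _ => abs_nonneg _)
        (Finset.mem_range.2 (by omega))
    have h2 : ∑ j ∈ Finset.range 3, |c α β j| ≤ ∑ β, ∑ j ∈ Finset.range 3, |c α β j| :=
      Finset.single_le_sum (f := fun β => ∑ j ∈ Finset.range 3, |c α β j|)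
        (fun _ _ => Finset.sum_nonneg fun _ _ => abs_nonneg _) (Finset.mem_univ β)
    have h3 : ∑ β, ∑ j ∈ Finset.range 3, |c α β j| ≤ ∑ α, ∑ β, ∑ j ∈ Finset.range 3, |c α β j| :=
      Finset.single_le_sum (f := fun α => ∑ β, ∑ j ∈ Finset.range 3, |c α β j|)
        (fun _ _ => Finset.sum_nonneg fun _ _ => Finset.sum_nonneg fun _ _ => abs_nonneg _)
        (Finset.mem_univ α)
    rw [hD]
    linarith [le_abs_self (c α β j)]
  refine ⟨2 * D ^ 2, by nlinarith, ?_⟩
  intro f R hf hR α y hy n hn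
  have hR0 : 0 ≤ R :=
    (norm_nonneg _).trans (hR α 0 (Metric.mem_closedBall_self zero_le_one) 0 (by norm_num))
  obtain ⟨β, z, hz, hzy⟩ := Set.mem_iUnion.1 (hA.cov (if_mem (hA.par α) (hA.big α hy)))
  have hz1 : z ∈ Metric.closedBall (0 : E d) 1 := Metric.ball_subset_closedBall hz
  have hzU : z ∈ U β := hA.big β (Metric.closedBall_subset_closedBall (by norm_num) hz1)
  have hdom : y ∈ if_trDom (ψ α) (U α) (ψ β) (U β) := if_mem_trDom (hA.big α hy) hzU hzy.symm
  have hDo : IsOpen (if_trDom (ψ α) (U α) (ψ β) (U β)) := if_isOpen_trDom (hA.par α) (hA.par β)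
  have hτy : if_tr (ψ β) (U β) (ψ α) y = z := if_tr_eq (hA.par β) hzU hzy.symm
  have hev : f ∘ ψ α =ᶠ[𝓝 y] (f ∘ ψ β) ∘ if_tr (ψ β) (U β) (ψ α) := by
    filter_upwards [if_eventuallyEq_comp_tr (hA.par α) (hA.par β) hdom] with w hw
    simp only [Function.comp_apply] at hw ⊢
    rw [hw]
  rw [(Filter.EventuallyEq.iteratedFDeriv (𝕜 := ℝ) hev n).eq_of_nhds]
  have key := norm_iteratedFDerivWithin_comp_le (𝕜 := ℝ) (n := n) (N := ∞)
    (hf (ψ β) (U β) (hA.par β)) (if_tr_contDiffOn (hA.par α) (hA.par β))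
    (by exact_mod_cast le_top) (if_open (hA.par β)).uniqueDiffOn hDo.uniqueDiffOn
    (fun w hw => if_tr_mem hw) hdom (C := R) (D := D) ?_ ?_
  · rw [iteratedFDerivWithin_of_isOpen n hDo hdom] at key
    refine key.trans ?_
    have h1 : (n.factorial : ℝ) ≤ 2 := by
      interval_cases n <;> norm_num [Nat.factorial]
    have h2 : D ^ n ≤ D ^ 2 := pow_le_pow_right₀ hD1 hn
    have h3 : 0 ≤ D ^ n := by positivity
    calc (n.factorial : ℝ) * R * D ^ n ≤ 2 * R * D ^ 2 := by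
          apply mul_le_mul (mul_le_mul_of_nonneg_right h1 hR0) h2 h3 (by positivity)
      _ = 2 * D ^ 2 * R := by ring
  · intro i hi
    rw [hτy, iteratedFDerivWithin_of_isOpen i (if_open (hA.par β)) hzU]
    exact hR β z hz1 i (hi.trans hn)
  · intro i hi1 hi
    rw [iteratedFDerivWithin_of_isOpen i hDo hdom]
    refine (hc α β i y hy ⟨z, hz1, hzy⟩).trans ((hcD α β i (hi.trans hn)).trans ?_)
    calc D = D ^ 1 := (pow_one D).symm
      _ ≤ D ^ i := pow_le_pow_right₀ hD1 hi1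

end Claimed.Agent.R315
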