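import Claimed.Agent.R315.Ss.Cmp
import Claimed.Agent.R315.Pack005
import Claimed.Agent.R315.Pack006

/-!
# Row 315, paper S: package SS-PERT-A (#8515) `ss_pert_dsc`

Used on the cutoff annulus: `u = u_ρ → 0` in `C³`, so `G' = G + ζ κ(σ) du²`, `t' = t - ζ β(σ)` are `C²`-close to `G, t`, hence `rm_DscC G' t'` is close to `rm_DscC G t`.
Everything is POINTWISE in `y ∈ C` (`C` compact): only the 3-jet of `u` at `y` is involved.

## SS-PERT-A `ss_pert_dsc`  (~400 lines)
By `rm_scal_low`, `rm_lapC_eq` (+ definitions `hessC`, `christoffel`, `gradSqC`):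
   `rm_DscC G t y = Ψ (G y, (∂_k G_ij y), (∂_k∂_l G_ij y), (∂_k t y), (∂_k∂_l t y))`
with ONE function `Ψ` on a finite dimensional space `X = Matrix × (Fin d → Matrix) × (Fin d → Fin d → Matrix) × (Fin d → ℝ) × (Fin d → Fin d → ℝ)`, which is a polynomial in the entries of `A⁻¹` and in the other variables, hence
continuous at every point with `A.det ≠ 0` (`continuousAt` of `Ring.inverse`/`Matrix.inv`: `A⁻¹ = (det A)⁻¹ • adjugate A`).  `J y :=` the data of `(G,t)` at `y` is continuous on `U`, so `J '' C` is compact and consists of continuity points.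
LEMMA (topology): `Ψ` continuous at every point of a compact `K ⊆ X` ⇒ `∀ ε > 0, ∃ δ > 0, ∀ p ∈ K, ∀ q, dist q p ≤ δ → |Ψ q - Ψ p| ≤ ε`  (finite subcover by balls of half radius; or by contradiction with sequences).
Apply with `q` = the data of `(G',t')` at `y` (`rm_scal_low`, `rm_lapC_eq` for `G'` on `U'`).  Sup-norm on `X`: `dist q p ≤ δ` iff all entries are `δ`-close.
-/

set_option autoImplicit false
open scoped ContDiff
open Claims.C0499

namespace Claimed.Agent.R315

variable {d : ℕ}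

/-- the space of 2-jets of `(G,t)`. -/
abbrev SspX (d : ℕ) : Type :=
  (Fin d → Fin d → ℝ) × (Fin d → Fin d → Fin d → ℝ) × (Fin d → Fin d → Fin d → Fin d → ℝ) ×
    (Fin d → ℝ) × (Fin d → Fin d → ℝ)

/-- the 2-jet of `(G,t)` at `y`. -/
noncomputable def sspJ (G : rm_MF d) (t : E d → ℝ) (y : E d) : SspX d :=
  (fun i j => G y i j, fun i j k => pdiff (fun w => G w i j) k y,
    fun i j k l => rm_p2 (fun w => G w i j) k l y, fun k => pdiff t k y, fun k l => rm_p2 t k l y)

/-- Christoffel symbols of the first kind, as a polynomial. -/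
noncomputable def sspC1 (q : SspX d) (i j k : Fin d) : ℝ :=
  (1 / 2) * (q.2.1 j k i + q.2.1 i k j - q.2.1 i j k)

/-- the drift scalar curvature as a polynomial in `(G⁻¹, 2-jet)`. -/
noncomputable def sspP (I : Fin d → Fin d → ℝ) (q : SspX d) : ℝ :=
  (∑ j : Fin d, ∑ k : Fin d, ∑ i : Fin d, ∑ l : Fin d, I j k * (I i l *
      ((1 / 2) * (q.2.2.1 j l i k + q.2.2.1 i k j l - q.2.2.1 j k i l - q.2.2.1 i l j k) +
        ∑ a : Fin d, ∑ b : Fin d, I a b *
          (sspC1 q i k a * sspC1 q j l b - sspC1 q j k a * sspC1 q i l b))))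
  + 2 * (∑ i : Fin d, ∑ j : Fin d, I i j * (q.2.2.2.2 i j - ∑ k : Fin d,
      ((1 / 2) * ∑ l : Fin d, I k l * (q.2.1 j l i + q.2.1 i l j - q.2.1 i j l)) * q.2.2.2.1 k))
  - ∑ i : Fin d, ∑ j : Fin d, I i j * q.2.2.2.1 i * q.2.2.2.1 j

noncomputable def sspPsi (q : SspX d) : ℝ := sspP (fun a b => (Matrix.of q.1)⁻¹ a b) q

theorem ssp_dsc_eq {G : rm_MF d} {U : Set (E d)} (hG : rm_Met G U) {t : E d → ℝ}
    (ht : ContDiffOn ℝ ∞ t U) {y : E d} (hy : y ∈ U) : rm_DscC G t y = sspPsi (sspJ G t y) := by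
  unfold rm_DscC
  rw [rm_scal_low hG hy, rm_lapC_eq hG hy ht]
  rfl

theorem ssp_P_cont : Continuous fun z : (Fin d → Fin d → ℝ) × SspX d => sspP z.1 z.2 := by
  unfold sspP sspC1
  fun_prop

theorem ssp_inv_cont (a b : Fin d) :
    ContinuousOn (fun q : SspX d => (Matrix.of q.1)⁻¹ a b) {q | (Matrix.of q.1).det ≠ 0} := by
  have h1 : Continuous fun q : SspX d => (Matrix.of q.1 : Matrix (Fin d) (Fin d) ℝ) :=
    continuous_fst
  have h2 : Continuous fun q : SspX d => (Matrix.of q.1 : Matrix (Fin d) (Fin d) ℝ).det :=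
    h1.matrix_det
  have h3 : Continuous fun q : SspX d => (Matrix.of q.1 : Matrix (Fin d) (Fin d) ℝ).adjugate a b :=
    (h1.matrix_adjugate).matrix_elem a b
  have e : (fun q : SspX d => (Matrix.of q.1)⁻¹ a b)
      = fun q : SspX d => ((Matrix.of q.1 : Matrix (Fin d) (Fin d) ℝ).det)⁻¹
        * (Matrix.of q.1 : Matrix (Fin d) (Fin d) ℝ).adjugate a b := by
    funext q
    rw [Matrix.inv_def, Ring.inverse_eq_inv', Matrix.smul_apply, smul_eq_mul]
  rw [e]
  exact (h2.continuousOn.inv₀ fun q hq => hq).mul h3.continuousOn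

theorem ssp_Psi_cont : ContinuousOn (sspPsi (d := d)) {q | (Matrix.of q.1).det ≠ 0} := by
  have h0 : ContinuousOn (fun q : SspX d => (fun a b => (Matrix.of q.1)⁻¹ a b :
      Fin d → Fin d → ℝ)) {q | (Matrix.of q.1).det ≠ 0} :=
    continuousOn_pi.2 fun a => continuousOn_pi.2 fun b => ssp_inv_cont a b
  have h1 : ContinuousOn (fun q : SspX d => ((fun a b => (Matrix.of q.1)⁻¹ a b :
      Fin d → Fin d → ℝ), q)) {q | (Matrix.of q.1).det ≠ 0} := h0.prodMk continuousOn_id
  have h2 := Continuous.comp_continuousOn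
    (g := fun z : (Fin d → Fin d → ℝ) × SspX d => sspP z.1 z.2) ssp_P_cont h1
  have e : sspPsi (d := d) = (fun z : (Fin d → Fin d → ℝ) × SspX d => sspP z.1 z.2) ∘
      (fun q : SspX d => ((fun a b => (Matrix.of q.1)⁻¹ a b : Fin d → Fin d → ℝ), q)) := by
    funext q
    unfold sspPsi
    rfl
  rw [e]
  exact h2

theorem ssp_open : IsOpen {q : SspX d | (Matrix.of q.1).det ≠ 0} := by
  have h1 : Continuous fun q : SspX d => (Matrix.of q.1 : Matrix (Fin d) (Fin d) ℝ) :=
    continuous_fst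
  exact isOpen_ne_fun h1.matrix_det continuous_const

/-- uniform continuity near a compact set. -/
theorem ssp_unif {X : Type} [PseudoMetricSpace X] [ProperSpace X] {O K : Set X} (hO : IsOpen O)
    (hK : IsCompact K) (hKO : K ⊆ O) {Ψ : X → ℝ} (hΨ : ContinuousOn Ψ O) {ε : ℝ} (hε : 0 < ε) :
    ∃ δ : ℝ, 0 < δ ∧ ∀ p ∈ K, ∀ q, dist q p ≤ δ → |Ψ q - Ψ p| ≤ ε := by
  obtain ⟨δ0, hδ0, hsub⟩ := hK.exists_cthickening_subset_open hO hKO
  have hK' : IsCompact (Metric.cthickening δ0 K) := hK.cthickening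
  have hu := hK'.uniformContinuousOn_of_continuous (hΨ.mono hsub)
  obtain ⟨δ1, hδ1, h1⟩ := Metric.uniformContinuousOn_iff.1 hu ε hε
  refine ⟨min δ0 (δ1 / 2), by positivity, fun p hp q hq => ?_⟩
  have hq' : q ∈ Metric.cthickening δ0 K :=
    Metric.mem_cthickening_of_dist_le q p δ0 K hp (hq.trans (min_le_left _ _))
  have hp' : p ∈ Metric.cthickening δ0 K := Metric.self_subset_cthickening K hp
  have := h1 q hq' p hp' (lt_of_le_of_lt (hq.trans (min_le_right _ _)) (by linarith))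
  rw [Real.dist_eq] at this
  exact this.le

theorem ssp_J_cont {G : rm_MF d} {U : Set (E d)} (hG : rm_Met G U) {t : E d → ℝ}
    (ht : ContDiffOn ℝ ∞ t U) : ContinuousOn (sspJ G t) U := by
  unfold sspJ
  refine ContinuousOn.prodMk ?_ (ContinuousOn.prodMk ?_ (ContinuousOn.prodMk ?_
    (ContinuousOn.prodMk ?_ ?_)))
  · exact continuousOn_pi.2 fun i => continuousOn_pi.2 fun j => (hG.smooth i j).continuousOn
  · exact continuousOn_pi.2 fun i => continuousOn_pi.2 fun j => continuousOn_pi.2 fun k =>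
      (rm_pdiff_smooth hG.opn (hG.smooth i j) k).continuousOn
  · exact continuousOn_pi.2 fun i => continuousOn_pi.2 fun j => continuousOn_pi.2 fun k =>
      continuousOn_pi.2 fun l => (rm_p2_smooth hG.opn (hG.smooth i j) k l).continuousOn
  · exact continuousOn_pi.2 fun k => (rm_pdiff_smooth hG.opn ht k).continuousOn
  · exact continuousOn_pi.2 fun k => continuousOn_pi.2 fun l =>
      (rm_p2_smooth hG.opn ht k l).continuousOn

theorem ssp_p2_sub {f g : E d → ℝ} {y : E d} (hf : ContDiffAt ℝ 2 f y) (hg : ContDiffAt ℝ 2 g y)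
    (i j : Fin d) : rm_p2 (fun z => f z - g z) i j y = rm_p2 f i j y - rm_p2 g i j y := by
  have hfd : ∀ᶠ z in nhds y, DifferentiableAt ℝ f z :=
    (hf.eventually (by simp)).mono fun z hz => hz.differentiableAt (by norm_num)
  have hgd : ∀ᶠ z in nhds y, DifferentiableAt ℝ g z :=
    (hg.eventually (by simp)).mono fun z hz => hz.differentiableAt (by norm_num)
  have e : (fun w => pdiff (fun z => f z - g z) j w) =ᶠ[nhds y]
      fun w => pdiff f j w - pdiff g j w := by
    filter_upwards [hfd, hgd] with w h1 h2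
    exact rm_pdiff_sub h1 h2
  have d1 : DifferentiableAt ℝ (fun w => pdiff f j w) y := by
    have h1 : DifferentiableAt ℝ (fderiv ℝ f) y :=
      (hf.fderiv_right (m := 1) (by norm_num)).differentiableAt (by norm_num)
    exact h1.clm_apply (differentiableAt_const _)
  have d2 : DifferentiableAt ℝ (fun w => pdiff g j w) y := by
    have h1 : DifferentiableAt ℝ (fderiv ℝ g) y :=
      (hg.fderiv_right (m := 1) (by norm_num)).differentiableAt (by norm_num)
    exact h1.clm_apply (differentiableAt_const _)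
  unfold rm_p2
  rw [rm_pdiff_congr e, rm_pdiff_sub d1 d2]

/-- `rm_DscC` is a continuous function of the 2-jets of `(G,t)`, uniformly on compact sets. -/
theorem ss_pert_dsc {G : rm_MF d} {U : Set (E d)} (hG : rm_Met G U) {t : E d → ℝ}
    (ht : ContDiffOn ℝ ∞ t U) (C : Set (E d)) (hC : IsCompact C) (hCU : C ⊆ U) (ε : ℝ)
    (hε : 0 < ε) :
    ∃ ε1 : ℝ, 0 < ε1 ∧ ∀ (D : rm_MF d) (b : E d → ℝ), rm_Met (fun z => G z + D z) U →
      (∀ i j, ContDiffOn ℝ ∞ (fun z => D z i j) U) → ContDiffOn ℝ ∞ b U → ∀ y ∈ C,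
      (∀ i j, |D y i j| ≤ ε1) → (∀ i j k, |pdiff (fun z => D z i j) k y| ≤ ε1) →
      (∀ i j k l, |rm_p2 (fun z => D z i j) k l y| ≤ ε1) →
      (∀ k, |pdiff b k y| ≤ ε1) → (∀ k l, |rm_p2 b k l y| ≤ ε1) →
      |rm_DscC (fun z => G z + D z) (fun z => t z - b z) y - rm_DscC G t y| ≤ ε := by
  have hK : IsCompact (sspJ G t '' C) := hC.image_of_continuousOn ((ssp_J_cont hG ht).mono hCU)
  have hKO : sspJ G t '' C ⊆ {q : SspX d | (Matrix.of q.1).det ≠ 0} := by
    rintro _ ⟨y, hy, rfl⟩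
    exact rm_det_ne hG y (hCU hy)
  obtain ⟨δ, hδ, hun⟩ := ssp_unif ssp_open hK hKO ssp_Psi_cont hε
  refine ⟨δ, hδ, fun D b hG' hD hb y hy h0 h1 h2 h3 h4 => ?_⟩
  have hyU : y ∈ U := hCU hy
  rw [ssp_dsc_eq hG' (ht.sub hb) hyU, ssp_dsc_eq hG ht hyU]
  refine hun _ ⟨y, hy, rfl⟩ _ ?_
  have c2 : ∀ {f : E d → ℝ}, ContDiffOn ℝ ∞ f U → ContDiffAt ℝ 2 f y := fun hf =>
    (rm_cda hG.opn hf hyU).of_le rm_two_le
  unfold sspJ
  refine max_le ?_ (max_le ?_ (max_le ?_ (max_le ?_ ?_)))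
  · refine (dist_pi_le_iff hδ.le).2 fun i => (dist_pi_le_iff hδ.le).2 fun j => ?_
    show dist ((G y + D y) i j) (G y i j) ≤ δ
    rw [Real.dist_eq, Matrix.add_apply, add_sub_cancel_left]
    exact h0 i j
  · refine (dist_pi_le_iff hδ.le).2 fun i => (dist_pi_le_iff hδ.le).2 fun j =>
      (dist_pi_le_iff hδ.le).2 fun k => ?_
    show dist (pdiff (fun w => (G w + D w) i j) k y) (pdiff (fun w => G w i j) k y) ≤ δ
    rw [Real.dist_eq]
    have e : pdiff (fun w => (G w + D w) i j) k y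
        = pdiff (fun w => G w i j) k y + pdiff (fun w => D w i j) k y :=
      rm_pdiff_add (rm_da hG.opn (hG.smooth i j) hyU) (rm_da hG.opn (hD i j) hyU)
    rw [e, add_sub_cancel_left]
    exact h1 i j k
  · refine (dist_pi_le_iff hδ.le).2 fun i => (dist_pi_le_iff hδ.le).2 fun j =>
      (dist_pi_le_iff hδ.le).2 fun k => (dist_pi_le_iff hδ.le).2 fun l => ?_
    show dist (rm_p2 (fun w => (G w + D w) i j) k l y) (rm_p2 (fun w => G w i j) k l y) ≤ δ
    rw [Real.dist_eq]
    have e := ssp_p2_sub (c2 (hG'.smooth i j)) (c2 (hG.smooth i j)) k l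
    have e' : (fun z => (G z + D z) i j - G z i j) = fun z => D z i j := by
      funext z
      rw [Matrix.add_apply, add_sub_cancel_left]
    rw [e'] at e
    rw [← e]
    exact h2 i j k l
  · refine (dist_pi_le_iff hδ.le).2 fun k => ?_
    show dist (pdiff (fun z => t z - b z) k y) (pdiff t k y) ≤ δ
    rw [Real.dist_eq, rm_pdiff_sub (rm_da hG.opn ht hyU) (rm_da hG.opn hb hyU), sub_sub_cancel_left,
      abs_neg]
    exact h3 k
  · refine (dist_pi_le_iff hδ.le).2 fun k => (dist_pi_le_iff hδ.le).2 fun l => ?_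
    show dist (rm_p2 (fun z => t z - b z) k l y) (rm_p2 t k l y) ≤ δ
    rw [Real.dist_eq, ssp_p2_sub (c2 ht) (c2 hb), sub_sub_cancel_left, abs_neg]
    exact h4 k l

end Claimed.Agent.R315
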