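import Mathlib

/-!
# Row 315, paper S, package SS-RESPT, part A: the real inequality (prefix `ssrp_`)
Owner: helper39.
-/

set_option autoImplicit false

namespace Claimed.Agent.R315

/-- `2 (½ log(1+s²))² ≤ 20 s²/√(1+s²) + 2`. -/
theorem ssrp_log {s r : ℝ} (hr : 0 < r) (hr2 : r ^ 2 = 1 + s ^ 2) :
    2 * (Real.log (1 + s ^ 2) / 2) ^ 2 ≤ 20 * (s ^ 2 / r) + 2 := by
  have hr1 : 1 ≤ r := by nlinarith [sq_nonneg s]
  obtain ⟨q, hq⟩ : ∃ q, q = Real.sqrt r := ⟨_, rfl⟩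
  have hq2 : q ^ 2 = r := by rw [hq]; exact Real.sq_sqrt hr.le
  have hq0 : 0 < q := by rw [hq]; exact Real.sqrt_pos.2 hr
  have hq1 : 1 ≤ q := by nlinarith
  have e1 : Real.log (1 + s ^ 2) = 4 * Real.log q := by
    rw [← hr2, ← hq2, ← pow_mul, Real.log_pow]; norm_num
  have h1 : Real.log q ≤ q - 1 := Real.log_le_sub_one_of_pos hq0
  have h0 : 0 ≤ Real.log q := Real.log_nonneg hq1
  have h2 : (Real.log q) ^ 2 ≤ (q - 1) ^ 2 := by nlinarith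
  have e2 : s ^ 2 / r = r - 1 / r := by
    have : s ^ 2 = r ^ 2 - 1 := by linarith
    rw [this]; field_simp
  have h3 : 1 / r ≤ 1 := by rw [div_le_one hr]; exact hr1
  rw [e1, e2]
  nlinarith

/-- = `ss_res_alg`. -/
theorem ssrp_alg (n : ℕ) (hn : 2 ≤ n) (s H K J2 p θ l k1 M1 eM1 Eq : ℝ) (hs : 0 < s)
    (hJ : H ^ 2 / ((n : ℝ) - 1) ≤ J2) (hθ : θ = s ^ 2 / (1 + s ^ 2))
    (hl : l = 1 / Real.sqrt (1 + s ^ 2)) (hk : k1 = l * s) (hM1 : M1 = p / k1)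
    (heM1 : eM1 = M1 * K + 10 * (s - (H - M1 - K)) / k1)
    (hE : Eq = J2 + M1 ^ 2 + K ^ 2 / (1 - θ) - 2 * M1 * K + 2 * eM1) :
    (-p / 10 + Real.log (1 + s ^ 2) / 2) ^ 2 - (100 * n + 203)
      ≤ θ * Eq - 2 * (l * p + k1 * θ * K / l) - k1 ^ 2 := by
  have hX : 0 < 1 + s ^ 2 := by positivity
  obtain ⟨r, hr⟩ : ∃ r, r = Real.sqrt (1 + s ^ 2) := ⟨_, rfl⟩
  have hr0 : 0 < r := by rw [hr]; exact Real.sqrt_pos.2 hX
  have hr2 : r ^ 2 = 1 + s ^ 2 := by rw [hr]; exact Real.sq_sqrt hX.le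
  have hr1 : 1 ≤ r := by nlinarith [sq_nonneg s]
  rw [← hr] at hl
  have hl0 : 0 < l := by rw [hl]; positivity
  have hl1 : l ≤ 1 := by rw [hl, div_le_one hr0]; exact hr1
  have hl2 : l ^ 2 = 1 / (1 + s ^ 2) := by rw [hl, ← hr2]; field_simp
  have hθ' : θ = (l * s) ^ 2 := by rw [hθ, mul_pow, hl2]; field_simp
  have h1θ : 1 - θ = l ^ 2 := by rw [hθ, hl2]; field_simp; ring
  have hθ0 : 0 ≤ θ := by rw [hθ']; positivity
  have hθ1 : θ ≤ 1 := by nlinarith [sq_nonneg l]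
  have hk0 : 0 < k1 := by rw [hk]; positivity
  have hlog := ssrp_log hr0 hr2
  have hks : k1 * s = s ^ 2 / r := by rw [hk, hl]; field_simp
  have id1 : θ * Eq - 2 * (l * p + k1 * θ * K / l) - k1 ^ 2 =
      k1 ^ 2 * J2 - 20 * k1 * H + (p ^ 2 + 2 * (10 - l) * p) +
        ((s * K) ^ 2 + 2 * (10 * l - θ) * (s * K)) + 20 * (k1 * s) - k1 ^ 2 := by
    rw [hE, heM1, hM1, h1θ]
    have : θ * (J2 + (p / k1) ^ 2 + K ^ 2 / l ^ 2 - 2 * (p / k1) * K +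
        2 * (p / k1 * K + 10 * (s - (H - p / k1 - K)) / k1)) =
        k1 ^ 2 * (J2 + (p / k1) ^ 2 + K ^ 2 / l ^ 2 - 2 * (p / k1) * K +
        2 * (p / k1 * K + 10 * (s - (H - p / k1 - K)) / k1)) := by rw [hθ', hk]
    rw [this, hk]
    field_simp
    ring
  rw [id1]
  have hm : (0 : ℝ) < (n : ℝ) - 1 := by
    have : (2 : ℝ) ≤ n := by exact_mod_cast hn
    linarith
  -- (a)
  have ha : -(100 * ((n : ℝ) - 1)) ≤ k1 ^ 2 * J2 - 20 * k1 * H := by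
    have h1 : k1 ^ 2 * (H ^ 2 / ((n : ℝ) - 1)) ≤ k1 ^ 2 * J2 :=
      mul_le_mul_of_nonneg_left hJ (by positivity)
    have h2 : k1 ^ 2 * (H ^ 2 / ((n : ℝ) - 1)) - 20 * k1 * H + 100 * ((n : ℝ) - 1) =
        (k1 * H - 10 * ((n : ℝ) - 1)) ^ 2 / ((n : ℝ) - 1) := by
      field_simp; ring
    have h3 : 0 ≤ (k1 * H - 10 * ((n : ℝ) - 1)) ^ 2 / ((n : ℝ) - 1) := by positivity
    linarith
  -- (b)
  have hb : p ^ 2 / 2 - 200 ≤ p ^ 2 + 2 * (10 - l) * p := by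
    have h10 : (10 - l) ^ 2 ≤ 100 := by nlinarith
    have h11 : 0 ≤ (p + 2 * (10 - l)) ^ 2 := sq_nonneg _
    have h12 : (p + 2 * (10 - l)) ^ 2 = p ^ 2 + 4 * ((10 - l) * p) + 4 * (10 - l) ^ 2 := by ring
    linarith
  -- (c)
  have hc : -100 ≤ (s * K) ^ 2 + 2 * (10 * l - θ) * (s * K) := by
    have h1 : (10 * l - θ) ^ 2 ≤ 100 := by
      have : -10 ≤ 10 * l - θ := by linarith
      have : 10 * l - θ ≤ 10 := by linarith
      nlinarith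
    have h11 : 0 ≤ (s * K + (10 * l - θ)) ^ 2 := sq_nonneg _
    have h12 : (s * K + (10 * l - θ)) ^ 2 =
        (s * K) ^ 2 + 2 * (10 * l - θ) * (s * K) + (10 * l - θ) ^ 2 := by ring
    linarith
  -- (d)
  have hd : k1 ^ 2 ≤ 1 := by rw [hk, ← hθ']; exact hθ1
  -- (e)
  have he : (-p / 10 + Real.log (1 + s ^ 2) / 2) ^ 2 ≤
      p ^ 2 / 2 + 2 * (Real.log (1 + s ^ 2) / 2) ^ 2 := by
    generalize Real.log (1 + s ^ 2) / 2 = b
    have h11 : 0 ≤ (p / 10 + b) ^ 2 := sq_nonneg _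
    have h12 : (-p / 10 + b) ^ 2 + (p / 10 + b) ^ 2 = p ^ 2 / 50 + 2 * b ^ 2 := by ring
    have h13 : 0 ≤ p ^ 2 := sq_nonneg _
    linarith
  rw [hks]
  linarith

end Claimed.Agent.R315
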