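import Claimed.Agent.R315.Ss.Cmp
import Claimed.Agent.R315.Ss.ResPtA
import Claimed.Agent.R315.Ss.AngleB

/-!
# Row 315, paper S, package SS-RESPT, part B: the reserve estimate where `du ≠ 0` (prefix `ssrp_`)
Owner: helper39.
-/

set_option autoImplicit false
open scoped ContDiff Topology
open Claims.C0499

namespace Claimed.Agent.R315

/-- `θ(σ) = σ/(1+σ)`. -/
noncomputable def ssrpTh (σ : ℝ) : ℝ := σ / (1 + σ)

theorem ssrp_th_deriv {σ : ℝ} (h : 0 < 1 + σ) : HasDerivAt ssrpTh (1 / (1 + σ) ^ 2) σ := by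
  have h1 : HasDerivAt (fun x : ℝ => 1 + x) 1 σ := (hasDerivAt_id σ).const_add 1
  have h2 := (hasDerivAt_id σ).div h1 h.ne'
  have e : (1 * (1 + σ) - id σ * 1) / (1 + σ) ^ 2 = 1 / (1 + σ) ^ 2 := by
    simp
  rw [e] at h2
  exact h2

theorem ssrp_isTheta : IsTheta ssrpTh := by
  refine ⟨?_, fun σ hσ => ?_, fun σ hσ => ?_, fun σ hσ => ?_, fun σ hσ => ?_⟩
  · unfold ssrpTh
    exact contDiffOn_id.div (contDiffOn_const.add contDiffOn_id) fun x (hx : 0 < x) => by positivity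
  · unfold ssrpTh; positivity
  · unfold ssrpTh
    rw [div_lt_one (by positivity)]; linarith
  · rw [(ssrp_th_deriv (by positivity)).deriv]; positivity
  · rw [(ssrp_th_deriv (by positivity)).deriv]
    unfold ssrpTh
    have : 2 * (1 - σ / (1 + σ)) - σ * (1 / (1 + σ) ^ 2) = (2 + σ) / (1 + σ) ^ 2 := by
      field_simp; ring
    have h2 : 0 ≤ (2 + σ) / (1 + σ) ^ 2 := by positivity
    linarith

theorem ssrp_kap : ∀ σ : ℝ, 0 < σ → (fun _ : ℝ => (1 : ℝ)) σ = ssrpTh σ / ((1 - ssrpTh σ) * σ) := by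
  intro σ hσ
  unfold ssrpTh
  field_simp
  ring

theorem ssrp_bet : ∀ σ : ℝ, 0 < σ →
    (fun σ : ℝ => -(Real.log (1 + σ) / 2)) σ = Real.log (1 - ssrpTh σ) / 2 := by
  intro σ hσ
  have : 1 - ssrpTh σ = (1 + σ)⁻¹ := by
    unfold ssrpTh; field_simp; ring
  rw [this, Real.log_inv]
  ring

theorem ssrp_fl : ∀ σ : ℝ, 0 < σ → ssG0 σ = Real.sqrt (ssrpTh σ) / Real.sqrt σ := by
  intro σ hσ
  unfold ssG0 ssrpTh
  rw [Real.sqrt_div hσ.le]
  have h1 := Real.sqrt_pos.2 hσ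
  have h2 : 0 < Real.sqrt (1 + σ) := Real.sqrt_pos.2 (by positivity)
  field_simp

section chart

variable {n : ℕ} {G : rm_MF n} {U : Set (E n)} {w u : E n → ℝ} {y : E n}

theorem ssrp_K (hG : rm_Met G U) (hu : ContDiffOn ℝ ∞ u U) (hy : y ∈ U)
    (hs : 0 < gradSqC G u y) :
    ssK G u ssrpTh y = -(gradIpC G u (gradSqC G u) y /
      (2 * gradSqC G u y * (1 + gradSqC G u y)) / ssSl G u y) := by
  have h1 : HasDerivAt (fun x => Real.log (ssrpTh x) / 2)
      (1 / (1 + gradSqC G u y) ^ 2 / ssrpTh (gradSqC G u y) / 2) (gradSqC G u y) :=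
    ((ssrp_th_deriv (by positivity)).log (ssrp_isTheta.pos _ hs).ne').div_const 2
  unfold ssK ssE
  rw [rm_ip_comp_right (φ := fun x => Real.log (ssrpTh x) / 2) h1.differentiableAt
    (rm_da hG.opn (sscm_sq_smooth hG hu) hy), h1.deriv]
  unfold ssrpTh
  congr 2
  field_simp

theorem ssrp_k1 (hG : rm_Met G U) (hu : ContDiffOn ℝ ∞ u U) (hy : y ∈ U)
    (hs : 0 < gradSqC G u y) :
    gradIpC G u (fun z => Real.sqrt (ssrpTh (gradSqC G u z))) y =
      1 / (1 + gradSqC G u y) ^ 2 / (2 * Real.sqrt (ssrpTh (gradSqC G u y))) *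
        gradIpC G u (gradSqC G u) y := by
  have h1 : HasDerivAt (fun x => Real.sqrt (ssrpTh x))
      (1 / (1 + gradSqC G u y) ^ 2 / (2 * Real.sqrt (ssrpTh (gradSqC G u y)))) (gradSqC G u y) :=
    (ssrp_th_deriv (by positivity)).sqrt (ssrp_isTheta.pos _ hs).ne'
  rw [rm_ip_comp_right (φ := fun x => Real.sqrt (ssrpTh x)) h1.differentiableAt
    (rm_da hG.opn (sscm_sq_smooth hG hu) hy), h1.deriv]

/-- `div_{G,w}(∇u/(1+σ)) = l div_{G,w}(l ∇u) - l⁴ ⟨dσ,du⟩/2`. -/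
theorem ssrp_div2 (hG : rm_Met G U) (hy : y ∈ U) :
    ssDivC G w (fun σ => 1 / (1 + σ)) u y = ssG0 (gradSqC G u y) * ssDivC G w ssG0 u y -
      gradIpC G (gradSqC G u) u y / (2 * (1 + gradSqC G u y) ^ 2) := by
  have h0 := ssan_one_add_pos hG hy u
  have h1 : HasDerivAt (fun x : ℝ => 1 / (1 + x)) (-1 / (1 + gradSqC G u y) ^ 2)
      (gradSqC G u y) := by
    have h2 : HasDerivAt (fun x : ℝ => 1 + x) 1 (gradSqC G u y) :=
      (hasDerivAt_id _).const_add 1
    have := h2.fun_inv h0.ne'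
    simpa [one_div] using this
  unfold ssDivC
  rw [h1.deriv, (ssan_G0_deriv' h0).deriv]
  have h2 := ssan_G0_sq h0
  have h3 : ssG0 (gradSqC G u y) * (ssG0 (gradSqC G u y) * lapC G u y +
      -(ssG0 (gradSqC G u y) ^ 3 / 2) * gradIpC G (gradSqC G u) u y -
      ssG0 (gradSqC G u y) * gradIpC G w u y) =
      ssG0 (gradSqC G u y) ^ 2 * lapC G u y -
      (ssG0 (gradSqC G u y) ^ 2) ^ 2 / 2 * gradIpC G (gradSqC G u) u y -
      ssG0 (gradSqC G u y) ^ 2 * gradIpC G w u y := by ring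
  rw [h3, h2]
  field_simp
  ring

/-- the reserve estimate when `du ≠ 0` on the whole of `U`. -/
theorem ssrp_pos (hn : 2 ≤ n) (hG : rm_Met G U) (hw : ContDiffOn ℝ ∞ w U)
    (hu : ContDiffOn ℝ ∞ u U) (hσ : ∀ z ∈ U, 0 < gradSqC G u z)
    (hpde : ∀ y ∈ U, ssDivC G w ssG0 u y = 10 * (u y - w y)) (hy : y ∈ U) :
    rm_DscC G w y + (w y + Real.log (1 + gradSqC G u y) / 2 - u y) ^ 2 - (100 * n + 203)
      ≤ rm_DscC (ssHuC G (fun _ => 1) u)
          (fun z => w z + Real.log (1 + gradSqC G u z) / 2 - u z) y := by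
  have hs := hσ y hy
  have h0 := ssan_one_add_pos hG hy u
  have hσs := sscm_sq_smooth hG hu
  have hcmp := ss_cmp hn hG hw hu ssrp_isTheta ssrp_kap ssrp_bet hy hs
  have hGp : rm_Met (ssHuC G (fun _ => 1) u) U :=
    ss_huC_met hG hu contDiffOn_const fun _ _ => zero_le_one
  have htu : ContDiffOn ℝ ∞ (ssTuC G w (fun σ => -(Real.log (1 + σ) / 2)) u) U :=
    hw.sub (((contDiffOn_const.add hσs).log fun z hz =>
      (ssan_one_add_pos hG hz u).ne').div_const 2).neg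
  have hmu : ContDiffOn ℝ ∞ (fun z => (-1 : ℝ) * u z) U := contDiffOn_const.mul hu
  have du := rm_da hG.opn hu hy
  -- the drift scalar curvature of `t⁺ = t_u - u`
  have e1 : rm_DscC (ssHuC G (fun _ => 1) u)
      (fun z => w z + Real.log (1 + gradSqC G u z) / 2 - u z) y =
      rm_DscC (ssHuC G (fun _ => 1) u) (ssTuC G w (fun σ => -(Real.log (1 + σ) / 2)) u) y -
        2 * ssDivC G w (fun σ => 1 / (1 + σ)) u y - gradSqC G u y / (1 + gradSqC G u y) := by
    have e2 : (fun z => w z + Real.log (1 + gradSqC G u z) / 2 - u z) =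
        fun z => ssTuC G w (fun σ => -(Real.log (1 + σ) / 2)) u z + (-1 : ℝ) * u z := by
      funext z; unfold ssTuC; ring
    rw [e2, rm_Dsc_add hGp hy htu hmu, rm_lap_smul hGp hy (-1) hu, rm_ip_smul_right (-1) du,
      if_gradSqC_eq, rm_ip_smul_left (-1) du, rm_ip_smul_right (-1) du, ← if_gradSqC_eq,
      ss_graph_sq hG hy, ← ss_graph_lap hG hw hu hy]
    ring
  -- `k₁ M₁ = p`
  have hkM : ∀ z ∈ U, Real.sqrt (ssrpTh (gradSqC G u z)) * ssM1 G w u ssrpTh z =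
      10 * (u z - w z) := fun z hz => by
    rw [← ss_div_eq hG hw hu ssrp_isTheta ssrp_fl hz (hσ z hz), hpde z hz]
  have hk1s : ContDiffOn ℝ ∞ (fun z => Real.sqrt (ssrpTh (gradSqC G u z))) U :=
    (ssrp_isTheta.smooth.comp hσs hσ).sqrt fun z hz => (ssrp_isTheta.pos _ (hσ z hz)).ne'
  have hM1s := sscm_M1_smooth hG hu hw hσ ssrp_isTheta.smooth ssrp_isTheta.pos
  have e3 : gradIpC G u (fun z => Real.sqrt (ssrpTh (gradSqC G u z)) * ssM1 G w u ssrpTh z) y =
      gradIpC G u (fun z => 10 * (u z - w z)) y :=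
    rm_ip_congr (Filter.EventuallyEq.refl _ u)
      (Filter.eventuallyEq_of_mem (hG.opn.mem_nhds hy) hkM)
  have dw := rm_da hG.opn hw hy
  have e4 : gradIpC G u (fun z => 10 * (u z - w z)) y =
      10 * (gradSqC G u y - gradIpC G u w y) := by
    have : (fun z => 10 * (u z - w z)) = fun z => 10 * u z + (-10) * w z := by
      funext z; ring
    rw [this, rm_ip_add_right (f := fun z => 10 * u z) (k := fun z => (-10) * w z)
      (du.const_mul 10) (dw.const_mul (-10)), rm_ip_smul_right 10 du, rm_ip_smul_right (-10) dw,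
      ← if_gradSqC_eq]
    ring
  rw [rm_ip_mul_right (rm_da hG.opn hk1s hy) (rm_da hG.opn hM1s hy), e4,
    ssrp_k1 hG hu hy hs] at e3
  have hK := ssrp_K hG hu hy hs
  have hX : gradIpC G (gradSqC G u) u y = gradIpC G u (gradSqC G u) y := rm_ip_comm hG hy _ _
  have hsl : 0 < ssSl G u y := Real.sqrt_pos.2 hs
  have hsl2 : ssSl G u y ^ 2 = gradSqC G u y := Real.sq_sqrt hs.le
  have hk1 : Real.sqrt (ssrpTh (gradSqC G u y)) = ssG0 (gradSqC G u y) * ssSl G u y := by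
    rw [ssrp_fl _ hs]
    unfold ssSl
    field_simp
  have hl0 := ssan_G0_pos h0
  have hl2 := ssan_G0_sq h0
  have hM1d : ssE G u w y = ssH G u y - ssM1 G w u ssrpTh y - ssK G u ssrpTh y := by
    unfold ssM1; ring
  have alg := ssrp_alg n hn (ssSl G u y) (ssH G u y) (ssK G u ssrpTh y)
    (ssH G u y ^ 2 / ((n : ℝ) - 1)) (10 * (u y - w y)) (ssrpTh (gradSqC G u y))
    (ssG0 (gradSqC G u y)) (ssG0 (gradSqC G u y) * ssSl G u y) (ssM1 G w u ssrpTh y)
    (ssE G u (ssM1 G w u ssrpTh) y) _ hsl le_rfl (by rw [hsl2]; rfl) (by rw [hsl2]; rfl) rfl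
    (by rw [← hkM y hy, hk1]; field_simp) ?_ rfl
  · rw [e1, ssrp_div2 hG hy, hpde y hy, hX]
    rw [hsl2] at alg
    have f1 : -(10 * (u y - w y)) / 10 + Real.log (1 + gradSqC G u y) / 2 =
        w y + Real.log (1 + gradSqC G u y) / 2 - u y := by ring
    have f2 : ssG0 (gradSqC G u y) * ssSl G u y * ssrpTh (gradSqC G u y) * ssK G u ssrpTh y /
        ssG0 (gradSqC G u y) = -(gradIpC G u (gradSqC G u) y / (2 * (1 + gradSqC G u y) ^ 2)) := by
      rw [hK]
      unfold ssrpTh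
      field_simp
    have f3 : (ssG0 (gradSqC G u y) * ssSl G u y) ^ 2 =
        gradSqC G u y / (1 + gradSqC G u y) := by
      rw [mul_pow, hl2, hsl2]; ring
    rw [f1, f2, f3] at alg
    linarith
  · rw [← hM1d, hK]
    rw [hk1] at e3
    unfold ssE
    obtain ⟨r, hr⟩ : ∃ r, r = Real.sqrt (1 + gradSqC G u y) := ⟨_, rfl⟩
    have hr0 : 0 < r := by rw [hr]; exact Real.sqrt_pos.2 h0
    have hr2 : 1 + gradSqC G u y = r ^ 2 := by rw [hr]; exact (Real.sq_sqrt h0.le).symm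
    have hlr : ssG0 (gradSqC G u y) = 1 / r := by rw [hr]; rfl
    rw [hlr, hr2, ← hsl2] at e3 ⊢
    generalize gradIpC G u (ssM1 G w u ssrpTh) y = a at e3 ⊢
    generalize gradIpC G u w y = b at e3 ⊢
    generalize gradIpC G u (gradSqC G u) y = X at e3 ⊢
    generalize ssM1 G w u ssrpTh y = M1 at e3 ⊢
    generalize ssSl G u y = s at e3 hsl ⊢
    field_simp at e3 ⊢
    linarith

end chart

end Claimed.Agent.R315
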