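import Claimed.Agent.R315.Pack010

/-!
# Row 315, paper S, Lemma 6.1 (one round of separations)   (package SS-ROUND)

BOOKKEEPING, no analysis: only `SsLocal`, `SsRound` (`Ss/Defs.lean`) and the facts of `Ss/Need.lean` (cite them as black boxes).
Paper: `sections/assembly.tex`, Lemma `assembly:round`.   Theorem to prove: `ss_round_pf` (= `ss_round` of `Ss/Chain.lean`).

PLAN.  `Countable ι` gives an injective `e : ι → ℕ`.  `d_k := δ/2^(k+2)`, `Σ_k := ∑_{m<k} d_m < δ/2`.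
STATE after `k` steps: `(H_k, z_k)` with
 (I1) `IsMetricOn n M H_k`, `MetLE n M h0 H_k`, `SmoothAlong n M z_k`;
 (I2) `∀ x ∈ M, c + (1 - δ (n - trM n M H_k h0 x) - Σ_k) * ssV T (z_k x) ≤ Dsc n M H_k z_k x`;
 (I3) `∀ i, e i < k → ∀ x ∈ A i, ∀ y ∈ B i, 1.004 * W ≤ rdist M H_k x y`;
 (I4) `∀ x ∈ M, (∀ i, e i < k → x ∉ K i) → H_k x = h0 x ∧ z_k x = t0 x`.
START `(h0,t0)`: `trM n M h0 h0 x = n` (`ssn_trM_self`).
STEP `k`: if `k = e i` apply `SsLocal` to `(h0, H_k, z_k, A i, B i, d_k)`; its compact set is contained in `{r_{A i} < W} ⊆ K i`; otherwise keep the pair.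
 `ss_round_step` below is this step (with the relation between consecutive states).
 (I2): with `Q = tr_{H} h0`, `Λ = 1 - δ(n-Q) - Σ`, `0 ≤ Q ≤ n` (`ssn_trM_bounds`), so `0 ≤ 1-(n+1)δ ≤ Λ ≤ 1`, and `max a 0 ≥ Λ a`:
   `Dsc' ≥ c + Λ V + max (V'-V) 0 - (δ(Q-Q') + d) V' ≥ c + Λ V' - (δ(Q-Q')+d) V' = c + Λ' V'`.
 (I3): `ssn_rdist_mono` for the old labels.
LIMIT: near `x ∈ M` only finitely many `K i` are met, so the pair is unchanged after `k0 = max e i + 1` steps on `M ∩ O`: `ssn_limit` (with `X = (V →L V →L ℝ) × ℝ`),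
 then `ssn_metric_local`, `ssn_smooth_local`, `ssn_dsc_congr`, `ssn_trM_congr`, `ssn_metLE_pointwise`; `MetLE n M H_k h1` for all `k`
 (pointwise: `h1 x = H_m x` for large `m`, and `MetLE` is transitive along the sequence), so `ssn_rdist_mono` gives the distances.
 Final constant: `Λ_k ≥ 1 - (n+1) δ` and `ssV ≥ 0`.
-/

set_option autoImplicit false
open scoped ContDiff
open MeasureTheory Claims.C0499

namespace Claimed.Agent.R315

/-- the invariant (I1)+(I2) of the round. -/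
structure SsRInv (n : ℕ) {N : ℕ} (M : Set (E N)) (h0 : Ten (E N)) (δ T c S : ℝ) (H : Ten (E N))
    (z : E N → ℝ) : Prop where
  met : IsMetricOn n M H
  le : MetLE n M h0 H
  smooth : SmoothAlong n M z
  curv : ∀ x ∈ M, c + (1 - δ * (n - trM n M H h0 x) - S) * ssV T (z x) ≤ Dsc n M H z x

/-- one step of the round. -/
theorem ss_round_step (n : ℕ) (δ W T : ℝ) (h0' : 0 < δ) (h1 : δ < 1 / (n + 1))
    (hL : SsLocal n δ W T) {N : ℕ} (M : Set (E N)) (h0 : Ten (E N)) (c S dd : ℝ)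
    (hM : Carrier n M) (hh0 : IsMetricOn n M h0) (hp : IsProperOn M h0) (A B : Set (E N))
    (hA : A ⊆ M) (hA1 : A.Nonempty) (hA2 : IsCompact A) (hB : B ⊆ M)
    (hAB : ∀ x ∈ A, ∀ y ∈ B, W ≤ rdist M h0 x y) (hS0 : 0 ≤ S) (hd0 : 0 < dd) (hSd : S + dd < δ)
    (H : Ten (E N)) (z : E N → ℝ) (hI : SsRInv n M h0 δ T c S H z) :
    ∃ (H' : Ten (E N)) (z' : E N → ℝ), SsRInv n M h0 δ T c (S + dd) H' z' ∧ MetLE n M H H' ∧
      (∀ x ∈ M, (¬ ∃ a ∈ A, rdist M h0 a x < W) → H' x = H x ∧ z' x = z x) ∧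
      (∀ x ∈ A, ∀ y ∈ B, 1.004 * W ≤ rdist M H' x y) := by
  obtain ⟨h', t', K, p1, p2, p3, -, p5, p6, p7, p8⟩ := hL N M h0 H z A B dd hM hh0 hp hI.met hI.le
    hI.smooth hA hA1 hA2 hB hAB hd0 (by linarith)
  refine ⟨h', t', ⟨p1, ssn_metLE_trans hI.le p2, p3, fun x hx => ?_⟩, p2, fun x hx hn => ?_, p8⟩
  · have hQ := ssn_trM_bounds hM.mfd hh0 hI.met hI.le hx
    have c1 := hI.curv x hx
    have c2 := p7 x hx
    set Q := trM n M H h0 x
    set Q' := trM n M h' h0 x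
    set V0 := ssV T (z x)
    set V1 := ssV T (t' x)
    set Λ : ℝ := 1 - δ * (n - Q) - S with hΛ
    have hn0 : (0 : ℝ) < (n : ℝ) + 1 := by positivity
    have hδn : δ * ((n : ℝ) + 1) < 1 := by
      rw [lt_div_iff₀ hn0] at h1
      exact h1
    have hΛ1 : Λ ≤ 1 := by
      have : 0 ≤ δ * (n - Q) := mul_nonneg h0'.le (by linarith [hQ.2])
      rw [hΛ]; linarith
    have hΛ0 : 0 ≤ Λ := by
      have : δ * (n - Q) ≤ δ * n := mul_le_mul_of_nonneg_left (by linarith [hQ.1]) h0'.le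
      rw [hΛ]; nlinarith
    have hmax : Λ * (V1 - V0) ≤ max (V1 - V0) 0 := by
      rcases le_total 0 (V1 - V0) with h | h
      · exact le_trans (by nlinarith) (le_max_left _ _)
      · exact le_trans (by nlinarith) (le_max_right _ _)
    have e : c + (1 - δ * (n - Q') - (S + dd)) * V1
        = c + Λ * V0 + Λ * (V1 - V0) - δ * (Q - Q') * V1 - dd * V1 := by
      rw [hΛ]; ring
    rw [e]
    linarith
  · exact p6 x hx fun hxK => hn (p5 x hxK).2

/-- S Lemma 6.1. -/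
theorem ss_round_pf (n : ℕ) (hn : 4 ≤ n) (δ W T : ℝ) (h0 : 0 < δ) (h1 : δ < 1 / (n + 1))
    (hW : 1 ≤ W) (hL : SsLocal n δ W T) : SsRound n δ W T := by
  classical
  intro N M h0' t0 c ι _ A B K hM hh0 hp ht0 hcurv hA hAB hK hlf
  obtain ⟨e, he⟩ := Countable.exists_injective_nat ι
  have hn0 : (0 : ℝ) < (n : ℝ) + 1 := by positivity
  have hδn : δ * ((n : ℝ) + 1) < 1 := by
    rw [lt_div_iff₀ hn0] at h1
    exact h1
  set Sg : ℕ → ℝ := fun k => δ / 2 * (1 - (1 / 2) ^ k) with hSg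
  set dk : ℕ → ℝ := fun k => δ * (1 / 2) ^ (k + 2) with hdk
  have hSg0 : ∀ k, 0 ≤ Sg k := fun k =>
    mul_nonneg (by positivity) (sub_nonneg.2 (pow_le_one₀ (by norm_num) (by norm_num)))
  have hSgs : ∀ k, Sg k + dk k = Sg (k + 1) := fun k => by
    simp only [hSg, hdk]; ring
  have hSgd : ∀ k, Sg k < δ := fun k => by
    have : (0 : ℝ) < (1 / 2) ^ k := by positivity
    simp only [hSg]; nlinarith
  have hdk0 : ∀ k, 0 < dk k := fun k => by positivity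
  have hV0 : ∀ r, 0 ≤ ssV T r := fun r => by unfold ssV; positivity
  -- the sequence of states
  let Inv : ℕ → Ten (E N) × (E N → ℝ) → Prop := fun k p =>
    SsRInv n M h0' δ T c (Sg k) p.1 p.2 ∧
    (∀ i, e i < k → ∀ x ∈ A i, ∀ y ∈ B i, 1.004 * W ≤ rdist M p.1 x y) ∧
    (∀ x ∈ M, (∀ i, e i < k → x ∉ K i) → p.1 x = h0' x ∧ p.2 x = t0 x)
  let Rel : ℕ → Ten (E N) × (E N → ℝ) → Ten (E N) × (E N → ℝ) → Prop := fun k p p' =>
    MetLE n M p.1 p'.1 ∧ ∀ x ∈ M, (∀ i, e i = k → x ∉ K i) → p'.1 x = p.1 x ∧ p'.2 x = p.2 x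
  have hstart : Inv 0 (h0', t0) := by
    refine ⟨⟨hh0, ssn_metLE_refl _, ht0, fun x hx => ?_⟩, fun i hi => absurd hi (Nat.not_lt_zero _),
      fun x _ _ => ⟨rfl, rfl⟩⟩
    have : Sg 0 = 0 := by simp [hSg]
    rw [ssn_trM_self hM.mfd hh0 hx, this]
    simpa using hcurv x hx
  have hstep : ∀ k p, Inv k p → ∃ p', Inv (k + 1) p' ∧ Rel k p p' := by
    rintro k ⟨H, z⟩ ⟨hI, hI3, hI4⟩
    by_cases hk : ∃ i, e i = k
    · obtain ⟨i, rfl⟩ := hk
      obtain ⟨a1, a2, a3, a4, -⟩ := hA i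
      obtain ⟨H', z', q1, q2, q3, q4⟩ := ss_round_step n δ W T h0 h1 hL M h0' c (Sg (e i))
        (dk (e i)) hM hh0 hp (A i) (B i) a1 a2 a3 a4 (hAB i) (hSg0 _) (hdk0 _)
        (by rw [hSgs]; exact hSgd _) H z hI
      have hnot : ∀ x ∈ M, x ∉ K i → ¬ ∃ a ∈ A i, rdist M h0' a x < W := fun x hx hxK hex =>
        hxK (hK i x hx hex)
      refine ⟨(H', z'), ⟨by rw [← hSgs]; exact q1, fun i' hi' x hx y hy => ?_,
        fun x hx hxK => ?_⟩, q2, fun x hx hxK => q3 x hx (hnot x hx (hxK i rfl))⟩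
      · rcases Nat.lt_succ_iff_lt_or_eq.1 hi' with h | h
        · exact (hI3 i' h x hx y hy).trans (ssn_rdist_mono hM.mfd hI.met q1.met q2 x y)
        · obtain rfl := he h
          exact q4 x hx y hy
      · obtain ⟨b1, b2⟩ := q3 x hx (hnot x hx (hxK i (Nat.lt_succ_self _)))
        obtain ⟨b3, b4⟩ := hI4 x hx fun i' hi' => hxK i' (Nat.lt_succ_of_lt hi')
        exact ⟨b1.trans b3, b2.trans b4⟩
    · have hlt : ∀ i, e i < k + 1 → e i < k := fun i hi =>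
        lt_of_le_of_ne (Nat.lt_succ_iff.1 hi) fun h => hk ⟨i, h⟩
      refine ⟨(H, z), ⟨⟨hI.met, hI.le, hI.smooth, fun x hx => ?_⟩, fun i hi => hI3 i (hlt i hi),
        fun x hx hxK => hI4 x hx fun i hi => hxK i (Nat.lt_succ_of_lt hi)⟩, ssn_metLE_refl _,
        fun x _ _ => ⟨rfl, rfl⟩⟩
      refine le_trans ?_ (hI.curv x hx)
      have h2 : Sg k ≤ Sg (k + 1) := by rw [← hSgs]; linarith [hdk0 k]
      have := mul_le_mul_of_nonneg_right h2 (hV0 (z x))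
      show c + (1 - δ * (n - trM n M H h0' x) - Sg (k + 1)) * ssV T (z x)
        ≤ c + (1 - δ * (n - trM n M H h0' x) - Sg k) * ssV T (z x)
      nlinarith
  obtain ⟨f, hfI, hfR⟩ : ∃ f : ℕ → Ten (E N) × (E N → ℝ), (∀ k, Inv k (f k)) ∧
      ∀ k, Rel k (f k) (f (k + 1)) := by
    choose! nx hnx using hstep
    let g : (k : ℕ) → {p // Inv k p} := fun k =>
      Nat.rec ⟨(h0', t0), hstart⟩ (fun k p => ⟨nx k p.1, (hnx k p.1 p.2).1⟩) k
    exact ⟨fun k => (g k).1, fun k => (g k).2, fun k => (hnx k (g k).1 (g k).2).2⟩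
  -- monotonicity
  have hmono : ∀ k m, k ≤ m → MetLE n M (f k).1 (f m).1 := by
    intro k m hkm
    induction m, hkm using Nat.le_induction with
    | base => exact ssn_metLE_refl _
    | succ m _ ih => exact ssn_metLE_trans ih (hfR m).1
  -- local stabilisation
  have hstab : ∀ x ∈ M, ∃ O ∈ nhds x, ∃ k0 : ℕ, ∀ k ≥ k0, ∀ y ∈ M ∩ O,
      (fun k y => ((f k).1 y, (f k).2 y)) k y = (fun k y => ((f k).1 y, (f k).2 y)) k0 y := by
    intro x hx
    obtain ⟨O, hO, hfin⟩ := hlf x hx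
    refine ⟨O, hO, hfin.toFinset.sup (fun i => e i + 1), fun k hk y hy => ?_⟩
    induction k, hk using Nat.le_induction with
    | base => rfl
    | succ k hk ih =>
      obtain ⟨b1, b2⟩ := (hfR k).2 y hy.1 fun i hi hyK => by
        have hmem : i ∈ hfin.toFinset := hfin.mem_toFinset.2 ⟨y, hyK, hy.2⟩
        have := Finset.le_sup (f := fun i => e i + 1) hmem
        omega
      rw [← ih]
      exact Prod.ext b1 b2
  obtain ⟨G, hG⟩ := ssn_limit (fun k y => ((f k).1 y, (f k).2 y)) hstab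
  have hG1 : ∀ x ∈ M, ∃ O ∈ nhds x, ∃ k0 : ℕ, ∀ k ≥ k0, ∀ y ∈ M ∩ O,
      (G y).1 = (f k).1 y ∧ (G y).2 = (f k).2 y := by
    intro x hx
    obtain ⟨O, hO, k0, h⟩ := hG x hx
    exact ⟨O, hO, k0, fun k hk y hy => by rw [h k hk y hy]; exact ⟨rfl, rfl⟩⟩
  have hmet1 : IsMetricOn n M (fun y => (G y).1) := ssn_metric_local fun x hx => by
    obtain ⟨O, hO, k0, h⟩ := hG1 x hx
    exact ⟨O, hO, (f k0).1, (hfI k0).1.met, fun y hy => (h k0 le_rfl y hy).1⟩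
  have hle1 : ∀ k, MetLE n M (f k).1 (fun y => (G y).1) := fun k =>
    ssn_metLE_pointwise fun x hx => by
      obtain ⟨O, hO, k0, h⟩ := hG1 x hx
      exact ⟨(f (max k0 k)).1, hmono k _ (le_max_right _ _),
        (h (max k0 k) (le_max_left _ _) x ⟨hx, mem_of_mem_nhds hO⟩).1⟩
  refine ⟨fun y => (G y).1, fun y => (G y).2, hmet1, ?_, ?_, fun x hx hxK => ?_, fun x hx => ?_,
    fun i x hx y hy => ?_⟩
  · exact ssn_metLE_trans (hfI 0).1.le (hle1 0)
  · exact ssn_smooth_local fun x hx => by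
      obtain ⟨O, hO, k0, h⟩ := hG1 x hx
      exact ⟨O, hO, (f k0).2, (hfI k0).1.smooth, fun y hy => (h k0 le_rfl y hy).2⟩
  · obtain ⟨O, hO, k0, h⟩ := hG1 x hx
    obtain ⟨b1, b2⟩ := h k0 le_rfl x ⟨hx, mem_of_mem_nhds hO⟩
    obtain ⟨b3, b4⟩ := (hfI k0).2.2 x hx fun i _ => hxK i
    exact ⟨b1.trans b3, b2.trans b4⟩
  · obtain ⟨O, hO, k0, h⟩ := hG1 x hx
    obtain ⟨-, b2⟩ := h k0 le_rfl x ⟨hx, mem_of_mem_nhds hO⟩
    rw [ssn_dsc_congr hO (h k0 le_rfl)]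
    show c + (1 - (n + 1) * δ) * ssV T (G x).2 ≤ _
    rw [b2]
    refine le_trans ?_ ((hfI k0).1.curv x hx)
    have hQ := ssn_trM_bounds hM.mfd hh0 (hfI k0).1.met (hfI k0).1.le hx
    have h2 : 1 - ((n : ℝ) + 1) * δ ≤ 1 - δ * (n - trM n M (f k0).1 h0' x) - Sg k0 := by
      have : δ * (n - trM n M (f k0).1 h0' x) ≤ δ * n :=
        mul_le_mul_of_nonneg_left (by linarith [hQ.1]) h0.le
      have := hSgd k0
      nlinarith
    have := mul_le_mul_of_nonneg_right h2 (hV0 ((f k0).2 x))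
    linarith
  · exact ((hfI (e i + 1)).2.1 i (Nat.lt_succ_self _) x hx y hy).trans
      (ssn_rdist_mono hM.mfd (hfI (e i + 1)).1.met hmet1 (hle1 _) x y)

end Claimed.Agent.R315
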