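import Claimed.Agent.R315.Pack010
import Claimed.Agent.R315.T3.Gw

/-!
# Row 315, paper S: `ss_smooth_dist` (package SS-SMD #7663): PROVED from `t3_smooth_lip` (Greene-Wu smoothing, `T3/Gw.lean`, helper72)

`f x = inf_{a ∈ A} rdist M h0 a x` is 1-Lipschitz for `rdist M h0`.
-/

set_option autoImplicit false
open scoped ContDiff
open Claims.C0499

namespace Claimed.Agent.R315

/-- smoothing of the (truncated) distance from a compact set. -/
theorem ss_smooth_dist {n N : ℕ} (M : Set (E N)) (h0 : Ten (E N)) (hM : Carrier n M)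
    (hh0 : IsMetricOn n M h0) (_hp : IsProperOn M h0) (A : Set (E N)) (hA : A ⊆ M)
    (hA1 : A.Nonempty) (_hA2 : IsCompact A) (R ε : ℝ) (_hR : 0 < R) (hε : 0 < ε) :
    ∃ r : E N → ℝ, SmoothAlong n M r ∧
      (∀ x ∈ M, ∀ a ∈ A, r x ≤ rdist M h0 a x + ε) ∧
      (∀ x ∈ M, R ≤ r x + ε ∨ ∃ a ∈ A, rdist M h0 a x ≤ r x + ε) ∧
      (∀ x ∈ M, gradSq n M h0 r x ≤ (1 + ε) ^ 2) := by
  set f : E N → ℝ := fun x => sInf ((fun a => rdist M h0 a x) '' A) with hf
  have hbdd : ∀ x, BddBelow ((fun a => rdist M h0 a x) '' A) := fun x =>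
    ⟨0, by rintro _ ⟨a, _, rfl⟩; exact ssn_rdist_nonneg a x⟩
  have hne : ∀ x, ((fun a => rdist M h0 a x) '' A).Nonempty := fun x => hA1.image _
  have hle : ∀ x, ∀ a ∈ A, f x ≤ rdist M h0 a x := fun x a ha =>
    csInf_le (hbdd x) ⟨a, ha, rfl⟩
  have hone : ∀ x ∈ M, ∀ y ∈ M, f x - f y ≤ rdist M h0 x y := by
    intro x hx y hy
    have : f x - rdist M h0 x y ≤ f y := by
      refine le_csInf (hne y) ?_
      rintro _ ⟨a, ha, rfl⟩
      have h1 := hle x a ha
      have h2 := ssn_rdist_triangle hM hh0 (hA ha) hy hx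
      rw [ssn_rdist_comm y x] at h2
      show f x - rdist M h0 x y ≤ rdist M h0 a y
      linarith
    linarith
  have hlip : ∀ x ∈ M, ∀ y ∈ M, if_Join M x y → |f x - f y| ≤ rdist M h0 x y := by
    intro x hx y hy _
    rw [abs_le]
    have h1 := hone x hx y hy
    have h2 := hone y hy x hx
    rw [ssn_rdist_comm y x] at h2
    constructor <;> linarith
  obtain ⟨ρ, hρs, hρ, hρg⟩ := t3_smooth_lip hM.mfd hh0 hlip hε
  refine ⟨ρ, hρs, fun x hx a ha => ?_, fun x hx => Or.inr ?_, hρg⟩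
  · have h1 := (abs_lt.1 (hρ x hx)).2
    have h2 := hle x a ha
    linarith
  · have h1 := (abs_lt.1 (hρ x hx)).1
    have h2 : f x < ρ x + ε := by linarith
    obtain ⟨_, ⟨a, ha, rfl⟩, h3⟩ := exists_lt_of_csInf_lt (hne x) h2
    exact ⟨a, ha, h3.le⟩

end Claimed.Agent.R315
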