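import Claimed.Agent.R315.Pack011
import Claimed.Agent.Lib.Ell.Api
import Claimed.Agent.Lib.Dgnm.Api

/-!
# Row 315, paper S: `ss_T1`, definitions (the geometric equation as a quasilinear equation of `Lib/Ell/Quasi.lean`); NO sorry here

`div_{G,t}(fl(σ)∇u) = b(y,u,σ)`  ⇔  `div A(y,∇u) = B(y,u,∇u)` (euclidean divergence) with
   `w = ssW G t = √(det G) e^{-t}`,  `s(y,p) = ssS G y p = pᵀ G(y)⁻¹ p`,  `A = ssQA G t fl = w fl(s) G⁻¹ p`,  `B = ssQB G t b = w b(y,z,s)`.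
ROUTE to `ss_T1` (files `T1a` .. `T1e`, assembly PROVED in `T1.lean`):
 `T1a` calculus of `CbLe` (composition with a fixed smooth map on a compact set), the cutoff `κ`;
 `T1b` uniform bounds `CbLe Λ' (qbox ..)` of `A`, `B` over the class `SsT1Data`;
 `T1c` `∂_p A = w (fl G⁻¹ + 2 fl' (G⁻¹p)(G⁻¹p)ᵀ)`: symmetric, uniformly positive;  `‖∇u‖² ≤ d Λ₀ σ`;
 `T1d` `div A(y,∇u) = w ssDivC G t fl u`; classical ⇒ `WeakQuasi`;
 `T1e` (GENERAL, `Lib` level) the Ladyzhenskaya-Uraltseva step: `C¹` bound ⇒ `C^{1,α}` bound, from `dg_elliptic_holder` (GT 8.24) applied to `∂_k u`.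
-/

set_option autoImplicit false
open scoped ContDiff
open Claims.C0499

namespace Claimed.Agent.R315

variable {d : ℕ}

/-- the weight `√(det G) e^{-t}`. -/
noncomputable def ssW (G : rm_MF d) (t : E d → ℝ) (y : E d) : ℝ :=
  Real.sqrt (G y).det * Real.exp (-(t y))

/-- `s(y,p) = pᵀ G(y)⁻¹ p`. -/
noncomputable def ssS (G : rm_MF d) (y p : E d) : ℝ := (p : Fin d → ℝ) ⬝ᵥ (G y)⁻¹.mulVec p

/-- the flux `A(y,z,p) = w fl(s) G⁻¹ p`. -/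
noncomputable def ssQA (G : rm_MF d) (t : E d → ℝ) (fl : ℝ → ℝ) (ζ : E d × ℝ × E d) : E d :=
  (ssW G t ζ.1 * fl (ssS G ζ.1 ζ.2.2)) • WithLp.toLp 2 ((G ζ.1)⁻¹.mulVec ζ.2.2)

/-- the right hand side `B(y,z,p) = w b(y,z,s)`. -/
noncomputable def ssQB (G : rm_MF d) (t : E d → ℝ) (b : E d → ℝ → ℝ → ℝ) (ζ : E d × ℝ × E d) : ℝ :=
  ssW G t ζ.1 * b ζ.1 ζ.2.1 (ssS G ζ.1 ζ.2.2)

end Claimed.Agent.R315
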