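import Claimed.Agent.R315.Ss.T1Defs

/-!
# Row 315, paper S: package SS-T1-A  `ss_cb_comp'`, `ss_cb_comp`, `ss_cb_pi`, `ss_kappa`   (pure Mathlib calculus; ~400 lines)

`CbLe Λ Ω f` (`Lib/Ell/Cb.lean`): `f` smooth on `Ω`, `‖D^j f‖ ≤ Λ j` on `Ω`.
* `ss_cb_comp'`: Faa di Bruno bound.  Mathlib `norm_iteratedFDeriv_comp_le` / `norm_iteratedFDerivWithin_comp_le` (`‖D^n(g∘f)‖ ≤ n! C Dⁿ` if `‖D^i g‖ ≤ C` (`i ≤ n`), `‖D^i f‖ ≤ D^i` (`1 ≤ i ≤ n`)): take
  `C = max_{i ≤ n} Λg i`, `D = max 1 (max_{i ≤ n} Λ i)` (then `Λ i ≤ D ≤ D^i`).  On open sets `iteratedFDerivWithin = iteratedFDeriv` (`iteratedFDerivWithin_of_isOpen`); `f ⁻¹' 𝒪 ∩ Ω = Ω`.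
  `Λ' n := n! * C n * D n ^ n`.
* `ss_cb_comp`: `q ↦ ‖iteratedFDeriv ℝ j g q‖` is continuous on the open set `𝒪` (`ContDiffOn.continuousOn_iteratedFDerivWithin` + `iteratedFDerivWithin_of_isOpen`), hence bounded on the compact `Q` (`IsCompact.exists_bound_of_continuousOn`); choose `Λg j`; then `ss_cb_comp'`.
* `ss_cb_pi`: a map into `ι → Y` (`ι` finite): `f = ∑ i, (ContinuousLinearMap.single ..) ∘ f_i` + `CbLe.clm_post`, `CbLe.add`; or `iteratedFDeriv` of a pi map (`iteratedFDerivWithin_pi`-type lemma, `ContinuousMultilinearMap.pi`, `norm_pi`).  The bound `card ι * Λ j` is enough.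
* `ss_kappa`: `χ` = smooth bump on `ℝ` (`ContDiffBump (0:ℝ)` with `rIn = K`… if `K = 0` use `rIn = δ/2`; or `Real.smoothTransition`): even, `0 ≤ χ ≤ 1`, `χ = 1` on `[-K,K]`, `χ = 0` off `[-K-δ,K+δ]`; `κ x = ∫ s in 0..x, χ s`.
  `deriv κ = χ` (`intervalIntegral.integral_hasDerivAt_right` / `Continuous.deriv_integral`), smooth (`contDiff_infty_iff_deriv`-type: `κ' = χ` smooth), `|κ x| ≤ ∫_0^{|x|} χ ≤ K + δ`.
-/

set_option autoImplicit false
open scoped ContDiff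
open Claims.C0499 Claimed.Agent.Lib.Ell

namespace Claimed.Agent.R315

section
variable {X Y Z : Type} [NormedAddCommGroup X] [NormedSpace ℝ X] [NormedAddCommGroup Y]
  [NormedSpace ℝ Y] [NormedAddCommGroup Z] [NormedSpace ℝ Z]

/-- composition: the bounds of `g ∘ f` depend only on the bounds of `g` (on a set `Q ⊇ f Ω`) and of `f`. -/
theorem ss_cb_comp' (Λg Λ : ℕ → ℝ) :
    ∃ Λ' : ℕ → ℝ, ∀ (g : Y → Z) (𝒪 Q : Set Y) (Ω : Set X) (f : X → Y), IsOpen 𝒪 →
      ContDiffOn ℝ ∞ g 𝒪 → Q ⊆ 𝒪 → (∀ j : ℕ, ∀ q ∈ Q, ‖iteratedFDeriv ℝ j g q‖ ≤ Λg j) → IsOpen Ω →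
      CbLe Λ Ω f → Set.MapsTo f Ω Q → CbLe Λ' Ω (fun x => g (f x)) := by
  refine ⟨fun n => (n.factorial : ℝ) * (∑ i ∈ Finset.range (n + 1), |Λg i|) *
    (1 + ∑ i ∈ Finset.range (n + 1), |Λ i|) ^ n, ?_⟩
  intro g 𝒪 Q Ω f h𝒪 hg hQ hbd hΩ hf hmap
  have hmap' : Set.MapsTo f Ω 𝒪 := fun x hx => hQ (hmap hx)
  refine ⟨hg.comp hf.smooth hmap', fun n x hx => ?_⟩
  have h := norm_iteratedFDerivWithin_comp_le (n := n) hg hf.smooth (by exact_mod_cast le_top)
    h𝒪.uniqueDiffOn hΩ.uniqueDiffOn hmap' hx (C := ∑ i ∈ Finset.range (n + 1), |Λg i|)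
    (D := 1 + ∑ i ∈ Finset.range (n + 1), |Λ i|) ?_ ?_
  · rw [iteratedFDerivWithin_of_isOpen n hΩ hx] at h
    exact h
  · intro i hi
    rw [iteratedFDerivWithin_of_isOpen i h𝒪 (hmap' hx)]
    exact (hbd i _ (hmap hx)).trans ((le_abs_self _).trans
      (Finset.single_le_sum (f := fun i => |Λg i|) (fun _ _ => abs_nonneg _)
        (Finset.mem_range.2 (by omega))))
  · intro i h1 hi
    rw [iteratedFDerivWithin_of_isOpen i hΩ hx]
    have h2 : |Λ i| ≤ ∑ i ∈ Finset.range (n + 1), |Λ i| :=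
      Finset.single_le_sum (f := fun i => |Λ i|) (fun _ _ => abs_nonneg _)
        (Finset.mem_range.2 (by omega))
    have h3 : (1 : ℝ) ≤ 1 + ∑ i ∈ Finset.range (n + 1), |Λ i| := by
      have : 0 ≤ ∑ i ∈ Finset.range (n + 1), |Λ i| := Finset.sum_nonneg fun _ _ => abs_nonneg _
      linarith
    have h4 := le_self_pow₀ h3 (n := i) (by omega)
    have h5 := hf.bd i x hx
    have h6 := le_abs_self (Λ i)
    linarith

/-- composition with a FIXED smooth map, the range of `f` in a fixed compact set. -/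
theorem ss_cb_comp (g : Y → Z) (𝒪 Q : Set Y) (h𝒪 : IsOpen 𝒪) (hg : ContDiffOn ℝ ∞ g 𝒪)
    (hQ : IsCompact Q) (hQ𝒪 : Q ⊆ 𝒪) (Λ : ℕ → ℝ) :
    ∃ Λ' : ℕ → ℝ, ∀ (Ω : Set X) (f : X → Y), IsOpen Ω → CbLe Λ Ω f → Set.MapsTo f Ω Q →
      CbLe Λ' Ω (fun x => g (f x)) := by
  have hb : ∀ j : ℕ, ∃ C : ℝ, ∀ q ∈ Q, ‖iteratedFDeriv ℝ j g q‖ ≤ C := by
    intro j
    apply hQ.exists_bound_of_continuousOn
    have h1 : ContinuousOn (iteratedFDerivWithin ℝ j g 𝒪) 𝒪 :=
      hg.continuousOn_iteratedFDerivWithin (by exact_mod_cast le_top) h𝒪.uniqueDiffOn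
    exact (h1.congr fun q hq => (iteratedFDerivWithin_of_isOpen j h𝒪 hq).symm).mono hQ𝒪
  choose Λg hΛg using hb
  obtain ⟨Λ', hΛ'⟩ := ss_cb_comp' (X := X) (Y := Y) (Z := Z) Λg Λ
  exact ⟨Λ', fun Ω f hΩ hf hmap => hΛ' g 𝒪 Q Ω f h𝒪 hg hQ𝒪 hΛg hΩ hf hmap⟩

/-- maps into a finite product. -/
theorem ss_cb_pi {ι : Type} [Fintype ι] {Λ : ℕ → ℝ} {Ω : Set X} (hΩ : IsOpen Ω) {f : X → ι → Y}
    (hf : ∀ i, CbLe Λ Ω (fun x => f x i)) : CbLe (fun j => Fintype.card ι * Λ j) Ω f := by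
  have hsm : ContDiffOn ℝ ∞ f Ω := contDiffOn_pi.2 fun i => (hf i).smooth
  refine ⟨hsm, fun j x hx => ?_⟩
  have hat : ContDiffAt ℝ j f x :=
    (hsm.contDiffAt (hΩ.mem_nhds hx)).of_le (by exact_mod_cast le_top)
  have hnn : 0 ≤ (Fintype.card ι : ℝ) * Λ j := by
    rcases isEmpty_or_nonempty ι with h | ⟨⟨i⟩⟩
    · simp
    · exact mul_nonneg (Nat.cast_nonneg _) ((norm_nonneg _).trans ((hf i).bd j x hx))
  refine ContinuousMultilinearMap.opNorm_le_bound hnn fun m => ?_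
  rw [pi_norm_le_iff_of_nonneg (mul_nonneg hnn (Finset.prod_nonneg fun _ _ => norm_nonneg _))]
  intro i
  have e : iteratedFDeriv ℝ j (fun x => f x i) x =
      (ContinuousLinearMap.proj i : (ι → Y) →L[ℝ] Y).compContinuousMultilinearMap
        (iteratedFDeriv ℝ j f x) :=
    (ContinuousLinearMap.proj i : (ι → Y) →L[ℝ] Y).iteratedFDeriv_comp_left hat le_rfl
  have e2 : iteratedFDeriv ℝ j f x m i = iteratedFDeriv ℝ j (fun x => f x i) x m := by
    rw [e]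
    rfl
  rw [e2]
  have h1 := (iteratedFDeriv ℝ j (fun x => f x i) x).le_opNorm m
  have h2 := (hf i).bd j x hx
  have hc : (1 : ℝ) ≤ Fintype.card ι := by exact_mod_cast Fintype.card_pos_iff.2 ⟨i⟩
  have h3 : ‖iteratedFDeriv ℝ j (fun x => f x i) x‖ ≤ (Fintype.card ι : ℝ) * Λ j := by
    nlinarith [(norm_nonneg _).trans h2]
  exact h1.trans (mul_le_mul_of_nonneg_right h3 (Finset.prod_nonneg fun _ _ => norm_nonneg _))

end

/-- a smooth odd monotone truncation of the identity. -/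
theorem ss_kappa (K δ : ℝ) (hK : 0 ≤ K) (hδ : 0 < δ) :
    ∃ κ : ℝ → ℝ, ContDiff ℝ ∞ κ ∧ Monotone κ ∧ (∀ x, κ (-x) = -κ x) ∧
      (∀ x ∈ Set.Icc (-K) K, κ x = x) ∧ (∀ x, |κ x| ≤ K + δ) ∧
      ∀ x, 0 ≤ deriv κ x ∧ deriv κ x ≤ 1 := by
  let χ : ContDiffBump (0 : ℝ) := ⟨K + δ / 2, K + δ, by linarith, by linarith⟩
  have hχc : Continuous χ := χ.continuous
  have hχs : ContDiff ℝ ∞ χ := χ.contDiff
  have hint : ∀ a b : ℝ, IntervalIntegrable χ MeasureTheory.volume a b := fun a b =>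
    hχc.intervalIntegrable a b
  have hder : ∀ x, deriv (fun u => ∫ s in (0 : ℝ)..u, χ s) x = χ x := fun x =>
    hχc.deriv_integral χ 0 x
  have hdiff : Differentiable ℝ (fun u => ∫ s in (0 : ℝ)..u, χ s) := fun x =>
    (intervalIntegral.integral_hasDerivAt_right (hint 0 x)
      (hχc.stronglyMeasurableAtFilter _ _) hχc.continuousAt).differentiableAt
  have hmono : Monotone (fun u => ∫ s in (0 : ℝ)..u, χ s) :=
    monotone_of_deriv_nonneg hdiff fun x => by rw [hder]; exact χ.nonneg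
  have hodd : ∀ x, (∫ s in (0 : ℝ)..(-x), χ s) = -∫ s in (0 : ℝ)..x, χ s := by
    intro x
    have h1 : (∫ s in (0 : ℝ)..x, χ (-s)) = ∫ s in (-x)..(-0), χ s :=
      intervalIntegral.integral_comp_neg (fun s => χ s)
    have h2 : (∫ s in (0 : ℝ)..x, χ (-s)) = ∫ s in (0 : ℝ)..x, χ s := by
      congr 1
      funext s
      exact χ.neg s
    rw [h2, neg_zero] at h1
    rw [h1, intervalIntegral.integral_symm]
  have hle : ∀ x, 0 ≤ x → (∫ s in (0 : ℝ)..x, χ s) ≤ x := by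
    intro x hx
    have h1 := intervalIntegral.integral_mono_on hx (hint 0 x)
      (intervalIntegrable_const (c := (1 : ℝ))) fun s _ => χ.le_one
    simpa using h1
  have hpos : ∀ x, 0 ≤ x → 0 ≤ (∫ s in (0 : ℝ)..x, χ s) ∧ (∫ s in (0 : ℝ)..x, χ s) ≤ K + δ := by
    intro x hx
    constructor
    · have := hmono hx
      simpa using this
    · rcases le_total x (K + δ) with h | h
      · exact (hle x hx).trans h
      · have h1 := intervalIntegral.integral_add_adjacent_intervals (hint 0 (K + δ)) (hint (K + δ) x)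
        have h2 : (∫ s in (K + δ)..x, χ s) = ∫ s in (K + δ)..x, (0 : ℝ) := by
          apply intervalIntegral.integral_congr
          intro s hs
          rw [Set.uIcc_of_le h] at hs
          apply χ.zero_of_le_dist
          show K + δ ≤ dist s 0
          rw [Real.dist_eq, sub_zero]
          exact hs.1.trans (le_abs_self s)
        rw [h2, intervalIntegral.integral_zero, add_zero] at h1
        rw [← h1]
        exact hle _ (by linarith)
  refine ⟨fun u => ∫ s in (0 : ℝ)..u, χ s, ?_, hmono, hodd, ?_, ?_, ?_⟩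
  · rw [contDiff_infty_iff_deriv]
    refine ⟨hdiff, ?_⟩
    have : deriv (fun u => ∫ s in (0 : ℝ)..u, χ s) = χ := funext hder
    rw [this]
    exact hχs
  · intro x hx
    have h2 : (∫ s in (0 : ℝ)..x, χ s) = ∫ s in (0 : ℝ)..x, (1 : ℝ) := by
      apply intervalIntegral.integral_congr
      intro s hs
      apply χ.one_of_mem_closedBall
      rw [mem_closedBall_zero_iff, Real.norm_eq_abs]
      show |s| ≤ K + δ / 2
      have h3 : |s| ≤ K := by
        rw [abs_le]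
        rcases Set.mem_uIcc.1 hs with h | h
        · exact ⟨by linarith [h.1], h.2.trans hx.2⟩
        · exact ⟨hx.1.trans h.1, by linarith [h.2]⟩
      linarith
    show (∫ s in (0 : ℝ)..x, χ s) = x
    rw [h2]
    simp
  · intro x
    show |∫ s in (0 : ℝ)..x, χ s| ≤ K + δ
    rcases le_total 0 x with h | h
    · rw [abs_of_nonneg (hpos x h).1]
      exact (hpos x h).2
    · have h1 := hpos (-x) (by linarith)
      rw [hodd] at h1
      rw [abs_of_nonpos (by linarith [h1.1])]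
      exact h1.2
  · intro x
    rw [hder]
    exact ⟨χ.nonneg, χ.le_one⟩

end Claimed.Agent.R315
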