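import Claimed.Agent.R315.Ss.T1a

/-!
# Row 315, paper S: package SS-T1-B  `ss_QA_cb`, `ss_QB_cb`: uniform bounds of the structure functions over the class `SsT1Data`   (~600 lines)

IDEA: everything is a FIXED smooth map composed with the data map.  Parameter space `Y = (Fin d → Fin d → ℝ) × ℝ × E d` (`g`, `τ`, `p`; a matrix is written as a function `Fin d → Fin d → ℝ` in order to have the sup norm; `Matrix.of g`).
 `ssFixW (g,τ,p) = √(det g) e^{-τ}`,  `ssFixS (g,τ,p) = p ⬝ᵥ g⁻¹ p`,  `ssFixA fl (g,τ,p) = (ssFixW * fl (ssFixS)) • toLp (g⁻¹ p)`.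
 `ssFixO = {0 < det g ∧ -1 < ssFixS}` is open (`det` is a polynomial: `Continuous.matrix_det`; on `{det ≠ 0}`: `g⁻¹ = (det g)⁻¹ • adjugate g`, `Matrix.inv_def`, `Ring.inverse_eq_inv'`), all three maps are smooth there
 (`Real.sqrt` is smooth on `(0,∞)`: `Real.contDiffAt_sqrt`; `fl` on `(-1,∞)`; entries of `adjugate` are polynomials: `contDiff` by `fun_prop`/`Matrix.adjugate_apply`, `Matrix.det_apply`, `ContDiff.sum`, `contDiff_prod`).
 `ssFixQ lam L Kp = {g symmetric, lam v⬝v ≤ v⬝g v, |g i j| ≤ L, |τ| ≤ L, ‖p‖ ≤ Kp}`: closed and bounded in a finite dimensional space ⇒ compact; `⊆ ssFixO` (`Matrix.PosDef.det_pos`; `g⁻¹` is positive definite, so `ssFixS ≥ 0`).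
 DATA MAP `D ζ = (fun i j => G ζ.1 i j, t ζ.1, ζ.2.2)` on `qbox 0 R Kz Kp`: `CbLe` with bounds depending on `Λ, Kp, d` only (`CbLe.comp_clm` with `fst`, `ss_cb_pi` twice, `CbLe.prodMk`, `cbLe` of a continuous linear map), maps the box into `ssFixQ lam (Λ 0) Kp`
 (`SsT1Data.ell`, `.G_bd 0`, `.t_bd 0` with `norm_iteratedFDeriv_zero`; symmetry from `SsT1Data.met.pos`).
 `ssQA G t fl = ssFixA fl ∘ D` (`rfl`-like) ⇒ `ss_cb_comp`.
 `ssQB G t (fun y z σ => b y (κ z) (κ σ)) = (ssFixW ∘ D) * (b̂ ∘ D')`, `b̂ q = b q.1 q.2.1 q.2.2`, `D' ζ = (ζ.1, κ ζ.2.1, κ (ssFixS (D ζ)))`: `D'` is `CbLe` (`ss_cb_comp` for `κ` on `Icc (-Kz) Kz`, for `κ ∘ ssFixS` on `ssFixQ`) and maps the box into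
 `ball 0 R × Icc (-(K+1)) (K+1) × Icc 0 (K+1)`; `ss_cb_comp'` with `Λg = Λ` (`SsT1Data.b_bd`, `.b_smooth`); product: `CbLe.bilin` with `ContinuousLinearMap.mul ℝ ℝ`.
-/

set_option autoImplicit false
open scoped ContDiff
open Claims.C0499 Claimed.Agent.Lib.Ell

namespace Claimed.Agent.R315

variable {d : ℕ}

/-- the parameter space `(g, τ, p)`. -/
abbrev SsFixY (d : ℕ) : Type := (Fin d → Fin d → ℝ) × ℝ × E d

noncomputable def ssFixW (q : SsFixY d) : ℝ := Real.sqrt (Matrix.of q.1).det * Real.exp (-q.2.1)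

noncomputable def ssFixS (q : SsFixY d) : ℝ :=
  (q.2.2 : Fin d → ℝ) ⬝ᵥ (Matrix.of q.1)⁻¹.mulVec q.2.2

noncomputable def ssFixA (fl : ℝ → ℝ) (q : SsFixY d) : E d :=
  (ssFixW q * fl (ssFixS q)) • WithLp.toLp 2 ((Matrix.of q.1)⁻¹.mulVec q.2.2)

def ssFixO (d : ℕ) : Set (SsFixY d) := {q | 0 < (Matrix.of q.1).det ∧ -1 < ssFixS q}

def ssFixQ (d : ℕ) (lam L Kp : ℝ) : Set (SsFixY d) :=
  {q | (Matrix.of q.1).IsSymm ∧ (∀ v : Fin d → ℝ, lam * (v ⬝ᵥ v) ≤ v ⬝ᵥ (Matrix.of q.1).mulVec v) ∧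
    (∀ i j, |q.1 i j| ≤ L) ∧ |q.2.1| ≤ L ∧ ‖q.2.2‖ ≤ Kp}

section t1bgen
variable {X : Type} [NormedAddCommGroup X] [NormedSpace ℝ X] {n : ℕ}
  {A : X → Matrix (Fin n) (Fin n) ℝ} {U : Set X}

theorem t1b_det_smooth (hA : ∀ a b, ContDiffOn ℝ ∞ (fun w => A w a b) U) :
    ContDiffOn ℝ ∞ (fun w => (A w).det) U := by
  simp only [Matrix.det_apply]
  refine ContDiffOn.sum fun σ _ => ?_
  exact (contDiffOn_prod fun i _ => hA (σ i) i).const_smul _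

theorem t1b_adj_smooth (hA : ∀ a b, ContDiffOn ℝ ∞ (fun w => A w a b) U) (a b : Fin n) :
    ContDiffOn ℝ ∞ (fun w => (A w).adjugate a b) U := by
  simp only [Matrix.adjugate_apply]
  refine t1b_det_smooth fun c e => ?_
  by_cases h : c = b
  · subst h
    simp only [Matrix.updateRow_self]
    exact contDiffOn_const
  · simp only [Matrix.updateRow_ne h]
    exact hA c e

theorem t1b_inv_smooth (hA : ∀ a b, ContDiffOn ℝ ∞ (fun w => A w a b) U)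
    (hdet : ∀ w ∈ U, (A w).det ≠ 0) (a b : Fin n) :
    ContDiffOn ℝ ∞ (fun w => (A w)⁻¹ a b) U := by
  simp only [Matrix.inv_def, Ring.inverse_eq_inv', Matrix.smul_apply, smul_eq_mul]
  exact ((t1b_det_smooth hA).inv hdet).mul (t1b_adj_smooth hA a b)

end t1bgen

/-- the larger open set `{0 < det g}`. -/
def t1bO1 (d : ℕ) : Set (SsFixY d) := {q | 0 < (Matrix.of q.1).det}

theorem t1b_entry_smooth (a b : Fin d) : ContDiff ℝ ∞ (fun q : SsFixY d => Matrix.of q.1 a b) := by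
  have : (fun q : SsFixY d => Matrix.of q.1 a b) = fun q : SsFixY d => q.1 a b := rfl
  rw [this]
  fun_prop

theorem t1b_p_smooth (a : Fin d) : ContDiff ℝ ∞ (fun q : SsFixY d => q.2.2 a) := by
  fun_prop

theorem t1b_det_contDiff : ContDiff ℝ ∞ (fun q : SsFixY d => (Matrix.of q.1).det) := by
  rw [← contDiffOn_univ]
  exact t1b_det_smooth fun a b => (t1b_entry_smooth a b).contDiffOn

theorem t1b_O1_open : IsOpen (t1bO1 d) :=
  isOpen_lt continuous_const t1b_det_contDiff.continuous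

theorem t1b_inv_smooth' (a b : Fin d) :
    ContDiffOn ℝ ∞ (fun q : SsFixY d => (Matrix.of q.1)⁻¹ a b) (t1bO1 d) :=
  t1b_inv_smooth (fun a b => (t1b_entry_smooth a b).contDiffOn) (fun _ hq => ne_of_gt hq) a b

theorem t1b_mv_smooth (a : Fin d) :
    ContDiffOn ℝ ∞ (fun q : SsFixY d => (Matrix.of q.1)⁻¹.mulVec q.2.2 a) (t1bO1 d) := by
  simp only [Matrix.mulVec, dotProduct]
  exact ContDiffOn.sum fun b _ => (t1b_inv_smooth' a b).mul (t1b_p_smooth b).contDiffOn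

theorem t1b_S_smooth1 : ContDiffOn ℝ ∞ (ssFixS (d := d)) (t1bO1 d) := by
  unfold ssFixS
  simp only [dotProduct]
  exact ContDiffOn.sum fun a _ => (t1b_p_smooth a).contDiffOn.mul (t1b_mv_smooth a)

theorem t1b_O_sub : ssFixO d ⊆ t1bO1 d := fun _ hq => hq.1

theorem ss_fixO_open : IsOpen (ssFixO d) := by
  have h := t1b_S_smooth1 (d := d).continuousOn.isOpen_inter_preimage t1b_O1_open
    (isOpen_Ioi (a := (-1 : ℝ)))
  exact h

theorem ss_fixW_smooth : ContDiffOn ℝ ∞ (ssFixW (d := d)) (ssFixO d) := by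
  unfold ssFixW
  refine ContDiffOn.mul ?_ ?_
  · exact t1b_det_contDiff.contDiffOn.sqrt fun q hq => ne_of_gt hq.1
  · have : ContDiff ℝ ∞ (fun q : SsFixY d => Real.exp (-q.2.1)) := by fun_prop
    exact this.contDiffOn

theorem ss_fixS_smooth : ContDiffOn ℝ ∞ (ssFixS (d := d)) (ssFixO d) :=
  t1b_S_smooth1.mono t1b_O_sub

theorem ss_fixA_smooth {fl : ℝ → ℝ} (hfl : ContDiffOn ℝ ∞ fl (Set.Ioi (-1))) :
    ContDiffOn ℝ ∞ (ssFixA (d := d) fl) (ssFixO d) := by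
  unfold ssFixA
  refine ContDiffOn.smul (ss_fixW_smooth.mul (hfl.comp ss_fixS_smooth fun q hq => hq.2)) ?_
  rw [contDiffOn_euclidean]
  intro a
  exact (t1b_mv_smooth a).mono t1b_O_sub


theorem t1b_S_nonneg_of_posDef {g : Matrix (Fin d) (Fin d) ℝ} (hg : g.PosDef) (p : Fin d → ℝ) :
    0 ≤ p ⬝ᵥ g⁻¹.mulVec p := by
  have h := hg.inv.posSemidef.dotProduct_mulVec_nonneg p
  simpa using h

theorem t1b_posDef {lam : ℝ} (hlam : 0 < lam) {L Kp : ℝ} {q : SsFixY d}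
    (hq : q ∈ ssFixQ d lam L Kp) : (Matrix.of q.1).PosDef := by
  refine Matrix.PosDef.of_dotProduct_mulVec_pos ?_ fun x hx => ?_
  · have h := hq.1
    rw [Matrix.IsHermitian, Matrix.conjTranspose_eq_transpose_of_trivial]
    exact h
  · have h1 := hq.2.1 x
    have h2 : 0 < x ⬝ᵥ x := by
      have := Matrix.dotProduct_star_self_pos_iff (v := x)
      simpa using this.2 hx
    have h3 : 0 < lam * (x ⬝ᵥ x) := mul_pos hlam h2
    simpa using h3.trans_le h1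

theorem ss_fixQ_compact (lam L Kp : ℝ) : IsCompact (ssFixQ d lam L Kp) := by
  apply Metric.isCompact_of_isClosed_isBounded
  · have c1 : ∀ i j : Fin d, Continuous (fun q : SsFixY d => q.1 i j) := fun i j => by fun_prop
    have h1 : IsClosed {q : SsFixY d | (Matrix.of q.1).IsSymm} := by
      have : {q : SsFixY d | (Matrix.of q.1).IsSymm} = ⋂ i, ⋂ j, {q : SsFixY d | q.1 j i = q.1 i j} := by
        ext q
        simp only [Set.mem_ofPred_eq, Set.mem_iInter]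
        constructor
        · intro h i j
          exact congrFun (congrFun h i) j
        · intro h
          ext i j
          exact h i j
      rw [this]
      exact isClosed_iInter fun i => isClosed_iInter fun j => isClosed_eq (c1 j i) (c1 i j)
    have h2 : IsClosed {q : SsFixY d | ∀ v : Fin d → ℝ,
        lam * (v ⬝ᵥ v) ≤ v ⬝ᵥ (Matrix.of q.1).mulVec v} := by
      simp only [Set.ofPred_forall]
      refine isClosed_iInter fun v => isClosed_le continuous_const ?_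
      simp only [dotProduct, Matrix.mulVec, Matrix.of_apply]
      fun_prop
    have h3 : IsClosed {q : SsFixY d | ∀ i j, |q.1 i j| ≤ L} := by
      simp only [Set.ofPred_forall]
      exact isClosed_iInter fun i => isClosed_iInter fun j =>
        isClosed_le (c1 i j).abs continuous_const
    have h4 : IsClosed {q : SsFixY d | |q.2.1| ≤ L} :=
      isClosed_le (by fun_prop) continuous_const
    have h5 : IsClosed {q : SsFixY d | ‖q.2.2‖ ≤ Kp} :=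
      isClosed_le (by fun_prop) continuous_const
    exact h1.inter (h2.inter (h3.inter (h4.inter h5)))
  · rw [isBounded_iff_forall_norm_le]
    refine ⟨max |L| |Kp|, fun q hq => ?_⟩
    obtain ⟨-, -, h3, h4, h5⟩ := hq
    rw [Prod.norm_def, Prod.norm_def]
    refine max_le ?_ (max_le ?_ ?_)
    · rw [pi_norm_le_iff_of_nonneg (le_max_of_le_left (abs_nonneg _))]
      intro i
      rw [pi_norm_le_iff_of_nonneg (le_max_of_le_left (abs_nonneg _))]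
      intro j
      rw [Real.norm_eq_abs]
      exact (h3 i j).trans ((le_abs_self _).trans (le_max_left _ _))
    · rw [Real.norm_eq_abs]
      exact h4.trans ((le_abs_self _).trans (le_max_left _ _))
    · exact h5.trans ((le_abs_self _).trans (le_max_right _ _))

theorem ss_fixS_nonneg {lam : ℝ} (hlam : 0 < lam) {L Kp : ℝ} {q : SsFixY d}
    (hq : q ∈ ssFixQ d lam L Kp) : 0 ≤ ssFixS q :=
  t1b_S_nonneg_of_posDef (t1b_posDef hlam hq) _

theorem ss_fixQ_sub {lam : ℝ} (hlam : 0 < lam) (L Kp : ℝ) : ssFixQ d lam L Kp ⊆ ssFixO d := by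
  intro q hq
  exact ⟨(t1b_posDef hlam hq).det_pos, by linarith [ss_fixS_nonneg hlam hq]⟩


/-- the data map. -/
noncomputable def ssDat (G : rm_MF d) (t : E d → ℝ) (ζ : E d × ℝ × E d) : SsFixY d :=
  (fun i j => G ζ.1 i j, t ζ.1, ζ.2.2)

theorem t1b_qbox_fst {R Kz Kp : ℝ} :
    Set.MapsTo (ContinuousLinearMap.fst ℝ (E d) (ℝ × E d)) (qbox (0 : E d) R Kz Kp)
      (Metric.ball (0 : E d) R) := fun _ hζ => hζ.1

theorem ss_dat_cb (d : ℕ) (R lam K : ℝ) (Λ : ℕ → ℝ) (Kz Kp : ℝ) :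
    ∃ Λ' : ℕ → ℝ, ∀ (G : rm_MF d) (t : E d → ℝ) (b : E d → ℝ → ℝ → ℝ), SsT1Data d R lam K Λ G t b →
      CbLe Λ' (qbox (0 : E d) R Kz Kp) (ssDat G t) ∧
      Set.MapsTo (ssDat G t) (qbox (0 : E d) R Kz Kp) (ssFixQ d lam (Λ 0) Kp) := by
  let π : (E d × ℝ × E d) →L[ℝ] E d := ContinuousLinearMap.fst ℝ (E d) (ℝ × E d)
  let π3 : (E d × ℝ × E d) →L[ℝ] E d :=
    (ContinuousLinearMap.snd ℝ ℝ (E d)).comp (ContinuousLinearMap.snd ℝ (E d) (ℝ × E d))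
  let Λ1 : ℕ → ℝ := fun j => Λ j * ‖π‖ ^ j
  refine ⟨fun j => (Fintype.card (Fin d) * (Fintype.card (Fin d) * Λ1 j)) +
    (Λ1 j + (if j = 0 then Kp else ‖π3‖)), fun G t b hD => ⟨?_, ?_⟩⟩
  · have hΩ : IsOpen (qbox (0 : E d) R Kz Kp) := ell_qbox_isOpen _ _ _ _
    have hG : ∀ i k : Fin d, CbLe Λ1 (qbox (0 : E d) R Kz Kp) (fun ζ => G ζ.1 i k) := by
      intro i k
      have h0 : CbLe Λ (Metric.ball (0 : E d) R) (fun w => G w i k) :=
        ⟨hD.met.smooth i k, fun j y hy => hD.G_bd j y hy i k⟩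
      exact h0.comp_clm Metric.isOpen_ball hΩ π t1b_qbox_fst
    have ht : CbLe Λ1 (qbox (0 : E d) R Kz Kp) (fun ζ => t ζ.1) := by
      have h0 : CbLe Λ (Metric.ball (0 : E d) R) t := ⟨hD.t_smooth, hD.t_bd⟩
      exact h0.comp_clm Metric.isOpen_ball hΩ π t1b_qbox_fst
    have hp : CbLe (fun j => if j = 0 then Kp else ‖π3‖) (qbox (0 : E d) R Kz Kp)
        (fun ζ => π3 ζ) := cbLe_clm π3 fun ζ hζ => hζ.2.2.le
    have hG2 : CbLe (fun j => Fintype.card (Fin d) * (Fintype.card (Fin d) * Λ1 j))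
        (qbox (0 : E d) R Kz Kp) (fun ζ => fun i k => G ζ.1 i k) :=
      ss_cb_pi hΩ fun i => ss_cb_pi hΩ fun k => hG i k
    exact hG2.prodMk hΩ (ht.prodMk hΩ hp)
  · intro ζ hζ
    have hy : ζ.1 ∈ Metric.ball (0 : E d) R := hζ.1
    refine ⟨?_, hD.ell _ hy, fun i j => ?_, ?_, hζ.2.2.le⟩
    · have h := (hD.met.pos _ hy).isHermitian
      rw [Matrix.IsHermitian, Matrix.conjTranspose_eq_transpose_of_trivial] at h
      exact h
    · have h := hD.G_bd 0 _ hy i j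
      rw [norm_iteratedFDeriv_zero, Real.norm_eq_abs] at h
      exact h
    · have h := hD.t_bd 0 _ hy
      rw [norm_iteratedFDeriv_zero, Real.norm_eq_abs] at h
      exact h

/-- qualitative smoothness (used by LS-REG): `ssW = ssFixW ∘ ssDat`, `ssQA = ssFixA fl ∘ ssDat`; `ssDat` is smooth on `U ×ˢ univ` and maps it into `ssFixO`. -/
theorem ss_W_smooth {G : rm_MF d} {U : Set (E d)} (hG : rm_Met G U) {t : E d → ℝ}
    (ht : ContDiffOn ℝ ∞ t U) : ContDiffOn ℝ ∞ (ssW G t) U := by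
  unfold ssW
  exact ((t1b_det_smooth hG.smooth).sqrt fun y hy => ne_of_gt (hG.pos y hy).det_pos).mul
    ht.neg.exp

theorem t1b_dat_smooth {G : rm_MF d} {U : Set (E d)} (hG : rm_Met G U) {t : E d → ℝ}
    (ht : ContDiffOn ℝ ∞ t U) : ContDiffOn ℝ ∞ (ssDat G t) (U ×ˢ Set.univ) := by
  have hfst : Set.MapsTo (fun ζ : E d × ℝ × E d => ζ.1) (U ×ˢ Set.univ) U := fun _ h => h.1
  unfold ssDat
  refine ContDiffOn.prodMk ?_ (ContDiffOn.prodMk ?_ ?_)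
  · rw [contDiffOn_pi]
    intro i
    rw [contDiffOn_pi]
    intro k
    exact (hG.smooth i k).comp contDiff_fst.contDiffOn hfst
  · exact ht.comp contDiff_fst.contDiffOn hfst
  · exact (contDiff_snd.comp contDiff_snd).contDiffOn

theorem t1b_dat_maps {G : rm_MF d} {U : Set (E d)} (hG : rm_Met G U) (t : E d → ℝ) :
    Set.MapsTo (ssDat G t) (U ×ˢ Set.univ) (ssFixO d) := by
  intro ζ hζ
  have h : (G ζ.1).PosDef := hG.pos _ hζ.1
  refine ⟨h.det_pos, ?_⟩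
  have h2 : 0 ≤ ssFixS (ssDat G t ζ) := t1b_S_nonneg_of_posDef h _
  linarith

theorem t1b_QA_eq (G : rm_MF d) (t : E d → ℝ) (fl : ℝ → ℝ) :
    ssQA G t fl = fun ζ => ssFixA fl (ssDat G t ζ) := rfl

theorem ss_QA_smooth {G : rm_MF d} {U : Set (E d)} (hG : rm_Met G U) {t : E d → ℝ}
    (ht : ContDiffOn ℝ ∞ t U) {fl : ℝ → ℝ} (hfl : IsFlux fl) :
    ContDiffOn ℝ ∞ (ssQA G t fl) (U ×ˢ Set.univ) := by
  rw [t1b_QA_eq]
  exact (ss_fixA_smooth hfl.smooth).comp (t1b_dat_smooth hG ht) (t1b_dat_maps hG t)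

theorem ss_QA_cb (d : ℕ) (R lam K : ℝ) (hlam : 0 < lam) (Λ : ℕ → ℝ) (fl : ℝ → ℝ) (hfl : IsFlux fl)
    (Kz Kp : ℝ) :
    ∃ Λ' : ℕ → ℝ, ∀ (G : rm_MF d) (t : E d → ℝ) (b : E d → ℝ → ℝ → ℝ), SsT1Data d R lam K Λ G t b →
      CbLe Λ' (qbox (0 : E d) R Kz Kp) (ssQA G t fl) := by
  obtain ⟨Λ1, h1⟩ := ss_dat_cb d R lam K Λ Kz Kp
  obtain ⟨Λ2, h2⟩ := ss_cb_comp (X := E d × ℝ × E d) (ssFixA (d := d) fl) (ssFixO d)
    (ssFixQ d lam (Λ 0) Kp) ss_fixO_open (ss_fixA_smooth hfl.smooth) (ss_fixQ_compact _ _ _)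
    (ss_fixQ_sub hlam _ _) Λ1
  refine ⟨Λ2, fun G t b hD => ?_⟩
  rw [t1b_QA_eq]
  exact h2 _ _ (ell_qbox_isOpen _ _ _ _) (h1 G t b hD).1 (h1 G t b hD).2

theorem ss_QB_cb (d : ℕ) (R lam K : ℝ) (hlam : 0 < lam) (Λ : ℕ → ℝ) (κ : ℝ → ℝ)
    (hκ : ContDiff ℝ ∞ κ) (hκ1 : ∀ x, |κ x| ≤ K + 1) (hκ0 : ∀ x, 0 ≤ x → 0 ≤ κ x) (Kz Kp : ℝ) :
    ∃ Λ' : ℕ → ℝ, ∀ (G : rm_MF d) (t : E d → ℝ) (b : E d → ℝ → ℝ → ℝ), SsT1Data d R lam K Λ G t b →
      CbLe Λ' (qbox (0 : E d) R Kz Kp) (ssQB G t fun y z σ => b y (κ z) (κ σ)) := by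
  obtain ⟨Λ1, h1⟩ := ss_dat_cb d R lam K Λ Kz Kp
  -- the weight
  obtain ⟨ΛW, hW⟩ := ss_cb_comp (X := E d × ℝ × E d) (ssFixW (d := d)) (ssFixO d)
    (ssFixQ d lam (Λ 0) Kp) ss_fixO_open ss_fixW_smooth (ss_fixQ_compact _ _ _)
    (ss_fixQ_sub hlam _ _) Λ1
  -- `κ ∘ ssFixS`
  obtain ⟨ΛS, hS⟩ := ss_cb_comp (X := E d × ℝ × E d) (fun q : SsFixY d => κ (ssFixS q)) (ssFixO d)
    (ssFixQ d lam (Λ 0) Kp) ss_fixO_open (hκ.comp_contDiffOn ss_fixS_smooth)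
    (ss_fixQ_compact _ _ _) (ss_fixQ_sub hlam _ _) Λ1
  -- `κ z`
  let π1 : (E d × ℝ × E d) →L[ℝ] E d := ContinuousLinearMap.fst ℝ (E d) (ℝ × E d)
  let π2 : (E d × ℝ × E d) →L[ℝ] ℝ :=
    (ContinuousLinearMap.fst ℝ ℝ (E d)).comp (ContinuousLinearMap.snd ℝ (E d) (ℝ × E d))
  obtain ⟨Λz, hz⟩ := ss_cb_comp (X := E d × ℝ × E d) κ Set.univ (Set.Icc (-Kz) Kz) isOpen_univ
    hκ.contDiffOn isCompact_Icc (Set.subset_univ _) (fun j => if j = 0 then Kz else ‖π2‖)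
  obtain ⟨Λb, hb⟩ := ss_cb_comp' (X := E d × ℝ × E d) (Y := E d × ℝ × ℝ) (Z := ℝ) Λ
    (fun j => (if j = 0 then R else ‖π1‖) + (Λz j + ΛS j))
  refine ⟨fun n => ‖ContinuousLinearMap.mul ℝ ℝ‖ *
    ∑ i ∈ Finset.range (n + 1), (n.choose i : ℝ) * ΛW i * Λb (n - i), fun G t b hD => ?_⟩
  have hΩ : IsOpen (qbox (0 : E d) R Kz Kp) := ell_qbox_isOpen _ _ _ _
  have a1 : CbLe ΛW (qbox (0 : E d) R Kz Kp) (fun ζ => ssFixW (ssDat G t ζ)) :=
    hW _ _ hΩ (h1 G t b hD).1 (h1 G t b hD).2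
  have a2 : CbLe ΛS (qbox (0 : E d) R Kz Kp) (fun ζ => κ (ssFixS (ssDat G t ζ))) :=
    hS _ _ hΩ (h1 G t b hD).1 (h1 G t b hD).2
  have a3 : CbLe Λz (qbox (0 : E d) R Kz Kp) (fun ζ => κ (π2 ζ)) := by
    refine hz _ _ hΩ (cbLe_clm π2 fun ζ hζ => ?_) fun ζ hζ => ?_
    · rw [Real.norm_eq_abs]
      exact hζ.2.1.le
    · exact abs_le.1 hζ.2.1.le
  have a4 : CbLe (fun j => if j = 0 then R else ‖π1‖) (qbox (0 : E d) R Kz Kp) (fun ζ => π1 ζ) :=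
    cbLe_clm π1 fun ζ hζ => (mem_ball_zero_iff.1 hζ.1).le
  have a5 := a4.prodMk hΩ (a3.prodMk hΩ a2)
  have a6 : CbLe Λb (qbox (0 : E d) R Kz Kp)
      (fun ζ => (fun p : E d × ℝ × ℝ => b p.1 p.2.1 p.2.2)
        (π1 ζ, κ (π2 ζ), κ (ssFixS (ssDat G t ζ)))) := by
    refine hb (fun p : E d × ℝ × ℝ => b p.1 p.2.1 p.2.2)
      (Metric.ball 0 R ×ˢ (Set.univ ×ˢ Set.Ioi (-1 : ℝ)))
      (Metric.ball (0 : E d) R ×ˢ (Set.Icc (-(K + 1)) (K + 1) ×ˢ Set.Icc (0 : ℝ) (K + 1)))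
      _ _ (Metric.isOpen_ball.prod (isOpen_univ.prod isOpen_Ioi)) hD.b_smooth ?_ hD.b_bd hΩ a5 ?_
    · rintro p ⟨hp1, -, hp3⟩
      exact ⟨hp1, Set.mem_univ _, lt_of_lt_of_le (by norm_num) hp3.1⟩
    · intro ζ hζ
      refine ⟨hζ.1, abs_le.1 (hκ1 _), hκ0 _ ?_, (abs_le.1 (hκ1 _)).2⟩
      exact ss_fixS_nonneg hlam ((h1 G t b hD).2 hζ)
  exact a1.bilin hΩ a6 (ContinuousLinearMap.mul ℝ ℝ)

end Claimed.Agent.R315
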